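import Vale.Agent.P219.G.Core3
import Vale.Agent.P219.G.Cert3
import Vale.Agent.P219.G.Cert4
import Vale.Agent.P219.G.Cert5

/-!
# The certified dimensions
-/

namespace Vale.Agent.P219

open Vale.Agent.P255

theorem core456 {m : ℕ} (h3 : 3 ≤ m) (h5 : m ≤ 5) {b : ℝ} (G : Euc (m + 1) → Bil (Euc (m + 1)))
    (L : Euc (m + 1) → Euc (m + 1) → Euc (m + 1)) (hP : PackK b G L) (c ρ : ℝ) (hρ : 0 < ρ) :
    CoreP m b G L c ρ := by
  refine coreN (by omega) hρ ?_ hP c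
  obtain ⟨h0, h1⟩ := gam_mem b ρ
  interval_cases m
  exacts [ncert3 h0 h1, ncert4 h0 h1, ncert5 h0 h1]

end Vale.Agent.P219
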