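import Vale.Agent.P219.G.Cert2B

/-! The certificate for `m = 2`: a small perturbation of `X = 1 / u`, `Y = R = 0`, `η = 2`. -/

namespace Vale.Agent.P219

open Set Filter Topology

/-- The function `X`. -/
noncomputable def c2X (g ε u p : ℝ) : ℝ := (1 + ε * (c2c g u + c2k g u * (u - p))) / u
/-- Derivative. -/
noncomputable def c2Xu (g ε u p : ℝ) : ℝ :=
  ε * (c2c' g u + (c2k' g u * (u - p) + c2k g u)) / u -
    (1 + ε * (c2c g u + c2k g u * (u - p))) / u ^ 2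
/-- Derivative. -/
noncomputable def c2Xp (g ε u _p : ℝ) : ℝ := -(ε * c2k g u) / u
/-- The function `Y`. -/
noncomputable def c2Y (g ε u q : ℝ) : ℝ :=
  ε * (c2f g u / u + (c2l g u * q + (c2n g u + c2r g u / g) * q ^ 2) / u ^ 2)
/-- Derivative. -/
noncomputable def c2Yu (g ε u q : ℝ) : ℝ :=
  ε * (c2f' g u / u - c2f g u / u ^ 2 + (c2l' g u * q + (c2n' g u + c2r' g u / g) * q ^ 2) / u ^ 2 -
    2 * (c2l g u * q + (c2n g u + c2r g u / g) * q ^ 2) / u ^ 3)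
/-- Derivative. -/
noncomputable def c2Yq (g ε u q : ℝ) : ℝ :=
  ε * ((c2l g u + (c2n g u + c2r g u / g) * (2 * q)) / u ^ 2)
/-- The function `R`. -/
noncomputable def c2R (g ε u q : ℝ) : ℝ := -(ε / g) * (c2r g u * q / u)
/-- Derivative. -/
noncomputable def c2Ru (g ε u q : ℝ) : ℝ := -(ε / g) * (c2r' g u * q / u - c2r g u * q / u ^ 2)
/-- Derivative. -/
noncomputable def c2Rq (g ε u _q : ℝ) : ℝ := -(ε / g) * (c2r g u / u)

variable {g ε u q : ℝ}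

theorem c2_derX (h0 : 0 < g) (h1 : g ≤ 1 / 2) : Der2 (c2X g ε) (c2Xu g ε) (c2Xp g ε) := by
  refine ⟨ContDiffOn.div (contDiffOn_const.add (contDiffOn_const.mul ((c2m_cd h0 h1 _ _ _ _ _).add
    ((c2m_cd h0 h1 _ _ _ _ _).mul (by fun_prop))))) (by fun_prop) fun z hz => ne_of_gt hz,
    fun u p hu => ⟨?_, ?_⟩⟩
  · have d1 : HasDerivAt (c2c g) (c2c' g u) u := c2m_der h0 h1 hu.le 1 _ _ _ _
    have d2 : HasDerivAt (c2k g) (c2k' g u) u := c2m_der h0 h1 hu.le 1 _ _ _ _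
    refine ((((d1.fun_add (d2.fun_mul ((hasDerivAt_id' u).sub_const p))).const_mul ε).const_add
      1).fun_div (hasDerivAt_id' u) hu.ne').congr_deriv ?_
    rw [c2Xu]
    field_simp
  · refine (((((((hasDerivAt_id' p).const_sub u).const_mul (c2k g u)).const_add
      (c2c g u)).const_mul ε).const_add 1).div_const u).congr_deriv ?_
    rw [c2Xp]
    ring

theorem c2_derY (h0 : 0 < g) (h1 : g ≤ 1 / 2) : Der2 (c2Y g ε) (c2Yu g ε) (c2Yq g ε) := by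
  refine ⟨contDiffOn_const.mul (ContDiffOn.add (ContDiffOn.div (c2m_cd h0 h1 _ _ _ _ _)
    (by fun_prop) fun z hz => ne_of_gt hz) (ContDiffOn.div (((c2m_cd h0 h1 _ _ _ _ _).mul
      (by fun_prop)).add (((c2m_cd h0 h1 _ _ _ _ _).add ((c2m_cd h0 h1 _ _ _ _ _).div_const g)).mul
        (by fun_prop))) (by fun_prop) fun z hz => (pow_pos hz 2).ne')), fun u q hu => ⟨?_, ?_⟩⟩
  · have d1 : HasDerivAt (c2f g) (c2f' g u) u := c2m_der h0 h1 hu.le 1 _ _ _ _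
    have d2 : HasDerivAt (c2l g) (c2l' g u) u := c2m_der h0 h1 hu.le 1 _ _ _ _
    have d3 : HasDerivAt (c2n g) (c2n' g u) u := c2m_der h0 h1 hu.le 2 _ _ _ _
    have d4 : HasDerivAt (c2r g) (c2r' g u) u := c2m_der h0 h1 hu.le 1 _ _ _ _
    refine (((d1.fun_div (hasDerivAt_id' u) hu.ne').fun_add (((d2.mul_const q).fun_add
      ((d3.fun_add (d4.div_const g)).mul_const (q ^ 2))).fun_div ((hasDerivAt_id' u).fun_pow 2)
        (pow_pos hu 2).ne')).const_mul ε).congr_deriv ?_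
    rw [c2Yu]
    field_simp
    ring
  · refine ((((((hasDerivAt_id' q).const_mul (c2l g u)).fun_add (((hasDerivAt_id' q).fun_pow
      2).const_mul (c2n g u + c2r g u / g))).div_const (u ^ 2)).const_add
        (c2f g u / u)).const_mul ε).congr_deriv ?_
    rw [c2Yq]
    ring

theorem c2_derR (h0 : 0 < g) (h1 : g ≤ 1 / 2) : Der2 (c2R g ε) (c2Ru g ε) (c2Rq g ε) := by
  refine ⟨contDiffOn_const.mul (ContDiffOn.div ((c2m_cd h0 h1 _ _ _ _ _).mul (by fun_prop))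
    (by fun_prop) fun z hz => ne_of_gt hz), fun u q hu => ⟨?_, ?_⟩⟩
  · have d4 : HasDerivAt (c2r g) (c2r' g u) u := c2m_der h0 h1 hu.le 1 _ _ _ _
    refine (((d4.mul_const q).fun_div (hasDerivAt_id' u) hu.ne').const_mul
      (-(ε / g))).congr_deriv ?_
    rw [c2Ru]
    field_simp
  · refine ((((hasDerivAt_id' q).const_mul (c2r g u)).div_const u).const_mul
      (-(ε / g))).congr_deriv ?_
    rw [c2Rq]
    ring

theorem c2_nD (h0 : 0 < g) (h1 : g ≤ 1 / 2) (hu : 0 < u) :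
    nD2 2 g (c2Y g ε) (c2Yu g ε) (c2Yq g ε) (c2R g ε) (c2Ru g ε) (c2Rq g ε) u q =
      (q - u) * (ε * (8 * g * c2i g u ^ 3 * c2v g u * (2 * c2v g u + 1) / u) *
        (1 - q * c2i g u * c2v g u * (3 * c2v g u - 1))) := by
  have hh := (c2_h h0 h1 hu.le).ne'
  have hD := (c2_D h0 h1 hu.le).ne'
  simp only [nD2, nD, c2Y, c2Yu, c2Yq, c2R, c2Ru, c2Rq, c2f, c2f', c2l, c2l', c2n, c2n', c2r, c2r',
    c2m, c2d, c2i, c2v, ct, sg2, Nat.reduceAdd, Nat.cast_ofNat]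
  generalize e1 : 2 * g + (1 - 2 * g) * u = h at hh ⊢
  generalize e2 : 2 * g + (2 - 2 * g) * u = D at hD ⊢
  field_simp
  subst e1 e2
  ring

theorem c2_model (h0 : 0 < g) (h1 : g ≤ 1 / 2) (hu : 0 < u) :
    (2 : ℕ) * c2X g ε u u * (1 - 2 * u) + 2 * u * (1 - u) * (c2Xu g ε u u + c2Xp g ε u u) + 2 +
      u * c2Y g ε u u + (u - g) * c2R g ε u u = 0 := by
  have hh := (c2_h h0 h1 hu.le).ne'
  have hD := (c2_D h0 h1 hu.le).ne'
  simp only [c2X, c2Xu, c2Xp, c2Y, c2R, c2c, c2c', c2f, c2l, c2n, c2r, c2m, c2d, c2i, c2v,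
    Nat.reduceAdd, Nat.cast_ofNat, sub_self, mul_zero]
  generalize c2k g u = k
  generalize e1 : 2 * g + (1 - 2 * g) * u = h at hh ⊢
  generalize e2 : 2 * g + (2 - 2 * g) * u = D at hD ⊢
  field_simp
  subst e1 e2
  ring

theorem c2_x (h0 : 0 < g) (h1 : g ≤ 1 / 2) (hu : 0 < u) (hq : q ^ 2 ≤ sg2 g u) :
    (q * c2i g u * c2v g u) ^ 2 ≤ c2v g u * (1 - c2v g u) := by
  obtain ⟨r1, r2, -, -⟩ := c2_rel h0 h1 hu
  have h3 := mul_le_mul_of_nonneg_right hq (sq_nonneg (c2i g u * c2v g u))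
  rw [sg2] at h3
  generalize c2i g u = i at *
  generalize c2v g u = v at *
  have h4 : u * (2 * g + (1 - 2 * g) * u) * (i * v) ^ 2 = v * (1 - v) := by
    linear_combination (u * i * v ^ 2) * r1 + v * r2
  linarith

theorem c2_x1 (h0 : 0 < g) (h1 : g ≤ 1 / 2) (hu : 0 < u) (hq : q ^ 2 ≤ sg2 g u) :
    |q * c2i g u * c2v g u| ≤ 1 :=
  (sq_le_one_iff_abs_le_one _).1 ((c2_x h0 h1 hu hq).trans
    (by nlinarith [sq_nonneg (c2v g u - 1 / 2)]))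

theorem c2_fac (h0 : 0 < g) (h1 : g ≤ 1 / 2) (hε : 0 < ε) (hu : 0 < u) (hq : q ^ 2 ≤ sg2 g u) :
    0 < ε * (8 * g * c2i g u ^ 3 * c2v g u * (2 * c2v g u + 1) / u) *
      (1 - q * c2i g u * c2v g u * (3 * c2v g u - 1)) := by
  have hi : 0 < c2i g u := inv_pos.2 (c2_h h0 h1 hu.le)
  have hv : 0 < c2v g u := div_pos (c2_h h0 h1 hu.le) (c2_D h0 h1 hu.le)
  refine mul_pos (by positivity) (sub_pos.2 ?_)
  refine lt_of_le_of_lt (le_abs_self _) ((sq_lt_one_iff_abs_lt_one _).1 ?_)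
  rw [mul_pow]
  refine (mul_le_mul_of_nonneg_right (c2_x h0 h1 hu hq) (sq_nonneg _)).trans_lt ?_
  generalize c2v g u = v at hv
  nlinarith [sq_nonneg (3 * v ^ 2 - 5 / 2 * v), sq_nonneg (v - 3 / 4), mul_nonneg hv.le hv.le]

theorem c2_feas {a a' W W₂ ι gx gy : ℝ} (hF : Feas 2 a a' W W₂ ι gx gy) :
    0 ≤ 1 - (a ^ 2 + a' ^ 2) / 2 - W ∧ 1 - (a ^ 2 + a' ^ 2) / 2 - W ≤ 2 ∧ |W₂ - W| ≤ 1 - ι ∧
      2 * (|a * a'| * (1 - ι)) ≤ gx + gy := by
  obtain ⟨b1, b2, b3, b4, b5, b6⟩ := hF.basic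
  obtain ⟨c1, c2⟩ := hF.cof
  have n0 := Real.sqrt_nonneg ((1 - a ^ 2) * (1 - a' ^ 2))
  have n1 : √((1 - a ^ 2) * (1 - a' ^ 2)) ≤ 1 - (a ^ 2 + a' ^ 2) / 2 :=
    Real.sqrt_le_iff.2 ⟨by linarith, by nlinarith [sq_nonneg (a ^ 2 - a' ^ 2)]⟩
  generalize √((1 - a ^ 2) * (1 - a' ^ 2)) = N at *
  have n2 : N ≤ 1 := by nlinarith [sq_nonneg a, sq_nonneg a']
  obtain ⟨c3, c4⟩ := abs_le.1 c1
  obtain ⟨c5, c6⟩ := abs_le.1 c2
  refine ⟨by linarith, by nlinarith [sq_nonneg a, sq_nonneg a'], ?_, ?_⟩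
  · rw [abs_sub_comm]
    exact c2.trans (mul_le_of_le_one_right (by linarith) n2)
  · refine (abs_le_of_sq_le_sq' ?_ (by positivity)).2
    rw [mul_pow, mul_pow, sq_abs, ← mul_pow]
    linarith [hF.old, sq_nonneg (gx - gy)]

theorem c2_key (h0 : 0 < g) (h1 : g ≤ 1 / 2) : ∃ ε : ℝ, 0 < ε ∧
    (∀ u p, 0 < u → p ^ 2 ≤ sg2 g u → 1 / (2 * u) ≤ c2X g ε u p) ∧
    ∀ u σ a a' W W₂ ι gx gy : ℝ, 0 < u → 0 < σ → σ ^ 2 = sg2 g u → Feas 2 a a' W W₂ ι gx gy →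
    0 ≤ nB 2 g (c2X g ε) (c2Xu g ε) (c2Xp g ε) u (σ * a) (σ * a') (ct g u * a * a' - g * W) +
      nB 2 g (c2X g ε) (c2Xu g ε) (c2Xp g ε) u (σ * a') (σ * a) (ct g u * a * a' - g * W) +
      g * (2 * 2 + ι * (c2Y g ε u (σ * a') * (σ * a) + c2Y g ε u (σ * a) * (σ * a')) +
        (c2R g ε u (σ * a') + c2R g ε u (σ * a)) * (ι * ct g u * a * a' - g * W₂) +
        c2X g ε u (σ * a) * gy + c2X g ε u (σ * a') * gx) := by
  obtain ⟨C, hC0, hb⟩ := c2_bd g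
  obtain ⟨ε, hε, hC⟩ : ∃ ε : ℝ, 0 < ε ∧ ε * C * (4 + 16 / g ^ 2) ≤ 1 :=
    ⟨(C * (4 + 16 / g ^ 2))⁻¹, by positivity, by rw [mul_assoc, inv_mul_cancel₀ (by positivity)]⟩
  have hX : ∀ u p, 0 < u → p ^ 2 ≤ sg2 g u → 1 / (2 * u) ≤ c2X g ε u p := fun u p hu hp => by
    obtain ⟨-, r2, hv, hi⟩ := c2_rel h0 h1 hu
    have b := (hb _ _ _ _ hv hi (c2_x1 h0 h1 hu hp) (c2_x1 h0 h1 hu hp)).1
    have e : c2k g u * (u - p) =
        c2kD g (c2v g u) (c2i g u) * (1 - c2v g u - p * c2i g u * c2v g u) := by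
      refine mul_left_cancel₀ hu.ne' ?_
      linear_combination (u - p) * (c2_I h0 h1 hu).1 + p * c2kD g (c2v g u) (c2i g u) * r2
    rw [← e] at b
    have b2 := mul_le_mul_of_nonneg_left (neg_le_of_abs_le b) hε.le
    have b3 : 0 ≤ ε * C * (16 / g ^ 2) := by positivity
    rw [c2X, ← div_div, c2c, c2m]
    exact div_le_div_of_nonneg_right (by linarith) hu.le
  refine ⟨ε, hε, hX, fun u σ a a' W W₂ ι gx gy hu hσ hs hF => ?_⟩
  obtain ⟨b1, b2, b3, b4, b5, b6⟩ := hF.basic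
  obtain ⟨z0, z1, z2, z3⟩ := c2_feas hF
  obtain ⟨r1, r2, hv, hi⟩ := c2_rel h0 h1 hu
  obtain ⟨I1, I2, I3, I4, I5⟩ := c2_I h0 h1 hu
  obtain ⟨E1, E2⟩ := c2_E h0 h1 hu
  have hp : (σ * a) ^ 2 ≤ sg2 g u := by
    rw [mul_pow, ← hs]
    exact mul_le_of_le_one_right (sq_nonneg σ) b1
  have hq : (σ * a') ^ 2 ≤ sg2 g u := by
    rw [mul_pow, ← hs]
    exact mul_le_of_le_one_right (sq_nonneg σ) b2
  obtain ⟨s, e1⟩ : ∃ s, σ * a = u * s := ⟨σ * a / u, by field_simp⟩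
  obtain ⟨s', e2⟩ : ∃ s', σ * a' = u * s' := ⟨σ * a' / u, by field_simp⟩
  have e3 : ∀ x y z w, σ * x = u * z → σ * y = u * w → x * y = u * c2i g u * (z * w) :=
    fun x y z w k1 k2 => by
      refine mul_left_cancel₀ hu.ne' ?_
      rw [sg2] at hs
      linear_combination c2i g u * (σ * y) * k1 + c2i g u * (u * z) * k2 -
        c2i g u * (x * y) * hs - u * (x * y) * r1
  have e4 := e3 _ _ _ _ e1 e2
  have x1 := hX _ _ hu hp
  have x2 := hX _ _ hu hq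
  obtain ⟨-, k1, k3, k4, k5, k6, k7⟩ := hb _ _ _ _ hv hi (c2_x1 h0 h1 hu hp) (c2_x1 h0 h1 hu hq)
  obtain ⟨-, k2, -⟩ := hb _ _ _ _ hv hi (c2_x1 h0 h1 hu hq) (c2_x1 h0 h1 hu hp)
  have eκ : 4 * c2i g u ^ 2 * c2v g u * (1 - c2v g u) * (1 + (2 - 2 * g) * c2v g u) =
      c2k g u - c2r g u := by
    simp only [c2k, c2r, c2m]
    ring
  have k0 : 0 ≤ c2k g u - c2r g u := by
    have := hv.1
    have := sub_nonneg.2 hv.2
    have : 0 ≤ 2 - 2 * g := by linarith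
    rw [← eκ]
    positivity
  rw [eκ] at k4
  have hT : g * c2i g u * |s * s'| * (1 - ι) ≤
      g * (c2X g ε u (σ * a) * gy + c2X g ε u (σ * a') * gx) := by
    rw [e4, abs_mul, abs_of_nonneg (mul_nonneg hu.le hi.1)] at z3
    have k8 : c2i g u * |s * s'| * (1 - ι) ≤ 1 / (2 * u) * (gx + gy) := by
      rw [one_div_mul_eq_div, le_div_iff₀ (by positivity)]
      linarith
    linarith [mul_le_mul_of_nonneg_left (k8.trans (show _ ≤ _ by
      linarith [mul_le_mul_of_nonneg_right x1 b6, mul_le_mul_of_nonneg_right x2 b5] :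
        1 / (2 * u) * (gx + gy) ≤ c2X g ε u (σ * a) * gy + c2X g ε u (σ * a') * gx)) h0.le]
  have hι := sub_nonneg.2 b4
  have hl := mul_le_mul_of_nonneg_right (c2_low (s := s) (s' := s') h0 h1 hu (by
    rw [e1, sg2] at hp
    exact le_of_mul_le_mul_left (by linarith) hu)) hι
  have hS : 0 ≤ (1 - s) ^ 2 + (1 - s') ^ 2 := by positivity
  rw [show (2 * g + (1 - 2 * g) * u)⁻¹ = c2i g u from rfl] at hl
  have e5 : ∀ x z, σ * x = u * z → σ * x * c2i g u * c2v g u = (1 - c2v g u) * z :=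
    fun x z k => by linear_combination c2i g u * c2v g u * k + z * r2
  rw [e5 _ _ e1, e5 _ _ e2] at k1 k2 k7
  rw [sq a, sq a', e3 _ _ _ _ e1 e1, e3 _ _ _ _ e2 e2] at z0 z1
  refine (c2_ineq h0 hε hC0.le hC hS (le_trans (by have := hi.1; positivity) hT)
    (by linarith [mul_nonneg hS b3.le]) (c2_a6 (A := 1 - s) (B := 1 - s') (r := c2r g u)
      (f := c2f g u) (c3 := 4 * (1 - c2v g u) * (_ + _) + 2 * g * c2l g u)
      (f' := 2 * c2l g u + _) h0 h1 k1 k2 k3 k0 (le_of_abs_le k4) k5 k6 k7 z0 z1 z2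
      (by linarith))).trans_eq ?_
  rw [mul_assoc (ct g u) a, mul_assoc (ι * ct g u) a, e4, e1, e2]
  simp only [nB, c2X, c2Xu, c2Xp, c2Y, c2R, c2q2, ct, sg2, Nat.cast_ofNat] at E1 E2 ⊢
  generalize c2kD g (c2v g u) (c2i g u) = kD at *
  generalize c2kE g (c2v g u) (c2i g u) = kE at *
  generalize c2fE g (c2v g u) (c2i g u) = fE at *
  generalize c2q3 g (c2v g u) (c2i g u) = q3 at *
  generalize c2q0 g (c2v g u) (c2i g u) = q0 at *
  linear_combination (norm := (field_simp; ring)) ι * ε * u * (s * s' * (s + s')) * c2r g u * r1 -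
    ε * (2 * E1 - (2 - s - s') * E2 + 4 * (1 - s) * (1 - s') * I1 + (s ^ 2 + s' ^ 2) * I3 +
      s * s' * (s + s') * (I2 + u * c2k g u * r1 - g * c2i g u * I1 + I5 + g * ι * I4) +
      (s ^ 3 + s' ^ 3) * I5)

theorem c2_near (h0 : 0 < g) (h1 : g ≤ 1 / 2) (hε : 0 < ε) {l : ℝ} (hl : 0 < l) :
    ∃ u₀ : ℝ, 0 < u₀ ∧ ∀ u q, 0 < u → u ≤ u₀ → q ^ 2 ≤ sg2 g u →
      |nφ 2 g (c2Y g ε) (c2R g ε) u q| ≤ l := by
  have c1 : ContinuousAt (fun z : ℝ × ℝ => c2f g z.1) 0 := c2m_ca h0 h1 1 _ _ _ _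
  have c2 : ContinuousAt (fun z : ℝ × ℝ => c2l g z.1) 0 := c2m_ca h0 h1 1 _ _ _ _
  have c3 : ContinuousAt (fun z : ℝ × ℝ => c2n g z.1) 0 := c2m_ca h0 h1 2 _ _ _ _
  have c4 : ContinuousAt (fun z : ℝ × ℝ => c2r g z.1) 0 := c2m_ca h0 h1 1 _ _ _ _
  obtain ⟨u₀, hu₀, h⟩ := c2_small h1 (F := fun z : ℝ × ℝ => ε * ((2 * g + (1 - 2 * g) * z.1) *
    (√(sg2 g z.1) * (|c2f g z.1| + |(2 * g + (1 - 2 * g) * z.1) * c2n g z.1 + c2r g z.1|) +
      (2 * g + (1 - 2 * g) * z.1) * |c2l g z.1|))) (by unfold sg2; fun_prop) (by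
        have e : c2v g 0 = 1 := by
          rw [c2v, mul_zero, mul_zero, div_self (by positivity)]
        simp only [Prod.fst_zero, sg2, zero_mul, Real.sqrt_zero, c2l, c2m, e]
        norm_num) hl
  refine ⟨u₀, hu₀, fun u q hu h2 hq => le_trans ?_ ((le_abs_self _).trans (h u q hu h2 hq))⟩
  have hh := c2_h h0 h1 hu.le
  have e0 : √(sg2 g u) ^ 2 = u * (2 * g + (1 - 2 * g) * u) :=
    Real.sq_sqrt (mul_pos hu hh).le
  have k1 : |q| ≤ √(sg2 g u) := Real.abs_le_sqrt hq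
  have k0 := Real.sqrt_nonneg (sg2 g u)
  rw [nφ, c2Y, c2R, ct]
  rw [sg2] at hq
  generalize √(sg2 g u) = σ at *
  generalize e1 : 2 * g + (1 - 2 * g) * u = h at *
  have e : σ ^ (2 + 1) * (ε * (c2f g u / u +
      (c2l g u * q + (c2n g u + c2r g u / g) * q ^ 2) / u ^ 2)) +
      σ ^ (2 - 1) * (g + (1 - 2 * g) * u) * q * (-(ε / g) * (c2r g u * q / u)) =
      ε * (h * (σ * c2f g u) + σ * (q ^ 2 / u) * (h * c2n g u + c2r g u) +
        h * (σ * q / u) * c2l g u) := by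
    rw [pow_succ, e0, show g + (1 - 2 * g) * u = h - g by linarith]
    field_simp
    ring
  have k2 : |q ^ 2 / u| ≤ h := by
    rw [abs_of_nonneg (by positivity), div_le_iff₀ hu]
    linarith
  have k3 : |σ * q / u| ≤ h := by
    rw [abs_div, abs_mul, abs_of_nonneg k0, abs_of_pos hu, div_le_iff₀ hu]
    linarith [mul_le_mul_of_nonneg_left k1 k0]
  rw [e, abs_mul, abs_of_pos hε]
  refine mul_le_mul_of_nonneg_left (((abs_add_le _ _).trans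
    (add_le_add_left (abs_add_le _ _) _)).trans ?_) hε.le
  simp only [abs_mul, abs_of_pos hh, abs_of_nonneg k0]
  linarith [mul_le_mul_of_nonneg_right (mul_le_mul_of_nonneg_left k2 k0)
    (abs_nonneg (h * c2n g u + c2r g u)),
    mul_le_mul_of_nonneg_right (mul_le_mul_of_nonneg_left k3 hh.le) (abs_nonneg (c2l g u))]

theorem ncert2 {γ : ℝ} (h0 : 0 < γ) (h1 : γ ≤ 1 / 2) : Nonempty (NCert2 2 γ) := by
  obtain ⟨ε, hε, hX, hM⟩ := c2_key h0 h1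
  have hc : 0 < c2c γ 0 := by
    have e : c2v γ 0 = 1 := by rw [c2v, mul_zero, mul_zero, div_self (by positivity)]
    have := inv_pos.2 (c2_h h0 h1 le_rfl)
    rw [c2c, c2m, e, c2i]
    exact mul_pos (by positivity) (by linarith)
  refine ⟨⟨c2X γ ε, c2Xu γ ε, c2Xp γ ε, c2Y γ ε, c2Yu γ ε, c2Yq γ ε, c2R γ ε, c2Ru γ ε, c2Rq γ ε,
    2, 1 + ε * c2c γ 0, two_pos, by positivity, c2_derX h0 h1, c2_derY h0 h1, c2_derR h0 h1,
    fun u p hu hp => le_trans (by positivity) (hX u p hu hp), fun l hl => ?_, hM,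
    fun u q hu hq h => ?_, fun u q hu hq h => ?_, ⟨1, fun l hl => ?_⟩,
    fun u hu _ => (c2_model h0 h1 hu).le⟩⟩
  · have c1 : ContinuousAt (fun z : ℝ × ℝ => c2c γ z.1) 0 := c2m_ca h0 h1 1 _ _ _ _
    have c2 : ContinuousAt (fun z : ℝ × ℝ => c2k γ z.1) 0 := c2m_ca h0 h1 1 _ _ _ _
    obtain ⟨u₀, hu₀, h⟩ := c2_small h1 (F := fun z : ℝ × ℝ =>
      ε * (c2c γ z.1 + c2k γ z.1 * (z.1 - z.2) - c2c γ 0)) (by fun_prop) (by simp) hl
    refine ⟨u₀, hu₀, fun u p hu h2 hp => le_of_eq_of_le ?_ (h u p hu h2 hp)⟩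
    rw [Real.sq_sqrt hu.le, c2X, mul_div_cancel₀ _ hu.ne']
    congr 1
    ring
  · rw [c2_nD h0 h1 hu]
    exact mul_pos (sub_pos.2 h) (c2_fac h0 h1 hε hu hq)
  · rw [c2_nD h0 h1 hu]
    exact mul_nonpos_of_nonpos_of_nonneg (sub_nonpos.2 h) (c2_fac h0 h1 hε hu hq).le
  · obtain ⟨u₀, hu₀, h⟩ := c2_near h0 h1 hε (lt_min hl one_pos)
    refine ⟨u₀, hu₀, fun u q hu h2 hq => ?_⟩
    have k := h u q hu h2 hq
    obtain ⟨k1, k2⟩ := abs_le.1 (k.trans (min_le_left _ _))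
    exact ⟨k.trans (min_le_right _ _), fun _ => k1, fun _ => k2⟩

end Vale.Agent.P219
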