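import Vale.Agent.P219.G.Lin1
import Vale.Agent.P219.LinAlg2

/-!
# Trace inequalities  (TASK)

`tdv_ge`: the symmetric form `S u v = (B (A u) v + B (A v) u) / 2` is nonnegative with `S e e = 0`, so `S e · = 0` (discriminant); `ν = β e + n`, `B n e = 0`, `B n n = 1 - β²`,
`S ν ν = S n n ≤ B n n * trc A` (`exists_onb` with the unit vector of `n`; get `finrank = m + 1` from `ν ≠ 0`).
`penalty`: reduce by `exists_sqrt` to the inner product (`C' = P⁻¹ C` is a contraction with `|det C'|` the ratio; `P` has `|det|` one: `wt_comp`).  Take an orthonormal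
eigenbasis `hᵢ` of `C'* C'` (`LinearMap.IsSymmetric.eigenvectorBasis`), `σᵢ = ‖C' hᵢ‖ ≤ 1`, `|det C'| = ∏ σᵢ`, `⟪hᵢ, C' hᵢ⟫ ≤ σᵢ`, `1 - ∏ σᵢ ≤ ∑ (1 - σᵢ)`
(`Finset.one_sub_sum_le_prod_one_sub` or induction).  Sum the hypothesis for `k = l • P hᵢ`, `h = l⁻¹ • hᵢ`: `2 (1 - ι) ≤ l² trc A₁ + l⁻² trc A₂` for all `l > 0`; optimise.
-/

namespace Vale.Agent.P219

open scoped ContDiff Topology RealInnerProductSpace ENNReal
open MeasureTheory Set Filter Vale.Agent.P255
open St (sn gmod)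

variable {E : Type*} [NormedAddCommGroup E] [InnerProductSpace ℝ E] [FiniteDimensional ℝ E]
  {G : E → Bil E} {L : E → E → E} {m : ℕ} {b : ℝ} {B B₁ B₂ : Bil E}

theorem lin2_tr (hB : PosB B) {ι : Type} [Fintype ι] [DecidableEq ι]
    (hc : Fintype.card ι = Module.finrank ℝ E) {f : ι → E}
    (hf : ∀ i j, B (f i) (f j) = if i = j then 1 else 0) (A : E →L[ℝ] E) :
    trc A = ∑ i, B (A (f i)) (f i) := by
  obtain ⟨Q, hQ, -⟩ := exists_sqrt hB
  have ho : Orthonormal ℝ fun i => Q (f i) := orthonormal_iff_ite.2 fun i j => by rw [← hQ, hf]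
  let b := OrthonormalBasis.mk ho (ho.linearIndependent.span_eq_top_of_card_eq_finrank' hc).ge
  rw [trc, ← LinearMap.trace_conj' _ Q.toLinearEquiv, LinearMap.trace_eq_sum_inner _ b]
  refine Finset.sum_congr rfl fun i _ => ?_
  rw [hQ, real_inner_comm]
  simp [b, LinearEquiv.conj_apply]

theorem trc_nonneg (hB : PosB B) {A : E →L[ℝ] E} (hA : ∀ h, 0 ≤ B (A h) h) : 0 ≤ trc A := by
  obtain ⟨Q, hQ, -⟩ := exists_sqrt hB
  rw [lin2_tr hB (Fintype.card_fin _) (f := fun i => Q.symm (stdOrthonormalBasis ℝ E i))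
    fun i j => by
      rw [hQ, Q.apply_symm_apply, Q.apply_symm_apply, OrthonormalBasis.inner_eq_ite]]
  exact Finset.sum_nonneg fun i _ => hA _

theorem tdv_nonneg (hB : PosB B) {A : E →L[ℝ] E} (hA : ∀ h, 0 ≤ B (A h) h) {ν : E}
    (hν : B ν ν = 1) : 0 ≤ tdv B A ν := by
  have h0 : ν ≠ 0 := by
    rintro rfl
    simp at hν
  obtain ⟨k, hk⟩ := Nat.exists_eq_add_one_of_ne_zero
    (Module.finrank_pos_iff_exists_ne_zero.2 ⟨ν, h0⟩ : 0 < Module.finrank ℝ E).ne'
  obtain ⟨e, h1, -, -, h2⟩ := exists_onb hk hB hν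
  rw [tdv, h2, Fin.sum_univ_succ, h1, add_sub_cancel_left]
  exact Finset.sum_nonneg fun i _ => hA _

theorem tdv_ge (hB : PosB B) {A : E →L[ℝ] E} (hA : ∀ h, 0 ≤ B (A h) h) {e ν : E} (he : B e e = 1)
    (hν : B ν ν = 1) (h0 : B (A e) e = 0) : B e ν ^ 2 * trc A ≤ tdv B A ν := by
  obtain ⟨n, hn⟩ : ∃ n, ν = B e ν • e + n := ⟨ν - B e ν • e, by abel⟩
  generalize hβ : B e ν = β at hn
  have h1 : B e n = 0 := by
    rw [hn, map_add, map_smul, he, smul_eq_mul] at hβ
    linarith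
  have h2 : B n n = 1 - β ^ 2 := by
    rw [hn] at hν
    simp only [map_add, map_smul, add_apply, smul_apply, smul_eq_mul, he, h1, hB.1 n e] at hν
    linarith
  have h3 : ∀ t : ℝ, B (A (t • e + n)) (t • e + n) =
      0 * (t * t) + (B (A e) n + B (A n) e) * t + B (A n) n := fun t => by
    simp only [map_add, map_smul, add_apply, smul_apply, smul_eq_mul, h0]
    ring
  have h4 := discrim_le_zero fun t => (hA _).trans_eq (h3 t)
  rw [discrim, mul_zero, zero_mul, sub_zero] at h4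
  have h5 := pow_eq_zero_iff two_ne_zero |>.1 (le_antisymm h4 (sq_nonneg _))
  have h6 : B (A n) n ≤ B n n * trc A := by
    by_cases z : n = 0
    · simp [z]
    have p := hB.2 n z
    have q := Real.mul_self_sqrt p.le
    have r := (Real.sqrt_pos.2 p).ne'
    have := tdv_nonneg hB hA (ν := (√(B n n))⁻¹ • n) (by
      simp only [map_smul, smul_apply, smul_eq_mul]
      field_simp
      linarith)
    simp only [tdv, map_smul, smul_apply, smul_eq_mul] at this
    rw [← mul_assoc, ← mul_inv, q, sub_nonneg, inv_mul_le_iff₀ p] at this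
    exact this
  rw [tdv, hn, h3, h5]
  rw [h2] at h6
  linarith

theorem penalty (h₁ : PosB B₁) (h₂ : PosB B₂) {P C A₁ A₂ : E →L[ℝ] E}
    (hP : ∀ h, B₁ (P h) (P h) = B₂ h h) (hC : ∀ h, B₁ (C h) (C h) ≤ B₂ h h)
    (h : ∀ k l, 2 * B₁ k (P l - C l) ≤ B₁ (A₁ k) k + B₂ (A₂ l) l) :
    (1 - wt B₁ * |C.det| / wt B₂) ^ 2 ≤ trc A₁ * trc A₂ := by
  obtain ⟨Q, hQ, hw⟩ := exists_sqrt h₂
  set D : Bil E := (B₁.bilinearComp C C).bilinearComp (Q.symm : E →L[ℝ] E) (Q.symm : E →L[ℝ] E)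
    with hD
  have e1 : wt D = wt B₁ * |C.det| / wt B₂ := by
    rw [hD, wt_comp, wt_comp, Q.det_coe_symm, abs_inv, ← hw]
    ring
  have hT : (hat D : E →ₗ[ℝ] E).IsSymmetric := fun u v => by
    rw [ContinuousLinearMap.coe_coe, inner_hat, real_inner_comm, inner_hat]
    exact h₁.1 _ _
  let b := hT.eigenvectorBasis rfl
  let l := hT.eigenvalues rfl
  have hb : ∀ i, hat D (b i) = l i • b i := fun i => hT.apply_eigenvectorBasis rfl i
  have hl : ∀ i, B₁ (C (Q.symm (b i))) (C (Q.symm (b i))) = l i := fun i => by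
    show D (b i) (b i) = l i
    rw [← inner_hat, hb, real_inner_smul_left, b.inner_eq_one, mul_one]
  have hd : (hat D).det = ∏ i, l i := hT.det_eq_prod_eigenvalues rfl
  have o2 : ∀ i j, B₂ (Q.symm (b i)) (Q.symm (b j)) = if i = j then 1 else 0 := fun i j => by
    rw [hQ, Q.apply_symm_apply, Q.apply_symm_apply, OrthonormalBasis.inner_eq_ite]
  have pol : ∀ u v, B₁ (P u) (P v) = B₂ u v := fun u v => by
    have := hP (u + v)
    simp only [map_add, add_apply, hP, h₁.1 (P v) (P u), h₂.1 v u] at this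
    linarith
  have t1 := lin2_tr h₁ (Fintype.card_fin _) (f := fun i => P (Q.symm (b i)))
    (fun i j => (pol _ _).trans (o2 i j)) A₁
  have t2 := lin2_tr h₂ (Fintype.card_fin _) o2 A₂
  have l0 : ∀ i, 0 ≤ l i := fun i => hl i ▸ h₁.nonneg _
  have s1 : ∀ i, √(l i) ≤ 1 := fun i => by
    have := hC (Q.symm (b i))
    rw [hl, o2, if_pos rfl] at this
    exact Real.sqrt_le_one.2 this
  have e2 : wt D = ∏ i, √(l i) := by
    rw [wt, hd, Real.sqrt_prod _ fun i _ => l0 i]
  set S := ∑ i, B₁ (P (Q.symm (b i))) (P (Q.symm (b i)) - C (Q.symm (b i))) with hS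
  have k1 : 1 - ∏ i, √(l i) ≤ S := by
    have a1 : ∑ i, (1 - √(l i)) ≤ S := Finset.sum_le_sum fun i _ => by
      have := h₁.sq_le (P (Q.symm (b i))) (C (Q.symm (b i)))
      rw [pol, o2, if_pos rfl, one_mul, hl] at this
      rw [map_sub, pol, o2, if_pos rfl]
      linarith [Real.le_sqrt_of_sq_le this]
    have a2 : ∀ s : Finset (Fin (Module.finrank ℝ E)),
        1 - ∏ i ∈ s, √(l i) ≤ ∑ i ∈ s, (1 - √(l i)) := fun s => by
      induction s using Finset.cons_induction with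
      | empty => simp
      | cons a s ha ih =>
        rw [Finset.prod_cons, Finset.sum_cons]
        have := Finset.prod_le_one (s := s) (fun i _ => Real.sqrt_nonneg (l i)) fun i _ => s1 i
        nlinarith [mul_nonneg (sub_nonneg.2 this) (sub_nonneg.2 (s1 a))]
    exact (a2 _).trans a1
  have k2 := discrim_le_zero (a := trc A₁) (b := -2 * S) (c := trc A₂) fun t => by
    have := Finset.sum_le_sum fun i (_ : i ∈ Finset.univ) =>
      h (t • P (Q.symm (b i))) (Q.symm (b i))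
    simp only [map_smul, smul_apply, smul_eq_mul, Finset.sum_add_distrib, ← Finset.mul_sum] at this
    rw [← t1, ← t2, ← hS] at this
    linarith
  have k3 := Finset.prod_le_one (s := Finset.univ) (fun i _ => Real.sqrt_nonneg (l i))
    fun i _ => s1 i
  rw [discrim] at k2
  rw [← e1, e2]
  refine (pow_le_pow_left₀ (sub_nonneg.2 k3) k1 2).trans ?_
  linarith

end Vale.Agent.P219
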