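import Vale.Agent.P219.G.NCert2
import Vale.Agent.P219.G.Lin2

/-!
# Scalar consequences of `Feas`  (TASK)

`basic`: `tdv_nonneg`, `wt_le_of_le` or the eigenvalues.  `cof`: in an orthonormal eigenbasis `hᵢ` of `C* C` with `C hᵢ = σᵢ kᵢ`, `ι ≤ σᵢ ≤ 1`, `e' = e + a n`, `f' = f - a' n`:
`W = ∑ σᵢ ⟪e', kᵢ⟫ ⟪f', hᵢ⟫`, `W₂ = ∑ (ι / σᵢ) ⟪e', kᵢ⟫ ⟪f', hᵢ⟫`, `|σ ± ι / σ| ≤ 1 ± ι`, Cauchy-Schwarz.  `old`: `tdv_ge`, `penalty`.  `refined`: the argument of helper68 (team message 6203).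
Further true consequences may be added in further files.
-/

namespace Vale.Agent.P219

open scoped RealInnerProductSpace
open Set

section Aux

variable {E : Type*} [NormedAddCommGroup E] [InnerProductSpace ℝ E] [FiniteDimensional ℝ E]
  {C A A₁ A₂ : E →L[ℝ] E}

theorem lin3_svd (C : E →L[ℝ] E) : ∃ h : OrthonormalBasis (Fin (Module.finrank ℝ E)) ℝ E,
    (∀ x y, ⟪C x, C y⟫ = ∑ i, ‖C (h i)‖ ^ 2 * (⟪h i, x⟫ * ⟪h i, y⟫)) ∧
      |C.det| = ∏ i, ‖C (h i)‖ := by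
  have hT := LinearMap.isSymmetric_adjoint_comp_self (C : E →ₗ[ℝ] E)
  let b := hT.eigenvectorBasis rfl
  let l := hT.eigenvalues rfl
  have hb : ∀ i y, ⟪C (b i), C y⟫ = l i * ⟪b i, y⟫ := fun i y => by
    have := congrArg (fun z => ⟪z, y⟫) (hT.apply_eigenvectorBasis rfl i)
    simp only [LinearMap.comp_apply, LinearMap.adjoint_inner_left, real_inner_smul_left] at this
    exact this
  have hl : ∀ i, ‖C (b i)‖ ^ 2 = l i := fun i => by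
    rw [← real_inner_self_eq_norm_sq, hb, b.inner_eq_one, mul_one]
  refine ⟨b, fun x y => ?_, ?_⟩
  · conv_lhs => rw [← b.sum_repr' x]
    simp only [map_sum, map_smul, sum_inner, real_inner_smul_left, hb, hl]
    exact Finset.sum_congr rfl fun i _ => by ring
  · have hd : LinearMap.det (LinearMap.adjoint (C : E →ₗ[ℝ] E) ∘ₗ (C : E →ₗ[ℝ] E)) = ∏ i, l i :=
      hT.det_eq_prod_eigenvalues rfl
    rw [LinearMap.det_comp,
      linalg_adj fun u v => LinearMap.adjoint_inner_left (C : E →ₗ[ℝ] E) v u] at hd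
    simp only [← hl, Finset.prod_pow] at hd
    rw [← abs_of_nonneg (Finset.prod_nonneg fun i _ => norm_nonneg (C (b i))), ← sq_eq_sq_iff_abs_eq_abs,
      ← hd, sq]

theorem lin3_prod {κ : Type*} {σ : κ → ℝ} (h0 : ∀ i, 0 ≤ σ i) (h1 : ∀ i, σ i ≤ 1) (s : Finset κ) :
    1 - ∏ i ∈ s, σ i ≤ ∑ i ∈ s, (1 - σ i) := by
  induction s using Finset.cons_induction with
  | empty => simp
  | cons a s ha ih =>
    rw [Finset.prod_cons, Finset.sum_cons]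
    have := Finset.prod_le_one (s := s) (fun i _ => h0 i) fun i _ => h1 i
    nlinarith [mul_nonneg (sub_nonneg.2 this) (sub_nonneg.2 (h1 a))]

theorem lin3_vn (hC : ∀ h, ‖C h‖ ≤ ‖h‖) {k : ℕ} (u v : OrthonormalBasis (Fin k) ℝ E) :
    ∑ i, ⟪u i, C (v i)⟫ ≤ k - 1 + |C.det| := by
  obtain ⟨h, -, h2⟩ := lin3_svd C
  have hk : Module.finrank ℝ E = k := by simpa using Module.finrank_eq_card_basis u.toBasis
  have e1 : ∑ i, ⟪u i, C (v i)⟫ = ∑ j, ∑ i, ⟪h j, v i⟫ * ⟪u i, C (h j)⟫ := by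
    rw [Finset.sum_comm]
    refine Finset.sum_congr rfl fun i _ => ?_
    conv_lhs => rw [← h.sum_repr' (v i)]
    simp only [map_sum, map_smul, inner_sum, real_inner_smul_right]
  have e2 : ∀ j, ∑ i, ⟪h j, v i⟫ * ⟪u i, C (h j)⟫ ≤ ‖C (h j)‖ := fun j => by
    refine (Real.sum_mul_le_sqrt_mul_sqrt _ _ _).trans_eq ?_
    rw [v.sum_sq_inner_left, u.sum_sq_inner_right, h.norm_eq_one, Real.sqrt_sq (norm_nonneg _),
      one_pow, Real.sqrt_one, one_mul]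
  have e3 := lin3_prod (fun j => norm_nonneg (C (h j)))
    (fun j => (hC _).trans_eq (h.norm_eq_one j)) Finset.univ
  have e4 := Finset.sum_le_sum fun j (_ : j ∈ Finset.univ) => e2 j
  rw [Finset.sum_sub_distrib, ← h2] at e3
  simp only [Finset.sum_const, Finset.card_univ, Fintype.card_fin, nsmul_eq_mul, mul_one] at e3
  have e5 : (Module.finrank ℝ E : ℝ) = k := by rw [hk]
  rw [e1]
  linarith

omit [FiniteDimensional ℝ E] in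
theorem lin3_cs (H : ∀ k h, 2 * ⟪k, h - C h⟫ ≤ ⟪A₁ k, k⟫ + ⟪A₂ h, h⟫) {κ : Type*} [Fintype κ]
    (x y : κ → E) :
    (∑ i, ⟪x i, y i - C (y i)⟫) ^ 2 ≤ (∑ i, ⟪A₁ (x i), x i⟫) * ∑ i, ⟪A₂ (y i), y i⟫ := by
  have k2 := discrim_le_zero (a := ∑ i, ⟪A₁ (x i), x i⟫) (b := -2 * ∑ i, ⟪x i, y i - C (y i)⟫)
    (c := ∑ i, ⟪A₂ (y i), y i⟫) fun t => by
      have := Finset.sum_le_sum fun i (_ : i ∈ Finset.univ) => H (t • x i) (y i)
      simp only [map_smul, real_inner_smul_left, real_inner_smul_right, Finset.sum_add_distrib,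
        ← Finset.mul_sum] at this
      linarith
  rw [discrim] at k2
  linarith

omit [FiniteDimensional ℝ E] in
theorem lin3_null (hA : ∀ k, 0 ≤ ⟪A k, k⟫) {n : E} (hn : ⟪A n, n⟫ = 0) (t : ℝ) (v : E) :
    ⟪A (t • n + v), t • n + v⟫ = ⟪A v, v⟫ := by
  have h3 : ∀ t : ℝ, ⟪A (t • n + v), t • n + v⟫ =
      0 * (t * t) + (⟪A n, v⟫ + ⟪A v, n⟫) * t + ⟪A v, v⟫ := fun t => by
    simp only [map_add, map_smul, inner_add_left, inner_add_right, real_inner_smul_left,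
      real_inner_smul_right, hn]
    ring
  have h4 := discrim_le_zero fun t => (hA _).trans_eq (h3 t)
  rw [discrim, mul_zero, zero_mul, sub_zero] at h4
  rw [h3, pow_eq_zero_iff two_ne_zero |>.1 (le_antisymm h4 (sq_nonneg _))]
  ring

omit [FiniteDimensional ℝ E] in
theorem lin3_unit {v : E} (hv : v ≠ 0) : ‖‖v‖⁻¹ • v‖ = 1 := norm_smul_inv_norm (𝕜 := ℝ) hv

omit [FiniteDimensional ℝ E] in
theorem lin3_tr (A : E →L[ℝ] E) {k : ℕ} (u : OrthonormalBasis (Fin k) ℝ E) :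
    LinearMap.trace ℝ E A.toLinearMap = ∑ i, ⟪A (u i), u i⟫ := by
  rw [LinearMap.trace_eq_sum_inner _ u]
  exact Finset.sum_congr rfl fun i _ => real_inner_comm _ _

theorem lin3_le (hA : ∀ k, 0 ≤ ⟪A k, k⟫) {k : ℕ} (hE : Module.finrank ℝ E = k + 1) (v : E) :
    ⟪A v, v⟫ ≤ ‖v‖ ^ 2 * LinearMap.trace ℝ E A.toLinearMap := by
  by_cases hv : v = 0
  · simp [hv]
  have p := norm_pos_iff.2 hv
  obtain ⟨b, hb⟩ := Orthonormal.exists_orthonormalBasis_extension_of_card_eq (𝕜 := ℝ)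
    (ι := Fin (k + 1)) (by simpa using hE) (v := fun _ => ‖v‖⁻¹ • v) (s := {0}) (by
      rw [orthonormal_iff_ite]
      rintro ⟨i, rfl⟩ ⟨j, rfl⟩
      rw [if_pos rfl, real_inner_self_eq_norm_sq, Set.domRestrict_apply,
        lin3_unit hv, one_pow])
  have h1 : ⟪A (b 0), b 0⟫ ≤ LinearMap.trace ℝ E A.toLinearMap := by
    rw [lin3_tr A b]
    exact Finset.single_le_sum (fun i _ => hA (b i)) (Finset.mem_univ 0)
  rw [hb 0 rfl, map_smul, real_inner_smul_left, real_inner_smul_right, ← mul_assoc, ← mul_inv,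
    inv_mul_le_iff₀ (mul_pos p p)] at h1
  rwa [sq]

omit [FiniteDimensional ℝ E] in
theorem lin3_rot {k : ℕ} (v : OrthonormalBasis (Fin (k + 2)) ℝ E) {c s : ℝ}
    (h : c ^ 2 + s ^ 2 = 1) : ∃ u : OrthonormalBasis (Fin (k + 2)) ℝ E,
      u 0 = c • v 0 + s • v 1 ∧ u 1 = (-s) • v 0 + c • v 1 ∧
        ∀ j : Fin k, u j.succ.succ = v j.succ.succ := by
  have ho : Orthonormal ℝ (Fin.cons (c • v 0 + s • v 1)
      (Fin.cons ((-s) • v 0 + c • v 1) fun j => v j.succ.succ) : Fin (k + 2) → E) := by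
    have z0 : ∀ j : Fin k, (0 : Fin (k + 2)) ≠ j.succ.succ := fun j => (Fin.succ_ne_zero _).symm
    have z1 : ∀ j : Fin k, (1 : Fin (k + 2)) ≠ j.succ.succ := fun j e =>
      Fin.succ_ne_zero j (Fin.succ_injective _ (Fin.succ_zero_eq_one.trans e)).symm
    rw [orthonormal_iff_ite]
    intro i j
    rcases Fin.eq_zero_or_eq_succ i with rfl | ⟨i, rfl⟩ <;>
    rcases Fin.eq_zero_or_eq_succ j with rfl | ⟨j, rfl⟩ <;>
    (try rcases Fin.eq_zero_or_eq_succ i with rfl | ⟨i, rfl⟩) <;>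
    (try rcases Fin.eq_zero_or_eq_succ j with rfl | ⟨j, rfl⟩) <;>
    simp only [Fin.cons_zero, Fin.cons_succ, inner_add_left, inner_add_right, real_inner_smul_left,
      real_inner_smul_right, v.inner_eq_ite] <;>
    simp [z0, z1, (z0 _).symm, (z1 _).symm] <;> linarith
  have hk : Fintype.card (Fin (k + 2)) = Module.finrank ℝ E :=
    (Module.finrank_eq_card_basis v.toBasis).symm
  exact ⟨OrthonormalBasis.mk ho (ho.linearIndependent.span_eq_top_of_card_eq_finrank hk).ge,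
    by simp, by simp, fun j => by simp⟩

theorem lin3_frame {k : ℕ} (hE : Module.finrank ℝ E = k + 2) {n e f : E} (hn : ‖n‖ = 1)
    (hf : ‖f‖ = 1) (hnf : ⟪n, f⟫ = 0) : ∃ (v : OrthonormalBasis (Fin (k + 2)) ℝ E) (c s : ℝ),
      v 0 = f ∧ e = c • v 0 + s • v 1 := by
  obtain ⟨g, s, g1, g2, g3⟩ : ∃ (g : E) (s : ℝ), ‖g‖ = 1 ∧ ⟪g, f⟫ = 0 ∧ e = ⟪e, f⟫ • f + s • g := by
    by_cases hy : e - ⟪e, f⟫ • f = 0
    · exact ⟨n, 0, hn, hnf, by rw [zero_smul, add_zero]; exact sub_eq_zero.1 hy⟩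
    · refine ⟨‖e - ⟪e, f⟫ • f‖⁻¹ • (e - ⟪e, f⟫ • f), ‖e - ⟪e, f⟫ • f‖,
        lin3_unit hy, ?_, ?_⟩
      · rw [real_inner_smul_left, inner_sub_left, real_inner_smul_left, real_inner_self_eq_norm_sq,
          hf]
        ring
      · rw [smul_inv_smul₀ (norm_ne_zero_iff.2 hy), add_sub_cancel]
  obtain ⟨b, hb⟩ := Orthonormal.exists_orthonormalBasis_extension_of_card_eq (𝕜 := ℝ)
    (ι := Fin (k + 2)) (by simpa using hE) (v := fun i => if i = 0 then f else g) (s := {0, 1}) (by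
      rw [orthonormal_iff_ite]
      rintro ⟨i, rfl | rfl⟩ ⟨j, rfl | rfl⟩ <;>
      simp [hf, g1, g2, real_inner_comm g f, Subtype.ext_iff])
  refine ⟨b, ⟪e, f⟫, s, by simpa using hb 0 (by simp), ?_⟩
  rw [hb 0 (by simp), hb 1 (by simp)]
  simpa using g3

theorem lin3_polar (x y : ℝ) : ∃ ρ c s : ℝ, 0 ≤ ρ ∧ c ^ 2 + s ^ 2 = 1 ∧ x = ρ * c ∧ y = ρ * s := by
  by_cases h : x ^ 2 + y ^ 2 = 0
  · exact ⟨0, 1, 0, le_rfl, by norm_num, by nlinarith, by nlinarith⟩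
  have p : 0 < x ^ 2 + y ^ 2 := lt_of_le_of_ne (by positivity) (Ne.symm h)
  have q := (Real.sqrt_pos.2 p).ne'
  refine ⟨√(x ^ 2 + y ^ 2), x / √(x ^ 2 + y ^ 2), y / √(x ^ 2 + y ^ 2), Real.sqrt_nonneg _, ?_,
    by field_simp, by field_simp⟩
  rw [div_pow, div_pow, Real.sq_sqrt p.le, ← add_div, div_self h]

theorem lin3_core {k : ℕ} (hE : Module.finrank ℝ E = k + 2) (hC : ∀ h, ‖C h‖ ≤ ‖h‖)
    (H : ∀ k h, 2 * ⟪k, h - C h⟫ ≤ ⟪A₁ k, k⟫ + ⟪A₂ h, h⟫) {n e f : E} (hn : ‖n‖ = 1) (he : ‖e‖ = 1)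
    (hf : ‖f‖ = 1) (hnf : ⟪n, f⟫ = 0) {l : ℝ} (l0 : 0 ≤ l) (l1 : l ≤ 1) : ∃ t₁ t₂ : ℝ,
      t₁ ^ 2 ≤ LinearMap.trace ℝ E A₁.toLinearMap * LinearMap.trace ℝ E A₂.toLinearMap ∧
      t₂ ^ 2 ≤ (LinearMap.trace ℝ E A₁.toLinearMap - ⟪A₁ e, e⟫) *
        (LinearMap.trace ℝ E A₂.toLinearMap - ⟪A₂ f, f⟫) ∧
      (1 - l ^ 2 / 2) * (1 - |C.det|) + l * (⟪e, C f⟫ - |C.det|) ≤ t₁ + l * t₂ := by
  obtain ⟨v, c, s, rfl, rfl⟩ := lin3_frame (e := e) hE hn hf hnf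
  have hcs : c ^ 2 + s ^ 2 = 1 := by
    have := real_inner_self_eq_norm_sq (c • v 0 + s • v 1)
    simp only [he, inner_add_left, inner_add_right, real_inner_smul_left, real_inner_smul_right,
      v.inner_eq_ite] at this
    simp at this
    linarith
  obtain ⟨u, u0, u1, u2⟩ := lin3_rot v hcs
  obtain ⟨ρ, c', s', ρ0, h', e1, e2⟩ := lin3_polar (1 + l * c) (l * s)
  obtain ⟨w, w0, w1, w2⟩ := lin3_rot v h'
  refine ⟨∑ i, ⟪v i, v i - C (v i)⟫, ∑ i : Fin (k + 1), ⟪u i.succ, v i.succ - C (v i.succ)⟫,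
    ?_, ?_, ?_⟩
  · rw [lin3_tr A₁ v, lin3_tr A₂ v]
    exact lin3_cs H _ _
  · rw [lin3_tr A₁ u, lin3_tr A₂ v, Fin.sum_univ_succ (fun i => ⟪A₁ (u i), u i⟫),
      Fin.sum_univ_succ (fun i => ⟪A₂ (v i), v i⟫), u0, add_sub_cancel_left, add_sub_cancel_left]
    exact lin3_cs H _ _
  have k1 := lin3_vn hC w v
  have k2 : ∑ j : Fin k, ⟪v j.succ.succ, C (v j.succ.succ)⟫ ≤ k := by
    refine (Finset.sum_le_sum fun j _ => (?_ : _ ≤ (1 : ℝ))).trans_eq (by simp)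
    refine (real_inner_le_norm _ _).trans ?_
    rw [v.norm_eq_one, one_mul]
    exact (hC _).trans_eq (v.norm_eq_one _)
  have i0 := abs_nonneg C.det
  have i1 : |C.det| ≤ 1 := by
    obtain ⟨h, -, h2⟩ := lin3_svd C
    exact h2 ▸ Finset.prod_le_one (fun i _ => norm_nonneg _)
      fun i _ => (hC _).trans_eq (h.norm_eq_one i)
  simp only [Fin.sum_univ_succ, Fin.succ_zero_eq_one, w0, w1, w2, u1, u2, inner_sub_right,
    inner_add_left, real_inner_smul_left, v.inner_eq_ite, Finset.sum_sub_distrib] at k1 ⊢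
  simp only [if_true, zero_ne_one, if_false, Finset.sum_const, Finset.card_univ, Fintype.card_fin,
    nsmul_eq_mul, mul_one, mul_zero, zero_add]
  push_cast at k1
  have c1 : -1 ≤ c := by nlinarith
  have c2 : c ≤ 1 := by nlinarith
  have r2 : ρ ^ 2 = 1 + l ^ 2 + 2 * l * c := by
    have : ρ ^ 2 = (ρ * c') ^ 2 + (ρ * s') ^ 2 := by rw [mul_pow, mul_pow, ← mul_add, h', mul_one]
    rw [this, ← e1, ← e2]
    linear_combination l ^ 2 * hcs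
  have lc := mul_nonneg l0 (sub_nonneg.2 c2)
  have lc' := mul_nonneg l0 (neg_le_iff_add_nonneg.1 c1)
  have r3 : ρ ≤ 1 + l := (abs_le_of_sq_le_sq' (by nlinarith) (by positivity)).2
  have r4 : ρ ≤ 1 + l * c + l ^ 2 / 2 :=
    (abs_le_of_sq_le_sq' (by nlinarith [sq_nonneg (l * c + l ^ 2 / 2)]) (by nlinarith)).2
  have r5 : ρ ≤ 1 + l * (1 + c) / 2 :=
    (abs_le_of_sq_le_sq' (by nlinarith [mul_nonneg lc (sub_nonneg.2 l1), mul_nonneg lc lc])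
      (by nlinarith)).2
  have m1 := mul_le_mul_of_nonneg_left k1 ρ0
  have m2 := mul_nonneg (sub_nonneg.2 r3) (sub_nonneg.2 k2)
  have m3 := mul_nonneg (sub_nonneg.2 r4) (sub_nonneg.2 i1)
  have m4 := mul_nonneg (sub_nonneg.2 r5) i0
  have m5 : ∀ x y z t : ℝ, ρ * (c' * x + s' * y) + ρ * (-s' * z + c' * t) =
      (1 + l * c) * (x + t) + l * s * (y - z) := fun x y z t => by rw [e1, e2]; ring
  have m6 := m5 ⟪v 0, C (v 0)⟫ ⟪v 1, C (v 0)⟫ ⟪v 0, C (v 1)⟫ ⟪v 1, C (v 1)⟫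
  linarith

theorem lin3_two {p q P₁ P₂ Q₁ Q₂ : ℝ} (h1 : p ^ 2 ≤ P₁ * P₂) (h2 : q ^ 2 ≤ Q₁ * Q₂) (a1 : 0 ≤ P₁)
    (a2 : 0 ≤ P₂) (a3 : 0 ≤ Q₁) (a4 : 0 ≤ Q₂) : p + q ≤ √((P₁ + Q₁) * (P₂ + Q₂)) := by
  refine Real.le_sqrt_of_sq_le ?_
  have h3 := mul_le_mul h1 h2 (sq_nonneg _) (mul_nonneg a1 a2)
  have h4 : 2 * (p * q) ≤ P₁ * Q₂ + Q₁ * P₂ :=
    (abs_le_of_sq_le_sq' (by nlinarith [sq_nonneg (P₁ * Q₂ - Q₁ * P₂)]) (by positivity)).2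
  nlinarith

end Aux

variable {m : ℕ} {a a' W W₂ ι gx gy : ℝ}

theorem Feas.red (h : Feas m a a' W W₂ ι gx gy) :
    ∃ (C A₁ A₂ : EuclideanSpace ℝ (Fin (m + 1)) →L[ℝ] EuclideanSpace ℝ (Fin (m + 1)))
      (n e f z : EuclideanSpace ℝ (Fin (m + 1))), ‖n‖ = 1 ∧ ‖e‖ ^ 2 = 1 - a ^ 2 ∧
      ‖f‖ ^ 2 = 1 - a' ^ 2 ∧ ⟪n, f⟫ = 0 ∧ (∀ h, ‖C h‖ ≤ ‖h‖) ∧ C.det ≠ 0 ∧
      (∀ k h, 2 * ⟪k, h - C h⟫ ≤ ⟪A₁ k, k⟫ + ⟪A₂ h, h⟫) ∧ (∀ k, 0 ≤ ⟪A₁ k, k⟫) ∧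
      (∀ k, 0 ≤ ⟪A₂ k, k⟫) ∧ ι = |C.det| ∧ W = ⟪e, C f⟫ ∧ C z = e ∧ W₂ = ι * ⟪z, f⟫ ∧
      gx = LinearMap.trace ℝ _ A₁.toLinearMap - ⟪A₁ e, e⟫ ∧
      gy = LinearMap.trace ℝ _ A₂.toLinearMap - ⟪A₂ f, f⟫ := by
  obtain ⟨C, A₁, A₂, n, e, f, hn, he, hf, c1, c2, c3, c4, H, n1, n2, ha, ha', hι, hW, hW₂, hx, hy⟩ := h
  have p1 : ∀ k, 0 ≤ ⟪A₁ k, k⟫ := fun k => by simpa using H k 0
  have p2 : ∀ k, 0 ≤ ⟪A₂ k, k⟫ := fun k => by simpa using H 0 k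
  have nn : ⟪n, n⟫ = 1 := by rw [real_inner_self_eq_norm_sq, hn, one_pow]
  have ne : ⟪n, e⟫ = -a := by rw [ha, neg_neg]
  have hi : ∀ x, C (C.inverse x) = x := fun x => (isInvertible_of_det c4).self_apply_inverse x
  have q1 := lin3_null p1 n1 a e
  have q2 := lin3_null p2 n2 (-a') f
  have q3 : ⟪C.inverse e, n⟫ = -a := by rw [real_inner_comm, ← c2, hi, ne]
  refine ⟨C, A₁, A₂, n, a • n + e, (-a') • n + f, a • n + C.inverse e, hn, ?_, ?_, ?_, c3, c4, H,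
    p1, p2, hι, ?_, by rw [map_add, map_smul, c1, hi], ?_, by rw [q1, hx], by rw [q2, hy]⟩
  · rw [norm_add_sq_real, norm_smul, real_inner_smul_left, ne, hn, he, Real.norm_eq_abs, mul_one,
      sq_abs]
    ring
  · rw [norm_add_sq_real, norm_smul, real_inner_smul_left, ← ha', hn, hf, Real.norm_eq_abs, mul_one,
      sq_abs]
    ring
  · rw [inner_add_right, real_inner_smul_right, nn, ← ha']
    ring
  · simp only [map_add, map_smul, c1, inner_add_left, inner_add_right, real_inner_smul_left,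
      real_inner_smul_right, nn, c2, ← ha', real_inner_comm n e, ne, hW]
    ring
  · simp only [inner_add_left, inner_add_right, real_inner_smul_left, real_inner_smul_right, nn,
      ← ha', q3, hW₂]
    ring

theorem Feas.ge (h : Feas m a a' W W₂ ι gx gy) : ∃ T₁ T₂ : ℝ, 0 ≤ T₁ ∧ 0 ≤ T₂ ∧
    (1 - ι) ^ 2 ≤ T₁ * T₂ ∧ a ^ 2 * T₁ ≤ gx ∧ a' ^ 2 * T₂ ≤ gy ∧ a ^ 2 ≤ 1 ∧ a' ^ 2 ≤ 1 ∧ 0 < ι ∧
    ι ≤ 1 := by
  obtain ⟨C, A₁, A₂, n, e, f, z, hn, he, hf, nf, c3, c4, H, p1, p2, rfl, -, -, -, rfl, rfl⟩ := h.red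
  have hE : Module.finrank ℝ (EuclideanSpace ℝ (Fin (m + 1))) = m + 1 := by simp
  let v := EuclideanSpace.basisFun (Fin (m + 1)) ℝ
  have i1 : |C.det| ≤ 1 := by
    obtain ⟨h, -, h2⟩ := lin3_svd C
    exact h2 ▸ Finset.prod_le_one (fun i _ => norm_nonneg _)
      fun i _ => (c3 _).trans_eq (h.norm_eq_one i)
  have k1 := lin3_vn c3 v v
  have k2 := lin3_cs H v v
  have k3 := lin3_le p1 hE e
  have k4 := lin3_le p2 hE f
  rw [← lin3_tr A₁ v, ← lin3_tr A₂ v] at k2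
  rw [he] at k3
  rw [hf] at k4
  refine ⟨_, _, ?_, ?_, (pow_le_pow_left₀ (sub_nonneg.2 i1) ?_ 2).trans k2, by linarith,
    by linarith, by nlinarith [sq_nonneg ‖e‖], by nlinarith [sq_nonneg ‖f‖], abs_pos.2 c4, i1⟩
  · rw [lin3_tr A₁ v]
    exact Finset.sum_nonneg fun i _ => p1 _
  · rw [lin3_tr A₂ v]
    exact Finset.sum_nonneg fun i _ => p2 _
  · simp only [inner_sub_right, v.inner_eq_one, Finset.sum_sub_distrib, Finset.sum_const,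
      Finset.card_univ, Fintype.card_fin, nsmul_eq_mul, mul_one]
    linarith

theorem Feas.basic (h : Feas m a a' W W₂ ι gx gy) :
    a ^ 2 ≤ 1 ∧ a' ^ 2 ≤ 1 ∧ 0 < ι ∧ ι ≤ 1 ∧ 0 ≤ gx ∧ 0 ≤ gy := by
  obtain ⟨T₁, T₂, t1, t2, -, h1, h2, h3, h4, h5, h6⟩ := h.ge
  exact ⟨h3, h4, h5, h6, le_trans (by positivity) h1, le_trans (by positivity) h2⟩

theorem Feas.cof (h : Feas m a a' W W₂ ι gx gy) :
    |W + W₂| ≤ (1 + ι) * √((1 - a ^ 2) * (1 - a' ^ 2)) ∧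
      |W - W₂| ≤ (1 - ι) * √((1 - a ^ 2) * (1 - a' ^ 2)) := by
  obtain ⟨C, A₁, A₂, n, e, f, z, hn, he, hf, nf, c3, c4, H, p1, p2, hι, rfl, rfl, rfl, -, -⟩ := h.red
  obtain ⟨b, b1, b2⟩ := lin3_svd C
  have s0 : ∀ i, 0 ≤ ‖C (b i)‖ := fun i => norm_nonneg _
  have s1 : ∀ i, ‖C (b i)‖ ≤ 1 := fun i => (c3 _).trans_eq (b.norm_eq_one i)
  have i0 : 0 ≤ ι := hι ▸ abs_nonneg _
  have s2 : ∀ i, ι ≤ ‖C (b i)‖ := fun i => by
    rw [hι, b2, ← Finset.mul_prod_erase _ _ (Finset.mem_univ i)]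
    exact mul_le_of_le_one_right (s0 i) (Finset.prod_le_one (fun j _ => s0 j) fun j _ => s1 j)
  have key : ∀ t κ : ℝ, (∀ i, |‖C (b i)‖ ^ 2 + t| ≤ κ * ‖C (b i)‖) → 0 ≤ κ →
      |⟪C z, C f⟫ + t * ⟪z, f⟫| ≤ κ * √((1 - a ^ 2) * (1 - a' ^ 2)) := fun t κ ht hκ => by
    rw [b1, ← b.sum_inner_mul_inner z f, Finset.mul_sum, ← Finset.sum_add_distrib, ← he, ← hf,
      Real.sqrt_mul (sq_nonneg _), ← real_inner_self_eq_norm_sq (C z), b1, ← b.sum_sq_inner_right f]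
    refine (Finset.abs_sum_le_sum_abs _ _).trans (le_trans (Finset.sum_le_sum fun i _ =>
      (?_ : _ ≤ κ * (‖C (b i)‖ * |⟪b i, z⟫| * |⟪b i, f⟫|))) ?_)
    · rw [real_inner_comm (b i) z, ← add_mul, abs_mul, abs_mul, mul_assoc, ← mul_assoc κ]
      exact mul_le_mul_of_nonneg_right (ht i) (by positivity)
    · rw [← Finset.mul_sum]
      refine mul_le_mul_of_nonneg_left ((Real.sum_mul_le_sqrt_mul_sqrt _ _ _).trans_eq ?_) hκ
      simp only [mul_pow, sq_abs, ← sq]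
  have i1 : ι ≤ 1 := by
    rw [hι, b2]
    exact Finset.prod_le_one (fun j _ => s0 j) fun j _ => s1 j
  refine ⟨key ι _ (fun i => ?_) (by positivity), ?_⟩
  · rw [abs_of_nonneg (by positivity)]
    nlinarith [mul_nonneg (sub_nonneg.2 (s1 i)) (sub_nonneg.2 (s2 i))]
  · rw [sub_eq_add_neg, ← neg_mul]
    refine key (-ι) _ (fun i => abs_le.2 ⟨?_, ?_⟩) (sub_nonneg.2 i1)
    · nlinarith [mul_nonneg (add_nonneg zero_le_one (s0 i)) (sub_nonneg.2 (s2 i))]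
    · nlinarith [mul_nonneg (sub_nonneg.2 (s1 i)) (add_nonneg (s0 i) i0)]

theorem Feas.old (h : Feas m a a' W W₂ ι gx gy) : (a * a' * (1 - ι)) ^ 2 ≤ gx * gy := by
  obtain ⟨T₁, T₂, t1, t2, h0, h1, h2, -⟩ := h.ge
  calc (a * a' * (1 - ι)) ^ 2 = (a * a') ^ 2 * (1 - ι) ^ 2 := by ring
    _ ≤ (a * a') ^ 2 * (T₁ * T₂) := by gcongr
    _ = a ^ 2 * T₁ * (a' ^ 2 * T₂) := by ring
    _ ≤ gx * gy := mul_le_mul h1 h2 (by positivity) (le_trans (by positivity) h1)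

theorem Feas.refined (h : Feas m a a' W W₂ ι gx gy) {l : ℝ} (h0 : 0 ≤ l)
    (h1 : l * √((1 - a ^ 2) * (1 - a' ^ 2)) ≤ 1) (h2 : l * |a * a'| ≤ 1) :
    |a * a'| * ((1 - l ^ 2 * ((1 - a ^ 2) * (1 - a' ^ 2)) / 2) * (1 - ι) +
      l * (|W| - ι * √((1 - a ^ 2) * (1 - a' ^ 2)))) ≤ √(gx * gy) := by
  have ho := h.old
  obtain ⟨-, -, -, i1, -, -⟩ := h.basic
  obtain ⟨C, A₁, A₂, n, e, f, z, hn, he, hf, nf, c3, c4, H, p1, p2, rfl, rfl, -, -, rfl, rfl⟩ := h.red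
  rw [← he, ← hf, ← mul_pow, Real.sqrt_sq (by positivity)] at h1 ⊢
  by_cases hz : e = 0 ∨ f = 0
  · have z1 : ‖e‖ * ‖f‖ = 0 := by rcases hz with rfl | rfl <;> simp
    have z2 : ⟪e, C f⟫ = 0 := by rcases hz with rfl | rfl <;> simp
    rw [z1, z2]
    refine Real.le_sqrt_of_sq_le (le_trans (le_of_eq ?_) ho)
    simp only [mul_pow, sq_abs]
    simp
  rw [not_or] at hz
  have e0 := norm_pos_iff.2 hz.1
  have f0 := norm_pos_iff.2 hz.2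
  obtain ⟨k, rfl⟩ : ∃ k, m = k + 1 := by
    rcases m with _ | k
    · exfalso
      have := (EuclideanSpace.basisFun (Fin 1) ℝ).sum_inner_mul_inner n f
      have q1 := (EuclideanSpace.basisFun (Fin 1) ℝ).sum_sq_inner_left n
      have q2 := (EuclideanSpace.basisFun (Fin 1) ℝ).sum_sq_inner_right f
      rw [Fin.sum_univ_one] at this q1 q2
      rw [nf] at this
      rcases mul_eq_zero.1 this with q | q
      · rw [q, hn] at q1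
        norm_num at q1
      · rw [q] at q2
        nlinarith
    · exact ⟨k, rfl⟩
  have hE : Module.finrank ℝ (EuclideanSpace ℝ (Fin (k + 1 + 1))) = k + 2 := by simp
  obtain ⟨τ, τ1, τ2⟩ : ∃ τ : ℝ, |τ| = 1 ∧ τ * ⟪e, C f⟫ = |⟪e, C f⟫| := by
    rcases le_total 0 ⟪e, C f⟫ with q | q
    · exact ⟨1, abs_one, by rw [one_mul, abs_of_nonneg q]⟩
    · exact ⟨-1, by simp, by rw [neg_one_mul, abs_of_nonpos q]⟩
  have τ3 : τ * τ = 1 := by rw [← abs_mul_abs_self, τ1, one_mul]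
  obtain ⟨t₁, t₂, k1, k2, k3⟩ := lin3_core hE c3 H (e := τ • ‖e‖⁻¹ • e) (f := ‖f‖⁻¹ • f) hn
    (by rw [norm_smul, lin3_unit hz.1, Real.norm_eq_abs, τ1, one_mul])
    (lin3_unit hz.2) (by rw [real_inner_smul_right, nf, mul_zero])
    (mul_nonneg h0 (mul_pos e0 f0).le) h1
  have k4 := lin3_le p1 hE e
  have k5 := lin3_le p2 hE f
  have t1 : 0 ≤ LinearMap.trace ℝ _ A₁.toLinearMap :=
    (mul_nonneg_iff_of_pos_left (pow_pos e0 2)).1 ((p1 e).trans k4)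
  have t2 : 0 ≤ LinearMap.trace ℝ _ A₂.toLinearMap :=
    (mul_nonneg_iff_of_pos_left (pow_pos f0 2)).1 ((p2 f).trans k5)
  simp only [map_smul, real_inner_smul_left, real_inner_smul_right] at k2 k3
  generalize LinearMap.trace ℝ _ A₁.toLinearMap = T₁ at *
  generalize LinearMap.trace ℝ _ A₂.toLinearMap = T₂ at *
  have k6 := lin3_two (p := |a * a'| * t₁) (q := |a * a'| * (l * (‖e‖ * ‖f‖) * t₂))
    (P₁ := a ^ 2 * T₁) (P₂ := a' ^ 2 * T₂) (Q₁ := ‖e‖ ^ 2 * T₁ - ⟪A₁ e, e⟫)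
    (Q₂ := ‖f‖ ^ 2 * T₂ - ⟪A₂ f, f⟫)
    (by
      calc (|a * a'| * t₁) ^ 2 = (a * a') ^ 2 * t₁ ^ 2 := by rw [mul_pow, sq_abs]
        _ ≤ (a * a') ^ 2 * (T₁ * T₂) := by gcongr
        _ = _ := by ring)
    (by
      calc (|a * a'| * (l * (‖e‖ * ‖f‖) * t₂)) ^ 2
          = (l * |a * a'|) ^ 2 * ((‖e‖ * ‖f‖) ^ 2 * t₂ ^ 2) := by ring
        _ ≤ 1 ^ 2 * ((‖e‖ * ‖f‖) ^ 2 * ((T₁ - τ * (‖e‖⁻¹ * (τ * (‖e‖⁻¹ * ⟪A₁ e, e⟫)))) *
            (T₂ - ‖f‖⁻¹ * (‖f‖⁻¹ * ⟪A₂ f, f⟫)))) := by gcongr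
        _ = _ := by
          rw [mul_left_comm ‖e‖⁻¹ τ, ← mul_assoc τ τ, τ3]
          field_simp)
    (by positivity) (by positivity) (sub_nonneg.2 k4) (sub_nonneg.2 k5)
  have k7 : l * (‖e‖ * ‖f‖) * (‖f‖⁻¹ * (τ * (‖e‖⁻¹ * ⟪e, C f⟫)) - |C.det|) =
      l * (|⟪e, C f⟫| - |C.det| * (‖e‖ * ‖f‖)) := by
    rw [← τ2]
    field_simp
  have k8 : a ^ 2 * T₁ + (‖e‖ ^ 2 * T₁ - ⟪A₁ e, e⟫) = T₁ - ⟪A₁ e, e⟫ := by rw [he]; ring
  have k9 : a' ^ 2 * T₂ + (‖f‖ ^ 2 * T₂ - ⟪A₂ f, f⟫) = T₂ - ⟪A₂ f, f⟫ := by rw [hf]; ring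
  rw [k8, k9, ← mul_add] at k6
  refine le_trans (mul_le_mul_of_nonneg_left ?_ (abs_nonneg _)) k6
  rw [← k7, ← mul_pow]
  exact k3

end Vale.Agent.P219
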