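import Vale.Agent.P219.G.Cert6G
import Vale.Agent.P219.G.Lin3
import Vale.Agent.P219.G.Cert4

/-! The certificate for `m = 6`: `X` and `Y` are affine in the normal component, `R` does not depend
on it, and all coefficients are Laurent polynomials in `u`. -/

namespace Vale.Agent.P219

open Set

/-- A Laurent polynomial. -/
noncomputable def lau (a b c d e u : ℝ) : ℝ := a + b * u⁻¹ + c * u⁻¹ ^ 2 + d * u⁻¹ ^ 3 + e * u⁻¹ ^ 4

/-- Its derivative. -/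
noncomputable def lau' (b c d e u : ℝ) : ℝ :=
  -(b * u⁻¹ ^ 2 + 2 * c * u⁻¹ ^ 3 + 3 * d * u⁻¹ ^ 4 + 4 * e * u⁻¹ ^ 5)

theorem lau_der (a b c d e : ℝ) {u : ℝ} (hu : 0 < u) :
    HasDerivAt (lau a b c d e) (lau' b c d e u) u := by
  have h := hasDerivAt_inv hu.ne'
  refine (((((h.const_mul b).const_add a).add ((h.pow 2).const_mul c)).add
    ((h.pow 3).const_mul d)).add ((h.pow 4).const_mul e)).congr_deriv ?_
  simp only [lau', ← inv_pow]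
  ring

theorem der_lau (a b c d e a' b' c' d' e' : ℝ) :
    Der2 (fun u p => lau a b c d e u + lau a' b' c' d' e' u * p)
      (fun u p => lau' b c d e u + lau' b' c' d' e' u * p) fun u _ => lau a' b' c' d' e' u := by
  refine ⟨?_, fun u p hu => ⟨(lau_der a b c d e hu).add ((lau_der a' b' c' d' e' hu).mul_const p),
    (((hasDerivAt_id' p).const_mul _).const_add _).congr_deriv (mul_one _)⟩⟩
  have h : ContDiffOn ℝ 2 (fun z : ℝ × ℝ => z.1⁻¹) {z | 0 < z.1} :=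
    contDiffOn_fst.inv fun z hz => ne_of_gt hz
  unfold lau
  fun_prop

theorem small {Φ : ℝ × ℝ × ℝ → ℝ} (hΦ : Continuous Φ) {l : ℝ} (hl : 0 < l) :
    ∃ δ, 0 < δ ∧ δ ≤ 1 ∧ ∀ r s t : ℝ, 0 ≤ r → r ≤ δ → |s| ≤ 1 → |t| ≤ 1 → |r * Φ (r, s, t)| ≤ l := by
  obtain ⟨C, hC⟩ := (isCompact_closedBall (0 : ℝ × ℝ × ℝ) 1).exists_bound_of_continuousOn
    hΦ.continuousOn
  have p : 0 < |C| + 1 := by positivity
  refine ⟨min 1 (l / (|C| + 1)), by positivity, min_le_left _ _, fun r s t h0 h1 hs ht => ?_⟩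
  have k := hC (r, s, t) (mem_closedBall_zero_iff.2 (max_le
    ((abs_of_nonneg h0).trans_le (h1.trans (min_le_left _ _))) (max_le hs ht)))
  have k2 := (le_div_iff₀ p).1 (h1.trans (min_le_right _ _))
  rw [abs_mul, abs_of_nonneg h0]
  linarith [mul_le_mul_of_nonneg_left (show |Φ (r, s, t)| ≤ |C| from k.trans (le_abs_self C)) h0]

theorem comb {S Ka Rb M T N Nb W W₂ ι Γ : ℝ} (i0 : 0 ≤ ι) (i1 : ι ≤ 1) (hN : N ≤ Nb)
    (h1 : |W + W₂| ≤ (1 + ι) * N) (h2 : |W - W₂| ≤ (1 - ι) * N) (t1 : 0 ≤ T)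
    (t2 : 0 ≤ T + 2 * ((Ka + Rb) * Nb)) (ua : 0 ≤ S + M - Ka * Nb) (ub : 0 ≤ S + M + Ka * Nb)
    (uc : 0 ≤ S + M - Rb * Nb) (ud : 0 ≤ S + M + Rb * Nb) (hΓ : (1 - ι) * M ≤ Γ) :
    0 ≤ S - Ka * W - Rb * W₂ + ι * (T - S + (Ka + Rb) * Nb) + Γ := by
  have i2 := sub_nonneg.2 i1
  have a1 := (le_abs_self _).trans ((abs_mul (Ka + Rb) (W + W₂)).trans_le
    (mul_le_mul_of_nonneg_left (h1.trans (mul_le_mul_of_nonneg_left hN (by linarith)))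
      (abs_nonneg _)))
  have a2 := (le_abs_self _).trans ((abs_mul (Ka - Rb) (W - W₂)).trans_le
    (mul_le_mul_of_nonneg_left (h2.trans (mul_le_mul_of_nonneg_left hN i2)) (abs_nonneg _)))
  have b1 : 0 ≤ T + (Ka + Rb) * Nb - |Ka + Rb| * Nb := by
    rcases abs_cases (Ka + Rb) with ⟨h, -⟩ | ⟨h, -⟩ <;> rw [h] <;> linarith
  have b2 : 0 ≤ S + M - (|Ka + Rb| + |Ka - Rb|) / 2 * Nb := by
    rcases abs_cases (Ka + Rb) with ⟨h, -⟩ | ⟨h, -⟩ <;>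
      rcases abs_cases (Ka - Rb) with ⟨h', -⟩ | ⟨h', -⟩ <;> rw [h, h'] <;> linarith
  linarith [mul_nonneg i0 b1, mul_nonneg i2 b2]

theorem amgm {s t c g g' : ℝ} (hg : 0 ≤ g) (hg' : 0 ≤ g') (h : c ^ 2 ≤ g * g') :
    2 * (s * t) * c ≤ s ^ 2 * g' + t ^ 2 * g :=
  (abs_le_of_sq_le_sq' (by
    linarith [mul_le_mul_of_nonneg_left h (sq_nonneg (s * t)), sq_nonneg (s ^ 2 * g' - t ^ 2 * g)])
    (by positivity)).2

theorem sg2_le {γ u : ℝ} (h1 : γ ≤ 1 / 2) (hu : 0 < u) (h : u ≤ 1) : sg2 γ u ≤ u := by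
  rw [sg2]
  linarith [mul_nonneg hu.le (mul_nonneg (sub_nonneg.2 h1) (sub_nonneg.2 h))]

namespace C6

variable (γ : ℝ)

/-- The function `X`. -/
noncomputable def cX (u p : ℝ) : ℝ :=
  lau 0 ((830 + 1160 * γ + (564 - 300 * γ) / γ) / 300) ((1000 - 440 * γ + (216 + 90 * γ) / γ) / 300)
    1 0 u + lau 0 0 (-(564 - 300 * γ) / (300 * γ)) (-(216 + 90 * γ) / (300 * γ)) 0 u * p
noncomputable def cXu (u p : ℝ) : ℝ :=
  lau' ((830 + 1160 * γ + (564 - 300 * γ) / γ) / 300) ((1000 - 440 * γ + (216 + 90 * γ) / γ) / 300)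
    1 0 u + lau' 0 (-(564 - 300 * γ) / (300 * γ)) (-(216 + 90 * γ) / (300 * γ)) 0 u * p
noncomputable def cXp (u _p : ℝ) : ℝ :=
  lau 0 0 (-(564 - 300 * γ) / (300 * γ)) (-(216 + 90 * γ) / (300 * γ)) 0 u

/-- The function `Y`. -/
noncomputable def cY (u q : ℝ) : ℝ :=
  lau 0 ((-2040 + 3840 * γ) / (300 * γ)) 0 0 0 u +
    lau 0 ((2180 - 10100 * γ + 11480 * γ ^ 2) / (300 * γ ^ 2))
      ((-1264 + 5940 * γ - 6260 * γ ^ 2) / (300 * γ ^ 2))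
      ((-216 + 974 * γ - 520 * γ ^ 2) / (300 * γ ^ 2)) ((216 + 90 * γ) / (300 * γ)) u * q
noncomputable def cYu (u q : ℝ) : ℝ :=
  lau' ((-2040 + 3840 * γ) / (300 * γ)) 0 0 0 u +
    lau' ((2180 - 10100 * γ + 11480 * γ ^ 2) / (300 * γ ^ 2))
      ((-1264 + 5940 * γ - 6260 * γ ^ 2) / (300 * γ ^ 2))
      ((-216 + 974 * γ - 520 * γ ^ 2) / (300 * γ ^ 2)) ((216 + 90 * γ) / (300 * γ)) u * q
noncomputable def cYq (u _q : ℝ) : ℝ :=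
  lau 0 ((2180 - 10100 * γ + 11480 * γ ^ 2) / (300 * γ ^ 2))
    ((-1264 + 5940 * γ - 6260 * γ ^ 2) / (300 * γ ^ 2))
    ((-216 + 974 * γ - 520 * γ ^ 2) / (300 * γ ^ 2)) ((216 + 90 * γ) / (300 * γ)) u

/-- The function `R`. -/
noncomputable def cR (u q : ℝ) : ℝ :=
  lau ((-2180 + 10100 * γ - 11480 * γ ^ 2) / (300 * γ ^ 2))
    ((1264 - 6080 * γ + 8160 * γ ^ 2) / (300 * γ ^ 2))
    ((216 + 290 * γ - 880 * γ ^ 2) / (300 * γ ^ 2)) 0 0 u + lau 0 0 0 0 0 u * q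
noncomputable def cRu (u q : ℝ) : ℝ :=
  lau' ((1264 - 6080 * γ + 8160 * γ ^ 2) / (300 * γ ^ 2))
    ((216 + 290 * γ - 880 * γ ^ 2) / (300 * γ ^ 2)) 0 0 u + lau' 0 0 0 0 u * q
noncomputable def cRq (u _q : ℝ) : ℝ := lau 0 0 0 0 0 u

variable {γ} {u L n w a a' : ℝ}

theorem idS (h0 : γ ≠ 0) (hu : u ≠ 0) (hs : sg2 γ u = (L * u) ^ 2) (W : ℝ)
    (h1 : ro (nq (2 * γ) (2 * γ / u) L n w) = a + a')
    (h2 : ab (nq (2 * γ) (2 * γ / u) L n w) = a * a') :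
    2400 * γ ^ 2 * (nB 6 γ (cX γ) (cXu γ) (cXp γ) u (L * u * a) (L * u * a') (ct γ u * a * a' - γ * W) +
      nB 6 γ (cX γ) (cXu γ) (cXp γ) u (L * u * a') (L * u * a) (ct γ u * a * a' - γ * W) +
      γ * (2 * ((6330 + 60 * γ) / 150))) =
      S (nq (2 * γ) (2 * γ / u) L n w) - Ka (nq (2 * γ) (2 * γ / u) L n w) * W := by
  simp only [S, Ka, h1, h2, nB, hs]
  simp only [C0, C1, K0, K1, D, zL, LL, HW, Gz, G2, z2, lin, i, nq, cX, cXu, cXp, lau, lau', ct]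
  push_cast
  field_simp
  ring

theorem idR (h0 : γ ≠ 0) (hu : u ≠ 0) (q : ℝ) :
    4800 * γ ^ 4 * cR γ u q = Rb (nq (2 * γ) (2 * γ / u) L n w) := by
  simp only [Rb, HW, Gz, G2, z2, lin, i, nq, cR, lau]
  push_cast
  field_simp
  ring

theorem idX (h0 : γ ≠ 0) (hu : u ≠ 0) (x : ℝ) :
    2400 * γ ^ 3 * cX γ u (L * u * (1 - x)) =
      2 * γ / u * X0 (nq (2 * γ) (2 * γ / u) L n w) +
        2 * γ / u * (L * K0 (nq (2 * γ) (2 * γ / u) L n w)) * x := by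
  simp only [X0, C0, K0, HW, Gz, G2, z2, lin, i, nq, cX, lau]
  push_cast
  field_simp
  ring

/-- The coefficient of `a a'` in the flux term. -/
def j2 (G H L t : ℝ) : ℝ :=
  L ^ 2 * ((864 + 180 * G) * H ^ 2 + (-1728 + 3896 * G - 1040 * G ^ 2) * H +
    (-10112 + 23760 * G - 12520 * G ^ 2) * G) + (864 + 580 * G - 880 * G ^ 2) * H ^ 2 +
    (1728 + 4488 * G - 15080 * G ^ 2 + 9920 * G ^ 3) * H +
    (10112 - 43152 * G + 60840 * G ^ 2 - 27800 * G ^ 3) * G +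
    (17440 - 40400 * G + 22960 * G ^ 2) * G ^ 2 * t

theorem idT {G H : ℝ} (e : H = L ^ 2 - 1 + G) :
    Tp (nq G H L n w) - S (nq G H L n w) + c (nq G H L n w) * Nb (nq G H L n w) =
      G ^ 2 * (3840 * G - 4080) * L * ro (nq G H L n w) + j2 G H L 1 * ab (nq G H L n w) := by
  subst e
  simp only [Tp, S, c, B, A, E, Ka, Rb, Nb, ab, ro, C0, C1, K0, K1, D, zL, LL, HW, Gz, G2, z2, lin, i,
    nq, j2]
  push_cast
  ring

theorem idJ (h0 : γ ≠ 0) (hu : u ≠ 0) :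
    2400 * γ ^ 3 * (cY γ u (L * u * a') * (L * u * a) + cY γ u (L * u * a) * (L * u * a') +
      (cR γ u (L * u * a') + cR γ u (L * u * a)) * (ct γ u * a * a')) =
      (2 * γ) ^ 2 * (3840 * (2 * γ) - 4080) * L * (a + a') +
        j2 (2 * γ) (2 * γ / u) L ((L ^ 2 - 1 + 2 * γ) / (2 * γ / u)) * (a * a') := by
  simp only [cY, cR, lau, j2, ct]
  field_simp
  ring

theorem rel (hu : 0 < u) (hs : sg2 γ u = (L * u) ^ 2) : 2 * γ / u = L ^ 2 - 1 + 2 * γ := by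
  rw [sg2] at hs
  rw [div_eq_iff hu.ne']
  exact mul_left_cancel₀ hu.ne' (by linarith)

theorem K0_nonneg (h0 : 0 < γ) (h1 : γ ≤ 1 / 2) (hu : 0 < u) :
    0 ≤ K0 (nq (2 * γ) (2 * γ / u) L n w) := by
  have : 0 ≤ 1128 + -300 * (2 * γ) := by linarith
  simp only [K0, G2, z2, lin, i, nq]
  push_cast
  positivity

theorem X_nonneg (h0 : 0 < γ) (h1 : γ ≤ 1 / 2) {p : ℝ} (hu : 0 < u) (hp : p ^ 2 ≤ sg2 γ u) :
    0 ≤ cX γ u p := by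
  have h2 := c4_sgpos h0 h1 hu
  have h3 := Real.sqrt_pos.2 h2
  obtain ⟨L, hL⟩ : ∃ L, √(sg2 γ u) = L * u := ⟨_, (div_mul_cancel₀ _ hu.ne').symm⟩
  have hs : sg2 γ u = (L * u) ^ 2 := by rw [← hL, Real.sq_sqrt h2.le]
  rw [hL] at h3
  have L0 := (mul_pos_iff_of_pos_right hu).1 h3
  obtain ⟨x, rfl⟩ : ∃ x, p = L * u * (1 - x) := ⟨1 - p / (L * u), by field_simp; ring⟩
  have hx : 0 ≤ x := by
    rw [hs] at hp
    exact nonneg_of_mul_nonneg_right (by linarith [(abs_le_of_sq_le_sq' hp h3.le).2]) h3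
  have k := (good_nq (n := 0) (w := 0) (by linarith) (by linarith) (by positivity) L0 (rel hu hs)
    ⟨le_rfl, zero_le_two⟩ ⟨le_rfl, zero_le_one⟩).2.2.2.2.2.2.2
  have k2 := K0_nonneg (L := L) (n := 0) (w := 0) h0 h1 hu
  refine nonneg_of_mul_nonneg_right (a := 2400 * γ ^ 3) ?_ (by positivity)
  rw [idX (n := 0) (w := 0) h0.ne' hu.ne']
  positivity

theorem main (h0 : 0 < γ) (h1 : γ ≤ 1 / 2) {σ W W₂ ι gx gy : ℝ} (hu : 0 < u) (hσ : 0 < σ)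
    (hs : σ ^ 2 = sg2 γ u) (hF : Feas 6 a a' W W₂ ι gx gy) :
    0 ≤ nB 6 γ (cX γ) (cXu γ) (cXp γ) u (σ * a) (σ * a') (ct γ u * a * a' - γ * W) +
      nB 6 γ (cX γ) (cXu γ) (cXp γ) u (σ * a') (σ * a) (ct γ u * a * a' - γ * W) +
      γ * (2 * ((6330 + 60 * γ) / 150) + ι * (cY γ u (σ * a') * (σ * a) + cY γ u (σ * a) * (σ * a')) +
        (cR γ u (σ * a') + cR γ u (σ * a)) * (ι * ct γ u * a * a' - γ * W₂) +
        cX γ u (σ * a) * gy + cX γ u (σ * a') * gx) := by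
  obtain ⟨b1, b2, i0, i1, hx, hy⟩ := hF.basic
  obtain ⟨c1, c2⟩ := hF.cof
  have c3 := hF.old
  clear hF
  obtain ⟨L, rfl⟩ : ∃ L, σ = L * u := ⟨_, (div_mul_cancel₀ _ hu.ne').symm⟩
  have L0 := (mul_pos_iff_of_pos_right hu).1 hσ
  have hr := rel hu hs.symm
  obtain ⟨a1, a2⟩ := abs_le_of_sq_le_sq' (b1.trans_eq (one_pow 2).symm) zero_le_one
  obtain ⟨a3, a4⟩ := abs_le_of_sq_le_sq' (b2.trans_eq (one_pow 2).symm) zero_le_one
  obtain ⟨x, x0, rfl⟩ : ∃ x, 0 ≤ x ∧ a = 1 - x ^ 2 :=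
    ⟨√(1 - a), Real.sqrt_nonneg _, by rw [Real.sq_sqrt (by linarith), sub_sub_cancel]⟩
  obtain ⟨y, y0, rfl⟩ : ∃ y, 0 ≤ y ∧ a' = 1 - y ^ 2 :=
    ⟨√(1 - a'), Real.sqrt_nonneg _, by rw [Real.sq_sqrt (by linarith), sub_sub_cancel]⟩
  have n0 := mul_nonneg x0 y0
  have w0 : 0 ≤ (x - y) ^ 2 / 2 := by positivity
  have w1 : (x - y) ^ 2 / 2 ≤ 1 := by
    rcases le_total x y with h | h
    · linarith [mul_nonneg x0 (sub_nonneg.2 h)]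
    · linarith [mul_nonneg y0 (sub_nonneg.2 h)]
  obtain ⟨g1, g2, g3, g4, g5, g6, g7, g8⟩ := good_nq (n := x * y) (w := (x - y) ^ 2 / 2)
    (by linarith) (by linarith) (by positivity) L0 hr ⟨n0, by linarith⟩ ⟨w0, w1⟩
  have e1 : ro (nq (2 * γ) (2 * γ / u) L (x * y) ((x - y) ^ 2 / 2)) = 1 - x ^ 2 + (1 - y ^ 2) := by
    simp only [ro, nq, i]
    push_cast
    ring
  have e2 : ab (nq (2 * γ) (2 * γ / u) L (x * y) ((x - y) ^ 2 / 2)) = (1 - x ^ 2) * (1 - y ^ 2) := by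
    simp only [ab, e1]
    simp only [nq, i]
    push_cast
    ring
  have e3 : Nb (nq (2 * γ) (2 * γ / u) L (x * y) ((x - y) ^ 2 / 2)) =
      x * y * (2 - (x ^ 2 + y ^ 2) / 2) := by
    simp only [Nb, nq, i]
    push_cast
    ring
  have n1 : 0 ≤ x * y * (2 - (x ^ 2 + y ^ 2) / 2) := mul_nonneg n0 (by linarith)
  have n2 : √((1 - (1 - x ^ 2) ^ 2) * (1 - (1 - y ^ 2) ^ 2)) ≤ x * y * (2 - (x ^ 2 + y ^ 2) / 2) :=
    Real.sqrt_le_iff.2 ⟨n1, by linarith [sq_nonneg (x * y * (x ^ 2 - y ^ 2))]⟩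
  have k0 := K0_nonneg (L := L) (n := x * y) (w := (x - y) ^ 2 / 2) h0 h1 hu
  have d1 := idS h0.ne' hu.ne' hs.symm W e1 e2
  have d2 := idR (L := L) (n := x * y) (w := (x - y) ^ 2 / 2) h0.ne' hu.ne' (L * u * (1 - x ^ 2))
  have d2' := idR (L := L) (n := x * y) (w := (x - y) ^ 2 / 2) h0.ne' hu.ne' (L * u * (1 - y ^ 2))
  have d3 := idX (L := L) (n := x * y) (w := (x - y) ^ 2 / 2) h0.ne' hu.ne' (x ^ 2)
  have d4 := idX (L := L) (n := x * y) (w := (x - y) ^ 2 / 2) h0.ne' hu.ne' (y ^ 2)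
  have d5 := idT (n := x * y) (w := (x - y) ^ 2 / 2) hr
  have d6 := idJ (L := L) (a := 1 - x ^ 2) (a' := 1 - y ^ 2) h0.ne' hu.ne'
  rw [← hr, div_self (by positivity), ← e1, ← e2, ← d5] at d6
  have e4 : M (nq (2 * γ) (2 * γ / u) L (x * y) ((x - y) ^ 2 / 2)) = 2 * ((1 - x ^ 2) * (1 - y ^ 2)) *
      (2 * γ / u * X0 (nq (2 * γ) (2 * γ / u) L (x * y) ((x - y) ^ 2 / 2)) +
        2 * γ / u * (L * K0 (nq (2 * γ) (2 * γ / u) L (x * y) ((x - y) ^ 2 / 2))) * (x * y)) := by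
    simp only [M, e2, zL]
    simp only [nq, i, one_mul, Int.cast_ofNat]
  have t1 : 0 ≤ Tp (nq (2 * γ) (2 * γ / u) L (x * y) ((x - y) ^ 2 / 2)) := g1.elim (fun h =>
    add_nonneg (mul_nonneg (mul_nonneg (by norm_num [i]) (mul_self_nonneg _)) g7)
      (mul_nonneg w0 h)) id
  have t2 : 0 ≤ Tm (nq (2 * γ) (2 * γ / u) L (x * y) ((x - y) ^ 2 / 2)) := g2.elim (fun h =>
    add_nonneg t1 (mul_nonneg (by norm_num [i]) (mul_nonneg h (e3 ▸ n1)))) id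
  simp only [Tm, Ua, Ub, Uc, Ud, SM, c, e3, i, Int.cast_ofNat] at t2 g3 g4 g5 g6 d6
  have p1 : 0 ≤ 2 * γ / u * X0 (nq (2 * γ) (2 * γ / u) L (x * y) ((x - y) ^ 2 / 2)) := by positivity
  have p2 : 0 ≤ 2 * γ / u * (L * K0 (nq (2 * γ) (2 * γ / u) L (x * y) ((x - y) ^ 2 / 2))) := by
    positivity
  have q1 := mul_le_mul_of_nonneg_left (amgm (s := 1) (t := 1) hx hy c3) p1
  have q2 := mul_le_mul_of_nonneg_left (amgm (s := x) (t := y) hx hy c3) p2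
  have k := comb i0.le i1 n2 c1 c2 t1 t2 g3 g4 g5 g6 (Γ := 2400 * γ ^ 3 *
    (cX γ u (L * u * (1 - x ^ 2)) * gy + cX γ u (L * u * (1 - y ^ 2)) * gx)) (by
      rw [e4]
      linear_combination q1 + q2 - gy * d3 - gx * d4)
  refine nonneg_of_mul_nonneg_right (a := 2400 * γ ^ 2) ?_ (by positivity)
  linear_combination k - d1 - ι * d6 + W₂ / 2 * d2 + W₂ / 2 * d2'

theorem ray (h0 : γ ≠ 0) (hu : u ≠ 0) (q : ℝ) :
    nD2 6 γ (cY γ) (cYu γ) (cYq γ) (cR γ) (cRu γ) (cRq) u q =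
      (q - u) * ((17 - 32 * γ) * (2 * γ + 12 / 5 * (1 - 2 * γ) * u) / (γ * u ^ 2)) := by
  simp only [nD2, nD, cY, cYu, cYq, cR, cRu, cRq, lau, lau', ct, sg2]
  push_cast
  field_simp
  ring

theorem sing (h0 : 0 < γ) (h1 : γ ≤ 1 / 2) {l : ℝ} (hl : 0 < l) :
    ∃ u₀ : ℝ, 0 < u₀ ∧ ∀ u p, 0 < u → u ≤ u₀ → p ^ 2 ≤ sg2 γ u → |√u ^ 6 * cX γ u p - 1| ≤ l := by
  obtain ⟨δ, d0, d1, h⟩ := small (Φ := fun z => z.1 * ((1000 - 440 * γ + (216 + 90 * γ) / γ) / 300 +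
    (830 + 1160 * γ + (564 - 300 * γ) / γ) / 300 * z.1 ^ 2) -
      (216 + 90 * γ + (564 - 300 * γ) * z.1 ^ 2) / (300 * γ) * z.2.1) (by fun_prop) hl
  refine ⟨δ ^ 2, by positivity, fun u p hu hu' hp => ?_⟩
  have hp' := hp.trans (sg2_le h1 hu (hu'.trans (pow_le_one₀ d0.le d1)))
  obtain ⟨r, r0, rfl⟩ : ∃ r, 0 < r ∧ u = r ^ 2 := ⟨_, Real.sqrt_pos.2 hu, (Real.sq_sqrt hu.le).symm⟩
  refine le_of_eq_of_le (congrArg _ ?_) (h r (p / r) 0 r0.le (abs_le_of_sq_le_sq' hu' d0.le).2 ?_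
    (abs_zero.trans_le zero_le_one))
  · simp only [Real.sqrt_sq r0.le, cX, lau]
    field_simp
    ring
  · rw [abs_div, abs_of_pos r0, div_le_one r0]
    exact abs_le_of_sq_le_sq hp' r0.le

theorem near (h0 : 0 < γ) (h1 : γ ≤ 1 / 2) :
    ∃ B : ℝ, ∀ l : ℝ, 0 < l → ∃ u₀ : ℝ, 0 < u₀ ∧ ∀ u q, 0 < u → u ≤ u₀ → q ^ 2 ≤ sg2 γ u →
      |nφ 6 γ (cY γ) (cR γ) u q| ≤ B ∧ (0 ≤ q → -l ≤ nφ 6 γ (cY γ) (cR γ) u q) ∧
        (q ≤ 0 → nφ 6 γ (cY γ) (cR γ) u q ≤ l) := by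
  refine ⟨(216 + 90 * γ) / (300 * γ) + 1, fun l hl => ?_⟩
  obtain ⟨δ, d0, d1, h⟩ := small (Φ := fun z => (2 * γ + (1 - 2 * γ) * z.1) ^ 3 *
    (z.2.2 * (-216 + 974 * γ - 520 * γ ^ 2 + (-1264 + 5940 * γ - 6260 * γ ^ 2) * z.1 +
      (2180 - 10100 * γ + 11480 * γ ^ 2) * z.1 ^ 2) / (300 * γ ^ 2) +
      z.2.1 * z.1 * (-2040 + 3840 * γ) / (300 * γ)) +
    (2 * γ + (1 - 2 * γ) * z.1) ^ 2 * (γ + (1 - 2 * γ) * z.1) * z.2.2 *
      (216 + 290 * γ - 880 * γ ^ 2 + (1264 - 6080 * γ + 8160 * γ ^ 2) * z.1 +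
        (-2180 + 10100 * γ - 11480 * γ ^ 2) * z.1 ^ 2) / (300 * γ ^ 2)) (by fun_prop)
    (lt_min hl one_pos)
  refine ⟨δ, d0, fun u q hu hu' hq => ?_⟩
  have s0 := c4_sgpos h0 h1 hu
  have s1 := sg2_le h1 hu (hu'.trans d1)
  have s2 := Real.sq_sqrt s0.le
  have s3 := Real.sqrt_pos.2 s0
  have s4 : |√(sg2 γ u) * q / u| ≤ 1 := by
    rw [abs_div, abs_of_pos hu, div_le_one hu, abs_mul, abs_of_pos s3]
    linarith [mul_le_mul_of_nonneg_left (Real.abs_le_sqrt hq) s3.le]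
  have k := h u √(sg2 γ u) (√(sg2 γ u) * q / u) hu.le hu'
    ((abs_of_pos s3).trans_le (Real.sqrt_le_one.2 (by linarith))) s4
  have t0 : 0 ≤ 2 * γ + (1 - 2 * γ) * u := by
    linarith [mul_nonneg (show 0 ≤ 1 - 2 * γ by linarith) hu.le]
  have t1 : 2 * γ + (1 - 2 * γ) * u ≤ 1 := by
    linarith [mul_nonneg (show 0 ≤ 1 - 2 * γ by linarith) (sub_nonneg.2 (hu'.trans d1))]
  have t2 : 0 ≤ (2 * γ + (1 - 2 * γ) * u) ^ 3 * ((216 + 90 * γ) / (300 * γ)) := by positivity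
  have t3 : (2 * γ + (1 - 2 * γ) * u) ^ 3 * ((216 + 90 * γ) / (300 * γ)) ≤
      (216 + 90 * γ) / (300 * γ) := mul_le_of_le_one_left (by positivity) (pow_le_one₀ t0 t1)
  generalize hE : u * _ = E at k
  have e : nφ 6 γ (cY γ) (cR γ) u q = (2 * γ + (1 - 2 * γ) * u) ^ 3 * ((216 + 90 * γ) / (300 * γ)) *
      (√(sg2 γ u) * q / u) + E := by
    rw [← hE, nφ, show √(sg2 γ u) ^ (6 + 1) = (√(sg2 γ u) ^ 2) ^ 3 * √(sg2 γ u) by ring,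
      show √(sg2 γ u) ^ (6 - 1) = (√(sg2 γ u) ^ 2) ^ 2 * √(sg2 γ u) by ring, s2]
    generalize √(sg2 γ u) = s
    simp only [cY, cR, lau, ct, sg2]
    field_simp
    ring
  obtain ⟨k1, k2⟩ := abs_le.1 (k.trans (min_le_left _ _))
  obtain ⟨k3, k4⟩ := abs_le.1 (k.trans (min_le_right _ _))
  obtain ⟨k5, k6⟩ := abs_le.1 s4
  rw [e]
  refine ⟨abs_le.2 ⟨?_, ?_⟩, fun hq => ?_, fun hq => ?_⟩
  · linarith [mul_le_mul_of_nonneg_left k5 t2]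
  · linarith [mul_le_mul_of_nonneg_left k6 t2]
  · linarith [mul_nonneg t2 (show 0 ≤ √(sg2 γ u) * q / u by positivity)]
  · linarith [mul_nonpos_of_nonneg_of_nonpos t2
      (div_nonpos_of_nonpos_of_nonneg (mul_nonpos_of_nonneg_of_nonpos s3.le hq) hu.le)]

end C6

open C6 in
theorem ncert6 {γ : ℝ} (h0 : 0 < γ) (h1 : γ ≤ 1 / 2) : Nonempty (NCert2 6 γ) := by
  have p : ∀ u : ℝ, 0 < u → 0 < (17 - 32 * γ) * (2 * γ + 12 / 5 * (1 - 2 * γ) * u) / (γ * u ^ 2) :=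
    fun u hu => by
      have : 0 < 17 - 32 * γ := by linarith
      have : 0 ≤ 1 - 2 * γ := by linarith
      positivity
  refine ⟨⟨cX γ, cXu γ, cXp γ, cY γ, cYu γ, cYq γ, cR γ, cRu γ, cRq, (6330 + 60 * γ) / 150, 1,
    by positivity, one_pos, der_lau .., der_lau .., der_lau .., fun u p => X_nonneg h0 h1,
    fun l hl => sing h0 h1 hl, fun u σ a a' W W₂ ι gx gy => main h0 h1, fun u q hu _ h => ?_,
    fun u q hu _ h => ?_, near h0 h1, fun u hu _ => le_of_eq ?_⟩⟩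
  · rw [ray h0.ne' hu.ne']
    exact mul_pos (sub_pos.2 h) (p u hu)
  · rw [ray h0.ne' hu.ne']
    exact mul_nonpos_of_nonpos_of_nonneg (sub_nonpos.2 h) (p u hu).le
  · simp only [cX, cXu, cXp, cY, cR, lau, lau']
    push_cast
    field_simp
    ring

end Vale.Agent.P219
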