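import Vale.Agent.P219.G.CertH

/-! The certificate for `γ = 1 / 2` and `m = 7`. -/

namespace Vale.Agent.P219

open Mp.Pw

/-- The numerators. -/
def hd7 : HD :=
  ⟨6, [1400, 1050, -1556, 16380, -13046, 15946], [1432, 5320, 3338, 2569],
    [1432, 6720, -4310, 11585, -12606, 10766], [1432, 7140, 44470, -151900, 133320, 11326],
    [0, 2100, -22960, 99120, -130900, 53270], 127316⟩

theorem h7_1 : ok [true, true, true] (hd7.cA.headD 0) 285695386384 = true := by
  decide +kernel

theorem h7_2 : ok [true, true, true] (hd7.cA.tail.headD 0) 3789505492 = true := by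
  decide +kernel

theorem h7_3 : oks [true, true, true] hd7.cA.tail.tail [32297547820, 3523203124] = true := by
  decide +kernel

theorem h7_4 : oks [true, true, true] hd7.cB [29, 29, 29, 29] = true := by decide +kernel

theorem h7_5 : oks [false, true, true] hd7.cC [3, 3, 3, 3] = true := by decide +kernel

theorem ncert7h : Nonempty (NCert2 7 (1 / 2)) :=
  ncert_half hd7 (t := [3, 29, 21203, 21323, 3, 3, 3]) (tD := [29, 29]) (by decide +kernel)
    (oks_cons h7_1 (oks_cons h7_2 h7_3)) h7_4 h7_5 (by decide +kernel) (by decide) (by decide)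
    (by decide)

end Vale.Agent.P219
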