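import Vale.Agent.P219.G.CertH

/-! The certificate for `γ = 1 / 2` and `m = 8`. -/

namespace Vale.Agent.P219

open Mp.Pw

/-- The numerators. -/
def hd8 : HD :=
  ⟨7, [400, 0, 1440, 0, 3039, 0, 5196], [1116, 0, 3372, 0, 4448],
    [1116, 0, 2420, 0, 1756, 0, 10], [1116, 0, 2484, 0, 1708, 0, 70],
    [0, 0, 1592, 0, 3536], 72734⟩

theorem h8_1 : ok [true, true, true] (hd8.cA.headD 0) 2571629232634 = true := by
  decide +kernel

theorem h8_2 : ok [true, true, true] (hd8.cA.tail.headD 0) 17249768969027002 = true := by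
  decide +kernel

theorem h8_3 : oks [true, true, true] hd8.cA.tail.tail [12296804358126284944, 2615453155240] = true := by
  decide +kernel

theorem h8_4 : oks [true, true, true] hd8.cB [29, 29, 29, 29] = true := by decide +kernel

theorem h8_5 : oks [false, true, true] hd8.cC [3, 3, 3, 3] = true := by decide +kernel

theorem ncert8h : Nonempty (NCert2 8 (1 / 2)) :=
  ncert_half hd8 (t := [3, 29, 3, 29, 3, 3, 3]) (tD := [60950, 2387]) (by decide +kernel)
    (oks_cons h8_1 (oks_cons h8_2 h8_3)) h8_4 h8_5 (by decide +kernel) (by decide) (by decide)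
    (by decide)

end Vale.Agent.P219
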