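import Vale.Agent.P219.G.All
import Vale.Agent.P219.G.Cert2
import Vale.Agent.P219.G.Cert6
import Vale.Agent.P219.G.Cert7h
import Vale.Agent.P219.G.Cert8h

/-!
# The certified dimensions, second list
-/

namespace Vale.Agent.P219

open Vale.Agent.P255

theorem gam_zero (ρ : ℝ) : gam 0 ρ = 1 / 2 := by
  simp [gam, cs]

theorem core9 {m : ℕ} (h2 : 2 ≤ m) (h8 : m ≤ 8) {b : ℝ} (h : m ≤ 6 ∨ b = 0)
    (G : Euc (m + 1) → Bil (Euc (m + 1)))
    (L : Euc (m + 1) → Euc (m + 1) → Euc (m + 1)) (hP : PackK b G L) (c ρ : ℝ) (hρ : 0 < ρ) :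
    CoreP m b G L c ρ := by
  obtain ⟨h0, h1⟩ := gam_mem b ρ
  by_cases h35 : 3 ≤ m ∧ m ≤ 5
  · exact core456 h35.1 h35.2 G L hP c ρ hρ
  refine coreN2 h2 hρ ?_ hP c
  have hm : m = 2 ∨ m = 6 ∨ m = 7 ∨ m = 8 := by omega
  rcases hm with rfl | rfl | rfl | rfl
  · exact ncert2 h0 h1
  · exact ncert6 h0 h1
  · obtain rfl : b = 0 := h.resolve_left (by omega)
    rw [gam_zero]; exact ncert7h
  · obtain rfl : b = 0 := h.resolve_left (by omega)
    rw [gam_zero]; exact ncert8h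

end Vale.Agent.P219
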