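import Vale.Agent.P219.G.Prof
import Vale.Agent.P219.Cyl

/-!
# Integrals of axially symmetric functions  (TASK)

Generalise `Cyl.lean` (dimension five) to dimension `m + 1`: `E ≃ ℝ × Euc m` preserving volume, `cyl_rad` in `Euc m` (nontrivial as `1 ≤ m`), then polar coordinates in the upper half plane
(`lintegral_comp_polarCoord_symm`): `t = r cos α`, `σ = r sin α`, weight `σ^(m-1) r`.  This gives the formula with some finite constant `c` (independent of `f`); identify `c` with `cm`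
by taking `f = indicator {r < 1}`: `om = c * Sm / (m + 1)` (`Sm_pos`).  Tonelli for the order of integration.
`ang`: `exists_sqrt` gives `P` with `B u v = ⟪P u, P v⟫`, `wt B = |det P|`; substitute `v = P⁻¹ v'` (`Measure.map_linearMap_addHaar_eq_smul_addHaar`, `lintegral_map`); for `N ≠ 0`, `N v = dn * ⟪P ν, P v⟫`
(`nu_spec`); `axial` with `f (r, β) = k (c r) * ofReal (r |β|)`; `∫₀^π |cos| sin^(m-1) = 2 / m`; scale `r` (`lintegral_comp_mul_left`-type lemma, `Real.map_volume_mul_left`).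
-/

namespace Vale.Agent.P219

open scoped ContDiff Topology RealInnerProductSpace ENNReal
open MeasureTheory Set Filter Vale.Agent.P255
open St (sn gmod)

variable {E : Type*} [NormedAddCommGroup E] [InnerProductSpace ℝ E] [FiniteDimensional ℝ E]
  [MeasurableSpace E] [BorelSpace E] {G : E → Bil E} {L : E → E → E} {K : Set E} {m : ℕ} {b : ℝ}

theorem cm_pos (E : Type*) [NormedAddCommGroup E] [InnerProductSpace ℝ E] [FiniteDimensional ℝ E]
    [MeasurableSpace E] [BorelSpace E] (m : ℕ) : 0 < cm E m :=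
  div_pos (mul_pos (by positivity) (ENNReal.toReal_pos
    (Metric.measure_ball_pos volume (0 : E) one_pos).ne' measure_ball_lt_top.ne)) (Sm_pos m)

theorem cm_mul_Sm (m : ℕ) : cm E m * Sm m = (m + 1) * om E := div_mul_cancel₀ _ (Sm_pos m).ne'

theorem axial_lin {a b : ℝ} (hab : a ≤ b) {φ : ℝ → ℝ} (hφ : Continuous φ)
    (h0 : ∀ x ∈ Ioo a b, 0 ≤ φ x) :
    ∫⁻ x in Ioo a b, ENNReal.ofReal (φ x) = ENNReal.ofReal (∫ x in a..b, φ x) := by
  rw [intervalIntegral.integral_of_le hab, integral_Ioc_eq_integral_Ioo,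
    ofReal_integral_eq_lintegral_ofReal (hφ.integrableOn_Icc.mono_set Ioo_subset_Icc_self)
      ((ae_restrict_iff' measurableSet_Ioo).2 (ae_of_all _ h0))]

theorem axial_plane (n : ℕ) {g : ℝ × ℝ → ℝ≥0∞} (hg : Measurable g) :
    ∫⁻ t : ℝ, ∫⁻ s in Ioi (0 : ℝ), ENNReal.ofReal (s ^ n) * g (√(t ^ 2 + s ^ 2), t) =
      ∫⁻ α in Ioo 0 Real.pi, ENNReal.ofReal (Real.sin α ^ n) *
        ∫⁻ r in Ioi (0 : ℝ), ENNReal.ofReal (r ^ (n + 1)) * g (r, r * Real.cos α) := by
  have hG : Measurable fun p : ℝ × ℝ => (Ioi (0 : ℝ)).indicator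
      (fun s => ENNReal.ofReal (s ^ n) * g (√(p.1 ^ 2 + s ^ 2), p.1)) p.2 :=
    Measurable.indicator (f := fun p : ℝ × ℝ =>
      ENNReal.ofReal (p.2 ^ n) * g (√(p.1 ^ 2 + p.2 ^ 2), p.1)) (by fun_prop)
      (measurable_snd measurableSet_Ioi)
  have hp := Real.pi_pos
  simp only [← lintegral_indicator measurableSet_Ioi (μ := volume)
    (fun s => ENNReal.ofReal (s ^ n) * g (√(_ ^ 2 + s ^ 2), _))]
  rw [← lintegral_prod _ hG.aemeasurable, ← Measure.volume_eq_prod,
    ← lintegral_comp_polarCoord_symm, polarCoord_target, Measure.volume_eq_prod,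
    setLIntegral_prod_symm _ (Measurable.aemeasurable (by
      exact (measurable_fst.ennreal_ofReal).smul (hG.comp continuous_polarCoord_symm.measurable))),
    ← inter_eq_left.2 (Ioo_subset_Ioo_left (by linarith) : Ioo 0 Real.pi ⊆ Ioo (-Real.pi) Real.pi),
    ← Measure.restrict_restrict measurableSet_Ioo,
    ← lintegral_indicator (s := Ioo 0 Real.pi) measurableSet_Ioo]
  refine setLIntegral_congr_fun measurableSet_Ioo fun x hx => ?_
  simp only [polarCoord_symm_apply, smul_eq_mul]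
  by_cases h : x ∈ Ioo 0 Real.pi
  · have hs := Real.sin_pos_of_pos_of_lt_pi h.1 h.2
    rw [indicator_of_mem h, ← lintegral_const_mul' _ _ ENNReal.ofReal_ne_top]
    refine setLIntegral_congr_fun measurableSet_Ioi fun r hr => ?_
    have hr0 : (0 : ℝ) < r := hr
    have h3 : (r * Real.cos x) ^ 2 + (r * Real.sin x) ^ 2 = r ^ 2 := by
      rw [mul_pow, mul_pow, ← mul_add, Real.cos_sq_add_sin_sq, mul_one]
    rw [indicator_of_mem (show r * Real.sin x ∈ Ioi 0 from mul_pos hr0 hs), h3,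
      Real.sqrt_sq hr0.le, ← mul_assoc, ← mul_assoc, ← ENNReal.ofReal_mul hr0.le,
      ← ENNReal.ofReal_mul (pow_nonneg hs.le _)]
    congr 2
    ring
  · rw [indicator_of_notMem h]
    have hx0 : x ≤ 0 := not_lt.1 fun h0 => h ⟨h0, hx.2⟩
    have hs := Real.sin_nonpos_of_nonpos_of_neg_pi_le hx0 hx.1.le
    refine (setLIntegral_congr_fun measurableSet_Ioi fun r hr => ?_).trans lintegral_zero
    have hr0 : (0 : ℝ) < r := hr
    rw [indicator_of_notMem (show r * Real.sin x ∉ Ioi 0 from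
      not_lt.2 (mul_nonpos_of_nonneg_of_nonpos hr0.le hs)), mul_zero]

theorem axial_euc (m : ℕ) {f : ℝ × ℝ → ℝ≥0∞} (hf : Measurable f) :
    ∫⁻ v : Euc (m + 1), f (‖v‖, v 0) = ∫⁻ t : ℝ, ∫⁻ z : Euc m, f (√(t ^ 2 + ‖z‖ ^ 2), t) := by
  have hG : Measurable fun p : ℝ × Euc m => f (√(p.1 ^ 2 + ‖p.2‖ ^ 2), p.1) := by fun_prop
  have m1 := PiLp.volume_preserving_ofLp (Fin (m + 1))
  have m2 := volume_preserving_piFinSuccAbove (fun _ : Fin (m + 1) => ℝ) 0
  have m3 := (MeasurePreserving.id (volume : Measure ℝ)).prod (PiLp.volume_preserving_toLp (Fin m))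
  rw [← Measure.volume_eq_prod] at m3
  rw [← lintegral_prod _ hG.aemeasurable, ← ((m3.comp m2).comp m1).lintegral_comp hG]
  refine lintegral_congr fun v => ?_
  congr 2
  rw [EuclideanSpace.real_norm_sq_eq, EuclideanSpace.norm_eq]
  simp [Fin.sum_univ_succ, MeasurableEquiv.piFinSuccAbove, Fin.tail]

theorem axial_ex (hE : Module.finrank ℝ E = m + 1) (hm : 1 ≤ m) {e : E} (he : ‖e‖ = 1) :
    ∃ c : ℝ≥0∞, c ≠ ⊤ ∧ ∀ f : ℝ × ℝ → ℝ≥0∞, Measurable f →
      ∫⁻ v : E, f (‖v‖, ⟪e, v⟫ / ‖v‖) = c *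
      ∫⁻ α in Ioo 0 Real.pi, ENNReal.ofReal (Real.sin α ^ (m - 1)) *
        ∫⁻ r in Ioi (0 : ℝ), ENNReal.ofReal (r ^ m) * f (r, Real.cos α) := by
  obtain ⟨b, hb⟩ := Orthonormal.exists_orthonormalBasis_extension_of_card_eq (𝕜 := ℝ)
    (ι := Fin (m + 1)) (by simpa using hE) (v := fun _ => e) (s := {0})
    ⟨fun _ => he, fun i j hij => absurd (Subtype.ext (i.2.trans j.2.symm)) hij⟩
  have hb0 : b 0 = e := hb 0 rfl
  obtain ⟨n, rfl⟩ : ∃ n, m = n + 1 := ⟨m - 1, by omega⟩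
  refine ⟨(volume : Measure (Euc (n + 1))).toSphere univ, measure_ne_top _ _, fun f hf => ?_⟩
  have hg : Measurable fun p : ℝ × ℝ => f (p.1, p.2 / p.1) := by fun_prop
  have hG : Measurable fun v : Euc (n + 1 + 1) => f (‖v‖, v 0 / ‖v‖) := by fun_prop
  have h1 := b.measurePreserving_repr.lintegral_comp hG
  simp only [LinearIsometryEquiv.norm_map, b.repr_apply_apply, hb0] at h1
  have h2 := axial_plane n hg
  have h3 : ∀ α, ∫⁻ r in Ioi (0 : ℝ), ENNReal.ofReal (r ^ (n + 1)) * f (r, r * Real.cos α / r) =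
      ∫⁻ r in Ioi (0 : ℝ), ENNReal.ofReal (r ^ (n + 1)) * f (r, Real.cos α) := fun α =>
    setLIntegral_congr_fun measurableSet_Ioi fun r hr => by
      rw [mul_div_cancel_left₀ _ (ne_of_gt hr)]
  simp only [h3] at h2
  rw [h1, axial_euc (n + 1) hg, Nat.add_sub_cancel, ← h2,
    ← lintegral_const_mul' _ _ (measure_ne_top _ _)]
  refine lintegral_congr fun t => ?_
  rw [cyl_rad volume (g := fun s => f (√(t ^ 2 + s ^ 2), t / √(t ^ 2 + s ^ 2))) (by fun_prop)]
  simp

theorem axial_cos (n : ℕ) :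
    ∫ x in (0 : ℝ)..Real.pi, Real.sin x ^ n * |Real.cos x| = 2 / (n + 1) := by
  have hp := Real.pi_pos
  have hc : Continuous fun x => Real.sin x ^ n * |Real.cos x| := by fun_prop
  have h1 : ∀ a b : ℝ, ∫ x in a..b, Real.sin x ^ n * Real.cos x =
      (Real.sin b ^ (n + 1) - Real.sin a ^ (n + 1)) / (n + 1) := fun a b => by
    simpa using integral_sin_pow_mul_cos_pow_odd (a := a) (b := b) n 0
  have h2 : ∫ x in (0 : ℝ)..Real.pi / 2, Real.sin x ^ n * |Real.cos x| =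
      ∫ x in (0 : ℝ)..Real.pi / 2, Real.sin x ^ n * Real.cos x :=
    intervalIntegral.integral_congr fun x hx => by
      rw [uIcc_of_le (by linarith)] at hx
      rw [abs_of_nonneg (Real.cos_nonneg_of_neg_pi_div_two_le_of_le (by linarith [hx.1]) hx.2)]
  have h3 : ∫ x in Real.pi / 2..Real.pi, Real.sin x ^ n * |Real.cos x| =
      ∫ x in Real.pi / 2..Real.pi, -(Real.sin x ^ n * Real.cos x) :=
    intervalIntegral.integral_congr fun x hx => by
      rw [uIcc_of_le (by linarith)] at hx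
      rw [abs_of_nonpos (Real.cos_nonpos_of_pi_div_two_le_of_le hx.1 (by linarith [hx.2])), mul_neg]
  rw [← intervalIntegral.integral_add_adjacent_intervals (b := Real.pi / 2)
    (hc.intervalIntegrable _ _) (hc.intervalIntegrable _ _), h2, h3,
    intervalIntegral.integral_neg, h1, h1]
  simp
  ring

theorem axial_scale (n : ℕ) (k : ℝ → ℝ≥0∞) {c : ℝ} (hc : 0 < c) :
    ∫⁻ r in Ioi (0 : ℝ), ENNReal.ofReal (r ^ n) * k (c * r) =
      ENNReal.ofReal (c ^ (n + 1))⁻¹ * ∫⁻ r in Ioi (0 : ℝ), ENNReal.ofReal (r ^ n) * k r := by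
  have h := lintegral_image_eq_lintegral_abs_deriv_mul (s := Ioi (0 : ℝ)) (f := fun r => c * r)
    (f' := fun _ => c) measurableSet_Ioi
    (fun x _ => (by simpa using (hasDerivAt_id x).const_mul c : HasDerivAt _ c x).hasDerivWithinAt)
    (fun _ _ _ _ e => mul_left_cancel₀ hc.ne' e) fun r => ENNReal.ofReal (r ^ n) * k r
  rw [image_mul_left_Ioi hc, mul_zero] at h
  rw [h, ← lintegral_const_mul' _ _ ENNReal.ofReal_ne_top]
  refine lintegral_congr fun r => ?_
  rw [← mul_assoc, ← mul_assoc, ← ENNReal.ofReal_mul (by positivity),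
    ← ENNReal.ofReal_mul (by positivity), abs_of_pos hc]
  congr 2
  field_simp
  ring

theorem axial (hE : Module.finrank ℝ E = m + 1) (hm : 1 ≤ m) {e : E} (he : ‖e‖ = 1)
    {f : ℝ × ℝ → ℝ≥0∞} (hf : Measurable f) :
    ∫⁻ v : E, f (‖v‖, ⟪e, v⟫ / ‖v‖) = ENNReal.ofReal (cm E m) *
      ∫⁻ α in Ioo 0 Real.pi, ENNReal.ofReal (Real.sin α ^ (m - 1)) *
        ∫⁻ r in Ioi (0 : ℝ), ENNReal.ofReal (r ^ m) * f (r, Real.cos α) := by
  obtain ⟨c, hc, H⟩ := axial_ex hE hm he
  suffices c = ENNReal.ofReal (cm E m) from this ▸ H f hf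
  have ms : MeasurableSet {p : ℝ × ℝ | p.1 < 1} := measurable_fst measurableSet_Iio
  have h1 := H ({p : ℝ × ℝ | p.1 < 1}.indicator 1) (measurable_one.indicator ms)
  have h2 : ∀ v : E, {p : ℝ × ℝ | p.1 < 1}.indicator (1 : ℝ × ℝ → ℝ≥0∞) (‖v‖, ⟪e, v⟫ / ‖v‖) =
      (Metric.ball (0 : E) 1).indicator 1 v := fun v => by
    by_cases hv : ‖v‖ < 1 <;> simp [hv]
  have h3 : ∀ β : ℝ, ∫⁻ r in Ioi (0 : ℝ), ENNReal.ofReal (r ^ m) *
      {p : ℝ × ℝ | p.1 < 1}.indicator 1 (r, β) = ENNReal.ofReal (1 / (m + 1)) := fun β => by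
    have := axial_lin zero_le_one (φ := fun r => r ^ m) (by fun_prop) fun r hr => pow_nonneg hr.1.le _
    rw [integral_pow, one_pow, zero_pow m.succ_ne_zero, sub_zero, ← Iio_inter_Ioi,
      ← Measure.restrict_restrict measurableSet_Iio, ← lintegral_indicator measurableSet_Iio] at this
    rw [← this]
    refine lintegral_congr fun r => ?_
    by_cases hr : r < 1 <;> simp [hr]
  simp only [h2, h3] at h1
  rw [lintegral_indicator_one Metric.isOpen_ball.measurableSet,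
    lintegral_mul_const' _ _ ENNReal.ofReal_ne_top, axial_lin Real.pi_pos.le (by fun_prop)
      fun x hx => pow_nonneg (Real.sin_pos_of_pos_of_lt_pi hx.1 hx.2).le _] at h1
  have h4 := congrArg ENNReal.toReal h1
  have h5 := Sm_pos m
  rw [← Sm, ENNReal.toReal_mul, ENNReal.toReal_mul, ENNReal.toReal_ofReal (le_of_lt h5),
    ENNReal.toReal_ofReal (by positivity)] at h4
  rw [← ENNReal.ofReal_toReal hc, cm, om, h4]
  congr 1
  field_simp

theorem ang (hE : Module.finrank ℝ E = m + 1) (hm : 1 ≤ m) {B : Bil E} (hB : PosB B)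
    (N : E →L[ℝ] ℝ) {k : ℝ → ℝ≥0∞} (hk : Measurable k) {c : ℝ} (hc : 0 < c) :
    ∫⁻ v : E, k (c * √(B v v)) * ENNReal.ofReal |N v| =
      ENNReal.ofReal (2 * cm E m / m * ad B N / (wt B ^ 2 * c ^ (m + 2))) *
        ∫⁻ r in Ioi (0 : ℝ), ENNReal.ofReal (r ^ (m + 1)) * k r := by
  by_cases hN : N = 0
  · subst hN
    simp [ad_zero]
  obtain ⟨d0, n1, n2⟩ := nu_spec hB hN
  obtain ⟨P, hP, hw⟩ := exists_sqrt hB
  have w0 := wt_pos hB
  have he : ‖P (nu B N)‖ = 1 := by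
    rw [hP, real_inner_self_eq_norm_sq] at n1
    exact (pow_eq_one_iff_of_nonneg (norm_nonneg _) two_ne_zero).1 n1
  have hf : Measurable fun p : ℝ × ℝ =>
      k (c * p.1) * ENNReal.ofReal (dn B N * (p.1 * |p.2|)) := by fun_prop
  have h1 := axial hE hm he hf
  have hF : Measurable fun v : E => k (c * ‖v‖) *
      ENNReal.ofReal (dn B N * (‖v‖ * |⟪P (nu B N), v⟫ / ‖v‖|)) := by fun_prop
  have hd : LinearMap.det ((P : E →L[ℝ] E) : E →ₗ[ℝ] E) ≠ 0 := abs_pos.1 (hw ▸ w0)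
  have h2 := lintegral_map (μ := (volume : Measure E)) hF P.continuous.measurable
  have h3 : Measure.map P volume = ENNReal.ofReal (wt B)⁻¹ • (volume : Measure E) := by
    rw [hw, ← abs_inv]
    exact Measure.map_linearMap_addHaar_eq_smul_addHaar volume hd
  have h4 : ∀ v : E, k (c * √(B v v)) * ENNReal.ofReal |N v| = k (c * ‖P v‖) *
      ENNReal.ofReal (dn B N * (‖P v‖ * |⟪P (nu B N), P v⟫ / ‖P v‖|)) := fun v => by
    rw [n2, hP, hP, real_inner_self_eq_norm_sq, Real.sqrt_sq (norm_nonneg _), abs_mul,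
      abs_of_pos d0, abs_div, abs_norm]
    by_cases z : P v = 0
    · simp [z]
    · rw [mul_div_cancel₀ _ (norm_ne_zero_iff.2 z)]
  obtain ⟨n, rfl⟩ : ∃ n, m = n + 1 := ⟨m - 1, by omega⟩
  have h5 : ∀ α ∈ Ioo 0 Real.pi, ENNReal.ofReal (Real.sin α ^ (n + 1 - 1)) *
      ∫⁻ r in Ioi (0 : ℝ), ENNReal.ofReal (r ^ (n + 1)) *
        (k (c * r) * ENNReal.ofReal (dn B N * (r * |Real.cos α|))) =
      ENNReal.ofReal (Real.sin α ^ n * |Real.cos α|) * (ENNReal.ofReal (dn B N) *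
        ∫⁻ r in Ioi (0 : ℝ), ENNReal.ofReal (r ^ (n + 1 + 1)) * k (c * r)) := fun α hα => by
    rw [Nat.add_sub_cancel, ENNReal.ofReal_mul
      (pow_nonneg (Real.sin_pos_of_pos_of_lt_pi hα.1 hα.2).le _), mul_assoc,
      ← lintegral_const_mul' _ _ ENNReal.ofReal_ne_top,
      ← lintegral_const_mul' (ENNReal.ofReal (dn B N)) _ ENNReal.ofReal_ne_top,
      ← lintegral_const_mul' _ _ ENNReal.ofReal_ne_top,
      ← lintegral_const_mul' _ _ ENNReal.ofReal_ne_top]
    refine setLIntegral_congr_fun measurableSet_Ioi fun r hr => ?_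
    have hr0 : (0 : ℝ) ≤ r := le_of_lt hr
    rw [ENNReal.ofReal_mul d0.le, ENNReal.ofReal_mul hr0, pow_succ r (n + 1),
      ENNReal.ofReal_mul (pow_nonneg hr0 _)]
    ring
  simp only [h4]
  rw [← h2, h3, lintegral_smul_measure, h1, setLIntegral_congr_fun measurableSet_Ioo h5,
    lintegral_mul_const _ (by fun_prop), axial_lin Real.pi_pos.le (by fun_prop) fun x hx =>
      mul_nonneg (pow_nonneg (Real.sin_pos_of_pos_of_lt_pi hx.1 hx.2).le _) (abs_nonneg _),
    axial_cos, axial_scale _ k hc, smul_eq_mul]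
  have c0 := cm_pos E (n + 1)
  simp only [← mul_assoc]
  rw [← ENNReal.ofReal_mul (by positivity), ← ENNReal.ofReal_mul (by positivity),
    ← ENNReal.ofReal_mul (by positivity), ← ENNReal.ofReal_mul (by positivity), ad]
  congr 2
  push_cast
  field_simp

end Vale.Agent.P219
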