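import Vale.Agent.P219.G.Field

/-!
# A weighted barycentre  (TASK)

Let `Φ q = ∫ t in 0..q, σ t` and let `o ∈ KB G L c` (compact, `isCompact_KB`, contains `0` as `qq 0 0 = 0 ≤ c`) minimise the continuous function
`Ψ o = ∫ z, Φ (qq G L o z.1) ∂D.μ` (continuity: `continuous_parametric_integral_of_continuous` does not apply directly; use `continuous_of_dominated`/`continuousAt_of_dominated`
with a bound on a compact neighbourhood times `UB` (`isCompact_UB`, `D.supp`), or get continuity from the derivative below).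
For a vector `h`, `t ↦ Ψ (o + t • h)` has derivative `∫ σ (qq o z.1) * (-2 * G o (L o z.1) h) = -2 * G o v h` at `t = 0`
(`hasDerivAt_integral_of_dominated_loc_of_deriv_le` or `hasFDerivAt_integral_of_dominated_of_fderiv_le`, `hP.grad`, bound from compactness of `closedBall o 1 ×ˢ UB`;
`ContinuousLinearMap.integral_comp_comm`).  If `qq o 0 < c` then `o + t • h ∈ KB` for small `|t|`: take `h = v`.  If `qq o 0 = c`, take `h = v + L o 0`: by `Pack.outward`
`0 ≤ G o (L o 0) v`, the derivative of `t ↦ qq (o + t • h) 0` at `0` is `-2 * G o (L o 0) h ≤ -2 c < 0`, so `o + t • h ∈ KB` for small `t > 0`, so `-2 * G o v h ≥ 0`.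
-/

namespace Vale.Agent.P219

open scoped ContDiff Topology RealInnerProductSpace ENNReal
open MeasureTheory Set Filter Vale.Agent.P255
open St (sn gmod)

variable {E : Type*} [NormedAddCommGroup E] [InnerProductSpace ℝ E] [FiniteDimensional ℝ E]
  [MeasurableSpace E] [BorelSpace E] {G : E → Bil E} {L : E → E → E} {c : ℝ}

omit [MeasurableSpace E] [BorelSpace E] in
theorem bary1_q (hP : Pack G L) (y x : E) :
    HasFDerivAt (fun z => qq G L z x) ((-2 : ℝ) • G y (L y x)) y := by
  have h1 : DifferentiableAt ℝ (fun z => qq G L z x) y :=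
    ((hP.contDiff_qq.comp (contDiff_id.prodMk contDiff_const)).differentiable (by simp)) y
  have h2 : fderiv ℝ (fun z => qq G L z x) y = (-2 : ℝ) • G y (L y x) := by
    ext h
    rw [hP.grad, smul_apply, smul_eq_mul]
  exact h2 ▸ h1.hasFDerivAt

theorem bary1_int {F : Type*} [NormedAddCommGroup F] [SecondCountableTopology F] (hP : Pack G L)
    {K : Set E} (hK : IsCompact K) (D : NDom G K) {f : E × E → F} (hf : Continuous f) :
    Integrable f D.μ := by
  obtain ⟨C, hC⟩ := (isCompact_UB hP.loc hK).exists_bound_of_continuousOn hf.continuousOn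
  exact (integrable_const C).mono' hf.aestronglyMeasurable (D.supp.mono fun z hz => hC z hz)

theorem bary1_intv (hP : Pack G L) {K : Set E} (hK : IsCompact K) (D : NDom G K) {σ : ℝ → ℝ}
    (hσ : Continuous σ) (o : E) : Integrable (fun z : E × E => σ (qq G L o z.1) • L o z.1) D.μ :=
  bary1_int hP hK D ((hσ.comp (hP.contDiff_qq.continuous.comp
    (continuous_const.prodMk continuous_fst))).smul (cont_L hP continuous_const continuous_fst))

theorem bary1_deriv (hP : Pack G L) {K : Set E} (hK : IsCompact K) (D : NDom G K) {σ Φ : ℝ → ℝ}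
    (hσ : Continuous σ) (hΦ : ∀ q, HasDerivAt Φ (σ q) q) (o : E) :
    HasFDerivAt (fun o => ∫ z, Φ (qq G L o z.1) ∂D.μ)
      ((-2 : ℝ) • G o (∫ z, σ (qq G L o z.1) • L o z.1 ∂D.μ)) o := by
  have cΦ : Continuous Φ := continuous_iff_continuousAt.2 fun q => (hΦ q).continuousAt
  have cq : Continuous fun w : E × (E × E) => qq G L w.1 w.2.1 :=
    hP.contDiff_qq.continuous.comp (continuous_fst.prodMk continuous_snd.fst)
  have cF : Continuous fun w : E × (E × E) =>
      σ (qq G L w.1 w.2.1) • ((-2 : ℝ) • G w.1 (L w.1 w.2.1)) :=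
    (hσ.comp cq).smul ((((norm_contG hP.loc).comp continuous_fst).clm_apply
      (cont_L hP continuous_fst continuous_snd.fst)).const_smul (-2 : ℝ))
  have c0 : ∀ y : E, Continuous fun z : E × E => Φ (qq G L y z.1) := fun y =>
    cΦ.comp (cq.comp (continuous_const.prodMk continuous_id))
  obtain ⟨C, hC⟩ := ((isCompact_closedBall o 1).prod
    (isCompact_UB hP.loc hK)).exists_bound_of_continuousOn cF.continuousOn
  have h := hasFDerivAt_integral_of_dominated_of_fderiv_le (μ := D.μ) (𝕜 := ℝ)
    (F := fun y (z : E × E) => Φ (qq G L y z.1))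
    (F' := fun y (z : E × E) => σ (qq G L y z.1) • ((-2 : ℝ) • G y (L y z.1)))
    (bound := fun _ => C) (Metric.closedBall_mem_nhds o one_pos)
    (Eventually.of_forall fun y => (c0 y).aestronglyMeasurable) (bary1_int hP hK D (c0 o))
    (cF.comp (continuous_const.prodMk continuous_id)).aestronglyMeasurable
    (D.supp.mono fun z hz y hy => hC (y, z) ⟨hy, hz⟩) (integrable_const C)
    (Eventually.of_forall fun z y _ => (hΦ _).comp_hasFDerivAt y (bary1_q hP y z.1))
  have e : (∫ z, σ (qq G L o z.1) • ((-2 : ℝ) • G o (L o z.1)) ∂D.μ) =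
      (-2 : ℝ) • G o (∫ z, σ (qq G L o z.1) • L o z.1 ∂D.μ) := by
    rw [← ContinuousLinearMap.integral_comp_comm (G o) (bary1_intv hP hK D hσ o), ← integral_smul]
    refine integral_congr_ae (Eventually.of_forall fun z => ?_)
    simp only [map_smul]
    rw [smul_comm]
  exact e ▸ h

theorem Pack.exists_bary (hP : Pack G L) (hc : 0 < c) (D : NDom G (KB G L c)) {σ : ℝ → ℝ}
    (hσ : Continuous σ) (h0 : ∀ q, 0 ≤ σ q) :
    ∃ o ∈ KB G L c, G o (∫ z, σ (qq G L o z.1) • L o z.1 ∂D.μ)
      (∫ z, σ (qq G L o z.1) • L o z.1 ∂D.μ) ≤ 0 := by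
  have hK := hP.isCompact_KB c
  have hΦ : ∀ q, HasDerivAt (fun q => ∫ t in (0 : ℝ)..q, σ t) (σ q) q := fun q =>
    (hσ.integral_hasStrictDerivAt 0 q).hasDerivAt
  have hd := bary1_deriv hP hK D hσ hΦ
  have k0 : (0 : E) ∈ KB G L c := by
    show G 0 (L 0 0) (L 0 0) ≤ c
    rw [hP.self, map_zero]
    exact hc.le
  obtain ⟨o, ho, hmin⟩ := hK.exists_isMinOn ⟨0, k0⟩
    (fun o _ => (hd o).continuousAt.continuousWithinAt)
  refine ⟨o, ho, ?_⟩
  have hi := bary1_intv hP hK D hσ o
  have hout : qq G L o 0 = c → 0 ≤ G o (L o 0) (∫ z, σ (qq G L o z.1) • L o z.1 ∂D.μ) := by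
    intro e
    rw [← ContinuousLinearMap.integral_comp_comm (G o (L o 0)) hi]
    refine integral_nonneg_of_ae (D.supp.mono fun z hz => ?_)
    show 0 ≤ G o (L o 0) (σ (qq G L o z.1) • L o z.1)
    rw [map_smul, smul_eq_mul]
    exact mul_nonneg (h0 _) (hP.outward e hz.1)
  have key : ∀ h : E, (∀ᶠ t : ℝ in 𝓝[>] 0, o + t • h ∈ KB G L c) →
      G o (∫ z, σ (qq G L o z.1) • L o z.1 ∂D.μ) h ≤ 0 := fun h hh => by
    have := hmin.localize.hasFDerivWithinAt_nonneg (hd o).hasFDerivWithinAt
      (mem_posTangentConeAt_of_frequently_mem hh.frequently)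
    rw [smul_apply, smul_eq_mul] at this
    linarith
  generalize (∫ z, σ (qq G L o z.1) • L o z.1 ∂D.μ) = v at hout key ⊢
  have hs := (posB_of_loc hP.loc o).1
  rcases (show qq G L o 0 ≤ c from ho).eq_or_lt with e | e
  · have h1 := hout e
    have h2 : G o (L o 0) (L o 0) = c := e
    have h3 := ((bary1_q hP o 0).hasLineDerivAt (v + L o 0)).tendsto_slope_zero_right
    have h4 : ((-2 : ℝ) • G o (L o 0)) (v + L o 0) < 0 := by
      rw [smul_apply, map_add, smul_eq_mul]
      linarith
    have h5 := key (v + L o 0) (by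
      filter_upwards [h3.eventually (gt_mem_nhds h4), self_mem_nhdsWithin] with t ht t0
      have t1 : 0 < t⁻¹ := inv_pos.2 t0
      have := neg_of_mul_neg_right ht t1.le
      show qq G L (o + t • (v + L o 0)) 0 ≤ c
      linarith)
    rw [map_add, hs v (L o 0)] at h5
    linarith
  · refine key v (mem_nhdsWithin_of_mem_nhds ?_)
    have h1 : Continuous fun t : ℝ => qq G L (o + t • v) 0 :=
      hP.contDiff_qq.continuous.comp
        ((continuous_const.add (continuous_id.smul continuous_const)).prodMk continuous_const)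
    have h2 : qq G L (o + (0 : ℝ) • v) 0 < c := by rwa [zero_smul, add_zero]
    filter_upwards [h1.continuousAt.eventually (gt_mem_nhds h2)] with t ht
    exact ht.le

end Vale.Agent.P219
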