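import Vale.Agent.P219.G.Prof

/-!
# The constant of a certificate  (TASK)

Write `γ = gam b ρ`, `δ = 1 - 2γ`, `S = sn b ρ`, `ε = 1 / (2 S²)`, `h = hh b ρ`, `γ = ε / h²`, `δ ε = γ b²`.  For `β ∈ (0, 1)`: `u = ε wE β = 2 γ β² / (1 - δ β²) ∈ (0, 1)`, `(ε / h) h wE = u`,
`β² = u / (2γ + δ u)`, `(h wE / β)² = sg2 γ u / (γ ε)`.  Parametrise by `θ ∈ (0, π)` with `u = sin² (θ / 2)`, or by `u`: substituting `β = cos α` and `β = √(u / (2γ + δ u))`,
`cΦ (cos α) sin^(m-1) α dα = u Y(u,u) S^m 2^(m-1) √(u (1-u))^m / (u (1-u)) du`, while `Sm = ∫₀¹ 2^(m-1) √(u (1-u))^m / (u (1-u)) du` (substitute `u = (1 - cos θ) / 2`).  By `model` and `Y_pos`,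
`0 ≤ u Y(u,u) ≤ -(Bh + η)`, and `Bh u * √(u(1-u))^m / (u(1-u))` is the derivative of `2 X(u,u) √(u(1-u))^m`, which tends to `2 x₀` at `0` (`sing`) and to `0` at `1`.  So with the primitive
`Gf u = -S^m 2^m X(u,u) √(u(1-u))^m - η S^m 2^(m-1) ∫₀^u ..`, whose derivative is nonnegative, the integral is at most `Gf 1 - Gf 0 = χ₀ - η S^m Sm`
(`intervalIntegral.integrableOn_deriv_of_nonneg`, `integral_eq_sub_of_hasDeriv_right`, or `lintegral_image_eq_lintegral_abs_deriv_mul` for the substitutions).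
Alternative without substitutions: compose everything with `u (α)`, differentiate in `α ∈ (0, π/2)`, using `θ(α)` defined by `arccos (1 - 2 u(α))`.
-/

namespace Vale.Agent.P219

open scoped ContDiff Topology RealInnerProductSpace ENNReal
open MeasureTheory Set Filter Vale.Agent.P255
open St (sn gmod)

variable {m : ℕ} {b ρ : ℝ}

/-- The parameter of the model ball. -/
noncomputable def gam (b ρ : ℝ) : ℝ := 1 / (2 * cs b ρ ^ 2)

/-- The scale of the distance variable. -/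
noncomputable def eps (b ρ : ℝ) : ℝ := 1 / (2 * sn b ρ ^ 2)

theorem gam_mem (b ρ : ℝ) : 0 < gam b ρ ∧ gam b ρ ≤ 1 / 2 := by
  have h := one_le_cs b ρ
  refine ⟨by unfold gam; positivity, one_div_le_one_div_of_le two_pos (by nlinarith)⟩

theorem const_lint {f f' : ℝ → ℝ} {a c fa fc : ℝ} (hac : a < c)
    (hd : ∀ x ∈ Ioo a c, HasDerivAt f (f' x) x) (h0 : ∀ x ∈ Ioo a c, 0 ≤ f' x)
    (ha : Tendsto f (𝓝[>] a) (𝓝 fa)) (hc : Tendsto f (𝓝[<] c) (𝓝 fc)) :
    fa ≤ fc ∧ ∫⁻ x in Ioo a c, ENNReal.ofReal (f' x) = ENNReal.ofReal (fc - fa) := by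
  set F : ℝ → ℝ := Function.update (Function.update f a fa) c fc with hF
  have Fd : ∀ x ∈ Ioo a c, HasDerivAt F (f' x) x := by
    refine fun x hx => (hd x hx).congr_of_eventuallyEq ?_
    filter_upwards [Ioo_mem_nhds hx.1 hx.2] with _ hy
    rw [hF, Function.update_of_ne hy.2.ne, Function.update_of_ne hy.1.ne']
  have Fc : ContinuousOn F (Icc a c) := by
    rw [continuousOn_update_iff, continuousOn_update_iff, Icc_sdiff_right, Ico_sdiff_left]
    refine ⟨⟨fun z hz => (hd z hz).continuousAt.continuousWithinAt, ?_⟩, ?_⟩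
    · exact fun _ => ha.mono_left (nhdsWithin_mono _ Ioo_subset_Ioi_self)
    · rintro -
      refine (hc.congr' ?_).mono_left (nhdsWithin_mono _ Ico_subset_Iio_self)
      filter_upwards [Ioo_mem_nhdsLT hac] with _ hz using (Function.update_of_ne hz.1.ne' _ _).symm
  have hi := intervalIntegral.integrableOn_deriv_of_nonneg Fc Fd h0
  have e := intervalIntegral.integral_eq_sub_of_hasDerivAt_of_tendsto hac hd
    ((intervalIntegrable_iff_integrableOn_Ioc_of_le hac.le).2 hi) ha hc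
  rw [intervalIntegral.integral_of_le hac.le, integral_Ioc_eq_integral_Ioo] at e
  have n0 : 0 ≤ᵐ[volume.restrict (Ioo a c)] f' :=
    (ae_restrict_iff' measurableSet_Ioo).2 (ae_of_all _ h0)
  refine ⟨sub_nonneg.1 (e ▸ integral_nonneg_of_ae n0), ?_⟩
  rw [← e, ofReal_integral_eq_lintegral_ofReal (hi.mono_set Ioo_subset_Ioc_self) n0]

/-- denominator -/
noncomputable def cnD (g α : ℝ) : ℝ := Real.sin α ^ 2 + g ^ 2 * Real.cos α ^ 2

/-- normalised distance -/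
noncomputable def cnU (g α : ℝ) : ℝ := g ^ 2 * Real.cos α ^ 2 / cnD g α

/-- sine of the model angle -/
noncomputable def cnS (g α : ℝ) : ℝ := 2 * g * Real.sin α * Real.cos α / cnD g α

variable {g α : ℝ}

theorem cnD_pos (hg : 0 < g) (α : ℝ) : 0 < cnD g α := by
  have h := Real.sin_sq_add_cos_sq α
  have h2 : 0 < g ^ 2 := by positivity
  unfold cnD
  rcases eq_or_ne (Real.cos α) 0 with h1 | h1
  · rw [h1] at h ⊢
    nlinarith
  · positivity

theorem cnD_der (g α : ℝ) :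
    HasDerivAt (cnD g) (2 * Real.sin α * Real.cos α * (1 - g ^ 2)) α :=
  (((Real.hasDerivAt_sin α).pow 2).add (((Real.hasDerivAt_cos α).pow 2).const_mul (g ^ 2))).congr_deriv
    (by simp; ring)

theorem cnU_der (hg : 0 < g) (α : ℝ) : HasDerivAt (cnU g) (-(g / cnD g α * cnS g α)) α := by
  have h0 := (cnD_pos hg α).ne'
  refine ((((Real.hasDerivAt_cos α).pow 2).const_mul (g ^ 2)).div (cnD_der g α) h0).congr_deriv ?_
  have h := Real.sin_sq_add_cos_sq α
  simp only [cnS, Pi.pow_apply]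
  field_simp
  unfold cnD
  simp only [Nat.cast_ofNat, Nat.add_one_sub_one, pow_one]
  linear_combination (-2 * Real.sin α * Real.cos α) * h

theorem cnS_der (hg : 0 < g) (α : ℝ) :
    HasDerivAt (cnS g) (-((1 - 2 * cnU g α) * (2 * g / cnD g α))) α := by
  have h0 := (cnD_pos hg α).ne'
  refine (((((Real.hasDerivAt_sin α).const_mul (2 * g)).mul (Real.hasDerivAt_cos α))).div
    (cnD_der g α) h0).congr_deriv ?_
  have h := Real.sin_sq_add_cos_sq α
  simp only [cnU, Pi.mul_apply]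
  field_simp
  unfold cnD
  linear_combination (g ^ 2 * Real.cos α ^ 2 - Real.sin α ^ 2) * h

theorem cnS_sq (hg : 0 < g) (α : ℝ) : cnS g α ^ 2 = 4 * cnU g α * (1 - cnU g α) := by
  have h0 := (cnD_pos hg α).ne'
  simp only [cnS, cnU]
  field_simp
  unfold cnD
  ring

theorem cn_pos (hg : 0 < g) (hα : α ∈ Ioo 0 (Real.pi / 2)) :
    0 < cnS g α ∧ 0 < cnU g α ∧ cnU g α < 1 := by
  have h0 := cnD_pos hg α
  have h1 : 0 < Real.sin α := Real.sin_pos_of_pos_of_lt_pi hα.1 (by linarith [hα.2, Real.pi_pos])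
  have h2 : 0 < Real.cos α := Real.cos_pos_of_mem_Ioo ⟨by linarith [hα.1, Real.pi_pos], hα.2⟩
  refine ⟨by unfold cnS; positivity, by unfold cnU; positivity, (div_lt_one h0).2 ?_⟩
  unfold cnD
  nlinarith

theorem cn_sqrt (hg : 0 < g) (hα : α ∈ Ioo 0 (Real.pi / 2)) :
    √(1 - (1 - 2 * cnU g α) ^ 2) = cnS g α := by
  rw [show 1 - (1 - 2 * cnU g α) ^ 2 = cnS g α ^ 2 by rw [cnS_sq hg]; ring,
    Real.sqrt_sq (cn_pos hg hα).1.le]

theorem cnT_der (hg : 0 < g) (hα : α ∈ Ioo 0 (Real.pi / 2)) :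
    HasDerivAt (fun α => Real.arccos (1 - 2 * cnU g α)) (-(2 * g / cnD g α)) α := by
  obtain ⟨h1, h2, h3⟩ := cn_pos hg hα
  refine ((Real.hasDerivAt_arccos (by linarith) (by linarith)).comp α
    (((cnU_der hg α).const_mul 2).const_sub 1)).congr_deriv ?_
  rw [cn_sqrt hg hα]
  field_simp

theorem cn_sg2 {γ u : ℝ} (hγ : 0 < γ) (h0 : 0 < u) (h1 : u < 1) : u ^ 2 ≤ sg2 γ u := by
  unfold sg2
  nlinarith [mul_pos hγ (mul_pos h0 (sub_pos.2 h1))]

theorem const_core {γ : ℝ} (hγ : 0 < γ) (hm : 2 ≤ m) (N : NCert m γ) (hg : 0 < g) :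
    N.η * Sm m ≤ N.x₀ * 2 ^ m ∧ ∃ F : ℝ → ℝ, (∀ α ∈ Ioo 0 (Real.pi / 2), 0 ≤ F α ∧
      cnU g α * N.Y (cnU g α) (cnU g α) * (cnS g α ^ (m - 1) * (2 * g / cnD g α)) ≤ F α) ∧
      ∫⁻ α in Ioo 0 (Real.pi / 2), ENNReal.ofReal (F α) =
        ENNReal.ofReal (N.x₀ * 2 ^ m - N.η * Sm m) := by
  obtain ⟨k, rfl⟩ : ∃ k, m = k + 1 := ⟨m - 1, by omega⟩
  have cs : Continuous fun t => Real.sin t ^ k := by fun_prop
  set H : ℝ → ℝ := fun t => ∫ s in (0 : ℝ)..t, Real.sin s ^ k with hH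
  have Hd : ∀ t, HasDerivAt H (Real.sin t ^ k) t := fun t =>
    (cs.integral_hasStrictDerivAt 0 t).hasDerivAt
  have Hc : Continuous H := continuous_iff_continuousAt.2 fun t => (Hd t).continuousAt
  have Uc : Continuous (cnU g) := continuous_iff_continuousAt.2 fun t => (cnU_der hg t).continuousAt
  have Sc : Continuous (cnS g) := continuous_iff_continuousAt.2 fun t => (cnS_der hg t).continuousAt
  have Tc : Continuous fun α => H (Real.arccos (1 - 2 * cnU g α)) :=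
    Hc.comp (Real.continuous_arccos.comp (by fun_prop))
  set F : ℝ → ℝ := fun α => -(((k + 1 : ℕ) : ℝ) * N.X (cnU g α) (cnU g α) * (1 - 2 * cnU g α) +
    2 * cnU g α * (1 - cnU g α) * (N.Xu (cnU g α) (cnU g α) + N.Xp (cnU g α) (cnU g α)) + N.η) *
      (cnS g α ^ k * (2 * g / cnD g α)) with hF
  have b1 : ∀ α ∈ Ioo 0 (Real.pi / 2), 0 ≤ F α ∧
      cnU g α * N.Y (cnU g α) (cnU g α) * (cnS g α ^ k * (2 * g / cnD g α)) ≤ F α := by
    intro α hα
    obtain ⟨h1, h2, h3⟩ := cn_pos hg hα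
    have h4 := cnD_pos hg α
    have h5 : 0 ≤ cnS g α ^ k * (2 * g / cnD g α) := by positivity
    have h6 := mul_le_mul_of_nonneg_right (le_neg_iff_add_nonpos_left.2 (N.model _ h2 h3)) h5
    exact ⟨(mul_nonneg (mul_nonneg h2.le (N.Y_pos _ _ h2 (cn_sg2 hγ h2 h3) le_rfl)) h5).trans h6, h6⟩
  have key := const_lint (f := fun α => N.X (cnU g α) (cnU g α) * cnS g α ^ (k + 1) +
      N.η * H (Real.arccos (1 - 2 * cnU g α))) (f' := F) (fa := N.η * Sm (k + 1))
    (fc := N.x₀ * 2 ^ (k + 1)) Real.pi_div_two_pos (fun α hα => ?_) (fun α hα => (b1 α hα).1) ?_ ?_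
  · exact ⟨key.1, F, b1, key.2⟩
  · obtain ⟨h1, h2, h3⟩ := cn_pos hg hα
    have d1 := (N.derX.hasFDerivAt h2 (cnU g α)).comp_hasDerivAt α
      ((cnU_der hg α).prodMk (cnU_der hg α))
    have d2 := ((Hd _).comp α (cnT_der hg hα)).const_mul N.η
    refine ((d1.mul ((cnS_der hg α).pow (k + 1))).add d2).congr_deriv ?_
    have e := cnS_sq hg α
    simp only [hF, Real.sin_arccos, cn_sqrt hg hα, Function.comp_apply, Pi.pow_apply, add_apply,
      smul_apply, ContinuousLinearMap.coe_fst', ContinuousLinearMap.coe_snd', smul_eq_mul,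
      Nat.add_sub_cancel, pow_succ (cnS g α) k]
    linear_combination (-(N.Xu (cnU g α) (cnU g α) + N.Xp (cnU g α) (cnU g α)) * cnS g α ^ k *
      (g / cnD g α)) * e
  · have u0 : cnU g 0 = 1 := by
      simp only [cnU, cnD, Real.sin_zero, Real.cos_zero]
      field_simp
      ring
    have c1 : ContinuousAt (fun α => N.X (cnU g α) (cnU g α)) 0 :=
      ContinuousAt.comp (f := fun α => (cnU g α, cnU g α))
        (N.derX.hasFDerivAt (by rw [u0]; exact one_pos) _).continuousAt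
        (Uc.prodMk Uc).continuousAt
    have c2 := (c1.mul (Sc.pow (k + 1)).continuousAt).add (Tc.continuousAt.const_mul N.η)
    refine tendsto_nhdsWithin_of_tendsto_nhds (c2.tendsto.trans (le_of_eq ?_))
    have e1 : (1 : ℝ) - 2 = -1 := by norm_num
    simp [u0, cnS, e1, hH, Sm]
  · have u0 : cnU g (Real.pi / 2) = 0 := by simp [cnU]
    have ev : ∀ᶠ α in 𝓝[<] (Real.pi / 2), α ∈ Ioo 0 (Real.pi / 2) :=
      Ioo_mem_nhdsLT Real.pi_div_two_pos
    have t0 : Tendsto (cnU g) (𝓝[<] (Real.pi / 2)) (𝓝 0) :=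
      tendsto_nhdsWithin_of_tendsto_nhds (u0 ▸ Uc.tendsto _)
    have t1 : Tendsto (fun α => √(cnU g α) ^ (k + 1) * N.X (cnU g α) (cnU g α))
        (𝓝[<] (Real.pi / 2)) (𝓝 N.x₀) := by
      refine Metric.tendsto_nhds.2 fun l hl => ?_
      obtain ⟨u₀, h0, h1⟩ := N.sing (l / 2) (half_pos hl)
      filter_upwards [ev, t0.eventually_le_const h0] with α hα hu
      obtain ⟨-, h2, h3⟩ := cn_pos hg hα
      exact (h1 _ _ h2 hu (cn_sg2 hγ h2 h3)).trans_lt (half_lt_self hl)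
    have t2 : Tendsto (fun α => (2 * √(1 - cnU g α)) ^ (k + 1)) (𝓝[<] (Real.pi / 2))
        (𝓝 (2 ^ (k + 1))) := by
      simpa using ((t0.const_sub 1).sqrt.const_mul 2).pow (k + 1)
    have t3 : Tendsto (fun α => N.η * H (Real.arccos (1 - 2 * cnU g α))) (𝓝[<] (Real.pi / 2))
        (𝓝 0) := by
      have := (Tc.tendsto (Real.pi / 2)).const_mul N.η
      simp only [u0, mul_zero, sub_zero, Real.arccos_one, hH, intervalIntegral.integral_same] at this
      exact tendsto_nhdsWithin_of_tendsto_nhds this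
    have t4 := (t1.mul t2).add t3
    rw [add_zero] at t4
    refine t4.congr' ?_
    filter_upwards [ev] with α hα
    obtain ⟨h1, h2, h3⟩ := cn_pos hg hα
    have e : cnS g α = √(cnU g α) * (2 * √(1 - cnU g α)) := by
      refine (pow_left_inj₀ h1.le (by positivity) two_ne_zero).1 ?_
      rw [cnS_sq hg, mul_pow, mul_pow, Real.sq_sqrt h2.le, Real.sq_sqrt (by linarith)]
      ring
    rw [e, mul_pow]
    ring

theorem NCert.const (hm : 2 ≤ m) (hρ : 0 < ρ) (N : NCert m (gam b ρ)) :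
    N.η * sn b ρ ^ m * Sm m ≤ N.x₀ * (2 * sn b ρ) ^ m ∧
      ∫⁻ α in Ioo 0 (Real.pi / 2), ENNReal.ofReal (cΦ m b ρ
          (fun w Q => eps b ρ / hh b ρ * N.Y (eps b ρ * w) (eps b ρ / hh b ρ * Q)) (Real.cos α) *
            Real.sin α ^ (m - 1)) ≤
        ENNReal.ofReal (N.x₀ * (2 * sn b ρ) ^ m - N.η * sn b ρ ^ m * Sm m) := by
  have hS := sn_pos b hρ
  have hC : 0 < cs b ρ := one_pos.trans_le (one_le_cs b ρ)
  have hg : 0 < (cs b ρ)⁻¹ := inv_pos.2 hC
  have hP : 0 ≤ sn b ρ ^ m := by positivity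
  obtain ⟨h1, F, h2, h3⟩ := const_core (gam_mem b ρ).1 hm N hg
  refine ⟨by rw [mul_pow]; nlinarith [mul_le_mul_of_nonneg_left h1 hP], ?_⟩
  rw [show N.x₀ * (2 * sn b ρ) ^ m - N.η * sn b ρ ^ m * Sm m =
      sn b ρ ^ m * (N.x₀ * 2 ^ m - N.η * Sm m) by rw [mul_pow]; ring, ENNReal.ofReal_mul hP, ← h3,
    ← lintegral_const_mul' _ _ ENNReal.ofReal_ne_top]
  refine setLIntegral_mono' measurableSet_Ioo fun α hα => ?_
  rw [← ENNReal.ofReal_mul hP]
  refine ENNReal.ofReal_le_ofReal (le_trans (le_of_eq ?_)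
    (mul_le_mul_of_nonneg_left (h2 α hα).2 hP))
  have hD := (cnD_pos hg α).ne'
  have hc : 0 < Real.cos α := Real.cos_pos_of_mem_Ioo ⟨by linarith [hα.1, Real.pi_pos], hα.2⟩
  have hh0 := (hh_pos b hρ).ne'
  have e0 : hh b ρ ^ 2 - b ^ 2 * Real.cos α ^ 2 = hh b ρ ^ 2 * cnD (cs b ρ)⁻¹ α := by
    have := cs_sq b ρ
    simp only [hh, cnD, Real.sin_sq]
    field_simp
    linear_combination (Real.cos α ^ 2) * this
  have e1 : eps b ρ * wE b ρ (Real.cos α) = cnU (cs b ρ)⁻¹ α := by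
    rw [wE, e0, eps, cnU, hh]
    field_simp
  have e2 : eps b ρ / hh b ρ * (hh b ρ * wE b ρ (Real.cos α)) = cnU (cs b ρ)⁻¹ α := by
    rw [← e1]
    field_simp
  have e3 : hh b ρ * wE b ρ (Real.cos α) / Real.cos α =
      sn b ρ * (2 * (cs b ρ)⁻¹ * Real.cos α / cnD (cs b ρ)⁻¹ α) := by
    rw [wE, e0, hh]
    field_simp
  obtain ⟨k, rfl⟩ : ∃ k, m = k + 1 := ⟨m - 1, by omega⟩
  have e4 : cnS (cs b ρ)⁻¹ α =
      Real.sin α * (2 * (cs b ρ)⁻¹ * Real.cos α / cnD (cs b ρ)⁻¹ α) := by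
    rw [cnS]
    ring
  simp only [cΦ, e1, e2, e3, e4, Nat.add_sub_cancel]
  generalize N.Y (cnU (cs b ρ)⁻¹ α) (cnU (cs b ρ)⁻¹ α) = y
  rw [mul_pow, mul_pow (Real.sin α), pow_succ _ (k + 1), pow_succ _ (k + 1),
    pow_succ (2 * (cs b ρ)⁻¹ * Real.cos α / cnD (cs b ρ)⁻¹ α) k]
  generalize (2 * (cs b ρ)⁻¹ * Real.cos α / cnD (cs b ρ)⁻¹ α) ^ k = z
  rw [eps, hh, cnU]
  field_simp

end Vale.Agent.P219
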