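import Vale.Agent.P219.G.Sn
import Vale.Agent.P219.G.Const
import Vale.Agent.P219.G.NCert3

/-!
# Scalar inequalities for the barycentre inequality  (TASK)

Write `w, s, C` for `ww b, sn b, cs b`.  `bary_trunc`: by `ww_add`, `ww_neg`, `sn_neg`, `cs_eq`: `w₁ + w₂ + b² w₁ w₂ - s₁ s₂ t = w (R₁ - R₂) + s₁ s₂ (1 - t) = w (R₁ + R₂) - s₁ s₂ (1 + t)`;
`w` is even and monotone on `[0, ∞)` (`strictMonoOn_ww`), `|min R₁ R₀ - min R₂ R₀| ≤ |R₁ - R₂|`, `sn` is monotone, `w (2 R₀) = 2 s(R₀)²`.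
`bary_level`: `exists_ww`; `s(R₀)² = w₀ (2 + b² w₀) = S² + 2 l S² + l² S² (b² S² / C²)` (`sn_sq`, `cs_eq`, `cs_sq`).
`bary_dir`: the right side minus the left side is `(1 - a) (m h s - k b² s² (1 + a) / C)`, and `|b| ≤ h` (`hh_sq`), `|b| s ≤ C` (`cs_sq`).
`bary_one`: `cs R - hh ρ * sn R = sn (ρ - R) / S` (`sn_add`).  For `R ≤ ρ`: `(C / cs R) ^ k ≥ 1` and `w ρ - w R ≤ S * sn (ρ - R)`
(`w ρ = w R + cs R * w δ + s R * s δ`, `S = s R * cs δ + cs R * s δ`, `w δ ≤ s δ ^ 2` by `sn_sq`).  For `R ≥ ρ` and `w R ≤ w₀`: `(C / cs R) ^ k ≤ 1` and `S * sn (R - ρ) ≤ w R - w ρ` (`ww_add`).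
For `R ≥ ρ` and the value `w₀`: with `x = cs R / C ≥ 1`, `b² (C² s² - S² cs²) = C² (x² - 1)`, `C s + S cs ≥ 2 S C x`, `1 - 2 gam = b² S² / C²`; (`hl` with `x = 2` forces `b ≠ 0`).
-/

namespace Vale.Agent.P219

open Set
open St (sn)

variable {b ρ : ℝ}

theorem bary2_sn {r : ℝ} (h : 0 ≤ r) : 0 ≤ sn b r := h.trans (le_sn b h)

theorem bary2_ww (r : ℝ) : 0 ≤ ww b r := (by positivity : 0 ≤ r ^ 2 / 2).trans (le_ww b r)

theorem bary2_abs {x y : ℝ} (h : |x| ≤ |y|) : ww b x ≤ ww b y := by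
  have e : ∀ z, ww b |z| = ww b z := fun z => by
    rcases abs_choice z with h | h <;> rw [h]
    exact ww_neg b z
  rw [← e x, ← e y]
  exact (strictMonoOn_ww b).monotoneOn (abs_nonneg x) (abs_nonneg y) h

theorem bary2_cs {x y : ℝ} (hx : 0 ≤ x) (h : x ≤ y) : cs b x ≤ cs b y := by
  rw [cs_eq, cs_eq]
  have := (strictMonoOn_ww b).monotoneOn hx (hx.trans h) h
  nlinarith [sq_nonneg b]

theorem bary_trunc {R₁ R₂ R₀ t : ℝ} (h1 : 0 ≤ R₁) (h2 : 0 ≤ R₂) (h0 : 0 ≤ R₀) (ht : |t| ≤ 1) :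
    ww b (min R₁ R₀) + ww b (min R₂ R₀) + b ^ 2 * (ww b (min R₁ R₀) * ww b (min R₂ R₀)) -
      sn b (min R₁ R₀) * sn b (min R₂ R₀) * t ≤
    min (ww b R₁ + cs b R₁ * ww b R₂ - sn b R₁ * sn b R₂ * t) (2 * sn b R₀ ^ 2) := by
  have a1 : 0 ≤ min R₁ R₀ := le_min h1 h0
  have a2 : 0 ≤ min R₂ R₀ := le_min h2 h0
  have s1 := bary2_sn (b := b) a1
  have s2 := bary2_sn (b := b) a2
  obtain ⟨t1, t2⟩ := abs_le.1 ht
  refine le_min ?_ ?_
  · have e1 := ww_add b (min R₁ R₀) (-min R₂ R₀)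
    have e2 := ww_add b R₁ (-R₂)
    rw [ww_neg, sn_neg] at e1 e2
    rw [cs_eq] at e1
    have m1 : ww b (min R₁ R₀ + -min R₂ R₀) ≤ ww b (R₁ + -R₂) := bary2_abs (by
      simpa [sub_eq_add_neg] using abs_min_sub_min_le_max R₁ R₀ R₂ R₀)
    have m2 : sn b (min R₁ R₀) * sn b (min R₂ R₀) ≤ sn b R₁ * sn b R₂ :=
      mul_le_mul ((strictMono_sn b).monotone (min_le_left _ _))
        ((strictMono_sn b).monotone (min_le_left _ _)) s2 (bary2_sn h1)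
    nlinarith [mul_le_mul_of_nonneg_right m2 (sub_nonneg.2 t2)]
  · have e1 := ww_add b (min R₁ R₀) (min R₂ R₀)
    have e2 := ww_add b R₀ R₀
    rw [cs_eq] at e1 e2
    have m1 : ww b (min R₁ R₀ + min R₂ R₀) ≤ ww b (R₀ + R₀) := bary2_abs (by
      rw [abs_of_nonneg (by linarith), abs_of_nonneg (by linarith)]
      exact add_le_add (min_le_right _ _) (min_le_right _ _))
    nlinarith [mul_nonneg (mul_nonneg s1 s2) (by linarith : 0 ≤ 1 + t), sn_sq b R₀]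

theorem bary_level (hρ : 0 < ρ) {l : ℝ} (hl : 0 ≤ l) : ∃ R₀ : ℝ, 0 < R₀ ∧
    ww b R₀ = ww b ρ + l * sn b ρ ^ 2 / cs b ρ ∧ sn b R₀ ^ 2 ≤ (1 + l) ^ 2 * sn b ρ ^ 2 := by
  have hC : 0 < cs b ρ := one_pos.trans_le (one_le_cs b ρ)
  obtain ⟨R₀, h0, h1⟩ := exists_ww b (w := ww b ρ + l * sn b ρ ^ 2 / cs b ρ)
    (add_pos_of_pos_of_nonneg (ww_pos b hρ) (by positivity))
  refine ⟨R₀, h0, h1, ?_⟩
  obtain ⟨q, hq⟩ : ∃ q, q = sn b ρ / cs b ρ := ⟨_, rfl⟩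
  have e1 : q * cs b ρ = sn b ρ := by rw [hq]; field_simp
  have e2 : l * sn b ρ ^ 2 / cs b ρ = l * sn b ρ * q := by rw [hq]; ring
  have e3 : b ^ 2 * q ^ 2 ≤ 1 := by
    rw [hq, div_pow, ← mul_div_assoc, div_le_one (by positivity), cs_sq]
    linarith
  have e4 : sn b R₀ ^ 2 = sn b ρ ^ 2 + 2 * l * sn b ρ * (q * cs b ρ) +
      (l * sn b ρ) ^ 2 * (b ^ 2 * q ^ 2) := by
    rw [sn_sq b R₀, h1, e2, cs_eq]
    linear_combination -sn_sq b ρ
  rw [e4, e1]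
  nlinarith [mul_le_mul_of_nonneg_left e3 (sq_nonneg (l * sn b ρ))]

theorem bary_dir {m k : ℕ} (hk : 2 * k ≤ m) (hρ : 0 < ρ) {R a : ℝ} (hR : 0 < R) (ha : a ^ 2 ≤ 1) :
    m * (cs b R - hh b ρ * sn b R) ≤
      m * cs b R - m * hh b ρ * (sn b R * a) - k * b ^ 2 / cs b R * (sn b R ^ 2 * (1 - a ^ 2)) := by
  have hC : 0 < cs b R := one_pos.trans_le (one_le_cs b R)
  have hs := sn_pos b hR
  have hh0 := hh_pos b hρ
  obtain ⟨a1, a2⟩ := abs_le.1 (sq_le_one_iff_abs_le_one a |>.1 ha)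
  have b1 : |b| ≤ hh b ρ := abs_le_of_sq_le_sq' (by
    rw [sq_abs, hh_sq b hρ]; exact le_add_of_nonneg_right (by positivity)) hh0.le |>.2
  have b2 : |b| * sn b R ≤ cs b R := abs_le_of_sq_le_sq' (by
    rw [mul_pow, sq_abs, cs_sq]; linarith) hC.le |>.2
  have b3 : b ^ 2 / cs b R * sn b R ≤ hh b ρ := by
    rw [div_mul_eq_mul_div, div_le_iff₀ hC, ← sq_abs, sq, mul_assoc]
    exact mul_le_mul b1 b2 (by positivity) hh0.le
  have hk' : (k : ℝ) * (1 + a) ≤ m := by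
    have : (2 * k : ℝ) ≤ m := by exact_mod_cast hk
    nlinarith [(Nat.cast_nonneg k : (0 : ℝ) ≤ k)]
  have b4 : k * (1 + a) * (b ^ 2 / cs b R * sn b R) ≤ m * hh b ρ :=
    mul_le_mul hk' b3 (by positivity) (Nat.cast_nonneg m)
  have b5 := mul_le_mul_of_nonneg_left b4 (mul_nonneg hs.le (sub_nonneg.2 a2))
  have e : k * b ^ 2 / cs b R * (sn b R ^ 2 * (1 - a ^ 2)) =
      sn b R * (1 - a) * (k * (1 + a) * (b ^ 2 / cs b R * sn b R)) := by ring
  rw [e]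
  nlinarith

theorem bary_one {k : ℕ} (hρ : 0 < ρ) {l : ℝ} (h0 : 0 ≤ l)
    (hl : ∀ x : ℝ, 1 ≤ x → x ^ 2 - 1 ≤ 2 * (1 - 2 * gam b ρ) * l * x ^ (k + 1)) {R : ℝ}
    (hR : 0 ≤ R) :
    ww b ρ - min (ww b R) (ww b ρ + l * sn b ρ ^ 2 / cs b ρ) ≤
      sn b ρ ^ 2 * ((cs b ρ / cs b R) ^ k * (cs b R - hh b ρ * sn b R)) := by
  have hC : 0 < cs b ρ := one_pos.trans_le (one_le_cs b ρ)
  have hc : 0 < cs b R := one_pos.trans_le (one_le_cs b R)
  have hS := sn_pos b hρ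
  have hd : 0 ≤ l * sn b ρ ^ 2 / cs b ρ := by positivity
  have e0 : sn b (ρ - R) = sn b ρ * cs b R - cs b ρ * sn b R := by
    rw [sub_eq_add_neg, sn_add, sn_neg, cs_eq b (-R), ww_neg, ← cs_eq]; ring
  have e1 : sn b ρ ^ 2 * ((cs b ρ / cs b R) ^ k * (cs b R - hh b ρ * sn b R)) =
      (cs b ρ / cs b R) ^ k * (sn b ρ * sn b (ρ - R)) := by
    rw [e0, hh]; field_simp
  rw [e1]
  rcases le_total R ρ with h | h
  · have hδ : 0 ≤ ρ - R := sub_nonneg.2 h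
    rw [min_eq_left (((strictMonoOn_ww b).monotoneOn hR hρ.le h).trans (by linarith))]
    have a1 := ww_add b R (ρ - R)
    have a2 := sn_add b R (ρ - R)
    rw [add_sub_cancel] at a1 a2
    have a3 : ww b (ρ - R) ≤ sn b (ρ - R) ^ 2 := by
      rw [sn_sq]; nlinarith [bary2_ww (b := b) (ρ - R), mul_nonneg (sq_nonneg b) (sq_nonneg (ww b (ρ - R)))]
    have a4 := bary2_sn (b := b) hδ
    have a5 : 1 ≤ (cs b ρ / cs b R) ^ k := one_le_pow₀ ((one_le_div hc).2 (bary2_cs hR h))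
    have a6 : ww b ρ - ww b R ≤ sn b ρ * sn b (ρ - R) := by
      rw [a2]
      nlinarith [mul_le_mul_of_nonneg_left a3 hc.le,
        mul_nonneg (mul_nonneg (bary2_sn (b := b) hR) a4) (sub_nonneg.2 (one_le_cs b (ρ - R)))]
    exact a6.trans (le_mul_of_one_le_left (mul_nonneg hS.le a4) a5)
  · have hδ : 0 ≤ R - ρ := sub_nonneg.2 h
    have a4 := bary2_sn (b := b) hδ
    have e2 : sn b (ρ - R) = -sn b (R - ρ) := by rw [← sn_neg, neg_sub]
    have hx := bary2_cs (b := b) hρ.le h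
    rw [e2] at e0 ⊢
    rcases le_total (ww b R) (ww b ρ + l * sn b ρ ^ 2 / cs b ρ) with g | g
    · rw [min_eq_left g]
      have a1 := ww_add b ρ (R - ρ)
      rw [add_sub_cancel] at a1
      have a5 : (cs b ρ / cs b R) ^ k ≤ 1 := pow_le_one₀ (by positivity) ((div_le_one hc).2 hx)
      nlinarith [mul_le_mul_of_nonneg_right a5 (mul_nonneg hS.le a4),
        mul_nonneg hC.le (bary2_ww (b := b) (R - ρ))]
    · rw [min_eq_right g]
      obtain ⟨x, hxe⟩ : ∃ x, x = cs b R / cs b ρ := ⟨_, rfl⟩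
      have x1 : 1 ≤ x := hxe ▸ (one_le_div hC).2 hx
      have x2 : cs b R = x * cs b ρ := by rw [hxe]; field_simp
      have eg : 1 - 2 * gam b ρ = b ^ 2 * sn b ρ ^ 2 / cs b ρ ^ 2 := by
        rw [gam, eq_div_iff (by positivity)]
        have := cs_sq b ρ
        field_simp
        linarith
      have hb : 0 < b ^ 2 := by
        rcases (sq_nonneg b).lt_or_eq with h | h
        · exact h
        · have := hl 2 one_le_two
          rw [eg, ← h] at this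
          norm_num at this
      have k1 := hl x x1
      rw [eg] at k1
      have k2 : cs b ρ ^ 2 * (x ^ 2 - 1) ≤ 2 * b ^ 2 * sn b ρ ^ 2 * l * x ^ (k + 1) := by
        have := mul_le_mul_of_nonneg_left k1 (sq_nonneg (cs b ρ))
        refine this.trans (le_of_eq ?_)
        field_simp
      have k3 : b ^ 2 * (sn b (R - ρ) * (cs b ρ * sn b R + sn b ρ * cs b R)) =
          cs b ρ ^ 2 * (x ^ 2 - 1) := by
        have q1 := cs_sq b ρ
        have q2 := cs_sq b R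
        have q3 : sn b (R - ρ) = cs b ρ * sn b R - sn b ρ * cs b R := by linarith
        have q4 : cs b ρ ^ 2 * (x ^ 2 - 1) = cs b R ^ 2 - cs b ρ ^ 2 := by rw [x2]; ring
        rw [q3, q4]
        linear_combination (-(cs b ρ ^ 2)) * q2 + (cs b R ^ 2) * q1
      have k4 : sn b (R - ρ) * (2 * sn b ρ * (x * cs b ρ)) ≤
          sn b (R - ρ) * (cs b ρ * sn b R + sn b ρ * cs b R) :=
        mul_le_mul_of_nonneg_left (by rw [← x2]; linarith) a4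
      have k5 : sn b (R - ρ) * cs b ρ ≤ sn b ρ * l * x ^ k := by
        have := (mul_le_mul_of_nonneg_left k4 hb.le).trans (k3.le.trans k2)
        refine le_of_mul_le_mul_left (a := 2 * b ^ 2 * sn b ρ * x) ?_ (by positivity)
        rw [pow_succ x k] at this
        linarith
      have e3 : (cs b ρ / cs b R) ^ k = (x ^ k)⁻¹ := by rw [hxe, ← inv_pow, inv_div]
      have xk : 0 < x ^ k := by positivity
      have k6 : (x ^ k)⁻¹ * (sn b ρ * sn b (R - ρ)) ≤ l * sn b ρ ^ 2 / cs b ρ := by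
        rw [inv_mul_le_iff₀ xk, ← mul_div_assoc, le_div_iff₀ hC]
        nlinarith [mul_le_mul_of_nonneg_left k5 hS.le]
      rw [e3]
      linarith

end Vale.Agent.P219
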