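import Vale.Agent.P219.G.Field
import Vale.Agent.P219.G.Bary2

/-!
# The one-point inequality  (TASK)

Put `ε = min ρ (1 / (2 * hh b ρ))`, `τ` from `exists_cut`, `χ r = (cs b ρ / cs b r) ^ k`, `r = rr G L o y`, `a = ca G L y o ν`.  Apply `field_gen` (compare `Pack.radial_var`, `pair_gen` in `Field.lean`) with
`F y = τ r * (χ r * (sn r * r⁻¹)) + (1 - τ r * 1)` (`field_smooth` twice) and
`φ = τ r * χ r * (m cs r - k b² / cs r * (sn r² (1 - a²)) + gain m b G L o y ν) + τ' r * (χ r * sn r - r) * (1 - a²) + (1 - τ r) * tdv (G y) (hs G L o y) ν`.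
It gives `∫ (φ - m hh F r a) ≤ 0` with continuous integrands.  Pointwise on `UB`, `φ - m hh F r a ≥ m / S² * (w ρ - min (w r) w₀)`:
for the part with `τ r` (zero at `y = o`) use `gain_nonneg`, `bary_dir`, `bary_one`; `τ' r ≥ 0` vanishes for `r > ε`, and `χ r * sn r ≥ r` for `r ≤ ρ` (`le_sn`, `cs` monotone, `cs_eq`, `strictMonoOn_ww`);
`1 - τ r` vanishes for `r ≥ ε`, and for `r ≤ ε`: `tdv (hs) ≥ m` (as in `Pack.radial_var`), `m hh r a ≤ m / 2`, `w ρ / S² ≤ 1 / 2` (`sn_sq`), `min (w r) w₀ ≥ 0`.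
-/

namespace Vale.Agent.P219

open scoped ContDiff Topology RealInnerProductSpace ENNReal
open MeasureTheory Set Filter Vale.Agent.P255
open St (sn gmod)

variable {E : Type*} [NormedAddCommGroup E] [InnerProductSpace ℝ E] [FiniteDimensional ℝ E]
  [MeasurableSpace E] [BorelSpace E] {G : E → Bil E} {L : E → E → E} {m : ℕ} {b ρ c : ℝ}

/-- The weight. -/
noncomputable def bary3_χ (b ρ : ℝ) (k : ℕ) (r : ℝ) : ℝ := (cs b ρ / cs b r) ^ k

/-- The radial profile minus one. -/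
noncomputable def bary3_g (b ρ : ℝ) (k : ℕ) (r : ℝ) : ℝ := bary3_χ b ρ k r * (sn b r * r⁻¹) - 1

/-- Its derivative. -/
noncomputable def bary3_d (b ρ : ℝ) (k : ℕ) (r : ℝ) : ℝ :=
  bary3_χ b ρ k r * (r⁻¹ * (cs b r - sn b r * r⁻¹ - k * b ^ 2 / cs b r * sn b r ^ 2))

theorem bary3_cs (b r : ℝ) : 0 < cs b r := one_pos.trans_le (one_le_cs b r)

theorem bary3_pos (b ρ : ℝ) (k : ℕ) (r : ℝ) : 0 < bary3_χ b ρ k r :=
  pow_pos (div_pos (bary3_cs b ρ) (bary3_cs b r)) k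

theorem bary3_dχ (b ρ : ℝ) (k : ℕ) (r : ℝ) : HasDerivAt (bary3_χ b ρ k)
    (-(k * b ^ 2 * sn b r / cs b r) * bary3_χ b ρ k r) r := by
  have h0 := (bary3_cs b r).ne'
  refine (((hasDerivAt_const r (cs b ρ)).fun_div (hasDerivAt_cs b r) h0).fun_pow k).congr_deriv ?_
  unfold bary3_χ
  cases k with
  | zero => simp
  | succ k =>
    rw [Nat.add_sub_cancel, pow_succ _ k]
    field_simp
    ring

theorem bary3_dg (b ρ : ℝ) (k : ℕ) {r : ℝ} (hr : 0 < r) :
    HasDerivAt (bary3_g b ρ k) (bary3_d b ρ k r) r := by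
  refine (((bary3_dχ b ρ k r).fun_mul ((hasDerivAt_sn b r).fun_mul
    (hasDerivAt_inv hr.ne'))).sub_const 1).congr_deriv ?_
  have h0 := (bary3_cs b r).ne'
  unfold bary3_d
  field_simp
  ring

theorem bary3_sm (b ρ : ℝ) (k : ℕ) {r : ℝ} (hr : 0 < r) : ContDiffAt ℝ 2 (bary3_g b ρ k) r :=
  ((((contDiffAt_const.div ((contDiff_cs b).of_le chg_two).contDiffAt (bary3_cs b r).ne').pow k).mul
    (((contDiff_sn b).of_le chg_two).contDiffAt.mul (contDiffAt_id.inv hr.ne'))).sub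
    contDiffAt_const :)

theorem bary3_pt {k : ℕ} (hk : 2 * k ≤ m) (hρ : 0 < ρ) {l : ℝ} (h0 : 0 ≤ l)
    (hl : ∀ x : ℝ, 1 ≤ x → x ^ 2 - 1 ≤ 2 * (1 - 2 * gam b ρ) * l * x ^ (k + 1)) {τ : ℝ → ℝ}
    (hτ : Cut τ (min ρ (1 / (2 * hh b ρ)))) {r a T : ℝ} (hr : 0 ≤ r) (ha : a ^ 2 ≤ 1) (hT : m ≤ T)
    (hg : 0 < r → 0 ≤ sn b r / r * T + (cs b r - sn b r / r) * (1 - a ^ 2) - m * cs b r) :
    m / sn b ρ ^ 2 * (ww b ρ - min (ww b r) (ww b ρ + l * sn b ρ ^ 2 / cs b ρ)) ≤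
      (τ r * bary3_g b ρ k r + 1) * T +
        (deriv τ r * bary3_g b ρ k r + τ r * bary3_d b ρ k r) * r * (1 - a ^ 2) -
        m * hh b ρ * ((τ r * bary3_g b ρ k r + 1) * (r * a)) := by
  set X := m / sn b ρ ^ 2 * (ww b ρ - min (ww b r) (ww b ρ + l * sn b ρ ^ 2 / cs b ρ)) with hX
  have m0 : (0 : ℝ) ≤ m := Nat.cast_nonneg m
  have S0 := sn_pos b hρ
  have H0 := hh_pos b hρ
  have w0 := ww_pos b hρ
  have C0 := bary3_cs b ρ
  obtain ⟨t0, t1, t2, t3⟩ := hτ.nonneg r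
  have p3 : r ≤ min ρ (1 / (2 * hh b ρ)) → X ≤ T - m * hh b ρ * (r * a) := fun h => by
    have k1 : r * a ≤ 1 / (2 * hh b ρ) := (mul_le_of_le_one_right hr
      (abs_le.1 ((sq_le_one_iff_abs_le_one a).1 ha)).2).trans (h.trans (min_le_right _ _))
    have k2 : hh b ρ * (r * a) ≤ 1 / 2 := by
      rw [le_div_iff₀ (by positivity)] at k1
      linarith
    have k3 : 0 ≤ min (ww b r) (ww b ρ + l * sn b ρ ^ 2 / cs b ρ) :=
      le_min (le_trans (by positivity) (le_ww b r)) (by positivity)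
    have k4 : ww b ρ - min (ww b r) (ww b ρ + l * sn b ρ ^ 2 / cs b ρ) ≤ sn b ρ ^ 2 * (1 / 2) := by
      have : 0 ≤ ww b ρ * (b ^ 2 * ww b ρ) := by positivity
      linarith [sn_sq b ρ]
    have k5 : X ≤ m / sn b ρ ^ 2 * (sn b ρ ^ 2 * (1 / 2)) :=
      mul_le_mul_of_nonneg_left k4 (by positivity)
    rw [← mul_assoc, div_mul_cancel₀ _ (pow_pos S0 2).ne'] at k5
    linarith [mul_le_mul_of_nonneg_left k2 m0]
  rcases hr.eq_or_lt with rfl | r0
  · obtain ⟨α, α0, hα⟩ := hτ.zero'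
    have := p3 (by positivity)
    rw [(hα 0 α0.le).1]
    linarith
  have χ0 := bary3_pos b ρ k r
  have a0 : 0 ≤ 1 - a ^ 2 := sub_nonneg.2 ha
  have e : (τ r * bary3_g b ρ k r + 1) * T +
      (deriv τ r * bary3_g b ρ k r + τ r * bary3_d b ρ k r) * r * (1 - a ^ 2) -
      m * hh b ρ * ((τ r * bary3_g b ρ k r + 1) * (r * a)) =
      τ r * (bary3_χ b ρ k r * ((sn b r / r * T + (cs b r - sn b r / r) * (1 - a ^ 2) - m * cs b r) +
        (m * cs b r - m * hh b ρ * (sn b r * a) - k * b ^ 2 / cs b r * (sn b r ^ 2 * (1 - a ^ 2))))) +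
      deriv τ r * (bary3_χ b ρ k r * sn b r - r) * (1 - a ^ 2) +
      (1 - τ r) * (T - m * hh b ρ * (r * a)) := by
    have := (bary3_cs b r).ne'
    unfold bary3_g bary3_d
    field_simp
    ring
  have p1 : X ≤ bary3_χ b ρ k r * ((sn b r / r * T + (cs b r - sn b r / r) * (1 - a ^ 2) -
      m * cs b r) + (m * cs b r - m * hh b ρ * (sn b r * a) -
        k * b ^ 2 / cs b r * (sn b r ^ 2 * (1 - a ^ 2)))) := by
    have k1 := mul_le_mul_of_nonneg_left (bary_one hρ h0 hl hr)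
      (by positivity : 0 ≤ m / sn b ρ ^ 2)
    rw [← mul_assoc, div_mul_cancel₀ _ (pow_pos S0 2).ne', mul_left_comm] at k1
    exact k1.trans (mul_le_mul_of_nonneg_left (by linarith [bary_dir (b := b) hk hρ r0 ha, hg r0])
      χ0.le)
  have p2 : 0 ≤ deriv τ r * (bary3_χ b ρ k r * sn b r - r) * (1 - a ^ 2) := by
    rcases lt_or_ge (min ρ (1 / (2 * hh b ρ))) r with h | h
    · rw [t3 h, zero_mul, zero_mul]
    · have k1 : cs b r ≤ cs b ρ := by
        rw [cs_eq, cs_eq]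
        linarith [mul_le_mul_of_nonneg_left ((strictMonoOn_ww b).monotoneOn hr hρ.le
          (h.trans (min_le_left _ _))) (sq_nonneg b)]
      have k2 : 1 ≤ bary3_χ b ρ k r := one_le_pow₀ ((one_le_div (bary3_cs b r)).2 k1)
      exact mul_nonneg (mul_nonneg t2 (sub_nonneg.2 ((le_sn b hr).trans
        (le_mul_of_one_le_left (sn_pos b r0).le k2)))) a0
  have p4 : (1 - τ r) * X ≤ (1 - τ r) * (T - m * hh b ρ * (r * a)) := by
    rcases le_total r (min ρ (1 / (2 * hh b ρ))) with h | h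
    · exact mul_le_mul_of_nonneg_left (p3 h) (sub_nonneg.2 t1)
    · rw [hτ.one r h, sub_self, zero_mul, zero_mul]
  rw [e]
  linarith [mul_le_mul_of_nonneg_left p1 t0]

theorem PackK.bary_point (hE : Module.finrank ℝ E = m + 1) (hm : 1 ≤ m) (hP : PackK b G L)
    (hρ : 0 < ρ) {D : NDom G (KB G L c)} (hD : NDom.Stat L c D (m * hh b ρ)) {k : ℕ}
    (hk : 2 * k ≤ m) {l : ℝ} (h0 : 0 ≤ l)
    (hl : ∀ x : ℝ, 1 ≤ x → x ^ 2 - 1 ≤ 2 * (1 - 2 * gam b ρ) * l * x ^ (k + 1)) {o : E}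
    (ho : o ∈ KB G L c) :
    ww b ρ * D.A ≤
      ∫ z, min (ww b (rr G L o z.1)) (ww b ρ + l * sn b ρ ^ 2 / cs b ρ) ∂D.μ := by
  have hQ := hP.toPack
  have H0 := hh_pos b hρ
  have ε0 : 0 < min ρ (1 / (2 * hh b ρ)) := by positivity
  obtain ⟨τ, hτ, -⟩ := exists_cut (half_pos ε0) (half_lt_self ε0)
  obtain ⟨α, hα, hz⟩ := hτ.zero
  have hr : ∀ {y}, o ≠ y → 0 < rr G L o y := fun h => hQ.rr_pos h.symm
  have hF := (field_smooth hQ hτ.smooth hα hz o (g := fun y => bary3_g b ρ k (rr G L o y))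
    fun y hy => (bary3_sm b ρ k (hr hy)).comp y (field_r hQ hy)).add (contDiff_const (c := 1))
  obtain ⟨c1, c2, h⟩ := field_gen hQ hD ho hF (fun y => by
      obtain ⟨t0, t1, -⟩ := hτ.nonneg (rr G L o y)
      have r0 := rr_nonneg G L o y
      have := mul_nonneg t0 (mul_nonneg (bary3_pos b ρ k (rr G L o y)).le
        (mul_nonneg (r0.trans (le_sn b r0)) (inv_nonneg.2 r0)))
      unfold bary3_g
      linarith)
    (φ := fun z => (τ (rr G L o z.1) * bary3_g b ρ k (rr G L o z.1) + 1) *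
      tdv (G z.1) (hs G L o z.1) z.2 + (deriv τ (rr G L o z.1) * bary3_g b ρ k (rr G L o z.1) +
        τ (rr G L o z.1) * bary3_d b ρ k (rr G L o z.1)) * rr G L o z.1 *
        (1 - ca G L z.1 o z.2 ^ 2)) fun y ν => by
      rcases eq_or_ne o y with rfl | hy
      · obtain ⟨h1, h2, h3⟩ := field_zero hQ hα hz o fun y => bary3_g b ρ k (rr G L o y)
        refine ⟨0, ((hasFDerivAt_const _ _).congr_of_eventuallyEq h1).add_const 1, ?_⟩
        simp [h2, h3]
      · obtain ⟨R', h1, h2⟩ := field_dr hQ hy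
        refine ⟨_, (((hτ.smooth.differentiable two_ne_zero _).hasDerivAt.comp_hasFDerivAt y h1).mul
          ((bary3_dg b ρ k (hr hy)).comp_hasFDerivAt y h1)).add_const 1, ?_⟩
        simp only [add_apply, smul_apply, smul_eq_mul, h2, hQ.ca_log, hQ.rr_symm y o,
          Function.comp_apply]
        ring
  have hK := hQ.isCompact_KB c
  have c3 : Continuous fun z : E × E =>
      min (ww b (rr G L o z.1)) (ww b ρ + l * sn b ρ ^ 2 / cs b ρ) :=
    ((contDiff_ww b).continuous.comp (cont_r hQ continuous_const continuous_fst)).min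
      continuous_const
  have i3 := D.integrable hQ.loc hK c3
  have i1 := D.integrable hQ.loc hK c1
  have i2 := (D.integrable hQ.loc hK c2).const_mul (m * hh b ρ)
  have key := integral_mono_ae (((integrable_const (ww b ρ)).sub i3).const_mul (m / sn b ρ ^ 2))
    (i1.sub i2) (D.supp.mono fun z hz => by
      have h1 := tdv_nonneg (posB_of_loc hQ.loc z.1)
        (A := hs G L o z.1 + (-1 : ℝ) • ContinuousLinearMap.id ℝ E) (fun k => by
          have := hQ.hs_ge o z.1 k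
          simp only [add_apply, smul_apply, ContinuousLinearMap.id_apply, map_add, map_smul,
            smul_eq_mul]
          linarith) hz.2
      rw [tdv_add, tdv_smul, tdv_id hE hz.2] at h1
      exact bary3_pt hk hρ h0 hl hτ (rr_nonneg G L o z.1) ((hQ.ca_sq_le z.1 o z.2).trans_eq hz.2)
        (by linarith) fun r0 => hP.gain_nonneg hE (hQ.ne_of_rr_pos r0) hz.2)
  rw [integral_sub' i1 i2, integral_const_mul, integral_const_mul,
    integral_sub' (integrable_const _) i3, integral_const, smul_eq_mul] at key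
  have m0 : (0 : ℝ) < m / sn b ρ ^ 2 :=
    div_pos (Nat.cast_pos.2 hm) (pow_pos (sn_pos b hρ) 2)
  have k := nonpos_of_mul_nonpos_right (key.trans (sub_nonpos.2 h)) m0
  rw [NDom.A, mul_comm]
  exact sub_nonpos.1 k

end Vale.Agent.P219
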