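import Vale.Agent.P219.G.Bary1
import Vale.Agent.P219.G.Bary3

/-!
# The barycentre inequality  (TASK)

Take `k, l` from `BaryOK`, `R₀` from `bary_level`, `f R = sn b (min R R₀)`, `σ q = dslope f 0 (√q)` (continuous: `continuous_dslope`-type lemmas `continuousAt_dslope_same`, `continuousAt_dslope_of_ne`,
`f = sn b` near `0`; `σ q = f R / R` for `R = √q ≠ 0` by `dslope_of_ne`, `slope_def_field`; for `σ ≥ 0` replace `σ` by `max σ 0` or compute `deriv f 0 = 1`), and `o` from `Pack.exists_bary`.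
With `R_i = rr G L o y_i`, `w̃_i = ww b (min R_i R₀) = min (ww b R_i) w₀`, `V_i = σ (qq o y_i) • L o y_i`:
`w̃₁ + w̃₂ + b² w̃₁ w̃₂ - G o V₁ V₂ ≤ min (ww b (rr y₁ y₂)) (2 sn R₀²)` (`bary_trunc` with `t = G o (L o y₁) (L o y₂) / (R₁ R₂)`, Cauchy-Schwarz as in `ca_sq_le`, `hP.cosK`; if `y₁ = o` or `y₂ = o`
take `t = 0`, `L o o = 0`, `rr_self`, `rr_symm`).  Multiply by `eps b ρ = 1 / (2 S²)`; `eps * (2 sn R₀²) ≤ (1 + l)² ≤ u₁`.  Integrate over `μ.prod μ`
(`integrable_prod`, `ae_prod`, `integral_prod`, `integral_prod_mul`, `ContinuousLinearMap.integral_comp_comm` twice): the left side gives `2 A I + b² I² - G o v v` with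
`I = ∫ w̃ ≥ ww ρ * A` (`bary_point`), and `2 ww ρ + b² ww ρ² = S²` (`sn_sq`).
-/

namespace Vale.Agent.P219

open scoped ContDiff Topology RealInnerProductSpace ENNReal
open MeasureTheory Set Filter Vale.Agent.P255
open St (sn gmod)

variable {E : Type*} [NormedAddCommGroup E] [InnerProductSpace ℝ E] [FiniteDimensional ℝ E]
  [MeasurableSpace E] [BorelSpace E] {G : E → Bil E} {L : E → E → E} {m : ℕ} {b ρ c : ℝ}

theorem bary4_sigma (b : ℝ) {R₀ : ℝ} (h0 : 0 < R₀) : ∃ σ : ℝ → ℝ, Continuous σ ∧ (∀ q, 0 ≤ σ q) ∧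
    ∀ q, 0 < √q → σ q = sn b (min (√q) R₀) / √q := by
  have h1 : Continuous fun R => sn b (min R R₀) :=
    (contDiff_sn b).continuous.comp (continuous_id.min continuous_const)
  have h2 : DifferentiableAt ℝ (fun R => sn b (min R R₀)) 0 := by
    refine (hasDerivAt_sn b 0).differentiableAt.congr_of_eventuallyEq ?_
    filter_upwards [Iio_mem_nhds h0] with R hR
    rw [min_eq_left (le_of_lt hR)]
  have h3 : Continuous (dslope (fun R => sn b (min R R₀)) 0) :=
    continuousOn_univ.1 ((continuousOn_dslope univ_mem).2 ⟨h1.continuousOn, h2⟩)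
  refine ⟨fun q => max (dslope (fun R => sn b (min R R₀)) 0 (√q)) 0,
    (h3.comp Real.continuous_sqrt).max continuous_const, fun q => le_max_right _ _, fun q hq => ?_⟩
  have h4 : dslope (fun R => sn b (min R R₀)) 0 (√q) = sn b (min (√q) R₀) / √q := by
    rw [dslope_of_ne _ hq.ne', slope_def_field, min_eq_left h0.le, sn_zero, sub_zero, sub_zero]
  simp only [h4]
  exact max_eq_left (div_pos (sn_pos b (lt_min hq h0)) hq).le

omit [MeasurableSpace E] [BorelSpace E] in
theorem bary4_pt (hP : PackK b G L) {R₀ : ℝ} (h0 : 0 < R₀) {σ : ℝ → ℝ}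
    (hσ : ∀ q, 0 < √q → σ q = sn b (min (√q) R₀) / √q) (o y x : E) :
    ww b (min (rr G L o y) R₀) + ww b (min (rr G L o x) R₀) +
      b ^ 2 * (ww b (min (rr G L o y) R₀) * ww b (min (rr G L o x) R₀)) -
      G o (σ (qq G L o y) • L o y) (σ (qq G L o x) • L o x) ≤
    min (ww b (rr G L y x)) (2 * sn b R₀ ^ 2) := by
  have hQ := hP.toPack
  by_cases hy : y = o
  · have h1 := bary_trunc (b := b) (t := 0) (rr_nonneg G L o y) (rr_nonneg G L o x) h0.le (by simp)
    subst hy
    rw [hQ.rr_self] at h1 ⊢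
    rw [ww_zero, cs_zero, mul_zero, mul_zero, zero_add, one_mul, sub_zero, sub_zero] at h1
    rw [hQ.self, smul_zero, map_zero, zero_apply, sub_zero]
    exact h1
  by_cases hx : x = o
  · have h1 := bary_trunc (b := b) (t := 0) (rr_nonneg G L o y) (rr_nonneg G L o x) h0.le (by simp)
    subst hx
    rw [hQ.rr_self] at h1 ⊢
    rw [ww_zero, mul_zero, mul_zero, mul_zero, add_zero, sub_zero, sub_zero] at h1
    rw [hQ.self, smul_zero, map_zero, sub_zero, hQ.rr_symm y x]
    exact h1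
  have p1 := hQ.rr_pos hy
  have p2 := hQ.rr_pos hx
  have ht : |G o (L o y) (L o x) / (rr G L o y * rr G L o x)| ≤ 1 := by
    rw [← sq_le_one_iff_abs_le_one, div_pow, div_le_one (by positivity), mul_pow, hQ.rr_sq,
      hQ.rr_sq]
    exact (posB_of_loc hQ.loc o).sq_le _ _
  have h1 := bary_trunc (b := b) p1.le p2.le h0.le ht
  have h2 := hP.cosK o y x hy hx
  have e1 : σ (qq G L o y) = sn b (min (rr G L o y) R₀) / rr G L o y := hσ _ p1
  have e2 : σ (qq G L o x) = sn b (min (rr G L o x) R₀) / rr G L o x := hσ _ p2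
  have e3 : G o (σ (qq G L o y) • L o y) (σ (qq G L o x) • L o x) =
      sn b (min (rr G L o y) R₀) * sn b (min (rr G L o x) R₀) *
        (G o (L o y) (L o x) / (rr G L o y * rr G L o x)) := by
    rw [map_smul, map_smul, smul_apply, smul_eq_mul, smul_eq_mul, e1, e2]
    field_simp
  have e4 : sn b (rr G L o y) / rr G L o y * (sn b (rr G L o x) / rr G L o x) *
      G o (L o y) (L o x) = sn b (rr G L o y) * sn b (rr G L o x) *
        (G o (L o y) (L o x) / (rr G L o y * rr G L o x)) := by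
    field_simp
  rw [e4] at h2
  rw [e3]
  exact h1.trans (min_le_min_right _ h2)

theorem PackK.bary (hE : Module.finrank ℝ E = m + 1) (hm : 1 ≤ m) (hP : PackK b G L) (hc : 0 < c)
    (hρ : 0 < ρ) {D : NDom G (KB G L c)} (hD : NDom.Stat L c D (m * hh b ρ)) {u₁ : ℝ}
    (h : BaryOK m (gam b ρ) u₁) :
    D.A ^ 2 ≤ 2 * ∫ z, min (eps b ρ * ww b (rr G L z.1.1 z.2.1)) u₁ ∂D.μ.prod D.μ := by
  have hQ := hP.toPack
  obtain ⟨k, l, hk, hl0, hu, hl⟩ := h
  obtain ⟨R₀, h0, hw, hs⟩ := bary_level (b := b) hρ hl0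
  obtain ⟨σ, hσ, hσ0, hσ1⟩ := bary4_sigma b h0
  obtain ⟨o, ho, hv⟩ := hQ.exists_bary hc D hσ hσ0
  have hI := hP.bary_point hE hm hρ hD hk hl0 hl ho
  have hK := hQ.isCompact_KB c
  have hS := sn_pos b hρ
  have hε : 0 < eps b ρ := by
    unfold eps
    positivity
  have e0 : ∀ y : E, min (ww b (rr G L o y)) (ww b ρ + l * sn b ρ ^ 2 / cs b ρ) =
      ww b (min (rr G L o y) R₀) := fun y => by
    rw [← hw]
    exact ((strictMonoOn_ww b).monotoneOn.map_min (rr_nonneg G L o y) h0.le).symm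
  simp only [e0] at hI
  set w : E × E → ℝ := fun z => ww b (min (rr G L o z.1) R₀) with hwd
  set V : E × E → E := fun z => σ (qq G L o z.1) • L o z.1 with hVd
  have cw : Continuous w := (contDiff_ww b).continuous.comp
    ((hQ.continuous_rr.comp (continuous_const.prodMk continuous_fst)).min continuous_const)
  have cV : Continuous V :=
    (hσ.comp (hQ.contDiff_qq.continuous.comp (continuous_const.prodMk continuous_fst))).smul
      ((chg_smooth hQ o).continuous.comp continuous_fst)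
  have iw : Integrable w D.μ := D.integrable hQ.loc hK cw
  have iV : Integrable V D.μ := by
    obtain ⟨C, hC⟩ := (isCompact_UB hQ.loc hK).exists_bound_of_continuousOn cV.continuousOn
    exact (integrable_const C).mono' cV.aestronglyMeasurable (D.supp.mono fun z hz => hC z hz)
  have i1 : Integrable (fun z : (E × E) × (E × E) => w z.1) (D.μ.prod D.μ) := iw.comp_fst _
  have i2 : Integrable (fun z : (E × E) × (E × E) => w z.2) (D.μ.prod D.μ) := iw.comp_snd _
  have i3 : Integrable (fun z : (E × E) × (E × E) => b ^ 2 * (w z.1 * w z.2)) (D.μ.prod D.μ) :=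
    (iw.mul_prod iw).const_mul _
  have i4 : Integrable (fun z : (E × E) × (E × E) => G o (V z.1) (V z.2)) (D.μ.prod D.μ) :=
    D.integrable_prod hQ.loc hK
      (((G o).continuous.comp (cV.comp continuous_fst)).clm_apply (cV.comp continuous_snd))
  have i12 : Integrable (fun z : (E × E) × (E × E) => w z.1 + w z.2) (D.μ.prod D.μ) := i1.add i2
  have i123 : Integrable (fun z : (E × E) × (E × E) => w z.1 + w z.2 + b ^ 2 * (w z.1 * w z.2))
      (D.μ.prod D.μ) := i12.add i3
  have i5 : Integrable (fun z : (E × E) × (E × E) =>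
      min (eps b ρ * ww b (rr G L z.1.1 z.2.1)) u₁) (D.μ.prod D.μ) :=
    D.integrable_prod hQ.loc hK ((continuous_const.mul ((contDiff_ww b).continuous.comp
      (hQ.continuous_rr.comp (continuous_fst.fst.prodMk continuous_snd.fst)))).min continuous_const)
  have h1 : ∫ z, eps b ρ * (w z.1 + w z.2 + b ^ 2 * (w z.1 * w z.2) - G o (V z.1) (V z.2))
      ∂D.μ.prod D.μ ≤ ∫ z, min (eps b ρ * ww b (rr G L z.1.1 z.2.1)) u₁ ∂D.μ.prod D.μ := by
    refine integral_mono ((i123.sub i4).const_mul _) i5 fun z => ?_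
    have h2 := bary4_pt hP h0 hσ1 o z.1.1 z.2.1
    refine le_min (mul_le_mul_of_nonneg_left (h2.trans (min_le_left _ _)) hε.le)
      ((mul_le_mul_of_nonneg_left (h2.trans (min_le_right _ _)) hε.le).trans (le_trans ?_ hu))
    rw [eps, one_div, inv_mul_le_iff₀ (by positivity)]
    linarith
  rw [integral_const_mul, integral_sub i123 i4, integral_add i12 i3, integral_add i1 i2,
    integral_const_mul, integral_prod_mul, integral_fun_fst, integral_fun_snd,
    integral_prod_bilin (G o) iV iV, smul_eq_mul] at h1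
  have hA : 0 ≤ D.A := measureReal_nonneg
  have hwρ := (ww_pos b hρ).le
  have e1 : D.μ.real univ = D.A := rfl
  rw [e1] at h1
  generalize ∫ z, w z ∂D.μ = I at h1 hI
  have h3 : 0 ≤ ww b ρ * D.A := mul_nonneg hwρ hA
  have h4 : (ww b ρ * D.A) * (ww b ρ * D.A) ≤ I * I := mul_self_le_mul_self h3 hI
  have h5 : sn b ρ ^ 2 * D.A ^ 2 ≤ D.A * I + D.A * I + b ^ 2 * (I * I) -
      G o (∫ z, V z ∂D.μ) (∫ z, V z ∂D.μ) := by
    rw [sn_sq]
    nlinarith [mul_le_mul_of_nonneg_left hI hA, mul_le_mul_of_nonneg_left h4 (sq_nonneg b)]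
  have h6 := mul_le_mul_of_nonneg_left h5 hε.le
  have h7 : eps b ρ * (sn b ρ ^ 2 * D.A ^ 2) = D.A ^ 2 / 2 := by
    unfold eps
    field_simp
  linarith

end Vale.Agent.P219
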