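import Vale.Agent.P219.Stmt

/-!
Definitions used by the statement for curvature bound `κ ≤ 0`.
-/

namespace Vale.Agent.P219.St

open scoped ContDiff Manifold RealInnerProductSpace
open Vale.Agent.P255 MeasureTheory Set

variable {E F M : Type*} [NormedAddCommGroup E] [NormedSpace ℝ E] [NormedAddCommGroup F]
  [InnerProductSpace ℝ F] [TopologicalSpace M] [ChartedSpace E M]

/-- Sectional curvature at most `κ`: `g(R(u, v) v, u) ≤ κ (|u|² |v|² - g(u, v)²)`. -/
def SecLe (g : Metric E M) (κ : ℝ) : Prop :=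
  ∀ e ∈ atlas E M, ∀ y ∈ e.target, ∀ u v, g.g e y (riem (g.g e) y u v v) u ≤
    κ * (g.g e y u u * g.g e y v v - g.g e y u v ^ 2)

/-- `sn_b(r) = r` if `b = 0` and `sinh (b r) / b` otherwise. -/
noncomputable def sn (b r : ℝ) : ℝ := if b = 0 then r else Real.sinh (b * r) / b

/-- The volume of the Euclidean unit ball of `ℝⁿ`. -/
noncomputable def omega (n : ℕ) : ℝ := (volume {x : Euc n | ‖x‖ < 1}).toReal

/-- The boundary area of a geodesic ball of radius `r` in the space form of curvature `κ`. -/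
noncomputable def ballArea (n : ℕ) (κ r : ℝ) : ℝ := n * omega n * sn (√(-κ)) r ^ (n - 1)

/-- The volume of a geodesic ball of radius `r` in the space form of curvature `κ`. -/
noncomputable def ballVol (n : ℕ) (κ r : ℝ) : ℝ :=
  n * omega n * ∫ t in (0 : ℝ)..r, sn (√(-κ)) t ^ (n - 1)

open Classical in
/-- The metric `dr² + sn_b(r)² dθ²` of the space form of curvature `-b²` in geodesic normal
coordinates. -/
noncomputable def gmod (b : ℝ) (z u v : F) : ℝ :=
  if z = 0 then ⟪u, v⟫ else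
    (sn b ‖z‖ / ‖z‖) ^ 2 * (⟪u, v⟫ - ⟪u, z⟫ * ⟪v, z⟫ / ‖z‖ ^ 2) + ⟪u, z⟫ * ⟪v, z⟫ / ‖z‖ ^ 2

/-- `ψ` is a smooth bijection from `B` onto `Ω` that pulls the metric back to the metric `h`. -/
def IsomTo (g : Metric E M) (ψ : F → M) (B : Set F) (Ω : Set M) (h : F → F → F → ℝ) : Prop :=
  BijOn ψ B Ω ∧ ContMDiffOn 𝓘(ℝ, F) 𝓘(ℝ, E) ∞ ψ B ∧ ∀ z ∈ B, ∀ u v, pull g ψ z u v = h z u v

end Vale.Agent.P219.St
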