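import Vale.Agent.P219.Chg
import Vale.Agent.P219.GeoE3
import Vale.Agent.P219.G.Stmt
import Vale.Agent.P219.G.NCert

/-!
# Working definitions for curvature bound `-b²` (see `notes/P219G.md` for the proof)

Dimension `m + 1`; everything happens in one global chart `E` with metric coefficients `G` and
logarithm map `L`.
-/

namespace Vale.Agent.P219

open scoped ContDiff Topology RealInnerProductSpace ENNReal
open MeasureTheory Set Vale.Agent.P255
open St (sn)

/-- `cosh (b r)`, the derivative of `sn`. -/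
noncomputable def cs (b r : ℝ) : ℝ := Real.cosh (b * r)

/-- The primitive of `sn`. -/
noncomputable def ww (b r : ℝ) : ℝ := if b = 0 then r ^ 2 / 2 else (Real.cosh (b * r) - 1) / b ^ 2

/-- The principal curvature of the model sphere. -/
noncomputable def hh (b ρ : ℝ) : ℝ := cs b ρ / sn b ρ

/-- Area of the model sphere. -/
noncomputable def Am (o : ℝ) (m : ℕ) (b ρ : ℝ) : ℝ := (m + 1) * o * sn b ρ ^ m

/-- Volume of the model ball. -/
noncomputable def Vm (o : ℝ) (m : ℕ) (b ρ : ℝ) : ℝ := (m + 1) * o * ∫ t in (0 : ℝ)..ρ, sn b t ^ m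

/-- Radius of the model ball of volume `V`. -/
noncomputable def rad (o : ℝ) (m : ℕ) (b V : ℝ) : ℝ := Function.invFunOn (Vm o m b) (Ici 0) V

/-- The model profile. -/
noncomputable def Ipr (o : ℝ) (m : ℕ) (b V : ℝ) : ℝ := Am o m b (rad o m b V)

/-- `∫₀^π sin^(m-1)`. -/
noncomputable def Sm (m : ℕ) : ℝ := ∫ α in (0 : ℝ)..Real.pi, Real.sin α ^ (m - 1)

/-- A cut-off function. -/
structure Cut (τ : ℝ → ℝ) (ε : ℝ) : Prop where
  smooth : ContDiff ℝ 2 τ
  mono : Monotone τ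
  zero : ∃ α : ℝ, 0 < α ∧ ∀ r, r ≤ α → τ r = 0
  one : ∀ r, ε ≤ r → τ r = 1

/-- The first variation term of a certificate. -/
noncomputable def cB (m : ℕ) (b ρ : ℝ) (χ χw χP : ℝ → ℝ → ℝ) (r a a' M : ℝ) : ℝ :=
  χ (ww b r) (sn b r * a) * (m * cs b r - m * hh b ρ * (sn b r * a')) +
    χw (ww b r) (sn b r * a) * (sn b r ^ 2 * (1 - a' ^ 2)) +
    χP (ww b r) (sn b r * a) * (cs b r * (sn b r * a) - M * (sn b r * a'))

/-- `sn ^ m * cD` is the `r`-derivative of `sn ^ (m + 1) * Ψ (ww r) (sn r * β)`. -/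
noncomputable def cD (m : ℕ) (b : ℝ) (Ψ Ψw ΨQ : ℝ → ℝ → ℝ) (r β : ℝ) : ℝ :=
  (m + 1) * cs b r * Ψ (ww b r) (sn b r * β) + sn b r ^ 2 * Ψw (ww b r) (sn b r * β) +
    cs b r * (sn b r * β) * ΨQ (ww b r) (sn b r * β)

/-- The value of `ww` at the end of the chord of the model ball with angle cosine `β`. -/
noncomputable def wE (b ρ β : ℝ) : ℝ := 2 * β ^ 2 / (hh b ρ ^ 2 - b ^ 2 * β ^ 2)

/-- The value of `sn ^ (m + 1) * Ψ` at the end of the chord. -/
noncomputable def cΦ (m : ℕ) (b ρ : ℝ) (Ψ : ℝ → ℝ → ℝ) (β : ℝ) : ℝ :=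
  (hh b ρ * wE b ρ β / β) ^ (m + 1) * Ψ (wE b ρ β) (hh b ρ * wE b ρ β)

/-- A certificate for the model ball of radius `ρ`. -/
structure Cert (m : ℕ) (b ρ : ℝ) where
  χ : ℝ → ℝ → ℝ
  χw : ℝ → ℝ → ℝ
  χP : ℝ → ℝ → ℝ
  Ψ : ℝ → ℝ → ℝ
  Ψw : ℝ → ℝ → ℝ
  ΨQ : ℝ → ℝ → ℝ
  η : ℝ
  χ₀ : ℝ
  η_pos : 0 < η
  χ₀_pos : 0 < χ₀
  derχ : Der2 χ χw χP
  derΨ : Der2 Ψ Ψw ΨQ
  nonneg : ∀ r a, 0 < r → a ^ 2 ≤ 1 → 0 ≤ χ (ww b r) (sn b r * a)
  sing : ∀ l : ℝ, 0 < l → ∃ ε : ℝ, 0 < ε ∧ ∀ r a, 0 < r → r ≤ ε → a ^ 2 ≤ 1 →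
    χ₀ - l ≤ χ (ww b r) (sn b r * a) * sn b r * r ^ (m - 1)
  main : ∀ r a a' M ι gx gy : ℝ, 0 < r → a ^ 2 ≤ 1 → a' ^ 2 ≤ 1 →
    (M - cs b r * a * a') ^ 2 ≤ (1 - a ^ 2) * (1 - a' ^ 2) → 0 ≤ ι → ι ≤ 1 → 0 ≤ gx → 0 ≤ gy →
    (a * a' * (1 - ι)) ^ 2 ≤ gx * gy →
    0 ≤ cB m b ρ χ χw χP r a a' M + cB m b ρ χ χw χP r a' a M + 2 * η +
      ι * (Ψ (ww b r) (sn b r * a') * (sn b r * a) + Ψ (ww b r) (sn b r * a) * (sn b r * a')) +
      χ (ww b r) (sn b r * a) * gy + χ (ww b r) (sn b r * a') * gx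
  ray_pos : ∀ r β, 0 < r → β ^ 2 ≤ 1 → hh b ρ * ww b r < sn b r * β → 0 < cD m b Ψ Ψw ΨQ r β
  ray_neg : ∀ r β, 0 < r → β ^ 2 ≤ 1 → sn b r * β ≤ hh b ρ * ww b r → cD m b Ψ Ψw ΨQ r β ≤ 0
  Ψ_pos : ∀ r β, 0 < r → β ^ 2 ≤ 1 → hh b ρ * ww b r ≤ sn b r * β → 0 ≤ Ψ (ww b r) (sn b r * β)
  Ψ_neg : ∀ r β, 0 < r → β ^ 2 ≤ 1 → β ≤ 0 → Ψ (ww b r) (sn b r * β) ≤ 0
  const_le : η * sn b ρ ^ m * Sm m ≤ χ₀
  const : ∫⁻ α in Ioo 0 (Real.pi / 2),
      ENNReal.ofReal (cΦ m b ρ Ψ (Real.cos α) * Real.sin α ^ (m - 1)) ≤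
    ENNReal.ofReal (χ₀ - η * sn b ρ ^ m * Sm m)

/-- The constant of the ray bound. -/
noncomputable def Cert.R₀ {m : ℕ} {b ρ : ℝ} (C : Cert m b ρ) : ℝ := C.χ₀ - C.η * sn b ρ ^ m * Sm m

variable {E : Type*} [NormedAddCommGroup E] [InnerProductSpace ℝ E] [FiniteDimensional ℝ E]

/-- The trace. -/
noncomputable def trc (A : E →L[ℝ] E) : ℝ := LinearMap.trace ℝ E (A : E →ₗ[ℝ] E)

/-- The covariant derivative `h ↦ ∇_h Z` of a vector field at `y`. -/
noncomputable def covD (G : E → Bil E) (Z : E → E) (y : E) : E →L[ℝ] E :=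
  fderiv ℝ Z y + (chrL G y).flip (Z y)

/-- The trace over the hyperplane orthogonal to the unit vector `ν`. -/
noncomputable def tdv (B : Bil E) (A : E →L[ℝ] E) (ν : E) : ℝ := trc A - B (A ν) ν

/-- The Hessian at `y` of half the squared distance from `x`. -/
noncomputable def hs (G : E → Bil E) (L : E → E → E) (x y : E) : E →L[ℝ] E :=
  covD G (fun z => -L z x) y

/-- The component of `e` (a vector at `x`) along the gradient at `x` of the distance from `y`. -/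
noncomputable def ca (G : E → Bil E) (L : E → E → E) (x y e : E) : ℝ :=
  -G x e (L x y) / rr G L x y

/-- The normalised differential at `y` of the logarithm at `x`. -/
noncomputable def Cm (b : ℝ) (G : E → Bil E) (L : E → E → E) (x y : E) : E →L[ℝ] E :=
  (sn b (rr G L x y) / rr G L x y) • fderiv ℝ (L x) y -
    ((1 - sn b (rr G L x y) / rr G L x y) / rr G L x y ^ 2) • (G y (L y x)).smulRight (L x y)

/-- The excess of the Hessian at `y` of `ww` of the distance from `x` over the model. -/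
noncomputable def exq (b : ℝ) (G : E → Bil E) (L : E → E → E) (x y h : E) : ℝ :=
  sn b (rr G L x y) / rr G L x y * G y (hs G L x y h) h +
    (cs b (rr G L x y) - sn b (rr G L x y) / rr G L x y) * ca G L y x h ^ 2 -
    cs b (rr G L x y) * G y h h

/-- The tangential trace of the excess. -/
noncomputable def gain (m : ℕ) (b : ℝ) (G : E → Bil E) (L : E → E → E) (x y ν : E) : ℝ :=
  sn b (rr G L x y) / rr G L x y * tdv (G y) (hs G L x y) ν +
    (cs b (rr G L x y) - sn b (rr G L x y) / rr G L x y) * (1 - ca G L y x ν ^ 2) -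
    m * cs b (rr G L x y)

/-- The mixed Hessian of `ww` of the distance. -/
noncomputable def Mx (b : ℝ) (G : E → Bil E) (L : E → E → E) (x y e ν : E) : ℝ :=
  (cs b (rr G L x y) - 1) * ca G L x y e * ca G L y x ν - G x e (Cm b G L x y ν)

/-- The Jacobian at `x` of the logarithm at `y`. -/
noncomputable def jac (G : E → Bil E) (L : E → E → E) (y x : E) : ℝ :=
  wt (G y) * |(fderiv ℝ (L y) x).det|

/-- The ratio of the model volume element to the volume element in polar coordinates. -/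
noncomputable def iota (m : ℕ) (b : ℝ) (G : E → Bil E) (L : E → E → E) (y x : E) : ℝ :=
  (sn b (rr G L y x) / rr G L y x) ^ m * jac G L y x / wt (G x)

/-- What is used of a Cartan-Hadamard manifold of curvature at most `-b²`. -/
structure PackK (b : ℝ) (G : E → Bil E) (L : E → E → E) : Prop extends Pack G L where
  surj : ∀ y, Function.Surjective (L y)
  block : ∀ x y, x ≠ y → ∃ P : E →L[ℝ] E, (∀ h, G x (P h) (P h) = G y h h) ∧
    ∀ k h, 2 * G x k (P h - Cm b G L x y h) ≤ exq b G L y x k + exq b G L x y h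
  contrK : ∀ x y, x ≠ y → ∀ h, G x (Cm b G L x y h) (Cm b G L x y h) ≤ G y h h
  cosK : ∀ y o x, o ≠ y → x ≠ y →
    ww b (rr G L y o) + cs b (rr G L y o) * ww b (rr G L y x) -
      sn b (rr G L y o) / rr G L y o * (sn b (rr G L y x) / rr G L y x) * G y (L y o) (L y x) ≤
    ww b (rr G L o x)

/-- A complete metric of curvature at most `-b²` on `E`. -/
structure CHK (b : ℝ) (G : E → Bil E) : Prop extends CH G where
  sec : ∀ y u v, G y (riem G y u v v) u ≤ -b ^ 2 * (G y u u * G y v v - G y u v ^ 2)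

/-- The closed ball of squared radius `c` about the origin. -/
def KB (G : E → Bil E) (L : E → E → E) (c : ℝ) : Set E := {y | qq G L y 0 ≤ c}

/-- The unit vectors over `K`. -/
def UB (G : E → Bil E) (K : Set E) : Set (E × E) := {z | z.1 ∈ K ∧ G z.1 z.2 z.2 = 1}

/-- The indicator function. -/
noncomputable def ind (S : Set E) : E → ℝ := S.indicator 1

variable [MeasurableSpace E] [BorelSpace E]

/-- The area of the unit sphere of the hyperplane. -/
noncomputable def cm (E : Type*) [NormedAddCommGroup E] [InnerProductSpace ℝ E]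
    [FiniteDimensional ℝ E] [MeasurableSpace E] [BorelSpace E] (m : ℕ) : ℝ :=
  (m + 1) * om E / Sm m

/-- A measurable set in `K` with a measure on unit vectors for which the divergence theorem
holds. -/
structure NDom (G : E → Bil E) (K : Set E) where
  Ω : Set E
  μ : Measure (E × E)
  fin : IsFiniteMeasure μ
  meas : MeasurableSet Ω
  sub : Ω ⊆ K
  supp : ∀ᵐ z ∂μ, z ∈ UB G K
  div : ∀ Z : E → E, ContDiff ℝ 1 Z →
    ∫ y in Ω, dvg Z y = ∫ z, G z.1 z.2 (Z z.1) / wt (G z.1) ∂μ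

attribute [instance] NDom.fin

namespace NDom

variable {G : E → Bil E} {K : Set E} {L : E → E → E}

/-- Area. -/
noncomputable def A (D : NDom G K) : ℝ := D.μ.real univ

/-- Volume. -/
noncomputable def V (D : NDom G K) : ℝ := vol G D.Ω

/-- `D` minimises area minus `I` of the volume. -/
def IsMin (D : NDom G K) (I : ℝ → ℝ) : Prop := ∀ D' : NDom G K, D.A - I D.V ≤ D'.A - I D'.V

/-- `D` has least area among the generalised domains with the same set. -/
def Tight (D : NDom G K) : Prop := ∀ D' : NDom G K, D'.Ω = D.Ω → D.A ≤ D'.A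

/-- The first variation inequality for fields pointing out of the confining ball. -/
def Stat (L : E → E → E) (c : ℝ) (D : NDom G (KB G L c)) (H : ℝ) : Prop :=
  ∀ Z : E → E, ContDiff ℝ 2 Z → (∀ y, qq G L y 0 = c → G y (L y 0) (Z y) ≤ 0) →
    ∫ z, tdv (G z.1) (covD G Z z.1) z.2 ∂D.μ ≤ H * ∫ z, G z.1 z.2 (Z z.1) ∂D.μ

end NDom

/-- The mollified indicator function. -/
noncomputable def mol (φ : ContDiffBump (0 : E)) (S : Set E) : E → ℝ :=
  convolution (φ.normed volume) (ind S) (ContinuousLinearMap.lsmul ℝ ℝ) volume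

/-- The part of the tangent model ball at `(y, ν)` missed by `S`, at distance at least `ε`. -/
noncomputable def Cert.dfc {m : ℕ} {b ρ : ℝ} (C : Cert m b ρ) (G : E → Bil E) (L : E → E → E)
    (S : Set E) (y ν : E) (ε : ℝ) : ℝ≥0∞ :=
  ∫⁻ x in {x | x ∉ S ∧ hh b ρ * ww b (rr G L y x) < sn b (rr G L y x) * ca G L y x ν ∧
      ε ≤ rr G L y x},
    ENNReal.ofReal (sn b (rr G L y x) ^ m * cD m b C.Ψ C.Ψw C.ΨQ (rr G L y x) (ca G L y x ν) *
      jac G L y x / rr G L y x ^ m)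

/-- The ray term at `(y, ν)`. -/
noncomputable def Cert.rayT {m : ℕ} {b ρ : ℝ} (C : Cert m b ρ) (G : E → Bil E) (L : E → E → E)
    (τ : ℝ → ℝ) (y ν x e : E) : ℝ :=
  τ (rr G L y x) * (iota m b G L y x *
    (C.Ψ (ww b (rr G L y x)) (sn b (rr G L y x) * ca G L y x ν) *
      (sn b (rr G L y x) * ca G L x y e)))

/-- The first variation term for the pole `(x, e)` at `(y, ν)`. -/
noncomputable def Cert.varT {m : ℕ} {b ρ : ℝ} (C : Cert m b ρ) (G : E → Bil E) (L : E → E → E)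
    (τ : ℝ → ℝ) (x e y ν : E) : ℝ :=
  τ (rr G L x y) * (cB m b ρ C.χ C.χw C.χP (rr G L x y) (ca G L x y e) (ca G L y x ν)
      (Mx b G L x y e ν) +
    C.χ (ww b (rr G L x y)) (sn b (rr G L x y) * ca G L x y e) * gain m b G L x y ν)

/-- The cut-off term for the pole `(x, e)` at `(y, ν)`. -/
noncomputable def Cert.flxT {m : ℕ} {b ρ : ℝ} (C : Cert m b ρ) (G : E → Bil E) (L : E → E → E)
    (τ : ℝ → ℝ) (x e y ν : E) : ℝ :=
  deriv τ (rr G L x y) * (C.χ (ww b (rr G L x y)) (sn b (rr G L x y) * ca G L x y e) *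
    sn b (rr G L x y) * (1 - ca G L y x ν ^ 2))

end Vale.Agent.P219
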