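import Vale.Agent.P219.G.Basic
import Vale.Agent.P219.G.NCert2

/-!
# Working definitions for certificates with a non-radial flux field
-/

namespace Vale.Agent.P219

open scoped ContDiff Topology RealInnerProductSpace ENNReal
open MeasureTheory Set Vale.Agent.P255
open St (sn)

/-- The model divergence of the flux field `Ψ ∇w + T ∇Q`. -/
noncomputable def cD2 (m : ℕ) (b : ℝ) (Ψ Ψw ΨQ T Tw TQ : ℝ → ℝ → ℝ) (r β : ℝ) : ℝ :=
  cD m b Ψ Ψw ΨQ r β + (m + 1) * b ^ 2 * (sn b r * β) * T (ww b r) (sn b r * β) +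
    cs b r * (sn b r * β) * Tw (ww b r) (sn b r * β) +
    (1 + b ^ 2 * (sn b r * β) ^ 2) * TQ (ww b r) (sn b r * β)

/-- The radial component of the flux field times `sn ^ m`. -/
noncomputable def cφ (m : ℕ) (b : ℝ) (Ψ T : ℝ → ℝ → ℝ) (r β : ℝ) : ℝ :=
  sn b r ^ (m + 1) * Ψ (ww b r) (sn b r * β) + sn b r ^ m * cs b r * β * T (ww b r) (sn b r * β)

/-- The angle cosine of the chord of length `r` of the model ball. -/
noncomputable def cβ (b ρ r : ℝ) : ℝ := hh b ρ * ww b r / sn b r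

/-- The flux density on the model sphere. -/
noncomputable def cF (b ρ : ℝ) (Ψ T : ℝ → ℝ → ℝ) (r : ℝ) : ℝ :=
  Ψ (ww b r) (hh b ρ * ww b r) * (hh b ρ * ww b r) +
    T (ww b r) (hh b ρ * ww b r) * (cs b r * cβ b ρ r ^ 2 - (1 - cβ b ρ r ^ 2))

/-- The area element of the model sphere in terms of the chord length. -/
noncomputable def cω (m : ℕ) (b ρ r : ℝ) : ℝ := sn b r ^ (m - 1) * √(1 - cβ b ρ r ^ 2) ^ (m - 2)

/-- A certificate for the model ball of radius `ρ`. -/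
structure Cert2 (m : ℕ) (b ρ : ℝ) where
  χ : ℝ → ℝ → ℝ
  χw : ℝ → ℝ → ℝ
  χP : ℝ → ℝ → ℝ
  Ψ : ℝ → ℝ → ℝ
  Ψw : ℝ → ℝ → ℝ
  ΨQ : ℝ → ℝ → ℝ
  T : ℝ → ℝ → ℝ
  Tw : ℝ → ℝ → ℝ
  TQ : ℝ → ℝ → ℝ
  η : ℝ
  χ₀ : ℝ
  Gf : ℝ → ℝ
  Gf_cont : Continuous Gf
  η_pos : 0 < η
  χ₀_pos : 0 < χ₀
  derχ : Der2 χ χw χP
  derΨ : Der2 Ψ Ψw ΨQ
  derT : Der2 T Tw TQ
  nonneg : ∀ r a, 0 < r → a ^ 2 ≤ 1 → 0 ≤ χ (ww b r) (sn b r * a)
  sing : ∀ l : ℝ, 0 < l → ∃ ε : ℝ, 0 < ε ∧ ∀ r a, 0 < r → r ≤ ε → a ^ 2 ≤ 1 →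
    χ₀ - l ≤ χ (ww b r) (sn b r * a) * sn b r * r ^ (m - 1)
  main : ∀ r a a' W W₂ ι gx gy : ℝ, 0 < r → Feas m a a' W W₂ ι gx gy →
    0 ≤ cB m b ρ χ χw χP r a a' (cs b r * a * a' - W) +
      cB m b ρ χ χw χP r a' a (cs b r * a * a' - W) + (2 * η + Gf r) +
      ι * (Ψ (ww b r) (sn b r * a') * (sn b r * a) + Ψ (ww b r) (sn b r * a) * (sn b r * a')) +
      (T (ww b r) (sn b r * a') + T (ww b r) (sn b r * a)) * (ι * cs b r * a * a' - W₂) +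
      χ (ww b r) (sn b r * a) * gy + χ (ww b r) (sn b r * a') * gx
  ray_pos : ∀ r β, 0 < r → β ^ 2 ≤ 1 → hh b ρ * ww b r < sn b r * β →
    0 < cD2 m b Ψ Ψw ΨQ T Tw TQ r β
  ray_neg : ∀ r β, 0 < r → β ^ 2 ≤ 1 → sn b r * β ≤ hh b ρ * ww b r →
    cD2 m b Ψ Ψw ΨQ T Tw TQ r β ≤ 0
  near : ∃ B : ℝ, ∀ l : ℝ, 0 < l → ∃ ε : ℝ, 0 < ε ∧ ∀ r β, 0 < r → r ≤ ε → β ^ 2 ≤ 1 →
    |cφ m b Ψ T r β| ≤ B ∧ (0 ≤ β → -l ≤ cφ m b Ψ T r β) ∧ (β ≤ 0 → cφ m b Ψ T r β ≤ l)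
  const : ∀ l : ℝ, 0 < l → ∃ ε₁ : ℝ, 0 < ε₁ ∧ ∀ (τ : ℝ → ℝ) (ε : ℝ), Cut τ ε → ε ≤ ε₁ →
    ∫ r in (0 : ℝ)..(2 * ρ), τ r * (cF b ρ Ψ T r * cω m b ρ r) ≤
      χ₀ - η * sn b ρ ^ m * Sm m + l

/-- The constant of the ray bound. -/
noncomputable def Cert2.R₀ {m : ℕ} {b ρ : ℝ} (C : Cert2 m b ρ) : ℝ :=
  C.χ₀ - C.η * sn b ρ ^ m * Sm m

variable {E : Type*} [NormedAddCommGroup E] [InnerProductSpace ℝ E] [FiniteDimensional ℝ E]

/-- The flux at `(x, e)` of the transported field `∇Q` with pole `(y, ν)`. -/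
noncomputable def Mc (m : ℕ) (b : ℝ) (G : E → Bil E) (L : E → E → E) (y x ν e : E) : ℝ :=
  iota m b G L y x * (cs b (rr G L y x) * ca G L y x ν * ca G L x y e +
    rr G L y x / sn b (rr G L y x) *
      G x e ((fderiv ℝ (L y) x).inverse (-ν - (ca G L y x ν / rr G L y x) • L y x)))

variable [MeasurableSpace E] [BorelSpace E]

/-- The part of the tangent model ball at `(y, ν)` missed by `S`, at distance at least `ε`. -/
noncomputable def Cert2.dfc {m : ℕ} {b ρ : ℝ} (C : Cert2 m b ρ) (G : E → Bil E) (L : E → E → E)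
    (S : Set E) (y ν : E) (ε : ℝ) : ℝ≥0∞ :=
  ∫⁻ x in {x | x ∉ S ∧ hh b ρ * ww b (rr G L y x) < sn b (rr G L y x) * ca G L y x ν ∧
      ε ≤ rr G L y x},
    ENNReal.ofReal (sn b (rr G L y x) ^ m *
      cD2 m b C.Ψ C.Ψw C.ΨQ C.T C.Tw C.TQ (rr G L y x) (ca G L y x ν) *
      jac G L y x / rr G L y x ^ m)

/-- The flux term at `(y, ν)`. -/
noncomputable def Cert2.rayT {m : ℕ} {b ρ : ℝ} (C : Cert2 m b ρ) (G : E → Bil E) (L : E → E → E)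
    (τ : ℝ → ℝ) (y ν x e : E) : ℝ :=
  τ (rr G L y x) * (iota m b G L y x *
    (C.Ψ (ww b (rr G L y x)) (sn b (rr G L y x) * ca G L y x ν) *
      (sn b (rr G L y x) * ca G L x y e)) +
    C.T (ww b (rr G L y x)) (sn b (rr G L y x) * ca G L y x ν) * Mc m b G L y x ν e)

/-- The first variation term for the pole `(x, e)` at `(y, ν)`. -/
noncomputable def Cert2.varT {m : ℕ} {b ρ : ℝ} (C : Cert2 m b ρ) (G : E → Bil E) (L : E → E → E)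
    (τ : ℝ → ℝ) (x e y ν : E) : ℝ :=
  τ (rr G L x y) * (cB m b ρ C.χ C.χw C.χP (rr G L x y) (ca G L x y e) (ca G L y x ν)
      (Mx b G L x y e ν) +
    C.χ (ww b (rr G L x y)) (sn b (rr G L x y) * ca G L x y e) * gain m b G L x y ν)

/-- The cut-off term for the pole `(x, e)` at `(y, ν)`. -/
noncomputable def Cert2.flxT {m : ℕ} {b ρ : ℝ} (C : Cert2 m b ρ) (G : E → Bil E) (L : E → E → E)
    (τ : ℝ → ℝ) (x e y ν : E) : ℝ :=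
  deriv τ (rr G L x y) * (C.χ (ww b (rr G L x y)) (sn b (rr G L x y) * ca G L x y e) *
    sn b (rr G L x y) * (1 - ca G L y x ν ^ 2))

end Vale.Agent.P219
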