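import Vale.Agent.P219.G.Lin3

/-! Coefficients and inequalities for the certificate with `m = 2`. -/

namespace Vale.Agent.P219

open Set Filter Topology

theorem c2_mul {x y C Y : ℝ} (hx : |x| ≤ C) (hy : |y| ≤ Y) : -(C * Y) ≤ x * y :=
  neg_le_of_abs_le (by
    rw [abs_mul]
    exact mul_le_mul hx hy (abs_nonneg _) ((abs_nonneg _).trans hx))

theorem c2_a1 (A B : ℝ) : |2 - A - B| ≤ 3 + (A ^ 2 + B ^ 2) := abs_le.2
  ⟨by nlinarith [sq_nonneg (A - 1), sq_nonneg (B - 1)],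
    by nlinarith [sq_nonneg (A + 1), sq_nonneg (B + 1)]⟩

theorem c2_a2 (A B : ℝ) : |(1 - A) * (1 - B)| ≤ 2 + (A ^ 2 + B ^ 2) := abs_le.2
  ⟨by nlinarith [sq_nonneg (A + 1), sq_nonneg (B + 1), sq_nonneg (2 - A - B)],
    by nlinarith [sq_nonneg (A + 1), sq_nonneg (B + 1), sq_nonneg (A - B)]⟩

theorem c2_a3 (A B : ℝ) : |A * B| ≤ (A ^ 2 + B ^ 2) / 2 :=
  abs_le.2 ⟨by nlinarith [sq_nonneg (A + B)], by nlinarith [sq_nonneg (A - B)]⟩

theorem c2_a4 {g C A B Z κ : ℝ} (h0 : 0 < g) (h1 : g ≤ 1 / 2) (k0 : 0 ≤ κ) (k1 : κ ≤ C)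
    (z0 : 0 ≤ Z) (z1 : Z ≤ 2) : -(C * ((A ^ 2 + B ^ 2) / 4)) ≤ g * κ * (2 - A - B) * Z := by
  have hC0 : 0 ≤ C := k0.trans k1
  rcases le_total 0 (2 - A - B) with h | h
  · exact le_trans (neg_nonpos.2 (by positivity)) (by positivity)
  · have a3 : |g * Z| ≤ 1 := by
      rw [abs_of_nonneg (by positivity)]
      nlinarith
    have a4 : |g * Z * (2 - A - B)| ≤ (A ^ 2 + B ^ 2) / 4 := by
      rw [abs_mul, abs_of_nonpos h]
      refine (mul_le_of_le_one_left (by linarith) a3).trans ?_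
      nlinarith [sq_nonneg (A - B), sq_nonneg (A + B - 4)]
    exact (c2_mul (by rwa [abs_of_nonneg k0]) a4).trans_eq (by ring)

theorem c2_a5 {g x X y j : ℝ} (h0 : 0 < g) (h1 : g ≤ 1 / 2) (hx : |x| ≤ X) (hy : |y| ≤ j) :
    |g * x * y| ≤ 1 / 2 * X * j := by
  rw [abs_mul, abs_mul, abs_of_pos h0]
  have := (abs_nonneg _).trans hx
  exact mul_le_mul (mul_le_mul h1 hx (abs_nonneg _) (by norm_num)) hy (abs_nonneg _)
    (by positivity)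

theorem c2_a6 {g C A B j Z U c1 c2 c3 κ r f f' : ℝ} (h0 : 0 < g) (h1 : g ≤ 1 / 2)
    (b1 : |c1| ≤ C) (b2 : |c2| ≤ C) (b3 : |c3| ≤ C) (k0 : 0 ≤ κ) (k1 : κ ≤ C) (br : |r| ≤ C)
    (bf : |f| ≤ C) (bf' : |f'| ≤ C) (z0 : 0 ≤ Z) (z1 : Z ≤ 2) (hU : |U| ≤ j) (j1 : j ≤ 1) :
    -(C * (4 * (A ^ 2 + B ^ 2) + 4 * j)) ≤ c1 * A ^ 2 + c2 * B ^ 2 + c3 * (A * B) +
      g * κ * (2 - A - B) * Z + g * r * (2 - A - B) * U -
        g * j * (f * (2 - A - B) + f' * ((1 - A) * (1 - B))) := by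
  have hC0 : 0 ≤ C := k0.trans k1
  have hS : 0 ≤ A ^ 2 + B ^ 2 := by positivity
  have a6 : |-j| ≤ j := by rw [abs_neg, abs_of_nonneg ((abs_nonneg _).trans hU)]
  have t1 := c2_mul b1 (abs_of_nonneg (sq_nonneg A)).le
  have t2 := c2_mul b2 (abs_of_nonneg (sq_nonneg B)).le
  have t3 := c2_mul b3 (c2_a3 A B)
  have t4 := c2_a4 (A := A) (B := B) h0 h1 k0 k1 z0 z1
  have t5 := c2_mul br (c2_a5 h0 h1 (c2_a1 A B) hU)
  have t6 := c2_mul bf (c2_a5 h0 h1 (c2_a1 A B) a6)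
  have t7 := c2_mul bf' (c2_a5 h0 h1 (c2_a2 A B) a6)
  have t8 := mul_le_mul_of_nonneg_left (mul_le_of_le_one_right hS j1) hC0
  linarith [mul_nonneg hC0 hS]

theorem c2_ineq {g C ε S j T E : ℝ} (h0 : 0 < g) (hε : 0 < ε) (hC0 : 0 ≤ C)
    (hC : ε * C * (4 + 16 / g ^ 2) ≤ 1) (hS : 0 ≤ S) (hT : 0 ≤ T) (hk : g ^ 2 / 4 * j ≤ S + T)
    (hE : -(C * (4 * S + 4 * j)) ≤ E) : 0 ≤ S + T + ε * E := by
  have t9 : C * (4 * j) ≤ C * (16 / g ^ 2 * (S + T)) := by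
    refine mul_le_mul_of_nonneg_left ?_ hC0
    rw [div_mul_eq_mul_div, le_div_iff₀ (by positivity)]
    linarith
  have t10 := mul_le_mul_of_nonneg_right hC (add_nonneg hS hT)
  have t11 : -(C * (4 + 16 / g ^ 2) * (S + T)) ≤ E := by linarith [mul_nonneg hC0 hT]
  linarith [mul_le_mul_of_nonneg_left t11 hε.le]

theorem c2_low {g u s s' : ℝ} (h0 : 0 < g) (h1 : g ≤ 1 / 2) (hu : 0 < u)
    (hs : u * s ^ 2 ≤ 2 * g + (1 - 2 * g) * u) :
    g ^ 2 / 4 ≤ (1 - s) ^ 2 + (1 - s') ^ 2 + g * (2 * g + (1 - 2 * g) * u)⁻¹ * |s * s'| := by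
  have hd : 0 ≤ 1 - 2 * g := by linarith
  have hh : 0 < 2 * g + (1 - 2 * g) * u := by positivity
  by_contra hc
  have h2 : 0 ≤ g * (2 * g + (1 - 2 * g) * u)⁻¹ * |s * s'| := by positivity
  have h3 : 1 - g / 2 < s := by nlinarith [sq_nonneg (1 - s')]
  have h4 : 1 - g / 2 < s' := by nlinarith [sq_nonneg (1 - s)]
  have h5 : 1 - g ≤ s ^ 2 := by nlinarith
  have h6 : u ≤ 2 := by nlinarith [mul_le_mul_of_nonneg_left h5 hu.le]
  have h7 : 1 / 2 ≤ (2 * g + (1 - 2 * g) * u)⁻¹ := by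
    rw [le_inv_comm₀ (by norm_num) hh]
    nlinarith
  have h8 : 1 / 2 ≤ |s * s'| := le_trans (by nlinarith) (le_abs_self _)
  have h9 := mul_le_mul (mul_le_mul_of_nonneg_left h7 h0.le) h8 (by norm_num) (by positivity)
  nlinarith [sq_nonneg (1 - s), sq_nonneg (1 - s')]

theorem c2_small {g : ℝ} (h1 : g ≤ 1 / 2) {F : ℝ × ℝ → ℝ} (hF : ContinuousAt F 0)
    (hF0 : F 0 = 0) {l : ℝ} (hl : 0 < l) : ∃ u₀ : ℝ, 0 < u₀ ∧ ∀ u p, 0 < u → u ≤ u₀ →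
      p ^ 2 ≤ sg2 g u → |F (u, p)| ≤ l := by
  obtain ⟨d, hd, h⟩ := Metric.continuousAt_iff.1 hF l hl
  refine ⟨min 1 (d / 2) ^ 2, by positivity, fun u p hu h2 hp => ?_⟩
  have k0 : 0 ≤ min 1 (d / 2) := by positivity
  have k1 := min_le_left 1 (d / 2)
  have k2 := min_le_right 1 (d / 2)
  generalize min 1 (d / 2) = x at h2 k0 k1 k2
  have k3 : x ^ 2 ≤ x := by nlinarith
  have k4 : p ^ 2 ≤ x ^ 2 := by
    rw [sg2] at hp
    nlinarith [mul_nonneg hu.le (mul_nonneg (show 0 ≤ 1 - 2 * g by linarith)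
      (show 0 ≤ 1 - u by linarith))]
  have k5 := h (x := (u, p)) (by
    rw [dist_zero_right, Prod.norm_def, max_lt_iff, Real.norm_eq_abs, Real.norm_eq_abs,
      abs_of_pos hu]
    exact ⟨by linarith, (abs_le_of_sq_le_sq k4 k0).trans_lt (by linarith)⟩)
  rw [hF0, Real.dist_eq, sub_zero] at k5
  exact k5.le

/-- The inverse of `h`. -/
noncomputable def c2i (g u : ℝ) : ℝ := (2 * g + (1 - 2 * g) * u)⁻¹

/-- The ratio `h / (h + u)`. -/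
noncomputable def c2v (g u : ℝ) : ℝ := (2 * g + (1 - 2 * g) * u) / (2 * g + (2 - 2 * g) * u)

/-- The coefficients. -/
noncomputable def c2m (g : ℝ) (n : ℕ) (a b c d u : ℝ) : ℝ :=
  c2i g u ^ n * (a + b * c2v g u + c * c2v g u ^ 2 + d * c2v g u ^ 3)

/-- The derivatives of the coefficients. -/
noncomputable def c2d (g : ℝ) (n : ℕ) (a b c d u : ℝ) : ℝ :=
  c2i g u ^ (n + 1) * (-(n * (1 - 2 * g)) * (a + b * c2v g u + c * c2v g u ^ 2 + d * c2v g u ^ 3) -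
    2 * g * c2i g u * c2v g u ^ 2 * (b + 2 * c * c2v g u + 3 * d * c2v g u ^ 2))

variable {g u : ℝ}

theorem c2_h (h0 : 0 < g) (h1 : g ≤ 1 / 2) (hu : 0 ≤ u) : 0 < 2 * g + (1 - 2 * g) * u := by
  have : 0 ≤ 1 - 2 * g := by linarith
  positivity

theorem c2_D (h0 : 0 < g) (h1 : g ≤ 1 / 2) (hu : 0 ≤ u) : 0 < 2 * g + (2 - 2 * g) * u := by
  have : 0 ≤ 2 - 2 * g := by linarith
  positivity

theorem c2m_der (h0 : 0 < g) (h1 : g ≤ 1 / 2) (hu : 0 ≤ u) (n : ℕ) (a b c d : ℝ) :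
    HasDerivAt (c2m g (n + 1) a b c d) (c2d g (n + 1) a b c d u) u := by
  have hh := (c2_h h0 h1 hu).ne'
  have hD := (c2_D h0 h1 hu).ne'
  have d1 : HasDerivAt (fun t => 2 * g + (1 - 2 * g) * t) (1 - 2 * g) u := by
    simpa using ((hasDerivAt_id' u).const_mul (1 - 2 * g)).const_add (2 * g)
  have d2 : HasDerivAt (fun t => 2 * g + (2 - 2 * g) * t) (2 - 2 * g) u := by
    simpa using ((hasDerivAt_id' u).const_mul (2 - 2 * g)).const_add (2 * g)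
  have di : HasDerivAt (c2i g) (-((1 - 2 * g) * c2i g u ^ 2)) u := by
    refine (d1.fun_inv hh).congr_deriv ?_
    rw [c2i]
    field_simp
  have dv : HasDerivAt (c2v g) (-(2 * g * c2i g u ^ 2 * c2v g u ^ 2)) u := by
    refine (d1.fun_div d2 hD).congr_deriv ?_
    rw [c2i, c2v]
    field_simp
    ring
  refine ((di.fun_pow (n + 1)).fun_mul ((((dv.const_mul b).const_add a).fun_add
    ((dv.fun_pow 2).const_mul c)).fun_add ((dv.fun_pow 3).const_mul d))).congr_deriv ?_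
  rw [c2d]
  push_cast
  ring

theorem c2m_cd (h0 : 0 < g) (h1 : g ≤ 1 / 2) (n : ℕ) (a b c d : ℝ) :
    ContDiffOn ℝ 2 (fun z : ℝ × ℝ => c2m g n a b c d z.1) {z | 0 < z.1} := by
  have ci : ContDiffOn ℝ 2 (fun z : ℝ × ℝ => c2i g z.1) {z | 0 < z.1} :=
    ContDiffOn.inv (by fun_prop) fun z hz => (c2_h h0 h1 (le_of_lt hz)).ne'
  have cv : ContDiffOn ℝ 2 (fun z : ℝ × ℝ => c2v g z.1) {z | 0 < z.1} :=
    ContDiffOn.div (by fun_prop) (by fun_prop) fun z hz => (c2_D h0 h1 (le_of_lt hz)).ne'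
  exact (ci.pow n).mul (((contDiffOn_const.add (contDiffOn_const.mul cv)).add
    (contDiffOn_const.mul (cv.pow 2))).add (contDiffOn_const.mul (cv.pow 3)))

theorem c2m_ca (h0 : 0 < g) (h1 : g ≤ 1 / 2) (n : ℕ) (a b c d : ℝ) :
    ContinuousAt (fun z : ℝ × ℝ => c2m g (n + 1) a b c d z.1) 0 :=
  ContinuousAt.comp (g := c2m g (n + 1) a b c d) (f := fun z : ℝ × ℝ => z.1) (x := 0)
    (c2m_der h0 h1 le_rfl n a b c d).continuousAt continuousAt_fst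

end Vale.Agent.P219
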