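import Vale.Agent.P219.G.Cert2A

/-! The coefficients of the certificate with `m = 2` and the identities between them. -/

namespace Vale.Agent.P219

open Set Filter Topology

/-- Coefficient of `X`. -/
noncomputable def c2c (g : ℝ) : ℝ → ℝ := c2m g 2 (-g) 0 (2 * g) 0
/-- Derivative. -/
noncomputable def c2c' (g : ℝ) : ℝ → ℝ := c2d g 2 (-g) 0 (2 * g) 0
/-- Coefficient of `X`. -/
noncomputable def c2k (g : ℝ) : ℝ → ℝ := c2m g 2 (g - 1 / 2) (5 / 2) (1 - 2 * g) 0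
/-- Derivative. -/
noncomputable def c2k' (g : ℝ) : ℝ → ℝ := c2d g 2 (g - 1 / 2) (5 / 2) (1 - 2 * g) 0
/-- Coefficient of `R`. -/
noncomputable def c2r (g : ℝ) : ℝ → ℝ := c2m g 2 (g - 1 / 2) (-3 / 2) (6 * g - 3) (8 - 8 * g)
/-- Derivative. -/
noncomputable def c2r' (g : ℝ) : ℝ → ℝ := c2d g 2 (g - 1 / 2) (-3 / 2) (6 * g - 3) (8 - 8 * g)
/-- Coefficient of `Y`. -/
noncomputable def c2f (g : ℝ) : ℝ → ℝ := c2m g 2 (g - 17 / 2) (19 / 2) (2 - 2 * g) 0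
/-- Derivative. -/
noncomputable def c2f' (g : ℝ) : ℝ → ℝ := c2d g 2 (g - 17 / 2) (19 / 2) (2 - 2 * g) 0
/-- Coefficient of `Y`. -/
noncomputable def c2l (g : ℝ) : ℝ → ℝ := c2m g 2 18 (-16) (-10) 8
/-- Derivative. -/
noncomputable def c2l' (g : ℝ) : ℝ → ℝ := c2d g 2 18 (-16) (-10) 8
/-- Coefficient of `Y`. -/
noncomputable def c2n (g : ℝ) : ℝ → ℝ := c2m g 3 (2 - 4 * g) (-11) (-3) (8 * g)
/-- Derivative. -/
noncomputable def c2n' (g : ℝ) : ℝ → ℝ := c2d g 3 (2 - 4 * g) (-11) (-3) (8 * g)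

/-- A bounded quantity. -/
noncomputable def c2kD (g v i : ℝ) : ℝ := i * (5 / 2 + (2 - 2 * g - 2 * g * i) * (v ^ 2 - 1 / 2))
/-- A bounded quantity. -/
noncomputable def c2kE (g v i : ℝ) : ℝ :=
  -2 * (1 - 2 * g * i) * c2kD g v i - 2 * g * i ^ 2 * (5 / 2 + 2 * (1 - 2 * g) * v) * (1 - v)
/-- A bounded quantity. -/
noncomputable def c2fE (g v i : ℝ) : ℝ :=
  i ^ 2 * (-25 / 2 - 3 * v + 8 * v ^ 2 + 3 * (2 - 2 * g - 2 * g * i) * (1 / 2 - v ^ 2))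
/-- A bounded quantity. -/
noncomputable def c2q3 (g v i : ℝ) : ℝ := 2 * g * i ^ 2 * (1 - v) * (1 + (2 - 2 * g) * v)
/-- A bounded quantity. -/
noncomputable def c2q2 (g v i : ℝ) : ℝ :=
  c2kE g v i - g * i * c2kD g v i + c2q3 g v i + g * c2fE g v i
/-- A bounded quantity. -/
noncomputable def c2q0 (g v i : ℝ) : ℝ :=
  i ^ 2 * ((3 - 4 * g * i) * (2 * g * v ^ 2 - g) + 8 * g ^ 2 * i * v ^ 2 * (1 - v)) -
    (1 - v) * c2kE g v i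

theorem c2_bd (g : ℝ) : ∃ C : ℝ, 0 < C ∧ ∀ v i x y : ℝ, v ∈ Icc (0 : ℝ) 1 → i ∈ Icc 0 (2 * g)⁻¹ →
    |x| ≤ 1 → |y| ≤ 1 →
    |i ^ 2 * (-g + 0 * v + 2 * g * v ^ 2 + 0 * v ^ 3) + c2kD g v i * (1 - v - x)| ≤ C ∧
    |c2q0 g v i + c2q2 g v i * y + c2q3 g v i * (2 * (1 - v) + x)| ≤ C ∧
    |4 * (1 - v) * (c2kD g v i + c2q2 g v i) +
      2 * g * (i ^ 2 * (18 + -16 * v + -10 * v ^ 2 + 8 * v ^ 3))| ≤ C ∧
    |4 * i ^ 2 * v * (1 - v) * (1 + (2 - 2 * g) * v)| ≤ C ∧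
    |i ^ 2 * (g - 1 / 2 + -3 / 2 * v + (6 * g - 3) * v ^ 2 + (8 - 8 * g) * v ^ 3)| ≤ C ∧
    |i ^ 2 * (g - 17 / 2 + 19 / 2 * v + (2 - 2 * g) * v ^ 2 + 0 * v ^ 3)| ≤ C ∧
    |2 * (i ^ 2 * (18 + -16 * v + -10 * v ^ 2 + 8 * v ^ 3)) + c2fE g v i * (x + y)| ≤ C := by
  have hK : IsCompact (Icc (0 : ℝ) 1 ×ˢ Icc (0 : ℝ) (2 * g)⁻¹ ×ˢ Icc (-1 : ℝ) 1 ×ˢ Icc (-1 : ℝ) 1) :=
    isCompact_Icc.prod (isCompact_Icc.prod (isCompact_Icc.prod isCompact_Icc))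
  obtain ⟨C, hC⟩ := hK.exists_bound_of_continuousOn (f := fun z : ℝ × ℝ × ℝ × ℝ =>
    (z.2.1 ^ 2 * (-g + 0 * z.1 + 2 * g * z.1 ^ 2 + 0 * z.1 ^ 3) +
      c2kD g z.1 z.2.1 * (1 - z.1 - z.2.2.1),
    c2q0 g z.1 z.2.1 + c2q2 g z.1 z.2.1 * z.2.2.2 + c2q3 g z.1 z.2.1 * (2 * (1 - z.1) + z.2.2.1),
    4 * (1 - z.1) * (c2kD g z.1 z.2.1 + c2q2 g z.1 z.2.1) +
      2 * g * (z.2.1 ^ 2 * (18 + -16 * z.1 + -10 * z.1 ^ 2 + 8 * z.1 ^ 3)),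
    4 * z.2.1 ^ 2 * z.1 * (1 - z.1) * (1 + (2 - 2 * g) * z.1),
    z.2.1 ^ 2 * (g - 1 / 2 + -3 / 2 * z.1 + (6 * g - 3) * z.1 ^ 2 + (8 - 8 * g) * z.1 ^ 3),
    z.2.1 ^ 2 * (g - 17 / 2 + 19 / 2 * z.1 + (2 - 2 * g) * z.1 ^ 2 + 0 * z.1 ^ 3),
    2 * (z.2.1 ^ 2 * (18 + -16 * z.1 + -10 * z.1 ^ 2 + 8 * z.1 ^ 3)) +
      c2fE g z.1 z.2.1 * (z.2.2.1 + z.2.2.2))) (Continuous.continuousOn (by
        unfold c2q0 c2q2 c2q3 c2fE c2kE c2kD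
        fun_prop))
  refine ⟨|C| + 1, by positivity, fun v i x y hv hi hx hy => ?_⟩
  have h := (hC (v, i, x, y) ⟨hv, hi, abs_le.1 hx, abs_le.1 hy⟩).trans
    ((le_abs_self C).trans (le_add_of_nonneg_right zero_le_one))
  simpa only [Prod.norm_def, max_le_iff, Real.norm_eq_abs] using h

variable {g u : ℝ}

theorem c2_rel (h0 : 0 < g) (h1 : g ≤ 1 / 2) (hu : 0 < u) :
    c2i g u * (2 * g + (1 - 2 * g) * u) = 1 ∧ u * c2i g u * c2v g u = 1 - c2v g u ∧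
      c2v g u ∈ Icc (0 : ℝ) 1 ∧ c2i g u ∈ Icc 0 (2 * g)⁻¹ := by
  have hh := c2_h h0 h1 hu.le
  have hD := c2_D h0 h1 hu.le
  refine ⟨inv_mul_cancel₀ hh.ne', ?_, ⟨(div_pos hh hD).le, (div_le_one hD).2 (by linarith)⟩,
    (inv_pos.2 hh).le, inv_anti₀ (by positivity) ?_⟩
  · rw [c2i, c2v]
    generalize e1 : 2 * g + (1 - 2 * g) * u = h at hh ⊢
    generalize e2 : 2 * g + (2 - 2 * g) * u = D at hD ⊢
    field_simp
    subst e1 e2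
    ring
  · linarith [mul_nonneg (show 0 ≤ 1 - 2 * g by linarith) hu.le]

theorem c2_I (h0 : 0 < g) (h1 : g ≤ 1 / 2) (hu : 0 < u) :
    u * c2k g u = (1 - c2v g u) * c2kD g (c2v g u) (c2i g u) ∧
    u ^ 2 * c2k' g u = (1 - c2v g u) * c2kE g (c2v g u) (c2i g u) ∧
    c2c g u - u * c2c' g u - u ^ 2 * c2k' g u = c2q0 g (c2v g u) (c2i g u) ∧
    u * (c2n g u + c2i g u * c2r g u) = (1 - c2v g u) * c2fE g (c2v g u) (c2i g u) ∧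
    g * (c2k g u - c2r g u) * (u * c2i g u) / 2 = (1 - c2v g u) * c2q3 g (c2v g u) (c2i g u) := by
  have hh := (c2_h h0 h1 hu.le).ne'
  have hD := (c2_D h0 h1 hu.le).ne'
  simp only [c2k, c2k', c2c, c2c', c2n, c2r, c2m, c2d, c2q0, c2q3, c2fE, c2kE, c2kD, c2i, c2v,
    Nat.reduceAdd, Nat.cast_ofNat]
  generalize e1 : 2 * g + (1 - 2 * g) * u = h at hh ⊢
  generalize e2 : 2 * g + (2 - 2 * g) * u = D at hD ⊢
  refine ⟨?_, ?_, ?_, ?_, ?_⟩ <;>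
  · field_simp
    subst e1 e2
    ring

theorem c2_E (h0 : 0 < g) (h1 : g ≤ 1 / 2) (hu : 0 < u) :
    (1 - 2 * g) * c2c g u + 2 * c2k g u * ct g u + (2 * g + (1 - 2 * g) * u) *
      (c2c' g u + u * c2k' g u) + (-2 * c2c g u - 2 * u * c2k g u - 3 * c2k g u * ct g u -
        (2 * g + (1 - 2 * g) * u) * (u * c2k' g u - c2k g u) - g * (c2k g u - c2r g u) +
        g * c2f g u) + c2q0 g (c2v g u) (c2i g u) + (2 * u * c2k g u + g * c2l g u) +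
        (1 - c2v g u) * (c2q2 g (c2v g u) (c2i g u) + c2q3 g (c2v g u) (c2i g u)) = 0 ∧
    (-2 * c2c g u - 2 * u * c2k g u - 3 * c2k g u * ct g u -
        (2 * g + (1 - 2 * g) * u) * (u * c2k' g u - c2k g u) - g * (c2k g u - c2r g u) +
        g * c2f g u) + 2 * c2q0 g (c2v g u) (c2i g u) + 2 * (2 * u * c2k g u + g * c2l g u) +
        3 * (1 - c2v g u) * (c2q2 g (c2v g u) (c2i g u) + c2q3 g (c2v g u) (c2i g u)) = 0 := by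
  have hh := (c2_h h0 h1 hu.le).ne'
  have hD := (c2_D h0 h1 hu.le).ne'
  simp only [c2k, c2k', c2c, c2c', c2f, c2l, c2r, c2m, c2d, c2q0, c2q2, c2q3, c2fE, c2kE, c2kD,
    c2i, c2v, ct, Nat.reduceAdd, Nat.cast_ofNat]
  generalize e1 : 2 * g + (1 - 2 * g) * u = h at hh ⊢
  generalize e2 : 2 * g + (2 - 2 * g) * u = D at hD ⊢
  refine ⟨?_, ?_⟩ <;>
  · field_simp
    subst e1 e2
    ring

end Vale.Agent.P219
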