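import Vale.Agent.P219.G.Cert6P

/-! Kernel checks for the certificate with `m = 6`. -/

namespace Vale.Agent.P219.C6

open Bn

theorem k1 : ck [6, 6, 7, 1] [1, 0, 1, 0] [7, 6, 8, 2] [0, 0, 1, 0]
    .a (B (pt 1)) (Tp (pt 1)) = true ∧
    ck [6, 5, 6, 1] [1, 0, 1, 0] [7, 6, 8, 2] [0, 0, 1, 0]
    .b (c (pt 1)) (Tm (pt 1)) = true ∧
    ck [7, 6, 8, 2] [0, 0, 1, 0] [7, 6, 8, 2] [0, 0, 1, 0]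
    .a (Ua (pt 1)) (Ua (pt 1)) = true ∧
    ck [7, 6, 8, 2] [0, 0, 1, 0] [7, 6, 8, 2] [0, 0, 1, 0]
    .a (Ub (pt 1)) (Ub (pt 1)) = true ∧
    ck [7, 6, 8, 2] [0, 0, 1, 0] [7, 6, 8, 2] [0, 0, 1, 0]
    .a (Uc (pt 1)) (Uc (pt 1)) = true ∧
    ck [7, 6, 8, 2] [0, 0, 1, 0] [7, 6, 8, 2] [0, 0, 1, 0]
    .a (Ud (pt 1)) (Ud (pt 1)) = true ∧
    ck [5, 4, 5, 1] [0, 0, 0, 0] [5, 4, 5, 1] [0, 0, 0, 0]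
    .a (A (pt 1)) (A (pt 1)) = true ∧
    ck [4, 4, 4, 0] [1, 0, 1, 0] [4, 4, 4, 0] [1, 0, 1, 0]
    .a (X0 (pt 1)) (X0 (pt 1)) = true := by
  decide +kernel

theorem good1 : GoodL (pt 1) := fun _ h =>
  ⟨ck_sound k1.1 h,
    ck_sound k1.2.1 h,
    (ck_sound k1.2.2.1 h).elim id id,
    (ck_sound k1.2.2.2.1 h).elim id id,
    (ck_sound k1.2.2.2.2.1 h).elim id id,
    (ck_sound k1.2.2.2.2.2.1 h).elim id id,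
    (ck_sound k1.2.2.2.2.2.2.1 h).elim id id,
    (ck_sound k1.2.2.2.2.2.2.2 h).elim id id⟩

theorem k2 : ck [6, 4, 2, 1] [1, 0, 0, 0] [7, 4, 3, 2] [1, 0, 0, 0]
    (.n 2 .a (.n 2 (.n 2 (.n 0 .a (.n 3 .a (.n 2 (.n 0 .a .b) (.n 3 .a .b)))) .a) (.n 3 .b (.n 3 .b
    .b)))) (B (pt 2)) (Tp (pt 2)) = true ∧
    ck [5, 4, 1, 1] [1, 0, 0, 0] [7, 4, 3, 2] [1, 0, 0, 0]
    (.n 3 .b (.n 2 .b (.n 2 .b .a))) (c (pt 2)) (Tm (pt 2)) = true ∧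
    ck [7, 4, 3, 2] [1, 0, 0, 0] [7, 4, 3, 2] [1, 0, 0, 0]
    (.n 3 .a (.n 2 .a (.n 2 .a (.n 3 .a (.n 2 (.n 2 .a .a) (.n 0 .a .a)))))) (Ua (pt 2)) (Ua (pt
    2)) = true ∧
    ck [7, 4, 3, 2] [1, 0, 0, 0] [7, 4, 3, 2] [1, 0, 0, 0]
    (.n 2 .a (.n 3 .a (.n 2 .a (.n 3 .a (.n 0 .a .a))))) (Ub (pt 2)) (Ub (pt 2)) = true ∧
    ck [7, 4, 3, 2] [1, 0, 0, 0] [7, 4, 3, 2] [1, 0, 0, 0]
    (.n 2 .a (.n 3 .a (.n 2 .a (.n 3 .a (.n 0 .a (.n 1 (.n 2 .a .a) .a)))))) (Uc (pt 2)) (Uc (pt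
    2)) = true ∧
    ck [7, 4, 3, 2] [1, 0, 0, 0] [7, 4, 3, 2] [1, 0, 0, 0]
    (.n 3 .a (.n 2 .a (.n 2 .a (.n 3 .a (.n 0 .a .a))))) (Ud (pt 2)) (Ud (pt 2)) = true ∧
    ck [4, 3, 1, 1] [0, 0, 0, 0] [4, 3, 1, 1] [0, 0, 0, 0]
    .a (A (pt 2)) (A (pt 2)) = true ∧
    ck [2, 3, 0, 0] [1, 0, 0, 0] [2, 3, 0, 0] [1, 0, 0, 0]
    .a (X0 (pt 2)) (X0 (pt 2)) = true := by
  decide +kernel

theorem good2 : GoodL (pt 2) := fun _ h =>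
  ⟨ck_sound k2.1 h,
    ck_sound k2.2.1 h,
    (ck_sound k2.2.2.1 h).elim id id,
    (ck_sound k2.2.2.2.1 h).elim id id,
    (ck_sound k2.2.2.2.2.1 h).elim id id,
    (ck_sound k2.2.2.2.2.2.1 h).elim id id,
    (ck_sound k2.2.2.2.2.2.2.1 h).elim id id,
    (ck_sound k2.2.2.2.2.2.2.2 h).elim id id⟩

theorem k3 : ck [5, 4, 6, 1] [1, 0, 1, 0] [6, 4, 7, 2] [0, 0, 1, 0]
    .a (B (pt 3)) (Tp (pt 3)) = true ∧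
    ck [4, 4, 5, 1] [1, 0, 1, 0] [6, 4, 7, 2] [0, 0, 1, 0]
    .b (c (pt 3)) (Tm (pt 3)) = true ∧
    ck [5, 4, 7, 2] [0, 0, 1, 0] [5, 4, 7, 2] [0, 0, 1, 0]
    .a (Ua (pt 3)) (Ua (pt 3)) = true ∧
    ck [5, 4, 7, 2] [0, 0, 1, 0] [5, 4, 7, 2] [0, 0, 1, 0]
    .a (Ub (pt 3)) (Ub (pt 3)) = true ∧
    ck [5, 4, 7, 2] [0, 0, 1, 0] [5, 4, 7, 2] [0, 0, 1, 0]
    .a (Uc (pt 3)) (Uc (pt 3)) = true ∧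
    ck [5, 4, 7, 2] [0, 0, 1, 0] [5, 4, 7, 2] [0, 0, 1, 0]
    .a (Ud (pt 3)) (Ud (pt 3)) = true ∧
    ck [4, 3, 4, 1] [0, 0, 0, 0] [4, 3, 4, 1] [0, 0, 0, 0]
    .a (A (pt 3)) (A (pt 3)) = true ∧
    ck [2, 3, 2, 0] [1, 0, 1, 0] [2, 3, 2, 0] [1, 0, 1, 0]
    .a (X0 (pt 3)) (X0 (pt 3)) = true := by
  decide +kernel

theorem good3 : GoodL (pt 3) := fun _ h =>
  ⟨ck_sound k3.1 h,
    ck_sound k3.2.1 h,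
    (ck_sound k3.2.2.1 h).elim id id,
    (ck_sound k3.2.2.2.1 h).elim id id,
    (ck_sound k3.2.2.2.2.1 h).elim id id,
    (ck_sound k3.2.2.2.2.2.1 h).elim id id,
    (ck_sound k3.2.2.2.2.2.2.1 h).elim id id,
    (ck_sound k3.2.2.2.2.2.2.2 h).elim id id⟩

end Vale.Agent.P219.C6
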