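import Vale.Agent.P219.G.Cert6P

/-! Kernel checks for the certificate with `m = 6`. -/

namespace Vale.Agent.P219.C6

open Bn

theorem k4 : ck [4, 8, 2, 1] [0, 0, 0, 0] [4, 9, 3, 2] [0, 0, 0, 0]
    (.n 1 (.n 2 .a (.n 2 .a (.n 3 .b (.n 2 (.n 2 (.n 1 .a .b) .a) .b)))) .a) (B (pt 4)) (Tp (pt 4))
    = true ∧
    ck [4, 6, 1, 1] [0, 1, 0, 0] [4, 9, 3, 2] [0, 0, 0, 0]
    (.n 2 .b (.n 3 .b (.n 2 .b .b))) (c (pt 4)) (Tm (pt 4)) = true ∧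
    ck [4, 9, 3, 2] [0, 0, 0, 0] [4, 9, 3, 2] [0, 0, 0, 0]
    (.n 2 .a (.n 2 .a (.n 3 .a (.n 2 (.n 1 (.n 2 .a .a) .a) (.n 1 .a (.n 1 .a .a)))))) (Ua (pt 4))
    (Ua (pt 4)) = true ∧
    ck [4, 9, 3, 2] [0, 0, 0, 0] [4, 9, 3, 2] [0, 0, 0, 0]
    (.n 2 .a (.n 3 .a (.n 2 .a .a))) (Ub (pt 4)) (Ub (pt 4)) = true ∧
    ck [4, 9, 3, 2] [0, 0, 0, 0] [4, 9, 3, 2] [0, 0, 0, 0]
    (.n 2 .a (.n 2 .a (.n 3 .a .a))) (Uc (pt 4)) (Uc (pt 4)) = true ∧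
    ck [4, 9, 3, 2] [0, 0, 0, 0] [4, 9, 3, 2] [0, 0, 0, 0]
    (.n 2 .a (.n 3 .a (.n 2 .a .a))) (Ud (pt 4)) (Ud (pt 4)) = true ∧
    ck [3, 5, 1, 1] [0, 0, 0, 0] [3, 5, 1, 1] [0, 0, 0, 0]
    .a (A (pt 4)) (A (pt 4)) = true ∧
    ck [3, 4, 0, 0] [0, 0, 0, 0] [3, 4, 0, 0] [0, 0, 0, 0]
    .a (X0 (pt 4)) (X0 (pt 4)) = true := by
  decide +kernel

theorem good4 : GoodL (pt 4) := fun _ h =>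
  ⟨ck_sound k4.1 h,
    ck_sound k4.2.1 h,
    (ck_sound k4.2.2.1 h).elim id id,
    (ck_sound k4.2.2.2.1 h).elim id id,
    (ck_sound k4.2.2.2.2.1 h).elim id id,
    (ck_sound k4.2.2.2.2.2.1 h).elim id id,
    (ck_sound k4.2.2.2.2.2.2.1 h).elim id id,
    (ck_sound k4.2.2.2.2.2.2.2 h).elim id id⟩

theorem k5 : ck [4, 6, 8, 1] [0, 0, 0, 0] [4, 6, 9, 2] [0, 0, 0, 0]
    .a (B (pt 5)) (Tp (pt 5)) = true ∧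
    ck [4, 5, 6, 1] [0, 1, 1, 0] [4, 6, 9, 2] [0, 0, 0, 0]
    .b (c (pt 5)) (Tm (pt 5)) = true ∧
    ck [4, 6, 9, 2] [0, 0, 0, 0] [4, 6, 9, 2] [0, 0, 0, 0]
    .a (Ua (pt 5)) (Ua (pt 5)) = true ∧
    ck [4, 6, 9, 2] [0, 0, 0, 0] [4, 6, 9, 2] [0, 0, 0, 0]
    .a (Ub (pt 5)) (Ub (pt 5)) = true ∧
    ck [4, 6, 9, 2] [0, 0, 0, 0] [4, 6, 9, 2] [0, 0, 0, 0]
    .a (Uc (pt 5)) (Uc (pt 5)) = true ∧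
    ck [4, 6, 9, 2] [0, 0, 0, 0] [4, 6, 9, 2] [0, 0, 0, 0]
    .a (Ud (pt 5)) (Ud (pt 5)) = true ∧
    ck [3, 4, 5, 1] [0, 0, 0, 0] [3, 4, 5, 1] [0, 0, 0, 0]
    .a (A (pt 5)) (A (pt 5)) = true ∧
    ck [3, 4, 4, 0] [0, 0, 0, 0] [3, 4, 4, 0] [0, 0, 0, 0]
    .a (X0 (pt 5)) (X0 (pt 5)) = true := by
  decide +kernel

theorem good5 : GoodL (pt 5) := fun _ h =>
  ⟨ck_sound k5.1 h,
    ck_sound k5.2.1 h,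
    (ck_sound k5.2.2.1 h).elim id id,
    (ck_sound k5.2.2.2.1 h).elim id id,
    (ck_sound k5.2.2.2.2.1 h).elim id id,
    (ck_sound k5.2.2.2.2.2.1 h).elim id id,
    (ck_sound k5.2.2.2.2.2.2.1 h).elim id id,
    (ck_sound k5.2.2.2.2.2.2.2 h).elim id id⟩

theorem k6 : ck [4, 6, 8, 1] [0, 0, 0, 0] [4, 6, 9, 2] [0, 0, 0, 0]
    (.n 3 .b .b) (B (pt 6)) (Tp (pt 6)) = true ∧
    ck [4, 5, 6, 1] [0, 1, 1, 0] [4, 6, 9, 2] [0, 0, 0, 0]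
    (.n 3 .b .b) (c (pt 6)) (Tm (pt 6)) = true ∧
    ck [4, 6, 9, 2] [0, 0, 0, 0] [4, 6, 9, 2] [0, 0, 0, 0]
    (.n 3 .a (.n 1 .a .a)) (Ua (pt 6)) (Ua (pt 6)) = true ∧
    ck [4, 6, 9, 2] [0, 0, 0, 0] [4, 6, 9, 2] [0, 0, 0, 0]
    (.n 3 .a .a) (Ub (pt 6)) (Ub (pt 6)) = true ∧
    ck [4, 6, 9, 2] [0, 0, 0, 0] [4, 6, 9, 2] [0, 0, 0, 0]
    (.n 3 .a .a) (Uc (pt 6)) (Uc (pt 6)) = true ∧
    ck [4, 6, 9, 2] [0, 0, 0, 0] [4, 6, 9, 2] [0, 0, 0, 0]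
    (.n 3 .a .a) (Ud (pt 6)) (Ud (pt 6)) = true ∧
    ck [3, 4, 5, 1] [0, 0, 0, 0] [3, 4, 5, 1] [0, 0, 0, 0]
    .a (A (pt 6)) (A (pt 6)) = true ∧
    ck [3, 4, 4, 0] [0, 0, 0, 0] [3, 4, 4, 0] [0, 0, 0, 0]
    .a (X0 (pt 6)) (X0 (pt 6)) = true := by
  decide +kernel

theorem good6 : GoodL (pt 6) := fun _ h =>
  ⟨ck_sound k6.1 h,
    ck_sound k6.2.1 h,
    (ck_sound k6.2.2.1 h).elim id id,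
    (ck_sound k6.2.2.2.1 h).elim id id,
    (ck_sound k6.2.2.2.2.1 h).elim id id,
    (ck_sound k6.2.2.2.2.2.1 h).elim id id,
    (ck_sound k6.2.2.2.2.2.2.1 h).elim id id,
    (ck_sound k6.2.2.2.2.2.2.2 h).elim id id⟩

end Vale.Agent.P219.C6
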