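import Vale.Agent.P219.G.CertH

/-! The certificate for `γ = 1 / 2` and `m = 6`. -/

namespace Vale.Agent.P219

open Mp.Pw

/-- The numerators. -/
def hd6 : HD :=
  ⟨5, [60, 0, 152, 0, 247], [56, 0, 188],
    [56, 0, 228, 0, 16], [56, 0, 684, 0, 80],
    [], 2454⟩

theorem h6_1 : ok [true, true, true] (hd6.cA.headD 0) 618477460284613 = true := by
  decide +kernel

theorem h6_2 : ok [true, true, true] (hd6.cA.tail.headD 0) 575980 = true := by
  decide +kernel

theorem h6_3 : oks [true, true, true] hd6.cA.tail.tail [4948798, 4945606] = true := by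
  decide +kernel

theorem h6_4 : oks [true, true, true] hd6.cB [29, 3, 3, 3] = true := by decide +kernel

theorem h6_5 : oks [false, true, true] hd6.cC [3, 3, 3, 3] = true := by decide +kernel

theorem ncert6h : Nonempty (NCert2 6 (1 / 2)) :=
  ncert_half hd6 (t := [3, 29, 3, 3, 3, 3, 3]) (tD := [29, 29]) (by decide +kernel)
    (oks_cons h6_1 (oks_cons h6_2 h6_3)) h6_4 h6_5 (by decide +kernel) (by decide) (by decide)
    (by decide)

end Vale.Agent.P219
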