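import Vale.Agent.P219.G.CertG

/-! The certificate for `m = 7` and `1 / 20 < γ ≤ 1 / 2`. -/

namespace Vale.Agent.P219

open Kp

/-- The numerators. -/
def d7g : GD :=
  ⟨6, 4, [1120, 4480, 10080, 17870, 24140, 33438, 50032, 52768, 30912, 7728], [665, 8120, 15190,
    2280, 10035, 33770, 18060, -220], [-210, -11610, -5900, 29030, 6250, -34520, -10360, 6880],
    [0, 0, 665, 8120, 15610, 3780, -1855, 20020, 26740, 9240], [0, 0, -1330, -16240, -31220,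
    -7560, 3710, -40040, -53480, -18480], [0, 0, -665, -8120, -15610, -3780, 1855, -20020, -26740,
    -9240], [665, 8120, 16940, 20020, 29365, 27580, 23030, 49280, 53480, 18480], [-210, -11610,
    -5900, 29030, 6250, -34520, -10360, 6880], [0, 0, -1330, -17570, -47460, -38780, -3850,
    -36330, -93520, -71960, -18480], [1330, 28490, 61950, -82990, -58190, 621150, 775630, -46090,
    -239640, 140040, 119520], [-420, -45180, 14820, 478340, 331620, -1015860, -910100, 901980,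
    1056240, 7760, -165120], 92736, 1, 20, 24⟩

noncomputable def s7gO0 : St := mk 94 (scl 24 (d7g.cO.getD 0 [])) [52, 43, 29, 27]
noncomputable def z7gO0 : ℕ → ℕ := z0 false 94 (scl 24 (d7g.cO.getD 0 [])) [52, 43, 29, 27]

theorem g7gO0_1 : Good s7gO0 (los s7gO0 3 (los s7gO0 0 z7gO0)) :=
  good (.n 2 (.n 2 (.n 0 (.n 2 (.l 2) (.l 1)) (.n 0 (.n 2 (.l 2) (.l 1)) (.l 1))) (.l 1)) (.l 1))
    (by decide +kernel)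

theorem g7gO0_2 : Good s7gO0 (los s7gO0 1 (his s7gO0 3 (los s7gO0 0 z7gO0))) :=
  good (.n 1 (.n 0 (.n 3 (.l 1) (.n 3 (.l 1) (.n 3 (.l 1) (.n 2 (.n 2 (.n 2 (.l 2) (.l 0)) (.l 0))
    (.l 0))))) (.l 1)) (.n 3 (.n 0 (.n 2 (.n 0 (.l 1) (.l 1)) (.l 1)) (.l 1)) (.n 3 (.n 2 (.l 1)
    (.l 1)) (.n 0 (.n 2 (.n 3 (.l 1) (.n 2 (.n 0 (.n 2 (.l 2) (.l 0)) (.l 0)) (.n 0 (.l 0) (.l
    0)))) (.n 3 (.l 1) (.l 0))) (.n 3 (.l 1) (.n 0 (.n 2 (.l 0) (.l 0)) (.l 1))))))) 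
    (by decide +kernel)

theorem g7gO0_3 : Good s7gO0 (los s7gO0 3 (his s7gO0 1 (his s7gO0 3 (los s7gO0 0 z7gO0)))) :=
  good (.n 0 (.n 2 (.n 2 (.n 2 (.l 2) (.n 1 (.l 1) (.l 1))) (.l 1)) (.l 1)) (.n 2 (.n 2 (.n 2 (.n
    0 (.l 2) (.l 1)) (.n 1 (.l 1) (.l 1))) (.l 1)) (.l 1))) (by decide +kernel)

theorem g7gO0_4 : Good s7gO0 (los s7gO0 1 (his s7gO0 3 (his s7gO0 1 (his s7gO0 3 (los s7gO0 0
    z7gO0))))) :=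
  good (.n 3 (.n 0 (.n 2 (.n 2 (.n 2 (.l 2) (.l 1)) (.l 1)) (.l 1)) (.n 0 (.n 2 (.l 1) (.l 1)) (.l
    1))) (.n 1 (.n 3 (.n 0 (.n 2 (.n 2 (.n 2 (.l 2) (.l 1)) (.l 1)) (.l 1)) (.n 0 (.n 2 (.l 1) (.l
    1)) (.l 1))) (.n 0 (.n 2 (.n 2 (.n 2 (.l 2) (.n 0 (.l 0) (.l 0))) (.l 0)) (.l 0)) (.n 2 (.n 2
    (.l 1) (.l 0)) (.n 0 (.l 0) (.l 0))))) (.n 0 (.n 2 (.n 2 (.n 2 (.l 2) (.n 0 (.l 1) (.n 3 (.l
    1) (.n 0 (.l 0) (.l 0))))) (.n 3 (.l 1) (.l 0))) (.l 1)) (.n 0 (.n 3 (.n 2 (.n 2 (.l 1) (.l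
    1)) (.l 1)) (.n 2 (.n 2 (.n 2 (.l 2) (.l 0)) (.n 0 (.l 0) (.l 0))) (.n 1 (.l 0) (.l 0)))) (.n
    3 (.l 1) (.n 0 (.n 2 (.l 0) (.n 1 (.l 0) (.n 0 (.n 0 (.l 0) (.l 0)) (.n 0 (.l 0) (.l 0)))))
    (.l 1))))))) (by decide +kernel)

theorem g7gO0_5 : Good s7gO0 (his s7gO0 1 (his s7gO0 3 (his s7gO0 1 (his s7gO0 3 (los s7gO0 0
    z7gO0))))) :=
  good (.n 0 (.n 2 (.n 2 (.n 2 (.l 2) (.n 1 (.n 3 (.l 1) (.n 1 (.n 3 (.l 1) (.l 0)) (.l 1))) (.l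
    1))) (.l 1)) (.l 1)) (.n 3 (.n 0 (.n 2 (.n 2 (.n 2 (.l 2) (.n 1 (.l 1) (.l 1))) (.l 1)) (.l
    1)) (.n 1 (.l 1) (.l 1))) (.n 1 (.n 0 (.n 2 (.n 2 (.n 2 (.l 2) (.n 3 (.l 1) (.n 1 (.n 0 (.l 0)
    (.l 0)) (.n 1 (.n 0 (.l 0) (.l 0)) (.n 0 (.l 0) (.n 2 (.l 0) (.l 0))))))) (.n 3 (.l 1) (.n 0
    (.l 0) (.n 1 (.l 0) (.l 0))))) (.n 3 (.l 1) (.l 0))) (.n 2 (.n 3 (.l 1) (.n 0 (.n 1 (.n 2 (.l
    1) (.l 0)) (.n 2 (.n 1 (.l 1) (.n 2 (.l 1) (.l 0))) (.n 1 (.l 0) (.l 0)))) (.l 0))) (.n 0 (.n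
    3 (.l 1) (.n 1 (.n 0 (.l 0) (.n 1 (.l 0) (.l 0))) (.l 0))) (.n 3 (.l 1) (.n 1 (.l 0) (.l
    0)))))) (.n 0 (.n 2 (.n 2 (.n 2 (.l 2) (.n 1 (.n 0 (.l 1) (.n 3 (.l 1) (.n 3 (.n 0 (.l 1) (.l
    1)) (.n 1 (.n 2 (.n 2 (.n 1 (.l 0) (.n 0 (.l 0) (.n 1 (.l 0) (.l 0)))) (.l 0)) (.l 0)) (.n 1
    (.l 0) (.l 0)))))) (.l 1))) (.l 1)) (.l 1)) (.n 3 (.n 2 (.n 2 (.n 1 (.l 1) (.n 2 (.n 2 (.l 2)
    (.l 1)) (.l 1))) (.l 1)) (.l 1)) (.n 2 (.n 1 (.n 0 (.n 2 (.n 2 (.n 1 (.l 1) (.n 1 (.l 1) (.n 2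
    (.l 2) (.n 2 (.l 2) (.n 2 (.l 2) (.n 2 (.n 0 (.l 2) (.l 1)) (.n 3 (.l 1) (.l 0)))))))) (.n 2
    (.n 1 (.n 1 (.l 0) (.l 0)) (.n 1 (.n 0 (.l 0) (.l 0)) (.n 3 (.l 1) (.l 0)))) (.n 1 (.l 0) (.l
    0)))) (.l 0)) (.n 3 (.l 1) (.l 0))) (.n 2 (.n 2 (.n 2 (.l 2) (.n 2 (.l 2) (.n 1 (.n 2 (.n 0
    (.l 2) (.l 1)) (.n 3 (.l 1) (.l 0))) (.l 0)))) (.n 3 (.l 1) (.l 0))) (.l 0))) (.n 0 (.l 0) (.n
    0 (.l 0) (.l 0))))))))) (by decide +kernel)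

theorem g7gO0_6 : Good s7gO0 (his s7gO0 0 z7gO0) :=
  good (.n 0 (.l 1) (.n 0 (.l 1) (.n 0 (.l 1) (.n 0 (.l 1) (.n 0 (.l 1) (.n 2 (.n 2 (.n 2 (.n 2
    (.n 2 (.l 2) (.l 1)) (.l 1)) (.l 1)) (.l 1)) (.l 1))))))) (by decide +kernel)

theorem o7gO0 : Ok false (d7g.cO.getD 0 []) := ok_of (k := 24) (show Good s7gO0 z7gO0 from (.split
    0 (.split 3 g7gO0_1 (.split 1 g7gO0_2 (.split 3 g7gO0_3 (.split 1 g7gO0_4 g7gO0_5 (by decide))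
    (by decide)) (by decide)) (by decide)) g7gO0_6 (by decide)))

noncomputable def s7gO1 : St := mk 94 (scl 24 (d7g.cO.getD 1 [])) [44, 29, 27]
noncomputable def z7gO1 : ℕ → ℕ := z0 false 94 (scl 24 (d7g.cO.getD 1 [])) [44, 29, 27]

theorem g7gO1_1 : Good s7gO1 (los s7gO1 3 (los s7gO1 0 z7gO1)) :=
  good (.n 2 (.n 2 (.n 2 (.n 0 (.l 1) (.n 0 (.l 1) (.l 0))) (.l 0)) (.l 0)) (.l 0)) 
    (by decide +kernel)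

theorem g7gO1_2 : Good s7gO1 (los s7gO1 3 (his s7gO1 3 (los s7gO1 0 z7gO1))) :=
  good (.n 2 (.n 2 (.n 0 (.n 2 (.l 1) (.l 0)) (.n 0 (.n 2 (.l 1) (.l 0)) (.l 0))) (.l 0)) (.l 0))
    (by decide +kernel)

theorem g7gO1_3 : Good s7gO1 (los s7gO1 3 (his s7gO1 3 (his s7gO1 3 (los s7gO1 0 z7gO1)))) :=
  good (.n 2 (.n 2 (.n 0 (.n 2 (.l 1) (.l 0)) (.n 2 (.n 0 (.l 1) (.l 0)) (.n 1 (.l 0) (.l 0))))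
    (.n 0 (.l 0) (.l 0))) (.n 0 (.l 0) (.l 0))) (by decide +kernel)

theorem g7gO1_4 : Good s7gO1 (los s7gO1 3 (his s7gO1 3 (his s7gO1 3 (his s7gO1 3 (los s7gO1 0
    z7gO1))))) :=
  good (.n 1 (.l 0) (.n 0 (.n 2 (.n 2 (.n 2 (.l 1) (.l 0)) (.l 0)) (.l 0)) (.n 1 (.l 0) (.n 2 (.n
    2 (.n 2 (.n 0 (.l 1) (.l 0)) (.n 1 (.l 0) (.l 0))) (.l 0)) (.l 0))))) (by decide +kernel)

theorem g7gO1_5 : Good s7gO1 (los s7gO1 3 (his s7gO1 3 (his s7gO1 3 (his s7gO1 3 (his s7gO1 3 (los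
    s7gO1 0 z7gO1)))))) :=
  good (.n 0 (.n 2 (.n 2 (.n 2 (.l 1) (.n 1 (.l 0) (.n 1 (.l 0) (.l 0)))) (.l 0)) (.n 1 (.l 0) (.l
    0))) (.n 1 (.l 0) (.n 1 (.l 0) (.n 2 (.n 0 (.n 2 (.n 1 (.l 0) (.n 2 (.l 1) (.n 1 (.l 0) (.l
    0)))) (.l 0)) (.l 0)) (.l 0))))) (by decide +kernel)

theorem g7gO1_6 : Good s7gO1 (los s7gO1 3 (los s7gO1 0 (los s7gO1 1 (his s7gO1 3 (his s7gO1 3 (his
    s7gO1 3 (his s7gO1 3 (his s7gO1 3 (los s7gO1 0 z7gO1))))))))) :=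
  good (.n 2 (.n 2 (.n 0 (.n 2 (.l 1) (.l 0)) (.l 0)) (.l 0)) (.l 0)) (by decide +kernel)

theorem g7gO1_7 : Good s7gO1 (los s7gO1 3 (his s7gO1 3 (los s7gO1 0 (los s7gO1 1 (his s7gO1 3 (his
    s7gO1 3 (his s7gO1 3 (his s7gO1 3 (his s7gO1 3 (los s7gO1 0 z7gO1)))))))))) :=
  good (.n 2 (.n 2 (.n 0 (.n 0 (.l 1) (.n 0 (.l 1) (.l 0))) (.l 0)) (.n 0 (.l 0) (.l 0))) (.n 1
    (.l 0) (.l 0))) (by decide +kernel)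

theorem g7gO1_8 : Good s7gO1 (los s7gO1 3 (his s7gO1 3 (his s7gO1 3 (los s7gO1 0 (los s7gO1 1 (his
    s7gO1 3 (his s7gO1 3 (his s7gO1 3 (his s7gO1 3 (his s7gO1 3 (los s7gO1 0 z7gO1))))))))))) :=
  good (.n 2 (.n 2 (.n 0 (.n 0 (.l 1) (.n 0 (.l 1) (.l 0))) (.l 0)) (.n 0 (.n 1 (.l 0) (.l 0)) (.l
    0))) (.n 1 (.n 0 (.l 0) (.l 0)) (.l 0))) (by decide +kernel)

theorem g7gO1_9 : Good s7gO1 (los s7gO1 3 (his s7gO1 3 (his s7gO1 3 (his s7gO1 3 (los s7gO1 0 (los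
    s7gO1 1 (his s7gO1 3 (his s7gO1 3 (his s7gO1 3 (his s7gO1 3 (his s7gO1 3 (los s7gO1 0
    z7gO1)))))))))))) :=
  good (.n 1 (.n 0 (.n 2 (.n 0 (.n 2 (.l 1) (.l 0)) (.n 2 (.l 0) (.l 0))) (.n 0 (.l 0) (.l 0)))
    (.n 2 (.l 0) (.l 0))) (.n 2 (.n 2 (.n 0 (.n 2 (.l 1) (.l 0)) (.l 0)) (.n 0 (.l 0) (.l 0))) (.n
    1 (.l 0) (.l 0)))) (by decide +kernel)

theorem g7gO1_10 : Good s7gO1 (his s7gO1 3 (his s7gO1 3 (his s7gO1 3 (his s7gO1 3 (los s7gO1 0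
    (los s7gO1 1 (his s7gO1 3 (his s7gO1 3 (his s7gO1 3 (his s7gO1 3 (his s7gO1 3 (los s7gO1 0
    z7gO1)))))))))))) :=
  good (.n 3 (.n 1 (.n 0 (.n 2 (.n 2 (.n 0 (.l 1) (.l 0)) (.n 0 (.n 1 (.l 2) (.l 0)) (.l 0))) (.n
    1 (.l 0) (.l 0))) (.n 1 (.l 0) (.n 2 (.l 0) (.l 0)))) (.n 2 (.n 2 (.n 0 (.n 2 (.l 1) (.l 0))
    (.l 0)) (.n 0 (.l 0) (.l 0))) (.n 0 (.l 0) (.n 1 (.l 0) (.l 0))))) (.n 1 (.n 1 (.n 0 (.n 0 (.l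
    2) (.n 0 (.l 2) (.n 0 (.l 2) (.l 0)))) (.l 0)) (.n 0 (.n 2 (.n 0 (.n 2 (.l 1) (.l 0)) (.n 2
    (.l 0) (.l 0))) (.l 0)) (.n 0 (.n 2 (.l 0) (.l 0)) (.l 0)))) (.n 2 (.n 2 (.n 0 (.n 0 (.l 1)
    (.n 0 (.l 1) (.l 0))) (.l 0)) (.n 0 (.l 0) (.l 0))) (.n 0 (.l 0) (.n 1 (.n 0 (.l 0) (.n 0 (.l
    0) (.l 0))) (.l 0)))))) (by decide +kernel)

theorem g7gO1_11 : Good s7gO1 (his s7gO1 0 (los s7gO1 1 (his s7gO1 3 (his s7gO1 3 (his s7gO1 3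
    (his s7gO1 3 (his s7gO1 3 (los s7gO1 0 z7gO1)))))))) :=
  good (.n 1 (.l 0) (.n 2 (.l 0) (.n 2 (.l 0) (.n 2 (.l 0) (.n 3 (.l 0) (.n 0 (.n 0 (.n 1 (.l 0)
    (.n 1 (.l 0) (.l 0))) (.l 0)) (.l 0))))))) (by decide +kernel)

theorem g7gO1_12 : Good s7gO1 (his s7gO1 1 (his s7gO1 3 (his s7gO1 3 (his s7gO1 3 (his s7gO1 3
    (his s7gO1 3 (los s7gO1 0 z7gO1))))))) :=
  good (.n 0 (.n 2 (.n 2 (.n 2 (.l 1) (.n 1 (.l 0) (.n 1 (.l 0) (.n 1 (.l 0) (.l 0))))) (.l 0))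
    (.l 0)) (.n 2 (.n 1 (.l 0) (.n 2 (.n 2 (.n 0 (.l 1) (.n 1 (.l 0) (.n 1 (.l 0) (.n 1 (.l 0) (.n
    2 (.l 1) (.n 2 (.l 1) (.l 0))))))) (.n 1 (.l 0) (.n 1 (.l 0) (.n 0 (.l 0) (.l 0))))) (.n 0 (.l
    0) (.l 0)))) (.n 0 (.n 0 (.l 0) (.n 1 (.l 0) (.l 0))) (.l 0)))) (by decide +kernel)

theorem g7gO1_13 : Good s7gO1 (his s7gO1 0 z7gO1) :=
  good (.n 0 (.l 0) (.n 0 (.l 0) (.n 0 (.l 0) (.n 0 (.l 0) (.n 0 (.l 0) (.n 2 (.n 2 (.n 2 (.n 2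
    (.n 2 (.l 1) (.l 0)) (.l 0)) (.l 0)) (.l 0)) (.l 0))))))) (by decide +kernel)

theorem o7gO1 : Ok false (d7g.cO.getD 1 []) := ok_of (k := 24) (show Good s7gO1 z7gO1 from (.split
    0 (.split 3 g7gO1_1 (.split 3 g7gO1_2 (.split 3 g7gO1_3 (.split 3 g7gO1_4 (.split 3 g7gO1_5
    (.split 1 (.split 0 (.split 3 g7gO1_6 (.split 3 g7gO1_7 (.split 3 g7gO1_8 (.split 3 g7gO1_9
    g7gO1_10 (by decide)) (by decide)) (by decide)) (by decide)) g7gO1_11 (by decide)) g7gO1_12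
    (by decide)) (by decide)) (by decide)) (by decide)) (by decide)) (by decide)) g7gO1_13 (by
    decide)))

noncomputable def s7gO2 : St := mk 86 (scl 24 (d7g.cO.getD 2 [])) [43, 29, 27]
noncomputable def z7gO2 : ℕ → ℕ := z0 false 86 (scl 24 (d7g.cO.getD 2 [])) [43, 29, 27]

theorem g7gO2_1 : Good s7gO2 z7gO2 :=
  good (.n 0 (.n 3 (.n 2 (.n 2 (.n 0 (.n 2 (.l 1) (.l 0)) (.n 0 (.n 2 (.l 1) (.l 0)) (.l 0))) (.l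
    0)) (.l 0)) (.n 3 (.n 2 (.n 2 (.n 0 (.n 2 (.l 1) (.l 0)) (.n 0 (.n 2 (.l 1) (.l 0)) (.l 0)))
    (.l 0)) (.l 0)) (.n 1 (.n 0 (.n 3 (.l 0) (.n 3 (.l 0) (.n 3 (.n 2 (.n 2 (.n 2 (.l 1) (.l 0))
    (.l 0)) (.l 0)) (.n 1 (.n 2 (.n 0 (.n 2 (.n 0 (.l 1) (.l 0)) (.n 0 (.n 1 (.l 2) (.l 0)) (.n 1
    (.l 0) (.l 0)))) (.l 0)) (.n 0 (.n 1 (.n 0 (.l 2) (.n 1 (.l 2) (.l 0))) (.n 0 (.l 0) (.l 0)))
    (.n 1 (.l 0) (.l 0)))) (.n 2 (.n 2 (.n 0 (.n 0 (.l 1) (.n 2 (.l 1) (.l 0))) (.l 0)) (.n 0 (.l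
    0) (.l 0))) (.n 0 (.l 0) (.l 0))))))) (.n 1 (.l 0) (.l 0))) (.n 0 (.n 2 (.n 2 (.n 2 (.l 1) (.n
    1 (.n 0 (.l 0) (.l 0)) (.n 1 (.l 0) (.l 0)))) (.n 1 (.l 0) (.l 0))) (.l 0)) (.n 1 (.n 2 (.l 0)
    (.l 0)) (.n 0 (.n 2 (.n 2 (.n 2 (.l 1) (.n 1 (.l 0) (.n 1 (.l 0) (.n 3 (.l 0) (.n 1 (.l 0) (.l
    0)))))) (.n 0 (.l 0) (.n 1 (.l 0) (.l 0)))) (.l 0)) (.n 1 (.l 0) (.n 3 (.l 0) (.n 2 (.n 1 (.l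
    0) (.n 2 (.n 1 (.l 0) (.n 2 (.n 2 (.l 1) (.n 2 (.l 1) (.l 0))) (.l 0))) (.l 0))) (.l
    0)))))))))) (.n 0 (.l 0) (.n 0 (.l 0) (.n 0 (.l 0) (.n 0 (.l 0) (.n 0 (.l 0) (.n 2 (.n 2 (.n 2
    (.n 2 (.n 2 (.l 1) (.l 0)) (.l 0)) (.l 0)) (.l 0)) (.l 0)))))))) (by decide +kernel)

theorem o7gO2 : Ok false (d7g.cO.getD 2 []) := ok_of (k := 24) (show Good s7gO2 z7gO2 from
    g7gO2_1)

noncomputable def s7gO3 : St := mk 86 (scl 24 (d7g.cO.getD 3 [])) [44, 29, 27]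
noncomputable def z7gO3 : ℕ → ℕ := z0 false 86 (scl 24 (d7g.cO.getD 3 [])) [44, 29, 27]

theorem g7gO3_1 : Good s7gO3 (los s7gO3 3 (los s7gO3 0 z7gO3)) :=
  good (.n 2 (.n 2 (.n 2 (.n 0 (.l 1) (.n 0 (.l 1) (.l 0))) (.l 0)) (.l 0)) (.l 0)) 
    (by decide +kernel)

theorem g7gO3_2 : Good s7gO3 (los s7gO3 3 (his s7gO3 3 (los s7gO3 0 z7gO3))) :=
  good (.n 2 (.n 2 (.n 0 (.n 2 (.l 1) (.l 0)) (.n 0 (.n 2 (.l 1) (.l 0)) (.l 0))) (.l 0)) (.l 0))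
    (by decide +kernel)

theorem g7gO3_3 : Good s7gO3 (his s7gO3 3 (his s7gO3 3 (los s7gO3 0 z7gO3))) :=
  good (.n 3 (.n 2 (.n 2 (.n 1 (.l 0) (.n 0 (.n 2 (.l 1) (.l 0)) (.n 2 (.n 0 (.l 1) (.l 0)) (.n 1
    (.l 0) (.l 0))))) (.n 0 (.l 0) (.l 0))) (.n 0 (.l 0) (.l 0))) (.n 3 (.n 1 (.l 0) (.n 0 (.n 2
    (.n 2 (.n 2 (.l 1) (.l 0)) (.l 0)) (.l 0)) (.n 2 (.n 1 (.l 0) (.n 2 (.n 0 (.n 1 (.l 0) (.n 2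
    (.l 1) (.l 0))) (.l 0)) (.l 0))) (.l 0)))) (.n 3 (.n 1 (.n 2 (.n 2 (.n 0 (.n 2 (.l 1) (.l 0))
    (.l 0)) (.l 0)) (.l 0)) (.n 0 (.n 2 (.n 2 (.n 2 (.l 1) (.n 1 (.l 0) (.l 0))) (.l 0)) (.l 0))
    (.n 1 (.l 0) (.n 2 (.n 2 (.n 0 (.n 1 (.l 0) (.n 2 (.l 1) (.l 0))) (.l 0)) (.l 0)) (.l 0)))))
    (.n 1 (.n 0 (.n 3 (.n 2 (.n 2 (.n 0 (.n 2 (.l 1) (.l 0)) (.l 0)) (.l 0)) (.l 0)) (.n 3 (.n 2
    (.n 2 (.n 0 (.n 0 (.l 1) (.n 0 (.l 1) (.l 0))) (.l 0)) (.n 1 (.l 0) (.l 0))) (.n 1 (.l 0) (.l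
    0))) (.n 3 (.n 1 (.n 0 (.n 2 (.n 2 (.n 0 (.l 1) (.l 0)) (.l 0)) (.l 0)) (.n 2 (.l 0) (.l 0)))
    (.n 2 (.n 2 (.n 0 (.n 2 (.l 1) (.l 0)) (.l 0)) (.n 0 (.l 0) (.l 0))) (.l 0))) (.n 1 (.n 1 (.n
    0 (.n 0 (.l 2) (.n 0 (.l 2) (.n 0 (.l 2) (.l 0)))) (.l 0)) (.n 0 (.n 2 (.n 0 (.n 2 (.l 1) (.l
    0)) (.n 2 (.l 0) (.l 0))) (.n 0 (.l 0) (.l 0))) (.n 2 (.l 0) (.l 0)))) (.n 2 (.n 2 (.n 0 (.n 0
    (.l 1) (.n 2 (.l 1) (.l 0))) (.l 0)) (.n 0 (.l 0) (.l 0))) (.n 0 (.l 0) (.n 1 (.l 0) (.l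
    0)))))))) (.n 1 (.l 0) (.n 1 (.l 0) (.n 2 (.l 0) (.l 0))))) (.n 0 (.n 2 (.n 2 (.n 2 (.l 1) (.n
    1 (.n 0 (.l 0) (.l 0)) (.n 1 (.l 0) (.l 0)))) (.n 1 (.l 0) (.l 0))) (.l 0)) (.n 1 (.n 2 (.n 2
    (.l 0) (.l 0)) (.n 0 (.l 0) (.l 0))) (.n 2 (.n 2 (.n 2 (.n 0 (.l 1) (.n 1 (.l 0) (.n 1 (.l 0)
    (.n 2 (.l 1) (.n 1 (.l 0) (.n 2 (.l 1) (.l 0))))))) (.n 1 (.l 0) (.n 1 (.l 0) (.n 0 (.l 0) (.l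
    0))))) (.n 0 (.l 0) (.l 0))) (.l 0)))))))) (by decide +kernel)

theorem g7gO3_4 : Good s7gO3 (his s7gO3 0 z7gO3) :=
  good (.n 0 (.l 0) (.n 0 (.l 0) (.n 0 (.l 0) (.n 0 (.l 0) (.n 0 (.l 0) (.n 2 (.n 2 (.n 2 (.n 2
    (.n 2 (.l 1) (.l 0)) (.l 0)) (.l 0)) (.l 0)) (.l 0))))))) (by decide +kernel)

theorem o7gO3 : Ok false (d7g.cO.getD 3 []) := ok_of (k := 24) (show Good s7gO3 z7gO3 from (.split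
    0 (.split 3 g7gO3_1 (.split 3 g7gO3_2 g7gO3_3 (by decide)) (by decide)) g7gO3_4 (by decide)))

noncomputable def s7gA0 : St := mk 118 (scl 24 (d7g.cA.getD 0 [])) [60, 50, 30, 30]
noncomputable def z7gA0 : ℕ → ℕ := z0 true 118 (scl 24 (d7g.cA.getD 0 [])) [60, 50, 30, 30]

theorem g7gA0_1 : Good s7gA0 z7gA0 :=
  good (.n 0 (.n 0 (.n 3 (.n 2 (.n 2 (.n 2 (.l 2) (.l 1)) (.l 1)) (.l 1)) (.n 3 (.l 1) (.n 3 (.l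
    1) (.n 3 (.l 1) (.n 2 (.n 2 (.n 2 (.l 2) (.l 0)) (.l 0)) (.l 0)))))) (.n 1 (.n 0 (.n 0 (.n 1
    (.n 2 (.n 2 (.l 2) (.l 1)) (.l 1)) (.l 3)) (.l 3)) (.l 3)) (.l 3))) (.l 3)) 
    (by decide +kernel)

theorem o7gA0 : Ok true (d7g.cA.getD 0 []) := ok_of (k := 24) (show Good s7gA0 z7gA0 from g7gA0_1)

noncomputable def s7gA1 : St := mk 118 (scl 24 (d7g.cA.getD 1 [])) [51, 30, 30]
noncomputable def z7gA1 : ℕ → ℕ := z0 true 118 (scl 24 (d7g.cA.getD 1 [])) [51, 30, 30]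

theorem g7gA1_1 : Good s7gA1 z7gA1 :=
  good (.n 0 (.n 1 (.n 2 (.n 2 (.n 2 (.l 1) (.n 1 (.l 0) (.l 0))) (.l 0)) (.l 0)) (.n 0 (.n 2 (.n
    2 (.n 2 (.l 1) (.l 0)) (.l 0)) (.l 0)) (.l 2))) (.l 2)) (by decide +kernel)

theorem o7gA1 : Ok true (d7g.cA.getD 1 []) := ok_of (k := 24) (show Good s7gA1 z7gA1 from g7gA1_1)

noncomputable def s7gA2 : St := mk 110 (scl 24 (d7g.cA.getD 2 [])) [50, 30, 30]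
noncomputable def z7gA2 : ℕ → ℕ := z0 true 110 (scl 24 (d7g.cA.getD 2 [])) [50, 30, 30]

theorem g7gA2_1 : Good s7gA2 z7gA2 :=
  good (.n 0 (.n 2 (.n 2 (.n 2 (.l 1) (.n 1 (.n 1 (.l 0) (.l 0)) (.l 0))) (.n 1 (.l 0) (.l 0)))
    (.l 0)) (.l 2)) (by decide +kernel)

theorem o7gA2 : Ok true (d7g.cA.getD 2 []) := ok_of (k := 24) (show Good s7gA2 z7gA2 from g7gA2_1)

noncomputable def s7gA3 : St := mk 110 (scl 24 (d7g.cA.getD 3 [])) [51, 30, 30]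
noncomputable def z7gA3 : ℕ → ℕ := z0 true 110 (scl 24 (d7g.cA.getD 3 [])) [51, 30, 30]

theorem g7gA3_1 : Good s7gA3 z7gA3 :=
  good (.n 0 (.n 2 (.n 2 (.n 2 (.l 1) (.n 1 (.n 1 (.l 0) (.l 0)) (.l 0))) (.n 1 (.l 0) (.l 0)))
    (.l 0)) (.l 2)) (by decide +kernel)

theorem o7gA3 : Ok true (d7g.cA.getD 3 []) := ok_of (k := 24) (show Good s7gA3 z7gA3 from g7gA3_1)

noncomputable def s7gB0 : St := mk 110 (scl 24 (d7g.cB.getD 0 [])) [60, 51, 30, 30]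
noncomputable def z7gB0 : ℕ → ℕ := z0 true 110 (scl 24 (d7g.cB.getD 0 [])) [60, 51, 30, 30]

theorem g7gB0_1 : Good s7gB0 z7gB0 :=
  good (.n 0 (.n 2 (.n 2 (.n 2 (.l 2) (.l 1)) (.l 1)) (.l 1)) (.l 3)) (by decide +kernel)

theorem o7gB0 : Ok true (d7g.cB.getD 0 []) := ok_of (k := 24) (show Good s7gB0 z7gB0 from g7gB0_1)

noncomputable def s7gB1 : St := mk 110 (scl 24 (d7g.cB.getD 1 [])) [52, 30, 30]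
noncomputable def z7gB1 : ℕ → ℕ := z0 true 110 (scl 24 (d7g.cB.getD 1 [])) [52, 30, 30]

theorem g7gB1_1 : Good s7gB1 z7gB1 :=
  good (.n 0 (.n 2 (.n 2 (.n 2 (.l 1) (.l 0)) (.l 0)) (.l 0)) (.l 2)) (by decide +kernel)

theorem o7gB1 : Ok true (d7g.cB.getD 1 []) := ok_of (k := 24) (show Good s7gB1 z7gB1 from g7gB1_1)

noncomputable def s7gB2 : St := mk 102 (scl 24 (d7g.cB.getD 2 [])) [51, 30, 30]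
noncomputable def z7gB2 : ℕ → ℕ := z0 true 102 (scl 24 (d7g.cB.getD 2 [])) [51, 30, 30]

theorem g7gB2_1 : Good s7gB2 z7gB2 :=
  good (.n 2 (.n 2 (.n 0 (.n 2 (.l 1) (.l 0)) (.l 2)) (.l 0)) (.l 0)) (by decide +kernel)

theorem o7gB2 : Ok true (d7g.cB.getD 2 []) := ok_of (k := 24) (show Good s7gB2 z7gB2 from g7gB2_1)

noncomputable def s7gB3 : St := mk 102 (scl 24 (d7g.cB.getD 3 [])) [52, 30, 30]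
noncomputable def z7gB3 : ℕ → ℕ := z0 true 102 (scl 24 (d7g.cB.getD 3 [])) [52, 30, 30]

theorem g7gB3_1 : Good s7gB3 z7gB3 :=
  good (.n 2 (.n 2 (.n 0 (.n 2 (.l 1) (.l 0)) (.l 2)) (.l 0)) (.l 0)) (by decide +kernel)

theorem o7gB3 : Ok true (d7g.cB.getD 3 []) := ok_of (k := 24) (show Good s7gB3 z7gB3 from g7gB3_1)

noncomputable def s7gN0 : St := mk 86 (scl 24 (d7g.cN.getD 0 [])) [44, 29]
noncomputable def z7gN0 : ℕ → ℕ := z0 false 86 (scl 24 (d7g.cN.getD 0 [])) [44, 29]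

theorem g7gN0_1 : Good s7gN0 z7gN0 :=
  good (.n 0 (.n 2 (.n 2 (.n 0 (.n 2 (.l 1) (.l 0)) (.n 0 (.n 2 (.l 1) (.l 0)) (.l 0))) (.l 0))
    (.l 0)) (.n 0 (.l 0) (.n 0 (.l 0) (.n 0 (.l 0) (.n 0 (.l 0) (.n 0 (.l 0) (.n 2 (.n 2 (.n 2 (.n
    2 (.n 2 (.l 1) (.l 0)) (.l 0)) (.l 0)) (.l 0)) (.l 0)))))))) (by decide +kernel)

theorem o7gN0 : Ok false (d7g.cN.getD 0 []) := ok_of (k := 24) (show Good s7gN0 z7gN0 from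
    g7gN0_1)

noncomputable def s7gN1 : St := mk 86 (scl 24 (d7g.cN.getD 1 [])) [44, 29]
noncomputable def z7gN1 : ℕ → ℕ := z0 false 86 (scl 24 (d7g.cN.getD 1 [])) [44, 29]

theorem g7gN1_1 : Good s7gN1 z7gN1 :=
  good (.n 0 (.n 2 (.n 2 (.n 0 (.n 2 (.l 1) (.l 0)) (.n 0 (.n 2 (.l 1) (.l 0)) (.l 0))) (.l 0))
    (.l 0)) (.n 0 (.l 0) (.n 0 (.l 0) (.n 0 (.l 0) (.n 0 (.l 0) (.n 0 (.l 0) (.n 2 (.n 2 (.n 2 (.n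
    2 (.n 2 (.l 1) (.l 0)) (.l 0)) (.l 0)) (.l 0)) (.l 0)))))))) (by decide +kernel)

theorem o7gN1 : Ok false (d7g.cN.getD 1 []) := ok_of (k := 24) (show Good s7gN1 z7gN1 from
    g7gN1_1)

noncomputable def s7gN2 : St := mk 78 (scl 24 (d7g.cN.getD 2 [])) [43, 29]
noncomputable def z7gN2 : ℕ → ℕ := z0 false 78 (scl 24 (d7g.cN.getD 2 [])) [43, 29]

theorem g7gN2_1 : Good s7gN2 z7gN2 :=
  good (.n 0 (.l 0) (.n 0 (.l 0) (.n 0 (.l 0) (.n 0 (.l 0) (.n 0 (.l 0) (.n 0 (.l 0) (.n 2 (.n 2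
    (.n 2 (.n 2 (.n 2 (.l 1) (.l 0)) (.l 0)) (.l 0)) (.l 0)) (.l 0)))))))) (by decide +kernel)

theorem o7gN2 : Ok false (d7g.cN.getD 2 []) := ok_of (k := 24) (show Good s7gN2 z7gN2 from
    g7gN2_1)

noncomputable def s7gN3 : St := mk 62 (scl 24 (d7g.cN.getD 3 [])) [37, 29]
noncomputable def z7gN3 : ℕ → ℕ := z0 false 62 (scl 24 (d7g.cN.getD 3 [])) [37, 29]

theorem g7gN3_1 : Good s7gN3 z7gN3 :=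
  good (.n 0 (.l 0) (.n 0 (.l 0) (.n 0 (.l 0) (.n 0 (.l 0) (.n 0 (.l 0) (.n 0 (.l 0) (.n 2 (.n 2
    (.n 2 (.n 2 (.n 2 (.l 1) (.n 2 (.l 1) (.l 0))) (.l 0)) (.l 0)) (.l 0)) (.l 0)))))))) 
    (by decide +kernel)

theorem o7gN3 : Ok false (d7g.cN.getD 3 []) := ok_of (k := 24) (show Good s7gN3 z7gN3 from
    g7gN3_1)

noncomputable def s7gN4 : St := mk 70 (scl 24 (d7g.cN.getD 4 [])) [38, 29]
noncomputable def z7gN4 : ℕ → ℕ := z0 false 70 (scl 24 (d7g.cN.getD 4 [])) [38, 29]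

theorem g7gN4_1 : Good s7gN4 z7gN4 :=
  good (.n 0 (.n 0 (.n 2 (.n 2 (.n 2 (.l 1) (.l 0)) (.l 0)) (.l 0)) (.l 0)) (.l 0)) 
    (by decide +kernel)

theorem o7gN4 : Ok false (d7g.cN.getD 4 []) := ok_of (k := 24) (show Good s7gN4 z7gN4 from
    g7gN4_1)

noncomputable def s7gN5 : St := mk 70 (scl 24 (d7g.cN.getD 5 [])) [39, 29]
noncomputable def z7gN5 : ℕ → ℕ := z0 false 70 (scl 24 (d7g.cN.getD 5 [])) [39, 29]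

theorem g7gN5_1 : Good s7gN5 z7gN5 :=
  good (.l 0) (by decide +kernel)

theorem o7gN5 : Ok false (d7g.cN.getD 5 []) := ok_of (k := 24) (show Good s7gN5 z7gN5 from
    g7gN5_1)

noncomputable def s7gN6 : St := mk 86 (scl 24 (d7g.cN.getD 6 [])) [45, 29]
noncomputable def z7gN6 : ℕ → ℕ := z0 false 86 (scl 24 (d7g.cN.getD 6 [])) [45, 29]

theorem g7gN6_1 : Good s7gN6 z7gN6 :=
  good (.n 0 (.n 0 (.n 0 (.l 0) (.n 0 (.l 0) (.n 0 (.l 0) (.n 2 (.n 0 (.n 2 (.n 2 (.l 1) (.l 0))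
    (.l 0)) (.n 2 (.n 0 (.n 2 (.l 1) (.l 0)) (.n 2 (.l 1) (.n 2 (.n 2 (.l 1) (.l 0)) (.l 0)))) (.l
    0))) (.l 0))))) (.n 2 (.n 0 (.n 0 (.n 2 (.n 0 (.n 0 (.n 2 (.l 1) (.n 2 (.n 2 (.l 1) (.l 0))
    (.l 0))) (.n 2 (.l 1) (.l 0))) (.n 2 (.l 1) (.l 0))) (.l 0)) (.l 0)) (.l 0)) (.l 0))) (.n 2
    (.n 0 (.n 2 (.n 2 (.n 2 (.l 1) (.n 0 (.l 0) (.l 0))) (.l 0)) (.l 0)) (.l 0)) (.l 0))) 
    (by decide +kernel)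

theorem o7gN6 : Ok false (d7g.cN.getD 6 []) := ok_of (k := 24) (show Good s7gN6 z7gN6 from
    g7gN6_1)

noncomputable def s7gN7 : St := mk 70 (scl 24 (d7g.cN.getD 7 [])) [1, 29]
noncomputable def z7gN7 : ℕ → ℕ := z0 false 70 (scl 24 (d7g.cN.getD 7 [])) [1, 29]

theorem g7gN7_1 : Good s7gN7 z7gN7 :=
  good (.l 0) (by decide +kernel)

theorem o7gN7 : Ok false (d7g.cN.getD 7 []) := ok_of (k := 24) (show Good s7gN7 z7gN7 from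
    g7gN7_1)

noncomputable def s7gN8 : St := mk 70 (scl 24 (d7g.cN.getD 8 [])) [1, 29]
noncomputable def z7gN8 : ℕ → ℕ := z0 false 70 (scl 24 (d7g.cN.getD 8 [])) [1, 29]

theorem g7gN8_1 : Good s7gN8 z7gN8 :=
  good (.l 0) (by decide +kernel)

theorem o7gN8 : Ok false (d7g.cN.getD 8 []) := ok_of (k := 24) (show Good s7gN8 z7gN8 from
    g7gN8_1)

noncomputable def s7gN9 : St := mk 62 (scl 24 (d7g.cN.getD 9 [])) [1, 29]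
noncomputable def z7gN9 : ℕ → ℕ := z0 false 62 (scl 24 (d7g.cN.getD 9 [])) [1, 29]

theorem g7gN9_1 : Good s7gN9 z7gN9 :=
  good (.l 0) (by decide +kernel)

theorem o7gN9 : Ok false (d7g.cN.getD 9 []) := ok_of (k := 24) (show Good s7gN9 z7gN9 from
    g7gN9_1)

theorem ncert7_hi {γ : ℝ} (h0 : 1 / 20 < γ) (h1 : γ ≤ 1 / 2) : Nonempty (NCert2 7 γ) :=
  ncert_g (d := d7g) ⟨List.forall_mem_cons.2 ⟨o7gO0, List.forall_mem_cons.2 ⟨o7gO1,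
    List.forall_mem_cons.2 ⟨o7gO2, List.forall_mem_cons.2 ⟨o7gO3, List.forall_mem_nil _⟩⟩⟩⟩,
    List.forall_mem_cons.2 ⟨o7gA0, List.forall_mem_cons.2 ⟨o7gA1, List.forall_mem_cons.2 ⟨o7gA2,
    List.forall_mem_cons.2 ⟨o7gA3, List.forall_mem_nil _⟩⟩⟩⟩, List.forall_mem_cons.2 ⟨o7gB0,
    List.forall_mem_cons.2 ⟨o7gB1, List.forall_mem_cons.2 ⟨o7gB2, List.forall_mem_cons.2 ⟨o7gB3,
    List.forall_mem_nil _⟩⟩⟩⟩, List.forall_mem_cons.2 ⟨o7gN0, List.forall_mem_cons.2 ⟨o7gN1,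
    List.forall_mem_cons.2 ⟨o7gN2, List.forall_mem_cons.2 ⟨o7gN3, List.forall_mem_cons.2 ⟨o7gN4,
    List.forall_mem_cons.2 ⟨o7gN5, List.forall_mem_cons.2 ⟨o7gN6, List.forall_mem_cons.2 ⟨o7gN7,
    List.forall_mem_cons.2 ⟨o7gN8, List.forall_mem_cons.2 ⟨o7gN9, List.forall_mem_nil _⟩⟩⟩⟩⟩⟩⟩⟩⟩⟩⟩
    (by decide) (by decide) (by decide) (by decide) (by decide) (by decide) (by linarith) h1 (by
    simp only [d7g]; push_cast; linarith)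

end Vale.Agent.P219
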