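import Vale.Agent.P219.G.Cert8L
import Vale.Agent.P219.G.Cert8P

/-! The certificate for `m = 8` in the Euclidean case `γ = 1 / 2`. -/

namespace Vale.Agent.P219

namespace C8

theorem vx {P : Pt ℝ} (hr : 0 < P.r) (hz : 0 < P.z) (hc : |P.c| ≤ P.e) (he : P.e ≤ 1)
    (hX : 0 ≤ X0 P) (h : 0 ≤ P.c ∧ Gp P ∨ P.c ≤ 0 ∧ Gm P) : 0 ≤ Tp P ∧ 0 ≤ Tm P ∧
      0 ≤ S P - Rb P * N P + Xl P * |ab P| ∧
      0 ≤ S P - |Ka P| * (N P ^ 2 / 2) - Rb P * (N P - N P ^ 2 / 2) + Xl P * |ab P| ∧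
      0 ≤ S P - |Ka P| * N P + Xl P * |ab P| * (1 + N P - N P ^ 2 / 2) := by
  have e0 := (abs_nonneg _).trans hc
  have k1 : 0 ≤ kq P := by
    simp only [kq, f2, f1, rz, zz, xx, i, Int.cast_ofNat]
    positivity
  have k2 : 0 ≤ Rb P := by
    simp only [Rb, f1, rz, zz, xx, i, Int.cast_ofNat]
    positivity
  have k3 : 0 ≤ Xl P := add_nonneg hX (mul_nonneg k1 (sub_nonneg.2 (le_of_abs_le hc)))
  have n0 : 0 ≤ N P := sub_nonneg.2 (by
    simpa only [cc, ee, abs_mul_abs_self] using mul_self_le_mul_self (abs_nonneg _) hc)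
  have n1 : N P ≤ 1 := by
    simp only [N, ee, cc]
    linarith [mul_le_one₀ he e0 he, mul_self_nonneg P.c]
  have n2 : N P ^ 2 ≤ N P := by nlinarith
  have tp : (0 ≤ B P ∨ 0 ≤ Tp P) → 0 ≤ A P → 0 ≤ Tp P := fun h1 h2 => h1.elim (fun h1 =>
    add_nonneg (mul_nonneg h2 (mul_self_nonneg _)) (mul_nonneg (by
      simp only [i, Int.cast_one]
      linarith) h1)) id
  have a1 := mul_le_mul_of_nonneg_left (le_abs_self (ab P)) k3
  have a2 := mul_le_mul_of_nonneg_left (neg_le_abs (ab P)) k3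
  have a3 : 0 ≤ N P - N P ^ 2 / 2 := by linarith
  rcases h with ⟨h, h1, h2, -, h3, h4, h5⟩ | ⟨h, h1, h2, h3, h4⟩
  · have k4 : 0 ≤ Ka P := mul_nonneg k1 (mul_nonneg h e0)
    have t := tp h1 h2
    rw [abs_of_nonneg k4]
    simp only [Tm, Uh, U0, U1, i, Int.cast_ofNat] at h3 h4 h5 ⊢
    exact ⟨t, by positivity, by linarith, by linarith,
      by linarith [mul_le_mul_of_nonneg_right a1 (show 0 ≤ 1 + (N P - N P ^ 2 / 2) by linarith)]⟩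
  · have k4 : Ka P ≤ 0 := mul_nonpos_of_nonneg_of_nonpos k1 (mul_nonpos_of_nonpos_of_nonneg h e0)
    have k5 : 0 ≤ S P + Ka P * N P - Rb P * N P + Xl P * |ab P| := by
      simp only [U2, U3, U0] at h4
      rcases h4 with h4 | h4 <;> linarith
    rw [abs_of_nonpos k4]
    have k6 := neg_nonneg.2 k4
    exact ⟨tp h1 h2, h3, by linarith [mul_nonneg k6 n0],
      by linarith [mul_nonneg k6 a3, mul_nonneg k2 (sq_nonneg (N P))],
      by linarith [mul_nonneg k2 n0, mul_nonneg (mul_nonneg k3 (abs_nonneg (ab P))) a3]⟩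

/-- The coefficients. -/
noncomputable def co : Co :=
  ⟨2400, 8160, 18270, 30625, 6912, 19320, 26250, 6912, 12216, 11970, 0, 6912, 12456, 12810, 0,
    8064, 23520, 0, 428750⟩

theorem sq_eq {u σ : ℝ} (h : σ ^ 2 = sg2 (1 / 2) u) : u = σ ^ 2 := by
  rw [h, sg2]
  ring

theorem eX {σ z c e : ℝ} (hσ : 0 < σ) : X0 ⟨z * σ, z, c, e⟩ =
    (z * σ) ^ 8 * (co.x (σ ^ 2) + co.k (σ ^ 2) * (σ ^ 2 - σ)) := by
  simp only [X0, kq, f3, f2, f1, rz, zz, xx, i, Int.cast_ofNat, co, Co.x, Co.k, lp]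
  field_simp
  ring

theorem hX (u σ : ℝ) (_ : 0 < u) (hσ : 0 < σ) (h : σ ^ 2 = sg2 (1 / 2) u) :
    0 ≤ co.x u + co.k u * (u - σ) := by
  obtain ⟨z, hz, ⟨-, -, k, -⟩, -⟩ := cover hσ le_rfl zero_le_one le_rfl zero_le_one
  rw [eX hσ, ← sq_eq h] at k
  exact nonneg_of_mul_nonneg_right k (by positivity)

theorem hV (u σ c e : ℝ) (hu : 0 < u) (hσ : 0 < σ) (h : σ ^ 2 = sg2 (1 / 2) u) (hc : |c| ≤ e)
    (he : e ≤ 1) :
    co.Vx (1 / 2) u σ (2 * (c * e)) (c ^ 2 + e ^ 2 - 1) (e ^ 2 - c ^ 2) (e - c) := by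
  have e0 := (abs_nonneg _).trans hc
  obtain ⟨z, hz, k⟩ : ∃ z : ℝ, 0 < z ∧
      (0 ≤ c ∧ Gp ⟨z * σ, z, c, e⟩ ∨ c ≤ 0 ∧ Gm ⟨z * σ, z, c, e⟩) := by
    obtain ⟨z, hz, k1, k2⟩ := cover (t := |c| / e) hσ e0 he (by positivity)
      (div_le_one_of_le₀ hc e0)
    have q : e * (|c| / e) = |c| := by
      rcases e0.eq_or_lt with rfl | h
      · rw [zero_mul, le_antisymm hc (abs_nonneg c)]
      · field_simp
    rw [q] at k1 k2
    refine ⟨z, hz, (le_total 0 c).imp (fun h => ⟨h, ?_⟩) fun h => ⟨h, ?_⟩⟩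
    · rwa [abs_of_nonneg h] at k1
    · rwa [abs_of_nonpos h, neg_neg] at k2
  have hw : 0 < (z * σ) ^ 8 := by positivity
  have k0 := hX u σ hu hσ h
  obtain rfl := sq_eq h
  obtain ⟨v1, v2, v3, v4, v5⟩ := vx (P := ⟨z * σ, z, c, e⟩) (mul_pos hz hσ) hz hc he
    (by rw [eX hσ]; positivity) k
  have e1 : S ⟨z * σ, z, c, e⟩ =
      (z * σ) ^ 8 * co.S (1 / 2) (σ ^ 2) σ (2 * (c * e)) (c ^ 2 + e ^ 2 - 1) := by
    simp only [S, q2, cc, ee, f3, f2, f1, rz, zz, xx, i, Int.cast_ofNat, Int.cast_neg, co, Co.S,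
      Co.x, Co.k, Co.x', Co.k', lp, dp, ct]
    field_simp
    ring
  have e2 : Ka ⟨z * σ, z, c, e⟩ = (z * σ) ^ 8 * co.K (1 / 2) (σ ^ 2) σ (2 * (c * e)) := by
    simp only [Ka, kq, f2, f1, rz, zz, xx, i, Int.cast_ofNat, co, Co.K, Co.k, lp]
    field_simp
    ring
  have e3 : Rb ⟨z * σ, z, c, e⟩ = (z * σ) ^ 8 * co.R (1 / 2) (σ ^ 2) := by
    simp only [Rb, f1, rz, zz, xx, i, Int.cast_ofNat, co, Co.R, Co.r, lp]
    field_simp
    ring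
  have e4 : Xl ⟨z * σ, z, c, e⟩ = (z * σ) ^ 8 * co.L (1 / 2) (σ ^ 2) σ (e - c) := by
    simp only [Xl, X0, kq, f3, f2, f1, rz, zz, xx, i, Int.cast_ofNat, co, Co.L, Co.x, Co.k, lp]
    field_simp
    ring
  have e5 : N (⟨z * σ, z, c, e⟩ : Pt ℝ) = e ^ 2 - c ^ 2 := by simp only [N, ee, cc, sq]
  have e6 : ab (⟨z * σ, z, c, e⟩ : Pt ℝ) = c ^ 2 + e ^ 2 - 1 := by
    simp only [ab, ee, cc, sq, i, Int.cast_one]
  have e7 : Tp ⟨z * σ, z, c, e⟩ = S ⟨z * σ, z, c, e⟩ + (z * σ) ^ 8 *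
      co.Y (1 / 2) (σ ^ 2) σ (2 * (c * e)) (c ^ 2 + e ^ 2 - 1) -
      (Ka ⟨z * σ, z, c, e⟩ + Rb ⟨z * σ, z, c, e⟩) * (e ^ 2 - c ^ 2) := by
    simp only [Tp, A, B, E, S, Ka, Rb, kq, q2, cc, ee, f3, f2, f1, rz, zz, xx, i, Int.cast_ofNat,
      Int.cast_neg, Int.cast_one, co, Co.Y, Co.p, Co.l, Co.r, lp, ct]
    field_simp
    ring
  simp only [Tm, i, Int.cast_ofNat, e7] at v1 v2
  rw [e1, e2, e3] at v1 v2
  rw [e5] at v2
  rw [e1, e3, e4, e5, e6] at v3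
  rw [e1, e2, e3, e4, e5, e6, abs_mul, abs_of_pos hw] at v4
  rw [e1, e2, e4, e5, e6, abs_mul, abs_of_pos hw] at v5
  exact ⟨nonneg_of_mul_nonneg_right (by linarith) hw, nonneg_of_mul_nonneg_right (by linarith) hw,
    nonneg_of_mul_nonneg_right (by linarith) hw, nonneg_of_mul_nonneg_right (by linarith) hw,
    nonneg_of_mul_nonneg_right (by linarith) hw⟩

end C8

open C8 in
theorem ncert8_half : Nonempty (NCert2 8 (1 / 2)) := by
  refine gen co (by norm_num) le_rfl (by norm_num [co]) (by norm_num [co]) (by norm_num [co])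
    (fun u hu => ?_) (fun u hu => ?_) hX (fun u hu => ?_) (fun u hu => ?_) (fun u hu => ?_) hV
  · simp only [co, Co.k, C8.lp]
    positivity
  · simp only [co, Co.r, C8.lp]
    positivity
  · simp only [co, Co.x, Co.x', Co.p, Co.r, C8.lp, dp]
    field_simp
    ring
  · simp only [co, Co.p, Co.p', Co.l, Co.r, Co.r', C8.lp, dp, ct, sg2]
    field_simp
    ring
  · refine (show 0 < 360 * u⁻¹ ^ 4 + 2100 * u⁻¹ ^ 3 by positivity).trans_eq ?_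
    simp only [co, Co.l, Co.l', Co.r, Co.r', C8.lp, dp, ct, sg2]
    field_simp
    ring

end Vale.Agent.P219
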