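import Vale.Agent.P219.G.Lin3
import Vale.Agent.P219.G.Cert2A

/-! Certificates with `m = 8` which are linear in the normal components and Laurent polynomials
in `u`: reduction to five vertex inequalities. -/

namespace Vale.Agent.P219.C8

open Set

theorem lin_end {α β v v₀ v₁ : ℝ} (h0 : v₀ ≤ v) (h1 : v ≤ v₁) (k0 : 0 ≤ α + β * v₀)
    (k1 : 0 ≤ α + β * v₁) : 0 ≤ α + β * v := by
  rcases le_total 0 β with h | h
  · linarith [mul_le_mul_of_nonneg_left h0 h]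
  · linarith [mul_le_mul_of_nonpos_left h1 h]

theorem red {m : ℕ} {a a' W W₂ ι gx gy S Y K R x y L N A : ℝ} (hF : Feas m a a' W W₂ ι gx gy)
    (hN : N = √((1 - a ^ 2) * (1 - a' ^ 2))) (hA : A = |a * a'|) (hR : 0 ≤ R) (hx : 0 ≤ x)
    (hy : 0 ≤ y) (hL0 : 0 ≤ L) (hL : L ^ 2 ≤ 4 * (x * y)) (t1 : 0 ≤ S + Y - (K + R) * N)
    (t2 : 0 ≤ S + Y + (K + R) * N) (u0 : 0 ≤ S - R * N + L * A)
    (uh : 0 ≤ S - |K| * (N ^ 2 / 2) - R * (N - N ^ 2 / 2) + L * A)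
    (u1 : 0 ≤ S - |K| * N + L * A * (1 + N - N ^ 2 / 2)) :
    0 ≤ S - K * W + ι * Y - R * W₂ + (x * gy + y * gx) := by
  obtain ⟨b1, b2, b3, b4, b5, b6⟩ := hF.basic
  obtain ⟨c1, c2⟩ := hF.cof
  have n2 : N ^ 2 = (1 - a ^ 2) * (1 - a' ^ 2) :=
    hN ▸ Real.sq_sqrt (mul_nonneg (sub_nonneg.2 b1) (sub_nonneg.2 b2))
  have n0 : 0 ≤ N := hN ▸ Real.sqrt_nonneg _
  have n1 : N ≤ 1 := hN ▸ Real.sqrt_le_one.2 (mul_le_one₀ (by linarith [sq_nonneg a])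
    (sub_nonneg.2 b2) (by linarith [sq_nonneg a']))
  have r1 := hF.refined (l := 1) zero_le_one (by rw [one_mul, ← hN]; exact n1) (by
    rw [one_mul, abs_mul]
    exact mul_le_one₀ ((sq_le_one_iff_abs_le_one a).1 b1) (abs_nonneg _)
      ((sq_le_one_iff_abs_le_one a').1 b2))
  have r0 : A * (1 - ι) ≤ √(gx * gy) := Real.le_sqrt_of_sq_le (by
    rw [hA, mul_pow, sq_abs, ← mul_pow]
    exact hF.old)
  have r2 : L * √(gx * gy) ≤ x * gy + y * gx := by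
    refine (abs_le_of_sq_le_sq' ?_ (by positivity)).2
    rw [mul_pow, Real.sq_sqrt (by positivity)]
    linarith [mul_le_mul_of_nonneg_right hL (mul_nonneg b5 b6), sq_nonneg (x * gy - y * gx)]
  rw [← hN] at c1 c2
  rw [← hN, ← hA, ← n2] at r1
  generalize √(gx * gy) = g at r0 r1 r2
  obtain ⟨c3, c4⟩ := abs_le.1 c1
  obtain ⟨c5, c6⟩ := abs_le.1 c2
  have hδ := sub_nonneg.2 b4
  have s0 := mul_le_mul_of_nonneg_left r0 hL0
  have s1 := mul_le_mul_of_nonneg_left r1 hL0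
  have aux : ∀ v, 0 ≤ v → v ≤ (1 - ι) * N → v = |W| - ι * N →
      0 ≤ (1 - ι) * S - |K| * v - R * ((1 - ι) * N - v) + L * g := fun v v0 v1 e => by
    rcases le_total v ((1 - ι) * (N ^ 2 / 2)) with h | h
    · linarith [lin_end (α := (1 - ι) * (S - R * N + L * A)) (β := R - |K|) v0 h
        (by linarith [mul_nonneg hδ u0]) (by linarith [mul_nonneg hδ uh])]
    · rw [← e] at s1
      linarith [lin_end (α := (1 - ι) * (S - R * N + L * A * (1 - N ^ 2 / 2)))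
        (β := R - |K| + L * A) h v1 (by linarith [mul_nonneg hδ uh])
        (by linarith [mul_nonneg hδ u1])]
  have i1 := mul_nonneg b3.le t1
  have i2 := mul_nonneg b3.le t2
  have iN := mul_nonneg b3.le n0
  rcases le_total (ι * N) W with h | h
  · have k := aux (W - ι * N) (by linarith) (by linarith) (by rw [abs_of_nonneg (by linarith)])
    linarith [mul_le_mul_of_nonneg_right (le_abs_self K) (sub_nonneg.2 h),
      mul_le_mul_of_nonneg_left (show W₂ ≤ (1 + ι) * N - W by linarith) hR]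
  have k0 := mul_le_mul_of_nonneg_left (show W₂ ≤ (1 - ι) * N + W by linarith) hR
  rcases le_total W (-(ι * N)) with h' | h'
  · have k := aux (-W - ι * N) (by linarith) (by linarith) (by rw [abs_of_nonpos (by linarith)])
    linarith [mul_le_mul_of_nonneg_right (neg_abs_le K) (show 0 ≤ -W - ι * N by linarith)]
  · linarith [lin_end (α := ι * (S + Y)) (β := -(K + R)) h' h (by linarith) (by linarith),
      mul_nonneg hδ u0]

theorem ce {a a' : ℝ} (b1 : a ^ 2 ≤ 1) (b2 : a' ^ 2 ≤ 1) : ∃ c e : ℝ, |c| ≤ e ∧ e ≤ 1 ∧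
    a + a' = 2 * (c * e) ∧ a * a' = c ^ 2 + e ^ 2 - 1 ∧
    e ^ 2 - c ^ 2 = √((1 - a ^ 2) * (1 - a' ^ 2)) ∧ (e - c) ^ 2 = (1 - a) * (1 - a') := by
  obtain ⟨p1, p2⟩ := abs_le.1 ((sq_le_one_iff_abs_le_one a).1 b1)
  obtain ⟨q1, q2⟩ := abs_le.1 ((sq_le_one_iff_abs_le_one a').1 b2)
  have h1 : 0 ≤ (1 - a) * (1 - a') := mul_nonneg (by linarith) (by linarith)
  have h2 : 0 ≤ (1 + a) * (1 + a') := mul_nonneg (by linarith) (by linarith)
  have e1 := Real.sq_sqrt h1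
  have e2 := Real.sq_sqrt h2
  have e3 : √((1 - a) * (1 - a')) * √((1 + a) * (1 + a')) = √((1 - a ^ 2) * (1 - a' ^ 2)) := by
    rw [← Real.sqrt_mul h1]
    congr 1
    ring
  have e4 : √((1 - a ^ 2) * (1 - a' ^ 2)) ≤ 1 - a * a' :=
    Real.sqrt_le_iff.2 ⟨by linarith [sq_nonneg (a - a')], by linarith [sq_nonneg (a - a')]⟩
  have n0 := Real.sqrt_nonneg ((1 - a) * (1 - a'))
  have n1 := Real.sqrt_nonneg ((1 + a) * (1 + a'))
  rw [← e3] at e4 ⊢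
  generalize √((1 - a) * (1 - a')) = n at *
  generalize √((1 + a) * (1 + a')) = n' at *
  refine ⟨(n' - n) / 2, (n' + n) / 2, abs_le.2 ⟨by linarith, by linarith⟩, ?_, by linarith,
    by linarith, by ring, by linarith⟩
  exact (abs_le_of_sq_le_sq' (by linarith) zero_le_one).2

/-- Laurent polynomials. -/
noncomputable def lp (a b c d e u : ℝ) : ℝ :=
  a * u⁻¹ ^ 5 + b * u⁻¹ ^ 4 + c * u⁻¹ ^ 3 + d * u⁻¹ ^ 2 + e * u⁻¹

/-- Their derivatives. -/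
noncomputable def dp (a b c d e u : ℝ) : ℝ :=
  -(5 * a * u⁻¹ ^ 6 + 4 * b * u⁻¹ ^ 5 + 3 * c * u⁻¹ ^ 4 + 2 * d * u⁻¹ ^ 3 + e * u⁻¹ ^ 2)

theorem lp_der (a b c d e : ℝ) {u : ℝ} (hu : 0 < u) :
    HasDerivAt (lp a b c d e) (dp a b c d e u) u := by
  have h := hasDerivAt_inv hu.ne'
  refine ((((((h.fun_pow 5).const_mul a).add ((h.fun_pow 4).const_mul b)).add
    ((h.fun_pow 3).const_mul c)).add ((h.fun_pow 2).const_mul d)).add
      (h.const_mul e)).congr_deriv ?_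
  rw [dp, ← inv_pow]
  push_cast
  ring

theorem lp_cd (a b c d e : ℝ) :
    ContDiffOn ℝ 2 (fun z : ℝ × ℝ => lp a b c d e z.1) {z | 0 < z.1} := by
  have h : ContDiffOn ℝ 2 (fun z : ℝ × ℝ => z.1⁻¹) {z | 0 < z.1} :=
    contDiffOn_fst.inv fun z hz => ne_of_gt hz
  exact (((((h.pow 5).const_smul a).add ((h.pow 4).const_smul b)).add
    ((h.pow 3).const_smul c)).add ((h.pow 2).const_smul d)).add (h.const_smul e)

/-- The coefficients. -/
structure Co where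
  (x4 x3 x2 x1 k4 k3 k2 p4 p3 p2 p1 l5 l4 l3 l2 r3 r2 r1 η : ℝ)

namespace Co

variable (j : Co) (γ u σ ρ π : ℝ)

noncomputable def x := lp 0 j.x4 j.x3 j.x2 j.x1
noncomputable def x' := dp 0 j.x4 j.x3 j.x2 j.x1
noncomputable def k := lp 0 j.k4 j.k3 j.k2 0
noncomputable def k' := dp 0 j.k4 j.k3 j.k2 0
noncomputable def p := lp 0 j.p4 j.p3 j.p2 j.p1
noncomputable def p' := dp 0 j.p4 j.p3 j.p2 j.p1
noncomputable def l := lp j.l5 j.l4 j.l3 j.l2 0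
noncomputable def l' := dp j.l5 j.l4 j.l3 j.l2 0
noncomputable def r := lp 0 0 j.r3 j.r2 j.r1
noncomputable def r' := dp 0 0 j.r3 j.r2 j.r1

noncomputable def S : ℝ :=
  8 * ((j.x u + j.k u * u) * (2 * ct γ u - σ * ρ) - j.k u * σ * (ρ * ct γ u - 2 * σ * π)) +
    (j.x' u + j.k' u * u + j.k u) * σ ^ 2 * (2 - ρ ^ 2 + 2 * π) -
    j.k' u * σ ^ 3 * ρ * (1 - π) - j.k u * σ * ρ * ct γ u * (1 - π) + 2 * γ * j.η
noncomputable def K : ℝ := γ * j.k u * σ * ρ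
noncomputable def R : ℝ := 2 * γ ^ 2 * j.r u
noncomputable def Y : ℝ :=
  γ * ((j.p u - j.l u * u) * σ * ρ + 2 * j.l u * σ ^ 2 * π + 2 * j.r u * ct γ u * π)
noncomputable def L (n : ℝ) : ℝ := 2 * γ * (j.x u + j.k u * (u - σ) + j.k u * σ * n)

/-- The vertex inequalities. -/
def Vx (N n : ℝ) : Prop :=
  0 ≤ j.S γ u σ ρ π + j.Y γ u σ ρ π - (j.K γ u σ ρ + j.R γ u) * N ∧
  0 ≤ j.S γ u σ ρ π + j.Y γ u σ ρ π + (j.K γ u σ ρ + j.R γ u) * N ∧
  0 ≤ j.S γ u σ ρ π - j.R γ u * N + j.L γ u σ n * |π| ∧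
  0 ≤ j.S γ u σ ρ π - |j.K γ u σ ρ| * (N ^ 2 / 2) - j.R γ u * (N - N ^ 2 / 2) +
    j.L γ u σ n * |π| ∧
  0 ≤ j.S γ u σ ρ π - |j.K γ u σ ρ| * N + j.L γ u σ n * |π| * (1 + N - N ^ 2 / 2)

end Co

theorem gen (j : Co) {γ : ℝ} (h0 : 0 < γ) (h1 : γ ≤ 1 / 2) (hη : 0 < j.η) (hx : 0 < j.x4)
    (h5 : 0 ≤ j.l5) (hk : ∀ u, 0 < u → 0 ≤ j.k u) (hr : ∀ u, 0 < u → 0 ≤ j.r u)
    (hX : ∀ u σ, 0 < u → 0 < σ → σ ^ 2 = sg2 γ u → 0 ≤ j.x u + j.k u * (u - σ))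
    (E1 : ∀ u, 0 < u → 8 * j.x u * (1 - 2 * u) + 2 * u * (1 - u) * j.x' u + j.η + u * j.p u +
      (u - γ) * j.r u = 0)
    (E2 : ∀ u, 0 < u → 9 * ct γ u * j.p u + sg2 γ u * j.p' u - γ * u * j.l u +
      u * (9 * (1 - 2 * γ) * j.r u + ct γ u * j.r' u) = 0)
    (hE : ∀ u, 0 < u → 0 < 10 * ct γ u * j.l u + sg2 γ u * j.l' u + 9 * (1 - 2 * γ) * j.r u +
      ct γ u * j.r' u)
    (hV : ∀ u σ c e, 0 < u → 0 < σ → σ ^ 2 = sg2 γ u → |c| ≤ e → e ≤ 1 →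
      j.Vx γ u σ (2 * (c * e)) (c ^ 2 + e ^ 2 - 1) (e ^ 2 - c ^ 2) (e - c)) :
    Nonempty (NCert2 8 γ) := by
  have hd : 0 ≤ 1 - 2 * γ := by linarith
  have hs : ∀ u, 0 < u → 0 < sg2 γ u := fun u hu => by
    rw [sg2]
    positivity
  have eD : ∀ u q, 0 < u → nD2 8 γ (fun u q => j.p u - j.l u * (u - q))
      (fun u q => j.p' u - (j.l' u * (u - q) + j.l u)) (fun u _ => j.l u) (fun u _ => j.r u)
      (fun u _ => j.r' u) (fun _ _ => 0) u q = (q - u) * (10 * ct γ u * j.l u + sg2 γ u * j.l' u +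
        9 * (1 - 2 * γ) * j.r u + ct γ u * j.r' u) := fun u q hu => by
    have := E2 u hu
    simp only [nD2, nD, ct, sg2, Nat.cast_ofNat] at this ⊢
    linear_combination this
  refine ⟨⟨fun u p => j.x u + j.k u * (u - p), fun u p => j.x' u + (j.k' u * (u - p) + j.k u),
    fun u _ => -j.k u, fun u q => j.p u - j.l u * (u - q),
    fun u q => j.p' u - (j.l' u * (u - q) + j.l u), fun u _ => j.l u, fun u _ => j.r u,
    fun u _ => j.r' u, fun _ _ => 0, j.η, j.x4, hη, hx, ⟨?_, fun u p hu => ⟨?_, ?_⟩⟩,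
    ⟨?_, fun u p hu => ⟨?_, ?_⟩⟩, ⟨lp_cd _ _ _ _ _, fun u p hu =>
      ⟨lp_der _ _ _ _ _ hu, hasDerivAt_const _ _⟩⟩, fun u p hu hp => ?_, fun l hl => ?_,
    fun u σ a a' W W₂ ι gx gy hu hσ e hF => ?_, fun u q hu _ h => ?_, fun u q hu _ h => ?_,
    ⟨1 + j.l5, fun l hl => ?_⟩, fun u hu _ => ?_⟩⟩
  · exact (lp_cd _ _ _ _ _).add ((lp_cd _ _ _ _ _).mul (by fun_prop))
  · exact ((lp_der _ _ _ _ _ hu).add ((lp_der _ _ _ _ _ hu).mul
      ((hasDerivAt_id' u).sub_const p))).congr_deriv (by rw [mul_one]; rfl)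
  · exact ((((hasDerivAt_id' p).const_sub u).const_mul _).const_add _).congr_deriv (by ring)
  · exact (lp_cd _ _ _ _ _).sub ((lp_cd _ _ _ _ _).mul (by fun_prop))
  · exact ((lp_der _ _ _ _ _ hu).sub ((lp_der _ _ _ _ _ hu).mul
      ((hasDerivAt_id' u).sub_const p))).congr_deriv (by rw [mul_one]; rfl)
  · exact ((((hasDerivAt_id' p).const_sub u).const_mul _).const_sub _).congr_deriv (by ring)
  · have k1 := hX u _ hu (Real.sqrt_pos.2 (hs u hu)) (Real.sq_sqrt (hs u hu).le)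
    linarith [mul_le_mul_of_nonneg_left (Real.le_sqrt_of_sq_le hp) (hk u hu)]
  · obtain ⟨u₀, hu₀, h⟩ := c2_small h1 (F := fun z : ℝ × ℝ => j.x3 * z.1 + j.x2 * z.1 ^ 2 +
      j.x1 * z.1 ^ 3 + (j.k4 + j.k3 * z.1 + j.k2 * z.1 ^ 2) * (z.1 - z.2)) (by fun_prop)
      (by simp) hl
    refine ⟨u₀, hu₀, fun u p hu h2 hp => le_of_eq_of_le ?_ (h u p hu h2 hp)⟩
    rw [show √u ^ 8 = (√u ^ 2) ^ 4 by ring, Real.sq_sqrt hu.le]
    congr 1
    simp only [Co.x, Co.k, lp]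
    field_simp
    ring
  · obtain ⟨b1, b2, -⟩ := hF.basic
    obtain ⟨c, n, c1, c2, c3, c4, c5, c6⟩ := ce b1 b2
    obtain ⟨v1, v2, v3, v4, v5⟩ := hV u σ c n hu hσ e c1 c2
    rw [← c3, ← c4] at v1 v2 v3 v4 v5
    have k1 := hX u σ hu hσ e
    have k2 := mul_nonneg (hk u hu) hσ.le
    have k3 := sub_nonneg.2 (le_of_abs_le c1)
    have a1 := sub_nonneg.2 (abs_le.1 ((sq_le_one_iff_abs_le_one a).1 b1)).2
    have a2 := sub_nonneg.2 (abs_le.1 ((sq_le_one_iff_abs_le_one a').1 b2)).2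
    have k4 : 2 * (n - c) ≤ 1 - a + (1 - a') :=
      (abs_le_of_sq_le_sq' (by linarith [sq_nonneg (a - a')]) (by linarith)).2
    refine (red (x := γ * (j.x u + j.k u * (u - σ) + j.k u * σ * (1 - a)))
      (y := γ * (j.x u + j.k u * (u - σ) + j.k u * σ * (1 - a'))) hF c5 rfl
      (mul_nonneg (by positivity) (hr u hu)) (by positivity) (by positivity)
      (by rw [Co.L]; positivity) ?_ v1 v2 v3 v4 v5).trans_eq ?_
    · have k5 := mul_le_mul_of_nonneg_left k4 (mul_nonneg (sq_nonneg γ) (mul_nonneg k1 k2))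
      rw [Co.L]
      generalize j.x u + j.k u * (u - σ) = α at *
      generalize j.k u * σ = β at *
      have k6 : γ ^ 2 * β ^ 2 * (n - c) ^ 2 = γ ^ 2 * β ^ 2 * ((1 - a) * (1 - a')) := by rw [c6]
      linarith
    · simp only [nB, Co.S, Co.K, Co.Y, ← e, Nat.cast_ofNat]
      ring
  · rw [eD u q hu]
    exact mul_pos (sub_pos.2 h) (hE u hu)
  · rw [eD u q hu]
    exact mul_nonpos_of_nonpos_of_nonneg (sub_nonpos.2 h) (hE u hu).le
  · obtain ⟨u₀, hu₀, h⟩ := c2_small h1 (F := fun z : ℝ × ℝ => √(sg2 γ z.1) *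
      ((2 * γ + (1 - 2 * γ) * z.1) ^ 4 * (j.p4 + j.p3 * z.1 + j.p2 * z.1 ^ 2 + j.p1 * z.1 ^ 3 -
        j.l5 + (j.l4 + j.l3 * z.1 + j.l2 * z.1 ^ 2) * (z.2 - z.1)) +
        (2 * γ + (1 - 2 * γ) * z.1) ^ 3 * ct γ z.1 * z.2 * (j.r3 + j.r2 * z.1 + j.r1 * z.1 ^ 2)))
      (by unfold sg2 ct; fun_prop) (by simp [sg2]) (lt_min hl one_pos)
    refine ⟨min u₀ 1, lt_min hu₀ one_pos, fun u q hu h2 hq => ?_⟩
    obtain ⟨k1, k2⟩ := abs_le.1 (h u q hu (h2.trans (min_le_left _ _)) hq)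
    have e0 : √(sg2 γ u) ^ 2 = u * (2 * γ + (1 - 2 * γ) * u) := Real.sq_sqrt (hs u hu).le
    have k3 : |q| ≤ √(sg2 γ u) := Real.abs_le_sqrt hq
    have k0 := Real.sqrt_nonneg (sg2 γ u)
    have k4 : 2 * γ + (1 - 2 * γ) * u ≤ 1 := by
      linarith [mul_le_mul_of_nonneg_left (h2.trans (min_le_right _ _)) hd]
    have k5 : 0 ≤ 2 * γ + (1 - 2 * γ) * u := by positivity
    simp only [nφ] at k1 k2 ⊢
    generalize √(sg2 γ u) = σ at *
    generalize 2 * γ + (1 - 2 * γ) * u = h at *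
    have e : σ ^ (8 + 1) * (j.p u - j.l u * (u - q)) + σ ^ (8 - 1) * ct γ u * q * j.r u =
        σ * (h ^ 4 * (j.p4 + j.p3 * u + j.p2 * u ^ 2 + j.p1 * u ^ 3 - j.l5 +
          (j.l4 + j.l3 * u + j.l2 * u ^ 2) * (q - u)) +
          h ^ 3 * ct γ u * q * (j.r3 + j.r2 * u + j.r1 * u ^ 2)) + j.l5 * (h ^ 4 * σ / u * q) := by
      rw [show σ ^ (8 + 1) = σ * (σ ^ 2) ^ 4 by ring, show σ ^ (8 - 1) = σ * (σ ^ 2) ^ 3 by ring, e0]
      simp only [Co.p, Co.l, Co.r, lp]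
      field_simp
      ring
    have k6 : 0 ≤ h ^ 4 * σ / u := by positivity
    have k7 : |h ^ 4 * σ / u * q| ≤ 1 := by
      rw [abs_mul, abs_of_nonneg k6]
      refine (mul_le_mul_of_nonneg_left k3 k6).trans ?_
      rw [show h ^ 4 * σ / u * σ = h ^ 4 * σ ^ 2 / u by ring, e0,
        show h ^ 4 * (u * h) / u = h ^ 5 by field_simp]
      exact pow_le_one₀ k5 k4
    obtain ⟨k8, k9⟩ := abs_le.1 k7
    rw [e]
    have m1 := min_le_left l 1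
    have m2 := min_le_right l 1
    exact ⟨abs_le.2 ⟨by linarith [mul_le_mul_of_nonneg_left k8 h5],
      by linarith [mul_le_mul_of_nonneg_left k9 h5]⟩,
      fun hq => by linarith [mul_nonneg h5 (mul_nonneg k6 hq)],
      fun hq => by linarith [mul_nonneg h5 (mul_nonneg k6 (neg_nonneg.2 hq))]⟩
  · have := E1 u hu
    simp only [Nat.cast_ofNat]
    linarith

end Vale.Agent.P219.C8
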