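import Vale.Agent.P219.G.CertGA

/-! Certificates on the range `a / b < γ ≤ 1 / 2` from a finite computation. -/

namespace Vale.Agent.P219

open Set Filter Topology HJ Kp Kp.K Mp

/-- The function of `u`. -/
noncomputable def gF (m n : ℕ) (l : List ℤ) (u : ℝ) : ℝ :=
  eL Int.cast l √u * (√u ^ m * (1 + √u) ^ n)⁻¹

theorem gF_cd (m n : ℕ) (l : List ℤ) :
    ContDiffOn ℝ 2 (fun z : ℝ × ℝ => gF m n l z.1) {z | 0 < z.1} := fun z hz => by
  have h0 := Real.sqrt_pos.2 hz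
  have h1 : ContDiffAt ℝ 2 (fun s => √s) z.1 := Real.contDiffAt_sqrt (ne_of_gt hz)
  exact ((((eL_cd l).contDiffAt.comp z.1 h1).mul (((h1.pow m).mul
    ((contDiffAt_const.add h1).pow n)).inv (by positivity))).comp z contDiffAt_fst).contDiffWithinAt

theorem gF_der (m n : ℕ) (l : List ℤ) {u : ℝ} (hu : 0 < u) : HasDerivAt (gF (m + 1) (n + 1) l)
    (gF (m + 1) (n + 1 + 1) (dn2 (m + 1) (n + 1) l) u / (2 * u)) u := by
  have h0 := Real.sqrt_pos.2 hu
  have h1 := Real.hasDerivAt_sqrt hu.ne'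
  obtain ⟨d, h2, h3⟩ := dl_der l √u
  refine ((h2.comp u h1).mul (((h1.fun_pow (m + 1)).mul ((h1.const_add 1).fun_pow (n + 1))).inv
    (show √u ^ (m + 1) * (1 + √u) ^ (n + 1) ≠ 0 by positivity))).congr_deriv ?_
  have h4 := Real.sq_sqrt hu.le
  rw [gF, dn2, eL_zA (f := Int.add) (v := Int.cast) fun a b => Int.cast_add a b]
  simp only [eL, h3, Function.comp, Pi.inv_apply, Pi.mul_apply, Nat.add_sub_cancel]
  generalize √u = x at h0 h4
  subst h4
  field_simp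
  push_cast
  ring

theorem f_eL (a : K) (l : List ℤ) (x : ℕ → ℝ) : (comp a l).f x = eL Int.cast l (a.f x) := by
  rw [f_comp]
  induction l with
  | nil => rfl
  | cons k t ih => rw [List.foldr_cons, ih, eL]

namespace GD

variable (d : GD) (g u : ℝ)

noncomputable def F (l : List ℤ) : ℝ := gF (d.m + 1) d.n l u
noncomputable def F' (l : List ℤ) : ℝ := gF (d.m + 1) (d.n + 1) (dn2 (d.m + 1) d.n l) u
noncomputable def F1 (l : List ℤ) : ℝ := gF (d.m + 1) (d.n + 1) l u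
noncomputable def F1' (l : List ℤ) : ℝ := gF (d.m + 1) (d.n + 1 + 1) (dn2 (d.m + 1) (d.n + 1) l) u

/-- The values at `u`. -/
noncomputable def val : GJ ℝ :=
  ⟨(d.m + 1 : ℕ), g, 1, u, √(sg2 g u), 2 * g + (1 - 2 * g) * u, ct g u, g * d.F u d.x,
    g * d.F' u d.x, d.F u d.K0 + g * d.F u d.K1, d.F' u d.K0 + g * d.F' u d.K1,
    d.F u d.y0 + g * d.F u d.y1 + g ^ 2 * d.F u d.y2,
    d.F1 u d.L0 + g * d.F1 u d.L1 + g ^ 2 * d.F1 u d.L2, d.F u d.f0 + g * d.F u d.f1, g ^ 2 * d.e,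
    d.F' u d.y0 + g * d.F' u d.y1 + g ^ 2 * d.F' u d.y2, d.F' u d.f0 + g * d.F' u d.f1,
    d.F1' u d.L0 + g * d.F1' u d.L1 + g ^ 2 * d.F1' u d.L2, 1⟩

theorem f_pw (a : K) (x : ℕ → ℝ) : ∀ n, (pw a n).f x = a.f x ^ n
  | 0 => (f_one x).trans (pow_zero _).symm
  | n + 1 => (congrArg (· * a.f x) (f_pw a x n)).trans (pow_succ _ _).symm

/-- The second coordinate. -/
noncomputable def lam : ℝ := 2 * g * (1 + √u) / (√u + √(2 * g + (1 - 2 * g) * u))

variable {d g u} {s l : K} {X : ℕ → ℝ}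

theorem lam_mem (h0 : 0 < g) (h1 : g ≤ 1 / 2) (hu : 0 < u) : 0 ≤ lam g u ∧ lam g u ≤ 1 := by
  have h2 := Real.sqrt_pos.2 hu
  have h3 := Real.sq_sqrt hu.le
  refine ⟨by unfold lam; positivity, div_le_one_of_le₀ ?_ (by positivity)⟩
  have h4 : 0 ≤ 1 - 2 * g := by linarith
  have h5 : 2 * g + (1 - 2 * g) * √u ≤ √(2 * g + (1 - 2 * g) * u) := Real.le_sqrt_of_sq_le (by
    linear_combination mul_nonneg (mul_nonneg h0.le h4) (sq_nonneg (1 - √u)) * 2 + (1 - 2 * g) * h3)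
  linarith [mul_nonneg h4 h2.le]

theorem coord (h0 : 0 < g) (h1 : g ≤ 1 / 2) (hu : 0 < u) (hs : s.f X = √u) (hl : l.f X = lam g u) :
    (ρ s l).f X = √(2 * g + (1 - 2 * g) * u) ∧ (G s l).f X = 2 * (1 + √u) * g ∧
      (H s).f X = 2 * (1 + √u) := by
  have h2 := Real.sqrt_pos.2 hu
  have h3 := Real.sq_sqrt hu.le
  have h4 : 0 ≤ 2 * g + (1 - 2 * g) * u := by nlinarith
  have h5 := Real.sq_sqrt h4
  have h6 := Real.sqrt_nonneg (2 * g + (1 - 2 * g) * u)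
  have e : (ρ s l).f X = √(2 * g + (1 - 2 * g) * u) := by
    simp only [ρ, f_add, f_mul, f_sub, f_one, hs, hl, lam]
    field_simp
    linear_combination (1 - 2 * g) * h3 - h5
  refine ⟨e, ?_, by simp only [H, f_add, f_mul, f_nat, f_one, hs]⟩
  simp only [G, f_add, f_mul, e, hs, hl, lam]
  field_simp

theorem jet_ev (h0 : 0 < g) (h1 : g ≤ 1 / 2) (hu : 0 < u) (hs : s.f X = √u) (hl : l.f X = lam g u) :
    (d.jet s l).ev X = (d.val g u).sc (2 * (1 + √u)) (√u ^ (d.m + 1) * (1 + √u) ^ (d.n + 1))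
      (1 + √u) := by
  obtain ⟨e1, e2, e3⟩ := coord h0 h1 hu hs hl
  have h2 := Real.sqrt_pos.2 hu
  have h4 : 0 ≤ 2 * g + (1 - 2 * g) * u := by nlinarith
  simp only [GJ.ev, GJ.sc, jet, val, GD.h1, GD.h2, D, F, F', F1, F1', gF, f_add, f_mul, f_sub, f_one,
    f_c, f_eL, f_pw, hs, e1, e2, e3, GJ.mk.injEq, Real.mul_self_sqrt hu.le, Real.mul_self_sqrt h4,
    sg2, Real.sqrt_mul hu.le, ct, Int.cast_natCast, true_and, mul_one, and_true]
  refine ⟨by ring, ?_, ?_, ?_, ?_, ?_, ?_, ?_, ?_, ?_, ?_, ?_⟩ <;> field_simp <;> ring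

theorem q_neg (h0 : 0 < g) (h1 : g ≤ 1 / 2) (hu : 0 < u) (hs : s.f X = √u) (hl : l.f X = lam g u)
    (hg : d.a < d.b * g) : ¬0 ≤ (d.q s l).f X := by
  obtain ⟨-, e2, e3⟩ := coord h0 h1 hu hs hl
  simp only [q, f_sub, f_mul, f_c, e2, e3, Int.cast_natCast, not_le]
  linarith [mul_pos (sub_pos.2 hg) (show 0 < 1 + √u by positivity)]

/-- All finite checks. -/
structure Chk (d : GD) : Prop where
  O : ∀ ps ∈ d.cO, Ok false ps
  A : ∀ ps ∈ d.cA, Ok true ps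
  B : ∀ ps ∈ d.cB, Ok true ps
  N : ∀ ps ∈ d.cN, Ok false ps

theorem ev_all (j : GJ K) (S T s ρ : K) (X : ℕ → ℝ) :
    ((j.t1 S T).f X = (j.ev X).t1 (S.f X) (T.f X) ∧ (j.ta S T).f X = (j.ev X).ta (S.f X) (T.f X) ∧
    (j.tb S T).f X = (j.ev X).tb (S.f X) (T.f X) ∧ (j.tc S T).f X = (j.ev X).tc (S.f X) (T.f X)) ∧
    (j.n1 S T).f X = (j.ev X).n1 (S.f X) (T.f X) ∧ (j.n2 S T).f X = (j.ev X).n2 (S.f X) (T.f X) ∧
    (j.E S s ρ).f X = (j.ev X).E (S.f X) (s.f X) (ρ.f X) ∧ j.f0.f X = (j.ev X).f0 ∧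
    j.nu.f X = (j.ev X).nu ∧ j.e2.f X = (j.ev X).e2 ∧ j.md.f X = (j.ev X).md := by
  simp only [GJ.ev, GJ.t1, GJ.ta, GJ.tb, GJ.tc, GJ.n1, GJ.n2, GJ.E, GJ.al, GJ.de, GJ.be, GJ.cc, GJ.F,
    GJ.k, GJ.a0, GJ.a1, GJ.a2, GJ.a3, GJ.f0, GJ.nu, GJ.e2, GJ.md, s1, s2, HJ.N, f_add, f_mul, f_sub,
    f_one, f_nat, and_self]

theorem Chk.rest (h : d.Chk) (h0 : 0 < g) (h1 : g ≤ 1 / 2) (hg : d.a < d.b * g) (hu : 0 < u)
    {v T : ℝ} (v0 : 0 ≤ v) (v1 : v ≤ 1) (T0 : 0 ≤ T) (T1 : T ≤ 1) :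
    (d.val g u).Neg (-(v * T)) T ∧ (d.val g u).One ∧ 0 ≤ ((d.val g u).sc (2 * (1 + √u))
      (√u ^ (d.m + 1) * (1 + √u) ^ (d.n + 1)) (1 + √u)).E (v * T) √u √(2 * g + (1 - 2 * g) * u) := by
  obtain ⟨l0, l1⟩ := lam_mem h0 h1 hu
  have h2 := Real.sqrt_pos.2 hu
  have H : ∀ p : K, [p, d.q (vr 0) (vr 2)] ∈ d.cN → 0 ≤ p.f (v4 √u v (lam g u) T) := fun p hp => by
    simpa [q_neg h0 h1 hu (X0 ..) (X2 ..) hg] using
      h.N _ hp _ _ _ _ h2.le (by simp) v0 v1 l0 l1 T0 T1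
  have e : d.j0.ev _ = _ := jet_ev (d := d) h0 h1 hu (X0 √u v (lam g u) T) (X2 ..)
  obtain ⟨e1, e2, -⟩ := coord h0 h1 hu (X0 √u v (lam g u) T) (X2 ..)
  have H' : ∀ p ∈ _, 0 ≤ K.f p (v4 √u v (lam g u) T) := fun p hp => H p (List.mem_map_of_mem hp)
  simp only [List.forall_mem_cons, f_neg] at H'
  obtain ⟨k1, k2, k3, k4, k5, k6, k7, k8, k9, k10, -⟩ := H'
  have k11 : 0 < d.j0.nu.f (v4 √u v (lam g u) T) := by
    simp only [f_sub, f_mul, j0, jet, e2, X0] at k7 ⊢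
    exact lt_of_lt_of_le (by positivity) (sub_nonneg.1 k7)
  obtain ⟨-, a1, a2, -, a4, a5, a6, a7⟩ :=
    ev_all d.j0 (-(vr 1 * vr 3)) (vr 3) 1 1 (v4 √u v (lam g u) T)
  rw [(ev_all _ _ 1 _ _ _).2.2.2.1, e, e1] at k3
  rw [a1, e] at k1
  rw [a2, e] at k2
  rw [a4, e] at k5
  rw [a5, e] at k11
  rw [a6, e] at k8 k9
  rw [a7, e] at k10
  exact ⟨GJ.Neg.sc ⟨k1, k2⟩ (by positivity) (by positivity), GJ.One.sc ⟨k4.trans_eq (congrArg GJ.K e),
    k5, k6.trans_eq (congrArg GJ.f e), k11, le_antisymm (neg_nonneg.1 k9) k8, k10⟩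
    (by positivity) (by positivity) (by positivity), k3⟩

theorem pos_of (s v x : K) (h : d.Chk) (h0 : 0 < g) (h1 : g ≤ 1 / 2) (hg : d.a < d.b * g)
    (hu : 0 < u) (hs : s.f X = √u) (hl : X 2 = lam g u) (hx : x.f X < 0) (v0 : 0 ≤ v.f X)
    (v1 : v.f X ≤ 1) (T0 : 0 ≤ X 3) (T1 : X 3 ≤ 1)
    (H : ∀ ps ∈ d.pos s (vr 2) v x, ∃ p ∈ ps, 0 ≤ p.f X) : (d.val g u).Pos (v.f X * X 3) (X 3) := by
  have h2 := Real.sqrt_pos.2 hu
  have hl' : (vr 2).f X = lam g u := hl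
  have e := jet_ev (d := d) h0 h1 hu hs hl'
  have k := (h.rest h0 h1 hg hu v0 v1 T0 T1).2.2
  simp only [pos, List.forall_mem_cons] at H
  simp only [List.mem_cons, List.not_mem_nil, or_false, exists_eq_or_imp, exists_eq_left,
    q_neg h0 h1 hu hs hl' hg, hx.not_ge] at H
  obtain ⟨⟨a1, a2, a3, a4⟩, -, -, a5, -⟩ :=
    ev_all (d.jet s (vr 2)) (v * vr 3) (vr 3) s (ρ s (vr 2)) X
  rw [e] at a1 a2 a3 a4
  rw [e, (coord h0 h1 hu hs hl').1, hs] at a5
  obtain ⟨k1, k2, k3, k4, -⟩ := H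
  refine GJ.Pos.sc ⟨le_of_le_of_eq (k1.elim (fun k1 => ?_) id) a1, k2.trans_eq a2, k3.trans_eq a3,
    k4.trans_eq a4⟩ (by positivity) (by positivity)
  rw [GJ.t0, f_sub, f_mul, f_mul] at k1
  exact (mul_nonneg (mul_self_nonneg _) (k.trans_eq a5.symm)).trans (sub_nonneg.1 k1)

theorem Chk.pos (h : d.Chk) (h0 : 0 < g) (h1 : g ≤ 1 / 2) (hg : d.a < d.b * g) (hu : 0 < u)
    (S T : ℝ) (S0 : 0 ≤ S) (S1 : S ≤ T) (T1 : T ≤ 1) : (d.val g u).Pos S T := by
  obtain ⟨l0, l1⟩ := lam_mem h0 h1 hu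
  have h2 := Real.sqrt_nonneg u
  have T0 := S0.trans S1
  obtain ⟨v, v0, v1, rfl⟩ := HD.quot S0 S1
  rcases lt_or_ge 1 (4 * (√u + v)) with hc | hc
  · exact pos_of (X := v4 √u v (lam g u) T) (vr 0) (vr 1) (1 - 4 * (vr 0 + vr 1)) h h0 h1 hg hu rfl
      rfl (by simp only [f_sub, f_mul, f_add, f_one, f_nat, X0, X1]; linarith) v0 v1 T0 T1
      fun ps hp => h.O ps hp _ _ _ _ h2 (by simp) v0 v1 l0 l1 T0 T1
  rcases le_total √u v with hd | hd
  · obtain ⟨w, w0, w1, hw⟩ := HD.quot h2 hd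
    exact pos_of (X := v4 v w (lam g u) T) (vr 0 * vr 1) (vr 0) (20 * (vr 0 * vr 1 + vr 0) - 6) h h0
      h1 hg hu (by rw [f_mul, X0, X1, hw, mul_comm]) rfl
      (by simp only [f_sub, f_mul, f_add, f_nat, X0, X1]; linarith) v0 v1 T0 T1
      fun ps hp => h.A ps hp _ _ _ _ v0 (fun _ => v1) w0 w1 l0 l1 T0 T1
  · obtain ⟨w, w0, w1, hw⟩ := HD.quot v0 hd
    have e : (vr 0 * vr 1).f (v4 √u w (lam g u) T) = v := by rw [f_mul, X0, X1, hw, mul_comm]
    have := pos_of (X := v4 √u w (lam g u) T) (vr 0) (vr 0 * vr 1) (20 * (vr 0 + vr 0 * vr 1) - 6) h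
      h0 h1 hg hu rfl rfl (by simp only [f_sub, f_mul, f_add, f_nat, X0, X1]; linarith)
      (v0.trans_eq e.symm) (e.trans_le v1) T0 T1
      fun ps hp => h.B ps hp _ _ _ _ h2 (fun _ => by linarith) w0 w1 l0 l1 T0 T1
    rwa [e] at this

theorem Chk.neg (h : d.Chk) (h0 : 0 < g) (h1 : g ≤ 1 / 2) (hg : d.a < d.b * g) (hu : 0 < u)
    (S T : ℝ) (S0 : S ≤ 0) (S1 : -S ≤ T) (T1 : T ≤ 1) : (d.val g u).Neg S T := by
  obtain ⟨v, v0, v1, hv⟩ := HD.quot (neg_nonneg.2 S0) S1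
  have := (h.rest h0 h1 hg hu v0 v1 ((neg_nonneg.2 S0).trans S1) T1).1
  rwa [← hv, neg_neg] at this

theorem small {f : ℝ → ℝ} (hf : ContinuousAt f 0) (h0 : f 0 = 0) {l : ℝ} (hl : 0 < l) :
    ∃ u₀ : ℝ, 0 < u₀ ∧ ∀ u, 0 < u → u ≤ u₀ → f √u ≤ l := by
  have h : Tendsto (fun u => f √u) (𝓝[>] 0) (𝓝 0) := by
    have := (hf.comp_of_eq Real.continuous_sqrt.continuousAt Real.sqrt_zero).tendsto
    rw [Function.comp, Real.sqrt_zero, h0] at this
    exact this.mono_left nhdsWithin_le_nhds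
  obtain ⟨u₀, k1, k2⟩ := mem_nhdsGT_iff_exists_Ioc_subset.1 (h.eventually_le_const hl)
  exact ⟨u₀, k1, fun u hu h => k2 ⟨hu, h⟩⟩

theorem F_der (hn : d.n ≠ 0) (p : List ℤ) (hu : 0 < u) :
    HasDerivAt (fun t => d.F t p) (d.F' u p / (2 * u)) u := by
  obtain ⟨n, h⟩ := Nat.exists_eq_succ_of_ne_zero hn
  simp only [F, F', h]
  exact gF_der _ _ _ hu

theorem ders (hn : d.n ≠ 0) (hu : 0 < u) :
    HasDerivAt (fun t => (d.val g t).x) ((d.val g u).Dx / (2 * u)) u ∧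
    HasDerivAt (fun t => (d.val g t).K) ((d.val g u).DK / (2 * u)) u ∧
    HasDerivAt (fun t => (d.val g t).y) ((d.val g u).Dy / (2 * u)) u ∧
    HasDerivAt (fun t => (d.val g t).L) ((d.val g u).DL / (2 * u)) u ∧
    HasDerivAt (fun t => (d.val g t).f) ((d.val g u).Df / (2 * u)) u := by
  have a := fun p => F_der (d := d) hn p hu
  have b : ∀ p, HasDerivAt (fun t => d.F1 t p) (d.F1' u p / (2 * u)) u := fun p => gF_der _ _ _ hu
  refine ⟨((a _).const_mul g).congr_deriv ?_, ((a _).add ((a _).const_mul g)).congr_deriv ?_,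
    (((a _).add ((a _).const_mul g)).add ((a _).const_mul _)).congr_deriv ?_,
    (((b _).add ((b _).const_mul g)).add ((b _).const_mul _)).congr_deriv ?_,
    ((a _).add ((a _).const_mul g)).congr_deriv ?_⟩ <;> simp only [val] <;> ring

theorem cds : ContDiffOn ℝ 2 (fun z : ℝ × ℝ => (d.val g z.1).x) {z | 0 < z.1} ∧
    ContDiffOn ℝ 2 (fun z : ℝ × ℝ => (d.val g z.1).K) {z | 0 < z.1} ∧
    ContDiffOn ℝ 2 (fun z : ℝ × ℝ => (d.val g z.1).y) {z | 0 < z.1} ∧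
    ContDiffOn ℝ 2 (fun z : ℝ × ℝ => (d.val g z.1).L) {z | 0 < z.1} ∧
    ContDiffOn ℝ 2 (fun z : ℝ × ℝ => (d.val g z.1).f) {z | 0 < z.1} := by
  have b : ∀ n p (c : ℝ), ContDiffOn ℝ 2 (fun z : ℝ × ℝ => c * gF (d.m + 1) n p z.1) {z | 0 < z.1} :=
    fun n p c => contDiffOn_const.mul (gF_cd _ _ _)
  exact ⟨b _ _ _, (gF_cd _ _ _).add (b _ _ _), ((gF_cd _ _ _).add (b _ _ _)).add (b _ _ _),
    ((gF_cd _ _ _).add (b _ _ _)).add (b _ _ _), (gF_cd _ _ _).add (b _ _ _)⟩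

end GD

open GD in
/-- The certificate from the finite computation. -/
theorem ncert_g {d : GD} (h : d.Chk) (hn : d.n ≠ 0) (he : 0 < d.e) (hx : 0 < d.x.headI)
    (n0 : 0 ≤ d.L0.headI + d.f0.headI) (n1 : 0 ≤ d.L1.headI + d.f1.headI)
    (n2 : 0 ≤ 2 * (d.L1.headI + d.f1.headI) + d.L2.headI) {g : ℝ} (h0 : 0 < g) (h1 : g ≤ 1 / 2)
    (hg : d.a < d.b * g) : Nonempty (NCert2 (d.m + 1) g) := by
  have ce := fun l : List ℤ => (eL_cd l).continuous
  have one : ∀ {u}, 0 < u → (d.val g u).One := fun hu =>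
    (h.rest h0 h1 hg hu le_rfl zero_le_one le_rfl zero_le_one).2.1
  have r0 : ∀ {u : ℝ}, 0 < u → 0 < 2 * g + (1 - 2 * g) * u := fun hu => by nlinarith
  have nD : ∀ u q, 0 < u → nD2 (d.m + 1) g
      (fun u q => ((d.val g u).y - (d.val g u).L * (1 - q / u) / 2) / g)
      (fun u q => ((d.val g u).Dy / (2 * u) - ((d.val g u).DL / (2 * u) * (1 - q / u) +
        (d.val g u).L * (q / u ^ 2)) / 2) / g)
      (fun u _ => (d.val g u).L / u / 2 / g) (fun u _ => (d.val g u).f / g)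
      (fun u _ => (d.val g u).Df / (2 * u) / g) (fun _ _ => 0) u q =
      (q - u) / (4 * g * u) * (d.val g u).nu := fun u q hu => by
    have := (one hu).2.2.2.2.1
    rw [GJ.e2] at this
    rw [GJ.nu]
    simp only [nD2, nD, sg2, show (d.val g u).m = (d.m + 1 : ℕ) from rfl,
      show (d.val g u).G = g from rfl, show (d.val g u).H = 1 from rfl,
      show (d.val g u).u = u from rfl, show (d.val g u).r = 2 * g + (1 - 2 * g) * u from rfl,
      show (d.val g u).ct = ct g u from rfl, show (d.val g u).w = 1 from rfl, ct] at this ⊢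
    field_simp
    linear_combination 8 * u * this
  refine ⟨⟨fun u p => (d.val g u).x + (d.val g u).K * (u - p),
    fun u p => (d.val g u).Dx / (2 * u) + ((d.val g u).DK / (2 * u) * (u - p) + (d.val g u).K),
    fun u _ => -(d.val g u).K, _, _, _, fun u _ => (d.val g u).f / g, _, _, g * d.e, g * d.x.headI,
    mul_pos h0 (Int.cast_pos.2 he), mul_pos h0 (Int.cast_pos.2 hx),
    ⟨?_, fun u p hu => ⟨?_, ?_⟩⟩, ⟨?_, fun u q hu => ⟨?_, ?_⟩⟩,
    ⟨cds.2.2.2.2.div_const _, fun u q hu => ⟨(ders hn hu).2.2.2.2.div_const _, hasDerivAt_const _ _⟩⟩,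
    fun u p hu hp => ?_, fun l hl => ?_, fun u σ a b W W₂ ι gx gy hu hσ hs hf => ?_,
    fun u q hu _ h => lt_of_lt_of_eq ?_ (nD u q hu).symm, fun u q hu _ h => (nD u q hu).trans_le ?_,
    ⟨1 + √(2 * g) ^ (d.m + 1) * (d.L0.headI + d.f0.headI + g * (d.L1.headI + d.f1.headI) +
      g ^ 2 * d.L2.headI), fun l hl => ?_⟩, fun u hu _ => ?_⟩⟩
  · exact cds.1.add (cds.2.1.mul (by fun_prop))
  · refine ((ders hn hu).1.add ((ders hn hu).2.1.mul
      ((hasDerivAt_id' u).sub_const p))).congr_deriv ?_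
    simp only [mul_one]
  · refine ((((hasDerivAt_id' p).const_sub u).const_mul _).const_add _).congr_deriv ?_
    ring
  · exact (cds.2.2.1.sub ((cds.2.2.2.1.mul (contDiffOn_const.sub
      (contDiffOn_snd.div contDiffOn_fst fun z hz => ne_of_gt hz))).div_const _)).div_const _
  · refine (((ders hn hu).2.2.1.sub (((ders hn hu).2.2.2.1.mul (((hasDerivAt_const u q).div
      (hasDerivAt_id' u) hu.ne').const_sub 1)).div_const 2)).div_const g).congr_deriv ?_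
    simp only [Pi.div_apply]
    ring
  · refine (((((((hasDerivAt_id' q).div_const u).const_sub 1).const_mul _).div_const 2).const_sub
      _).div_const g).congr_deriv ?_
    ring
  · obtain ⟨k1, k2, -⟩ := one hu
    have : (d.val g u).f0 = (d.val g u).x + (d.val g u).K * (u - √(sg2 g u)) := rfl
    linarith [mul_le_mul_of_nonneg_left (Real.le_sqrt_of_sq_le hp) k1]
  · obtain ⟨u₀, k1, k2⟩ := GD.small (f := fun r => |g * eL Int.cast d.x r * ((1 + r) ^ d.n)⁻¹ -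
      g * d.x.headI| + |(eL Int.cast d.K0 r + g * eL Int.cast d.K1 r) * ((1 + r) ^ d.n)⁻¹| *
      (r ^ 2 + √(sg2 g (r ^ 2)))) (by
        have := ce d.x; have := ce d.K0; have := ce d.K1
        unfold sg2
        fun_prop (disch := simp)) (by simp [HD.eL_zero, sg2]) hl
    refine ⟨u₀, k1, fun u p hu h hp => le_trans ?_ (k2 u hu h)⟩
    have k3 := Real.sqrt_pos.2 hu
    rw [show √u ^ (d.m + 1) * ((d.val g u).x + (d.val g u).K * (u - p)) - g * d.x.headI =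
      g * eL Int.cast d.x √u * ((1 + √u) ^ d.n)⁻¹ - g * d.x.headI +
      (eL Int.cast d.K0 √u + g * eL Int.cast d.K1 √u) * ((1 + √u) ^ d.n)⁻¹ * (u - p) by
        simp only [GD.val, GD.F, gF]
        field_simp
        ring, Real.sq_sqrt hu.le]
    refine (abs_add_le _ _).trans (add_le_add le_rfl ?_)
    rw [abs_mul]
    exact mul_le_mul_of_nonneg_left ((abs_sub _ _).trans
      (add_le_add (abs_of_pos hu).le (Real.abs_le_sqrt hp))) (abs_nonneg _)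
  · obtain ⟨k1, k2, k3, -⟩ := one hu
    have e : (d.val g u).σ = σ := by rw [GD.val, ← hs, Real.sqrt_sq hσ.le]
    have k4 := GJ.main (by rw [GJ.k, e]; exact mul_nonneg (mul_nonneg (mul_pos two_pos h0).le k1) hσ.le)
      (mul_nonneg (mul_pos two_pos h0).le k2) (mul_nonneg (mul_pos (by norm_num) h0).le k3)
      (h.pos h0 h1 hg hu) (h.neg h0 h1 hg hu) hf
    simp only [GJ.al, GJ.de, GJ.k, GJ.F, GJ.f0, GJ.a0, GJ.a1, GJ.a2, GJ.a3, e,
      show (d.val g u).m = (d.m + 1 : ℕ) from rfl, show (d.val g u).G = g from rfl,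
      show (d.val g u).H = 1 from rfl, show (d.val g u).u = u from rfl,
      show (d.val g u).r = σ ^ 2 / u by rw [hs, sg2, mul_div_cancel_left₀ _ hu.ne']; rfl,
      show (d.val g u).ct = ct g u from rfl, show (d.val g u).e = g ^ 2 * d.e from rfl] at k4
    simp only [nB, ← hs]
    generalize d.val g u = j at k4 ⊢
    refine le_of_le_of_eq (div_nonneg k4 zero_le_two) ?_
    field_simp
    ring
  · exact mul_pos (div_pos (sub_pos.2 h) (by positivity)) (one hu).2.2.2.1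
  · exact mul_nonpos_of_nonpos_of_nonneg (div_nonpos_of_nonpos_of_nonneg (sub_nonpos.2 h)
      (by positivity)) (one hu).2.2.2.1.le
  · set c : ℝ := √(2 * g) ^ (d.m + 1) * (d.L0.headI + d.f0.headI + g * (d.L1.headI + d.f1.headI) +
      g ^ 2 * d.L2.headI) with hc
    set A : ℝ → ℝ := fun r => r * (√(2 * g + (1 - 2 * g) * r ^ 2) ^ (d.m + 2) *
      ((eL Int.cast d.y0 r + g * eL Int.cast d.y1 r + g ^ 2 * eL Int.cast d.y2 r) * ((1 + r) ^ d.n)⁻¹ -
        (eL Int.cast d.L0 r + g * eL Int.cast d.L1 r + g ^ 2 * eL Int.cast d.L2 r) *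
          ((1 + r) ^ (d.n + 1))⁻¹ / 2) / g) with hA
    set B : ℝ → ℝ := fun r => √(2 * g + (1 - 2 * g) * r ^ 2) ^ (d.m + 1) *
      ((2 * g + (1 - 2 * g) * r ^ 2) * (eL Int.cast d.L0 r + g * eL Int.cast d.L1 r +
        g ^ 2 * eL Int.cast d.L2 r) * ((1 + r) ^ (d.n + 1))⁻¹ / 2 + (g + (1 - 2 * g) * r ^ 2) *
        (eL Int.cast d.f0 r + g * eL Int.cast d.f1 r) * ((1 + r) ^ d.n)⁻¹) / g - c with hB
    obtain ⟨u₀, k1, k2⟩ := GD.small (f := fun r => |A r| + |B r|) (by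
      have := ce d.y0; have := ce d.y1; have := ce d.y2; have := ce d.L0; have := ce d.L1
      have := ce d.L2; have := ce d.f0; have := ce d.f1
      rw [hA, hB]
      fun_prop (disch := simp)) (by
        simp only [hA, hB, hc, HD.eL_zero, zero_mul, abs_zero, zero_add, abs_eq_zero, add_zero, one_pow,
          inv_one, mul_one, mul_zero, zero_pow two_ne_zero]
        field_simp
        ring) (lt_min hl one_pos)
    refine ⟨u₀, k1, fun u q hu h hq => ?_⟩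
    have k3 := Real.sqrt_pos.2 hu
    have k4 := le_min_iff.1 (k2 u hu h)
    have k5 : 0 ≤ c := by
      have m0 : (0 : ℝ) ≤ d.L0.headI + d.f0.headI := by exact_mod_cast n0
      have m1 : (0 : ℝ) ≤ d.L1.headI + d.f1.headI := by exact_mod_cast n1
      have m2 : (0 : ℝ) ≤ 2 * (d.L1.headI + d.f1.headI) + d.L2.headI := by exact_mod_cast n2
      refine mul_nonneg (by positivity) ?_
      linarith [mul_nonneg (sq_nonneg g) m2, mul_nonneg (mul_nonneg h0.le (sub_nonneg.2 h1)) m1]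
    have k0 := Real.sqrt_pos.2 (r0 hu)
    have es : √(sg2 g u) = √u * √(2 * g + (1 - 2 * g) * u) := Real.sqrt_mul hu.le _
    obtain ⟨b, rfl⟩ : ∃ b, q = √(sg2 g u) * b := ⟨q / √(sg2 g u), by rw [es]; field_simp⟩
    have k6 : |b| ≤ 1 := by
      have : 0 < sg2 g u := mul_pos hu (r0 hu)
      rw [mul_pow, Real.sq_sqrt this.le] at hq
      exact (sq_le_one_iff_abs_le_one b).1 ((mul_le_iff_le_one_right this).1 hq)
    have k7 : nφ (d.m + 1) g (fun u q => ((d.val g u).y - (d.val g u).L * (1 - q / u) / 2) / g)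
        (fun u _ => (d.val g u).f / g) u (√(sg2 g u) * b) = A √u + b * B √u + b * c := by
      have k8 := Real.sq_sqrt hu.le
      have k9 := Real.sq_sqrt (r0 hu).le
      simp only [nφ, es, ct, GD.val, GD.F, F1, gF, Nat.add_sub_cancel, hA, hB, k8]
      generalize √(2 * g + (1 - 2 * g) * u) = ρ at k0 k9 ⊢
      rw [← k9]
      generalize √u = r at k3 k8
      subst k8
      field_simp
      ring
    rw [k7]
    rw [es] at *
    generalize A √u = A at k4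
    generalize B √u = B at k4
    have k8 : |A + b * B| ≤ |A| + |B| := (abs_add_le _ _).trans (add_le_add le_rfl
      ((abs_mul b B).trans_le (mul_le_of_le_one_left (abs_nonneg _) k6)))
    obtain ⟨k9, k10⟩ := abs_le.1 k8
    obtain ⟨b0, b1⟩ := abs_le.1 k6
    refine ⟨abs_le.2 ⟨?_, ?_⟩, fun h => ?_, fun h => ?_⟩
    · linarith [mul_le_mul_of_nonneg_right b0 k5]
    · linarith [mul_le_mul_of_nonneg_right b1 k5]
    · linarith [mul_nonneg (nonneg_of_mul_nonneg_right h (mul_pos k3 k0)) k5]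
    · linarith [mul_nonpos_of_nonpos_of_nonneg (nonpos_of_mul_nonpos_right h (mul_pos k3 k0)) k5]
  · have := (one hu).2.2.2.2.2
    simp only [GJ.md, show (d.val g u).m = (d.m + 1 : ℕ) from rfl, show (d.val g u).G = g from rfl,
      show (d.val g u).H = 1 from rfl, show (d.val g u).u = u from rfl,
      show (d.val g u).e = g ^ 2 * d.e from rfl] at this
    refine nonpos_of_mul_nonpos_right (le_of_eq_of_le ?_ (neg_nonpos.2 this)) h0
    field_simp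
    ring

end Vale.Agent.P219
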