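import Vale.Agent.P219.G.CertH
import Vale.Agent.P219.G.Kp

/-! Certificates on a range of `γ` with `X = x + K (u - p)`, `Y = (y - L (1 - q / u) / 2) / γ`,
`R = f / γ`, `η = e / γ`.  A jet is homogeneous in `G, H`, where `γ = G / H`. -/

namespace Vale.Agent.P219

open HJ Kp Kp.K

/-- The values of the coefficient functions at a point. -/
structure GJ (R : Type) where
  m : R
  G : R
  H : R
  u : R
  σ : R
  r : R
  ct : R
  x : R
  Dx : R
  K : R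
  DK : R
  y : R
  L : R
  f : R
  e : R
  Dy : R
  Df : R
  DL : R
  w : R

namespace GJ

section

variable {R : Type} [Add R] [Mul R] [Sub R] [OfNat R 1] [OfNat R 2] (j : GJ R) (S T : R)

def f0 : R := j.x + j.K * (j.u - j.σ)
def a0 : R := 2 * j.m * (j.x + j.K * j.u)
def a1 : R := 2 * j.m * j.K * j.σ
def a2 : R := j.H * j.r * (j.Dx + j.u * (j.DK + 2 * j.K))
def a3 : R := (j.H * j.r * j.DK + 2 * j.K * j.ct) * j.σ
def al (p q : R) : R := 2 * (j.a0 * j.ct + 2 * j.e) - (j.a0 * j.H * j.σ + j.a1 * j.ct) * p +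
  2 * j.a1 * j.H * j.σ * q + j.a2 * (2 + 2 * q - p * p) - j.a3 * (p * (1 - q))
def k : R := 2 * j.G * j.K * j.σ
def F : R := 2 * 2 * j.G * j.f
def de (p q : R) : R := (2 * j.y - j.L) * j.σ * p + 2 * (j.L * j.r + 2 * j.f * j.ct) * q
def be : R := j.k * s1 S T
def cc : R := 2 * s2 S T * (2 * j.G * j.f0 + j.k * (T - S))
def t1 : R := j.al (s1 S T) (s2 S T) + j.de (s1 S T) (s2 S T) - (j.be S T + j.F) * N S T
def ta : R := 2 * (j.al (s1 S T) (s2 S T) - j.be S T * N S T) + j.cc S T * (2 + N S T * (2 - N S T))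
def tb : R := j.al (s1 S T) (s2 S T) - j.F * N S T + j.cc S T
def tc : R := 2 * (j.al (s1 S T) (s2 S T) + j.cc S T) -
  (j.be S T * N S T + j.F * (2 - N S T)) * N S T
def n1 : R := j.al (s1 S T) (s2 S T) + j.de (s1 S T) (s2 S T) - (j.F - j.be S T) * N S T
def n2 : R := j.al (s1 S T) (s2 S T) - (j.F - j.be S T) * N S T + j.cc S T
def E (s ρ : R) : R := 2 * (s * j.H * (j.DK + 2 * j.K) * (ρ * S + 2 * s) + j.L +
  j.H * (2 * (j.m * j.K * j.u + j.f) - (j.Dx + j.u * (j.DK + 2 * j.K))))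
def th (k s ρ : R) : R := (1 - k * (1 - T)) * (ρ * S - s)
def t0 (k s ρ : R) : R := j.t1 S T - th S T k s ρ * th S T k s ρ * j.E S s ρ
def nu : R := j.w * (2 * ((j.m + 2) * j.ct * j.L - j.H * j.r * j.L +
  j.H * (2 * ((j.m + 1) * (j.H - 2 * j.G) * j.u * j.f) + j.ct * j.Df))) + j.H * j.r * j.DL
def e2 : R := 2 * ((j.m + 1) * (j.ct * j.y + j.H * (j.H - 2 * j.G) * j.u * j.f)) +
  j.H * (j.r * j.Dy + j.ct * j.Df) - j.G * j.L
def md : R := (j.G - j.H * j.u) * j.f - (j.G * (j.m * j.x * (1 - 2 * j.u) + (1 - j.u) * j.Dx) + j.e +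
  j.u * j.y)

end

/-- The inequalities for `S ≥ 0`. -/
def Pos (j : GJ ℝ) (S T : ℝ) : Prop := 0 ≤ j.t1 S T ∧ 0 ≤ j.ta S T ∧ 0 ≤ j.tb S T ∧ 0 ≤ j.tc S T

/-- The inequalities for `S ≤ 0`. -/
def Neg (j : GJ ℝ) (S T : ℝ) : Prop := 0 ≤ j.n1 S T ∧ 0 ≤ j.n2 S T

/-- The conditions that do not involve `S, T`. -/
def One (j : GJ ℝ) : Prop := 0 ≤ j.K ∧ 0 ≤ j.f0 ∧ 0 ≤ j.f ∧ 0 < j.nu ∧ j.e2 = 0 ∧ 0 ≤ j.md

/-- Rescaling. -/
def sc (j : GJ ℝ) (h D w : ℝ) : GJ ℝ :=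
  ⟨j.m, h * j.G, h * j.H, j.u, j.σ, j.r, h * j.ct, h * D * j.x, h * D * j.Dx, h * D * j.K,
    h * D * j.DK, h ^ 2 * D * j.y, h ^ 2 * D * j.L, h * D * j.f, h ^ 2 * D * j.e, h ^ 2 * D * j.Dy,
    h * D * j.Df, h ^ 2 * D * w * j.DL, w * j.w⟩

/-- Evaluation. -/
def ev (j : GJ Kp.K) (X : ℕ → ℝ) : GJ ℝ :=
  ⟨j.m.f X, j.G.f X, j.H.f X, j.u.f X, j.σ.f X, j.r.f X, j.ct.f X, j.x.f X, j.Dx.f X, j.K.f X,
    j.DK.f X, j.y.f X, j.L.f X, j.f.f X, j.e.f X, j.Dy.f X, j.Df.f X, j.DL.f X, j.w.f X⟩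

variable {j : GJ ℝ} {h D w S T : ℝ}

theorem Pos.sc (H : (j.sc h D w).Pos S T) (hh : 0 < h) (hD : 0 < D) : j.Pos S T := by
  have p : 0 < h ^ 2 * D := by positivity
  obtain ⟨h1, h2, h3, h4⟩ := H
  refine ⟨nonneg_of_mul_nonneg_right (h1.trans_eq ?_) p, nonneg_of_mul_nonneg_right (h2.trans_eq ?_) p,
    nonneg_of_mul_nonneg_right (h3.trans_eq ?_) p, nonneg_of_mul_nonneg_right (h4.trans_eq ?_) p⟩ <;>
  simp only [t1, ta, tb, tc, al, de, be, cc, F, k, a0, a1, a2, a3, f0, GJ.sc] <;>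
  generalize s1 S T = p <;> generalize s2 S T = q <;> generalize N S T = n <;> ring

theorem Neg.sc (H : (j.sc h D w).Neg S T) (hh : 0 < h) (hD : 0 < D) : j.Neg S T := by
  have p : 0 < h ^ 2 * D := by positivity
  obtain ⟨h1, h2⟩ := H
  refine ⟨nonneg_of_mul_nonneg_right (h1.trans_eq ?_) p,
    nonneg_of_mul_nonneg_right (h2.trans_eq ?_) p⟩ <;>
  simp only [n1, n2, al, de, be, cc, F, k, a0, a1, a2, a3, f0, GJ.sc] <;>
  generalize s1 S T = p <;> generalize s2 S T = q <;> generalize N S T = n <;> ring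

theorem One.sc (H : (j.sc h D w).One) (hh : 0 < h) (hD : 0 < D) (hw : 0 < w) : j.One := by
  obtain ⟨h1, h2, h3, h4, h5, h6⟩ := H
  refine ⟨nonneg_of_mul_nonneg_right h1 (mul_pos hh hD),
    nonneg_of_mul_nonneg_right (h2.trans_eq ?_) (mul_pos hh hD),
    nonneg_of_mul_nonneg_right h3 (mul_pos hh hD),
    pos_of_mul_pos_left (h4.trans_eq ?_) (show 0 < h ^ 3 * D * w by positivity).le,
    (mul_eq_zero.1 (Eq.trans ?_ h5)).resolve_left (show 0 < h ^ 3 * D by positivity).ne',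
    nonneg_of_mul_nonneg_right (h6.trans_eq ?_) (show 0 < h ^ 2 * D by positivity)⟩ <;>
  simp only [f0, nu, e2, md, GJ.sc] <;> ring

theorem main {m : ℕ} {a b W W₂ ι gx gy : ℝ} (hk : 0 ≤ j.k) (hf : 0 ≤ 2 * j.G * j.f0) (hF : 0 ≤ j.F)
    (hp : ∀ S T, 0 ≤ S → S ≤ T → T ≤ 1 → j.Pos S T)
    (hn : ∀ S T, S ≤ 0 → -S ≤ T → T ≤ 1 → j.Neg S T) (h : Feas m a b W W₂ ι gx gy) :
    0 ≤ j.al (a + b) (a * b) - j.k * (a + b) * W + ι * j.de (a + b) (a * b) - j.F * W₂ +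
      ((2 * j.G * j.f0 + j.k * (1 - a)) * gy + (2 * j.G * j.f0 + j.k * (1 - b)) * gx) := by
  obtain ⟨ha, hb, i0, i1, hx, hy⟩ := h.basic
  obtain ⟨S, T, h1, h2, e1, e2, e3, e4⟩ := hj_ST ha hb
  obtain ⟨c1, c2⟩ := h.cof
  have n1 : √((1 - a ^ 2) * (1 - b ^ 2)) ≤ 1 := Real.sqrt_le_one.2 (by nlinarith)
  have ho := Real.abs_le_sqrt h.old
  have hR := h.refined zero_le_one (by rwa [one_mul]) (by
    rw [one_mul, ← sq_le_one_iff_abs_le_one]
    nlinarith)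
  have n0 := Real.sqrt_nonneg ((1 - a ^ 2) * (1 - b ^ 2))
  have n2 := Real.sq_sqrt (mul_nonneg (sub_nonneg.2 ha) (sub_nonneg.2 hb))
  rw [one_pow, one_mul, one_mul, ← e3, ← n2] at hR
  rw [abs_mul, abs_of_nonneg (sub_nonneg.2 i1)] at ho
  rw [← e3] at c1 c2 n0 n1 hR
  obtain ⟨t1, t2⟩ := abs_le.1 h1
  have a1 := (abs_le.1 ((sq_le_one_iff_abs_le_one a).1 ha)).2
  have b1 := (abs_le.1 ((sq_le_one_iff_abs_le_one b).1 hb)).2
  simp only [Pos, Neg, GJ.t1, ta, tb, tc, GJ.n1, GJ.n2, be, cc] at hp hn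
  rw [← e1, ← e2]
  generalize 2 * j.G * j.f0 = f at *
  generalize j.k = k at *
  have cm : 0 ≤ f + k * (T - S) := add_nonneg hf (mul_nonneg hk (by linarith))
  have xa : 0 ≤ f + k * (1 - a) := add_nonneg hf (mul_nonneg hk (by linarith))
  have xb : 0 ≤ f + k * (1 - b) := add_nonneg hf (mul_nonneg hk (by linarith))
  have g0 : 2 * (f + k * (T - S)) * √(gx * gy) ≤ (f + k * (1 - a)) * gy + (f + k * (1 - b)) * gx := by
    refine (abs_le_of_sq_le_sq' ?_ (by positivity)).2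
    have k1 : 2 * (T - S) ≤ 1 - a + (1 - b) :=
      (abs_le_of_sq_le_sq' (by nlinarith [sq_nonneg (a - b)]) (by linarith)).2
    have k2 : (f + k * (T - S)) ^ 2 ≤ (f + k * (1 - a)) * (f + k * (1 - b)) := by
      have := mul_le_mul_of_nonneg_left k1 (mul_nonneg hf hk)
      have := congrArg (k ^ 2 * ·) e4
      linarith
    rw [mul_pow, mul_pow, Real.sq_sqrt (mul_nonneg hx hy)]
    linarith [mul_le_mul_of_nonneg_right k2 (mul_nonneg hx hy),
      sq_nonneg ((f + k * (1 - a)) * gy - (f + k * (1 - b)) * gx)]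
  have g1 := (mul_le_mul_of_nonneg_left ho (mul_nonneg zero_le_two cm)).trans g0
  have g3 : 2 * s2 S T * (f + k * (T - S)) ≤ 2 * (f + k * (T - S)) * |a * b| := by
    rw [e2]
    linarith [mul_le_mul_of_nonneg_left (le_abs_self (a * b)) cm]
  obtain ⟨c3, c4⟩ := abs_le.1 c1
  obtain ⟨c5, c6⟩ := abs_le.1 c2
  have T0 : 0 ≤ T := by linarith
  rcases le_total 0 S with hS | hS
  · have H := hp S T hS t2 h2
    refine hj_vert (mul_nonneg hk (by rw [HJ.s1]; positivity)) hF n0 n1 i0.le i1 g3 c4 c6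
      (by linarith) (by linarith) ?_ H.1 H.2.1 H.2.2.1 H.2.2.2
    refine le_trans ?_ ((mul_le_mul_of_nonneg_left hR (mul_nonneg zero_le_two cm)).trans g0)
    linarith [mul_le_mul_of_nonneg_left (le_abs_self W)
      (mul_nonneg (mul_nonneg zero_le_two cm) (abs_nonneg (a * b)))]
  · have H := hn S T hS (by linarith) h2
    have hB : 0 ≤ -(k * s1 S T) := by
      rw [HJ.s1]
      linarith [mul_nonneg hk (mul_nonneg (neg_nonneg.2 hS) T0)]
    have i2 := sub_nonneg.2 i1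
    linarith [mul_nonneg i0.le H.1, mul_nonneg i2 H.2, mul_le_mul_of_nonneg_right g3 i2,
      mul_le_mul_of_nonneg_left (show -HJ.N S T ≤ W by linarith) hB,
      mul_le_mul_of_nonneg_left (show W₂ ≤ HJ.N S T by linarith) hF]

end GJ

/-- One of the polynomials is nonnegative. -/
def Ok (h : Bool) (ps : List K) : Prop := ∀ x y z w : ℝ, 0 ≤ x → (h = true → x ≤ 1) → 0 ≤ y → y ≤ 1 →
  0 ≤ z → z ≤ 1 → 0 ≤ w → w ≤ 1 → ∃ p ∈ ps, 0 ≤ p.f (v4 x y z w)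

noncomputable def scl (k : ℕ) (ps : List K) : List K := ps.map (cst (2 ^ k) * ·)

theorem ok_of {h b k c ps} (H : Good (mk b (scl k ps) c) (z0 h b (scl k ps) c)) : Ok h ps :=
  fun x y z w x0 x1 y0 y1 z0 z1 w0 w1 => by
    obtain ⟨_, h1, h2⟩ := H.fin x0 x1 y0 y1 z0 z1 w0 w1
    obtain ⟨p, h3, rfl⟩ := List.mem_map.1 h1
    exact ⟨p, h3, nonneg_of_mul_nonneg_right h2 (by rw [f_c]; positivity)⟩

/-- The numerator of `2 u F'` for the denominator `s ^ m (1 + s) ^ n`. -/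
noncomputable def dn2 (m n : ℕ) (l : List ℤ) : List ℤ :=
  Mp.zA Int.add (dl (-m) l) (0 :: dl (-(m + n : ℕ)) l)

/-- The numerators; the coefficients of the powers of `γ`. -/
structure GD where
  m : ℕ
  n : ℕ
  x : List ℤ
  K0 : List ℤ
  K1 : List ℤ
  f0 : List ℤ
  f1 : List ℤ
  y0 : List ℤ
  y1 : List ℤ
  y2 : List ℤ
  L0 : List ℤ
  L1 : List ℤ
  L2 : List ℤ
  e : ℤ
  a : ℕ
  b : ℕ
  k : ℕ

namespace GD

variable (d : GD) (s l : K)

noncomputable def pw (a : K) (n : ℕ) : K := Nat.rec 1 (fun _ ih => ih * a) n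
noncomputable def ρ : K := s + l * (1 - s)
noncomputable def G : K := l * (s + ρ s l)
noncomputable def H : K := 2 * (1 + s)
noncomputable def D (n : ℕ) (p : List ℤ) : K := comp s (dn2 (d.m + 1) n p)
noncomputable def h1 (a b : K) : K := H s * a + G s l * b
noncomputable def h2 (a b c : K) : K := H s * h1 s l a b + G s l * G s l * c

noncomputable def jet : GJ K :=
  ⟨cst (d.m + 1 : ℕ), G s l, H s, s * s, s * ρ s l, ρ s l * ρ s l, H s * (ρ s l * ρ s l) - G s l,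
    G s l * ((1 + s) * comp s d.x), G s l * d.D s d.n d.x,
    (1 + s) * h1 s l (comp s d.K0) (comp s d.K1), h1 s l (d.D s d.n d.K0) (d.D s d.n d.K1),
    (1 + s) * h2 s l (comp s d.y0) (comp s d.y1) (comp s d.y2),
    h2 s l (comp s d.L0) (comp s d.L1) (comp s d.L2),
    (1 + s) * h1 s l (comp s d.f0) (comp s d.f1),
    G s l * G s l * (cst d.e * pw s (d.m + 1) * pw (1 + s) (d.n + 1)),
    h2 s l (d.D s d.n d.y0) (d.D s d.n d.y1) (d.D s d.n d.y2),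
    h1 s l (d.D s d.n d.f0) (d.D s d.n d.f1),
    h2 s l (d.D s (d.n + 1) d.L0) (d.D s (d.n + 1) d.L1) (d.D s (d.n + 1) d.L2), 1 + s⟩

/-- The excluded range. -/
noncomputable def q : K := cst d.a * H s - cst d.b * G s l

/-- The alternatives for `S = v T ≥ 0`; `x ≥ 0` is left out. -/
noncomputable def pos (v x : K) : List (List K) :=
  [[(d.jet s l).t0 (v * vr 3) (vr 3) (cst d.k) s (ρ s l), (d.jet s l).t1 (v * vr 3) (vr 3), d.q s l, x],
    [(d.jet s l).ta (v * vr 3) (vr 3), d.q s l, x], [(d.jet s l).tb (v * vr 3) (vr 3), d.q s l, x],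
    [(d.jet s l).tc (v * vr 3) (vr 3), d.q s l, x]]

noncomputable def cO : List (List K) := d.pos (vr 0) (vr 2) (vr 1) (1 - 4 * (vr 0 + vr 1))
noncomputable def cA : List (List K) :=
  d.pos (vr 0 * vr 1) (vr 2) (vr 0) (20 * (vr 0 * vr 1 + vr 0) - 6)
noncomputable def cB : List (List K) :=
  d.pos (vr 0) (vr 2) (vr 0 * vr 1) (20 * (vr 0 + vr 0 * vr 1) - 6)

noncomputable def j0 : GJ K := d.jet (vr 0) (vr 2)

/-- The remaining conditions. -/
noncomputable def cN : List (List K) :=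
  [d.j0.n1 (-(vr 1 * vr 3)) (vr 3), d.j0.n2 (-(vr 1 * vr 3)) (vr 3),
    d.j0.E (vr 1 * vr 3) (vr 0) (ρ (vr 0) (vr 2)), d.j0.K, d.j0.f0, d.j0.f,
    d.j0.nu - d.j0.u * (d.j0.G * d.j0.G * d.j0.G), d.j0.e2, -d.j0.e2, d.j0.md].map
    fun p => [p, d.q (vr 0) (vr 2)]

end GD

end Vale.Agent.P219
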