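import Vale.Agent.P219.G.CertHA
import Vale.Agent.P219.G.Mp

/-! Certificates for `γ = 1 / 2` whose coefficient functions are `P (√u) / √u ^ m` with integer
polynomials `P`; all conditions are decided by a finite computation. -/

namespace Vale.Agent.P219

open Set Filter Topology Mp Mp.Pw

/-- The numerator of `2 u F'`. -/
def dl : ℤ → List ℤ → List ℤ
  | _, [] => []
  | k, a :: p => k * a :: dl (k + 1) p

/-- The function of `u`. -/
noncomputable def hF (m : ℕ) (l : List ℤ) (u : ℝ) : ℝ := eL Int.cast l √u * (√u ^ m)⁻¹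

theorem dl_der (l : List ℤ) (r : ℝ) : ∃ d, HasDerivAt (eL Int.cast l) d r ∧
    ∀ k, eL Int.cast (dl k l) r = k * eL Int.cast l r + r * d := by
  induction l with
  | nil => exact ⟨0, hasDerivAt_const r 0, fun k => by simp [dl, eL]⟩
  | cons a l ih =>
    obtain ⟨d, h1, h2⟩ := ih
    refine ⟨_, ((hasDerivAt_id' r).mul h1).const_add _, fun k => ?_⟩
    simp only [dl, eL, h2]
    push_cast
    ring

theorem eL_cd (l : List ℤ) : ContDiff ℝ 2 (eL Int.cast l) := by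
  induction l with
  | nil => exact contDiff_const
  | cons c p ih => exact contDiff_const.add (contDiff_id.mul ih)

theorem hF_cd (m : ℕ) (l : List ℤ) :
    ContDiffOn ℝ 2 (fun z : ℝ × ℝ => hF m l z.1) {z | 0 < z.1} := fun z hz => by
  have h0 := Real.sqrt_pos.2 hz
  have h1 : ContDiffAt ℝ 2 (fun s => √s) z.1 := Real.contDiffAt_sqrt (ne_of_gt hz)
  exact ((((eL_cd l).contDiffAt.comp z.1 h1).mul ((h1.pow m).inv (by positivity))).comp z
    contDiffAt_fst).contDiffWithinAt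

theorem hF_der (m : ℕ) (l : List ℤ) {u : ℝ} (hu : 0 < u) :
    HasDerivAt (hF (m + 1) l) (hF (m + 1) (dl (-(m + 1 : ℕ)) l) u / (2 * u)) u := by
  have h0 := Real.sqrt_pos.2 hu
  have h1 := Real.hasDerivAt_sqrt hu.ne'
  obtain ⟨d, h2, h3⟩ := dl_der l √u
  refine ((h2.comp u h1).mul ((h1.fun_pow (m + 1)).inv
    (show √u ^ (m + 1) ≠ 0 by positivity))).congr_deriv ?_
  have h4 := Real.sq_sqrt hu.le
  simp only [hF, h3, Function.comp, Pi.inv_apply, Nat.add_sub_cancel]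
  generalize √u = x at h0 h4
  subst h4
  field_simp
  push_cast
  ring

/-- The numerators. -/
structure HD where
  m : ℕ
  x : List ℤ
  K : List ℤ
  y : List ℤ
  L : List ℤ
  F : List ℤ
  e : ℤ

namespace HD

variable (d : HD)

noncomputable def jet (r : Pw 3) : HJ (Pw 3) :=
  ⟨c (d.m + 1 : ℕ), comp r d.x, comp r (dl (-(d.m + 1 : ℕ)) d.x), comp r d.K,
    comp r (dl (-(d.m + 1 : ℕ)) d.K), comp r d.y, comp r d.L, comp r d.F,
    c d.e * comp r (List.replicate (d.m + 1) 0 ++ [1])⟩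

noncomputable def val (u : ℝ) : HJ ℝ :=
  ⟨(d.m + 1 : ℕ), hF (d.m + 1) d.x u, hF (d.m + 1) (dl (-(d.m + 1 : ℕ)) d.x) u, hF (d.m + 1) d.K u,
    hF (d.m + 1) (dl (-(d.m + 1 : ℕ)) d.K) u, hF (d.m + 1) d.y u, hF (d.m + 1) d.L u,
    hF (d.m + 1) d.F u, d.e⟩

noncomputable def D (l : List ℤ) : Pw 3 := comp (X 0) (dl (-(d.m + 1 : ℕ)) l)

noncomputable def e2 : Pw 3 := 2 * (((d.jet (X 0)).m + 1) * (d.jet (X 0)).y + d.D d.y - (d.jet (X 0)).L) + d.D d.F

noncomputable def one : List (Pw 3) := [(d.jet (X 0)).K, (d.jet (X 0)).f0 (X 0), (d.jet (X 0)).F,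
  2 * ((d.jet (X 0)).m * (d.jet (X 0)).L + d.D d.L) + d.D d.F - X 0 * X 0, d.e2, -d.e2,
  (1 - 2 * (X 0 * X 0)) * ((d.jet (X 0)).F - 2 * (d.jet (X 0)).m * (d.jet (X 0)).x) -
    2 * ((1 - X 0 * X 0) * (d.jet (X 0)).Dx + (d.jet (X 0)).e + X 0 * X 0 * (d.jet (X 0)).y)]

noncomputable def cA : List (Pw 3) := (d.jet (X 0 * X 1)).pos (X 0 * X 1) (X 0 * X 2) (X 2)
noncomputable def cB : List (Pw 3) := (d.jet (X 0)).pos (X 0) (X 0 * X 1 * X 2) (X 2)
noncomputable def cC : List (Pw 3) := (d.jet (1 + X 0)).pos (1 + X 0) (X 1 * X 2) (X 2)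
noncomputable def cD : List (Pw 3) := (d.jet (X 0)).neg (X 0) (-(X 1 * X 2)) (X 2)

theorem rep (n : ℕ) (r : ℝ) : eL Int.cast (List.replicate n (0 : ℤ) ++ [1]) r = r ^ n := by
  induction n with
  | zero => simp [eL]
  | succ n ih => simp [List.replicate_succ, eL, ih, pow_succ']

variable {d} {u : ℝ} {r S T : Pw 3} {xs : List ℝ}

theorem pos_of (hu : 0 < u) (hr : r.v xs = √u) (h : ∀ p ∈ (d.jet r).pos r S T, 0 ≤ p.v xs) :
    ∀ z ∈ (d.val u).pos √u (S.v xs) (T.v xs), 0 ≤ z := by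
  have h0 : 0 < √u ^ (d.m + 1) := pow_pos (Real.sqrt_pos.2 hu) _
  have h1 := congrArg ((d.e : ℝ) * ·) (mul_inv_cancel₀ h0.ne')
  have h2 := (inv_pos.2 h0).le
  simp only [HJ.pos, HJ.al, HJ.be, HJ.de, HJ.cc, HJ.f0, HJ.s1, HJ.s2, HJ.N, List.forall_mem_cons,
    jet, val, hF, v_add, v_mul, v_sub, v_nat, v_one, v_c, v_comp, hr, rep, Int.cast_natCast] at h ⊢
  obtain ⟨k1, k2, k3, k4, -⟩ := h
  refine ⟨?_, ?_, ?_, ?_, by simp⟩
  · linarith [mul_nonneg k1 h2]
  · linarith [mul_nonneg k2 h2]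
  · linarith [mul_nonneg k3 h2]
  · linarith [mul_nonneg k4 h2]

theorem neg_of (hu : 0 < u) (hr : r.v xs = √u) (h : ∀ p ∈ (d.jet r).neg r S T, 0 ≤ p.v xs) :
    ∀ z ∈ (d.val u).neg √u (S.v xs) (T.v xs), 0 ≤ z := by
  have h0 : 0 < √u ^ (d.m + 1) := pow_pos (Real.sqrt_pos.2 hu) _
  have h1 := congrArg ((d.e : ℝ) * ·) (mul_inv_cancel₀ h0.ne')
  have h2 := (inv_pos.2 h0).le
  simp only [HJ.neg, HJ.al, HJ.be, HJ.de, HJ.cc, HJ.f0, HJ.s1, HJ.s2, HJ.N, List.forall_mem_cons,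
    jet, val, hF, v_add, v_mul, v_sub, v_nat, v_one, v_c, v_comp, hr, rep, Int.cast_natCast] at h ⊢
  obtain ⟨k1, k2, -⟩ := h
  refine ⟨?_, ?_, by simp⟩
  · linarith [mul_nonneg k1 h2]
  · linarith [mul_nonneg k2 h2]

theorem quot {S T : ℝ} (h0 : 0 ≤ S) (h1 : S ≤ T) : ∃ s, 0 ≤ s ∧ s ≤ 1 ∧ S = s * T := by
  rcases (h0.trans h1).eq_or_lt with h | h
  · exact ⟨0, le_rfl, zero_le_one, by linarith⟩
  · exact ⟨S / T, by positivity, (div_le_one h).2 h1, by field_simp⟩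

theorem X0 (x y z : ℝ) : (X 0 : Pw 3).v [x, y, z] = x := v_X _ (by norm_num)
theorem X1 (x y z : ℝ) : (X 1 : Pw 3).v [x, y, z] = y := v_X _ (by norm_num)
theorem X2 (x y z : ℝ) : (X 2 : Pw 3).v [x, y, z] = z := v_X _ (by norm_num)

theorem pos_all {tA tB tC : List ℕ} (hA : oks [true, true, true] d.cA tA = true)
    (hB : oks [true, true, true] d.cB tB = true) (hC : oks [false, true, true] d.cC tC = true)
    (hu : 0 < u) (S T : ℝ) (h0 : 0 ≤ S) (h1 : S ≤ T) (h2 : T ≤ 1) :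
    ∀ z ∈ (d.val u).pos √u S T, 0 ≤ z := by
  have h3 := h0.trans h1
  have hr := Real.sqrt_nonneg u
  obtain ⟨s, s0, s1, rfl⟩ := quot h0 h1
  rcases le_total √u s with h | h
  · obtain ⟨w, w0, w1, hw⟩ := quot hr h
    simpa only [v_mul, X0, X2] using pos_of (xs := [s, w, T]) hu
      (by rw [v_mul, X0, X1, hw, mul_comm]) (oks_sound hA rfl (by simp [*]) (by simp [*]))
  rcases le_total √u 1 with h' | h'
  · obtain ⟨w, w0, w1, hw⟩ := quot s0 h
    simpa only [v_mul, X0, X1, X2, hw, mul_comm w] using pos_of (xs := [√u, w, T]) hu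
      (X0 ..) (oks_sound hB rfl (by simp [*]) (by simp [-Real.sqrt_le_one, *]))
  · simpa only [v_mul, X1, X2] using pos_of (xs := [√u - 1, s, T]) hu
      (by rw [v_add, v_one, X0, add_sub_cancel])
      (oks_sound hC rfl (by simp [-Real.one_le_sqrt, *]) (by simp [*]))

theorem neg_all {tD : List ℕ} (hD : oks [false, true, true] d.cD tD = true)
    (hu : 0 < u) (S T : ℝ) (h0 : S ≤ 0) (h1 : -S ≤ T) (h2 : T ≤ 1) :
    ∀ z ∈ (d.val u).neg √u S T, 0 ≤ z := by
  have h3 := (neg_nonneg.2 h0).trans h1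
  obtain ⟨s, s0, s1, hs⟩ := quot (neg_nonneg.2 h0) h1
  simpa only [v_neg, v_mul, X1, X2, ← hs, neg_neg] using neg_of (xs := [√u, s, T]) hu (X0 ..)
    (oks_sound hD rfl (by simp [*]) (by simp [*]))

theorem one_all {t : List ℕ} (h : oks [false, false, false] d.one t = true) (hu : 0 < u) :
    0 ≤ (d.val u).K ∧ 0 ≤ (d.val u).f0 √u ∧ 0 ≤ (d.val u).F ∧
    0 < 2 * ((d.val u).m * (d.val u).L + hF (d.m + 1) (dl (-(d.m + 1 : ℕ)) d.L) u) +
      hF (d.m + 1) (dl (-(d.m + 1 : ℕ)) d.F) u ∧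
    2 * (((d.val u).m + 1) * (d.val u).y + hF (d.m + 1) (dl (-(d.m + 1 : ℕ)) d.y) u - (d.val u).L) +
      hF (d.m + 1) (dl (-(d.m + 1 : ℕ)) d.F) u = 0 ∧
    0 ≤ (1 - 2 * u) * ((d.val u).F - 2 * (d.val u).m * (d.val u).x) -
      2 * ((1 - u) * (d.val u).Dx + (d.val u).e + u * (d.val u).y) := by
  have H := oks_sound h (xs := [√u, 0, 0]) rfl (by simp) (by simp)
  have h0 : 0 < √u ^ (d.m + 1) := pow_pos (Real.sqrt_pos.2 hu) _
  have h1 := congrArg ((d.e : ℝ) * ·) (mul_inv_cancel₀ h0.ne')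
  have h2 := inv_pos.2 h0
  simp only [one, e2, D, HJ.f0, List.forall_mem_cons, jet, val, hF, v_add, v_mul, v_sub, v_neg,
    v_nat, v_one, v_c, v_comp, X0, rep, Int.cast_natCast, Real.mul_self_sqrt hu.le] at H ⊢
  obtain ⟨k1, k2, k3, k4, k5, k6, k7, -⟩ := H
  refine ⟨mul_nonneg k1 h2.le, ?_, mul_nonneg k3 h2.le, ?_, ?_, ?_⟩
  · linarith [mul_nonneg k2 h2.le]
  · linarith [mul_nonneg k4 h2.le, mul_pos hu h2]
  · linarith [mul_nonneg k5 h2.le, mul_nonneg k6 h2.le]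
  · linarith [mul_nonneg k7 h2.le]

theorem small {f : ℝ → ℝ} (hf : Continuous f) (h0 : f 0 = 0) {l : ℝ} (hl : 0 < l) :
    ∃ u₀ : ℝ, 0 < u₀ ∧ ∀ u, 0 < u → u ≤ u₀ → f √u ≤ l := by
  have h := ((hf.comp Real.continuous_sqrt).tendsto' 0 0 (by simpa using h0)).mono_left
    (nhdsWithin_le_nhds (s := Ioi 0))
  obtain ⟨u₀, k1, k2⟩ := mem_nhdsGT_iff_exists_Ioc_subset.1 (h.eventually_le_const hl)
  exact ⟨u₀, k1, fun u hu h => k2 ⟨hu, h⟩⟩

theorem eL_zero (l : List ℤ) : eL Int.cast l 0 = l.headI := by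
  cases l <;> simp [eL, show (default : ℤ) = 0 from rfl]

end HD

open HD in
/-- The certificate from the finite computation. -/
theorem ncert_half (d : HD) {t tA tB tC tD : List ℕ}
    (h1 : oks [false, false, false] d.one t = true) (hA : oks [true, true, true] d.cA tA = true)
    (hB : oks [true, true, true] d.cB tB = true) (hC : oks [false, true, true] d.cC tC = true)
    (hD : oks [false, true, true] d.cD tD = true) (he : 0 < d.e) (hx : 0 < d.x.headI)
    (hn : 0 ≤ 2 * d.L.headI + d.F.headI) : Nonempty (NCert2 (d.m + 1) (1 / 2)) := by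
  have es : ∀ u, sg2 (1 / 2) u = u := fun u => by norm_num [sg2]
  have ec : ∀ u, ct (1 / 2) u = 1 / 2 := fun u => by norm_num [ct]
  have ce := fun l : List ℤ => (eL_cd l).continuous
  have nD : ∀ u q, 0 < u → nD2 (d.m + 1) (1 / 2)
      (fun u q => (d.val u).y - (d.val u).L * (1 - q / u))
      (fun u q => hF (d.m + 1) (dl (-(d.m + 1 : ℕ)) d.y) u / (2 * u) -
        (hF (d.m + 1) (dl (-(d.m + 1 : ℕ)) d.L) u / (2 * u) * (1 - q / u) + (d.val u).L * (q / u ^ 2)))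
      (fun u _ => (d.val u).L / u) (fun u _ => (d.val u).F)
      (fun u _ => hF (d.m + 1) (dl (-(d.m + 1 : ℕ)) d.F) u / (2 * u)) (fun _ _ => 0) u q =
      (q - u) / (4 * u) * (2 * ((d.val u).m * (d.val u).L +
        hF (d.m + 1) (dl (-(d.m + 1 : ℕ)) d.L) u) + hF (d.m + 1) (dl (-(d.m + 1 : ℕ)) d.F) u) :=
    fun u q hu => by
      have := (one_all h1 hu).2.2.2.2.1
      simp only [nD2, nD, es, ec, show (d.val u).m = (d.m + 1 : ℕ) from rfl] at this ⊢
      field_simp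
      linear_combination 4 * u * this
  refine ⟨⟨fun u p => (d.val u).x + (d.val u).K * (u - p),
    fun u p => (d.val u).Dx / (2 * u) + ((d.val u).DK / (2 * u) * (u - p) + (d.val u).K),
    fun u _ => -(d.val u).K, _, _, _, fun u _ => (d.val u).F, _, _, d.e, d.x.headI,
    Int.cast_pos.2 he, Int.cast_pos.2 hx,
    ⟨?_, fun u p hu => ⟨?_, ?_⟩⟩, ⟨?_, fun u q hu => ⟨?_, ?_⟩⟩,
    ⟨hF_cd _ _, fun u q hu => ⟨hF_der _ _ hu, hasDerivAt_const _ _⟩⟩, fun u p hu hp => ?_,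
    fun l hl => ?_, fun u σ a b W W₂ ι gx gy hu hσ h hf => ?_,
    fun u q hu _ h => lt_of_lt_of_eq ?_ (nD u q hu).symm, fun u q hu _ h => (nD u q hu).trans_le ?_,
    ⟨1 + (d.L.headI + d.F.headI / 2), fun l hl => ?_⟩, fun u hu _ => ?_⟩⟩
  · exact (hF_cd _ _).add ((hF_cd _ _).mul (by fun_prop))
  · refine ((hF_der _ _ hu).add ((hF_der _ _ hu).mul
      ((hasDerivAt_id' u).sub_const p))).congr_deriv ?_
    simp only [val, mul_one]
  · refine ((((hasDerivAt_id' p).const_sub u).const_mul _).const_add _).congr_deriv ?_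
    ring
  · exact (hF_cd _ _).sub ((hF_cd _ _).mul (contDiffOn_const.sub
      (contDiffOn_snd.div contDiffOn_fst fun z hz => ne_of_gt hz)))
  · refine ((hF_der _ _ hu).sub ((hF_der _ _ hu).mul (((hasDerivAt_const u q).div
      (hasDerivAt_id' u) hu.ne').const_sub 1))).congr_deriv ?_
    simp only [val, Pi.div_apply]
    ring
  · refine (((((hasDerivAt_id' q).div_const u).const_sub 1).const_mul _).const_sub _).congr_deriv ?_
    ring
  · obtain ⟨k1, k2, -⟩ := one_all h1 hu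
    rw [HJ.f0, Real.mul_self_sqrt hu.le] at k2
    linarith [mul_le_mul_of_nonneg_left (Real.le_sqrt_of_sq_le (es u ▸ hp)) k1]
  · obtain ⟨u₀, k1, k2⟩ := small (f := fun r => |eL Int.cast d.x r - d.x.headI| +
      |eL Int.cast d.K r| * (r ^ 2 + r)) (by have := ce d.x; have := ce d.K; fun_prop)
      (by simp [eL_zero]) hl
    refine ⟨u₀, k1, fun u p hu h hp => le_trans ?_ (k2 u hu h)⟩
    have k3 := Real.sqrt_pos.2 hu
    rw [show √u ^ (d.m + 1) * ((d.val u).x + (d.val u).K * (u - p)) - d.x.headI =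
      eL Int.cast d.x √u - d.x.headI + eL Int.cast d.K √u * (u - p) by
        simp only [val, hF]
        field_simp
        ring, Real.sq_sqrt hu.le]
    refine (abs_add_le _ _).trans (add_le_add le_rfl ?_)
    rw [abs_mul]
    exact mul_le_mul_of_nonneg_left ((abs_sub _ _).trans
      (add_le_add (abs_of_pos hu).le (Real.abs_le_sqrt (es u ▸ hp)))) (abs_nonneg _)
  · obtain ⟨k1, k2, k3, -⟩ := one_all h1 hu
    have k4 := hj_main (Real.sqrt_pos.2 hu) k1 k2 k3 (pos_all hA hB hC hu) (neg_all hD hu) hf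
    rw [es] at h
    rw [← h, Real.sqrt_sq hσ.le, h, show (d.val u).e = d.e from rfl,
      show (d.val u).m = (d.m + 1 : ℕ) from rfl] at k4
    simp only [nB, es, ec]
    generalize d.val u = j at k4 ⊢
    subst h
    refine le_of_le_of_eq (div_nonneg k4 zero_le_two) ?_
    field_simp
    ring
  · exact mul_pos (div_pos (sub_pos.2 h) (by positivity)) (one_all h1 hu).2.2.2.1
  · exact mul_nonpos_of_nonpos_of_nonneg (div_nonpos_of_nonpos_of_nonneg (sub_nonpos.2 h)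
      (by positivity)) (one_all h1 hu).2.2.2.1.le
  · obtain ⟨u₀, k1, k2⟩ := small (f := fun r => |r * (eL Int.cast d.y r - eL Int.cast d.L r)| +
      |eL Int.cast d.L r + eL Int.cast d.F r / 2 - (d.L.headI + d.F.headI / 2)|)
      (by have := ce d.y; have := ce d.L; have := ce d.F; fun_prop) (by simp [eL_zero])
      (lt_min hl one_pos)
    refine ⟨u₀, k1, fun u q hu h hq => ?_⟩
    have k3 := Real.sqrt_pos.2 hu
    have k4 := le_min_iff.1 (k2 u hu h)
    have k5 : (0 : ℝ) ≤ 2 * d.L.headI + d.F.headI := by exact_mod_cast hn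
    obtain ⟨b, rfl⟩ : ∃ b, q = √u * b := ⟨q / √u, by field_simp⟩
    have k6 : |b| ≤ 1 := by
      rw [es, mul_pow, Real.sq_sqrt hu.le] at hq
      exact (sq_le_one_iff_abs_le_one b).1 ((mul_le_iff_le_one_right hu).1 hq)
    have k7 : nφ (d.m + 1) (1 / 2) (fun u q => (d.val u).y - (d.val u).L * (1 - q / u))
        (fun u _ => (d.val u).F) u (√u * b) = √u * (eL Int.cast d.y √u - eL Int.cast d.L √u) +
        b * (eL Int.cast d.L √u + eL Int.cast d.F √u / 2 - (d.L.headI + d.F.headI / 2)) +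
        b * (d.L.headI + d.F.headI / 2) := by
      have k8 := Real.sq_sqrt hu.le
      simp only [nφ, es, ec, val, hF, Nat.add_sub_cancel]
      generalize √u = r at k3 k8
      subst k8
      field_simp
      ring
    rw [k7]
    generalize √u * (eL Int.cast d.y √u - eL Int.cast d.L √u) = A at k4
    generalize eL Int.cast d.L √u + eL Int.cast d.F √u / 2 - (d.L.headI + d.F.headI / 2) = B at k4
    have k8 : |A + b * B| ≤ |A| + |B| := (abs_add_le _ _).trans (add_le_add le_rfl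
      ((abs_mul b B).trans_le (mul_le_of_le_one_left (abs_nonneg _) k6)))
    obtain ⟨k9, k10⟩ := abs_le.1 k8
    obtain ⟨b0, b1⟩ := abs_le.1 k6
    refine ⟨abs_le.2 ⟨?_, ?_⟩, fun h => ?_, fun h => ?_⟩
    · linarith [mul_le_mul_of_nonneg_right b0 k5]
    · linarith [mul_le_mul_of_nonneg_right b1 k5]
    · linarith [mul_nonneg (nonneg_of_mul_nonneg_right h k3) k5]
    · linarith [mul_nonpos_of_nonpos_of_nonneg (nonpos_of_mul_nonpos_right h k3) k5]
  · have := (one_all h1 hu).2.2.2.2.2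
    have e : 2 * u * (1 - u) * ((d.val u).Dx / (2 * u)) = (1 - u) * (d.val u).Dx := by field_simp
    rw [show (d.val u).e = d.e from rfl, show (d.val u).m = (d.m + 1 : ℕ) from rfl] at this
    simp only [sub_self, div_self hu.ne', mul_zero]
    linarith

end Vale.Agent.P219
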