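import Vale.Agent.P219.G.Lin3

/-! Certificates for `γ = 1 / 2` with `X = x + K (u - p)`, `Y = y - L (u - q) / u`, `R = F`: the main
inequality follows from six inequalities in `r = √u` and `S, T`, where `a + a' = 2 S T`,
`a a' = S ^ 2 + T ^ 2 - 1`.  A jet holds `x, K, y, L, F`, `e = η`, `Dx = 2 u x'`, `DK = 2 u K'`. -/

namespace Vale.Agent.P219

/-- The values of the coefficient functions at a point. -/
structure HJ (R : Type) where
  m : R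
  x : R
  Dx : R
  K : R
  DK : R
  y : R
  L : R
  F : R
  e : R

namespace HJ

section

variable {R : Type} [Add R] [Mul R] [Sub R] [OfNat R 1] [OfNat R 2] (j : HJ R) (r S T : R)

def s1 : R := 2 * S * T
def s2 : R := S * S + T * T - 1
def N : R := T * T - S * S
def f0 : R := j.x + j.K * (r * r - r)
def al : R := j.m * (j.x + j.K * (r * r)) * (2 - 2 * r * s1 S T) +
  j.m * j.K * r * (2 * 2 * r * s2 S T - s1 S T) +
  (j.Dx + (j.DK + 2 * j.K) * (r * r)) * (2 + 2 * s2 S T - s1 S T * s1 S T) -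
  (j.DK + j.K) * r * (s1 S T * (1 - s2 S T)) + 2 * j.e
def be : R := j.K * r * s1 S T
def de : R := (j.y - j.L) * r * s1 S T + (2 * j.L + j.F) * s2 S T
def cc : R := 2 * s2 S T * (j.f0 r + j.K * r * (T - S))
def pos : List R := [j.al r S T + j.de r S T - (j.be r S T + j.F) * N S T,
  2 * (j.al r S T - j.be r S T * N S T) + j.cc r S T * (2 + N S T * (2 - N S T)),
  j.al r S T - j.F * N S T + j.cc r S T,
  2 * (j.al r S T + j.cc r S T) - (j.be r S T * N S T + j.F * (2 - N S T)) * N S T]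
def neg : List R := [j.al r S T + j.de r S T - (j.F - j.be r S T) * N S T,
  j.al r S T - (j.F - j.be r S T) * N S T + j.cc r S T]

end

end HJ

theorem hj_lin {δ z e b : ℝ} (h0 : 0 ≤ z) (h1 : z ≤ δ) (he : 0 ≤ e) (hb : 0 ≤ e + b * δ) :
    0 ≤ e + b * z := by
  rcases le_total 0 b with h | h
  · positivity
  · linarith [mul_le_mul_of_nonpos_left h1 h]

theorem hj_vert {α δ B F N c c' G W W₂ ι : ℝ} (hB : 0 ≤ B) (hF : 0 ≤ F) (n0 : 0 ≤ N) (n1 : N ≤ 1)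
    (i0 : 0 ≤ ι) (i1 : ι ≤ 1) (hc : c' ≤ c) (w1 : W + W₂ ≤ (1 + ι) * N) (w2 : W - W₂ ≤ (1 - ι) * N)
    (w3 : W₂ - W ≤ (1 - ι) * N) (g1 : c * (1 - ι) ≤ G)
    (g2 : c * ((1 - N ^ 2 / 2) * (1 - ι) + (W - ι * N)) ≤ G) (t1 : 0 ≤ α + δ - (B + F) * N)
    (ta : 0 ≤ 2 * (α - B * N) + c' * (2 + N * (2 - N))) (tb : 0 ≤ α - F * N + c')
    (tc : 0 ≤ 2 * (α + c') - (B * N + F * (2 - N)) * N) :
    0 ≤ α - B * W + ι * δ - F * W₂ + G := by
  obtain ⟨κ, rfl⟩ : ∃ κ, ι = 1 - κ := ⟨1 - ι, by ring⟩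
  obtain ⟨ω, rfl⟩ : ∃ ω, W = ω + (1 - κ) * N := ⟨W - (1 - κ) * N, by ring⟩
  have k0 : 0 ≤ κ := by linarith
  have k1 := mul_nonneg i0 t1
  have k2 := mul_nonneg k0 (show 0 ≤ α - F * N + c by linarith)
  have k3 := mul_nonneg k0 (show 0 ≤ 2 * (α + c) - (B * N + F * (2 - N)) * N by linarith)
  have k4 := mul_nonneg k0 (show 0 ≤ 2 * (α - B * N) + c * (2 + N * (2 - N)) by
    linarith [mul_le_mul_of_nonneg_right hc (show 0 ≤ 2 + N * (2 - N) by nlinarith)])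
  have k5 := mul_le_mul_of_nonneg_left w1 hF
  rcases le_total ω 0 with h | h
  · linarith [mul_le_mul_of_nonneg_left h hB, mul_le_mul_of_nonneg_left w3 hF,
      mul_le_mul_of_nonneg_left h hF]
  rcases le_total ω (κ * N ^ 2 / 2) with h' | h'
  · linarith [hj_lin (b := F - B) h h' k2 (by linarith)]
  · linarith [hj_lin (b := F - B + c) (δ := κ * N - κ * N ^ 2 / 2) (sub_nonneg.2 h') (by linarith)
      (div_nonneg k3 zero_le_two) (by linarith)]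

theorem hj_ST {a b : ℝ} (ha : a ^ 2 ≤ 1) (hb : b ^ 2 ≤ 1) : ∃ S T : ℝ, |S| ≤ T ∧ T ≤ 1 ∧
    HJ.s1 S T = a + b ∧ HJ.s2 S T = a * b ∧ HJ.N S T = √((1 - a ^ 2) * (1 - b ^ 2)) ∧
    (T - S) ^ 2 = (1 - a) * (1 - b) := by
  obtain ⟨a0, a1⟩ := abs_le.1 ((sq_le_one_iff_abs_le_one a).1 ha)
  obtain ⟨b0, b1⟩ := abs_le.1 ((sq_le_one_iff_abs_le_one b).1 hb)
  have h1 := Real.sq_sqrt (mul_nonneg (show 0 ≤ 1 + a by linarith) (show 0 ≤ 1 + b by linarith))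
  have h2 := Real.sq_sqrt (mul_nonneg (sub_nonneg.2 a1) (sub_nonneg.2 b1))
  have h3 : √((1 - a ^ 2) * (1 - b ^ 2)) = √((1 + a) * (1 + b)) * √((1 - a) * (1 - b)) := by
    rw [← Real.sqrt_mul (mul_nonneg (by linarith) (by linarith))]
    congr 1
    ring
  have h4 : √((1 - a ^ 2) * (1 - b ^ 2)) ≤ 1 - a * b :=
    Real.sqrt_le_iff.2 ⟨by nlinarith, by nlinarith [sq_nonneg (a - b)]⟩
  have p0 := Real.sqrt_nonneg ((1 + a) * (1 + b))
  have q0 := Real.sqrt_nonneg ((1 - a) * (1 - b))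
  rw [h3] at h4 ⊢
  generalize √((1 + a) * (1 + b)) = P at *
  generalize √((1 - a) * (1 - b)) = Q at *
  refine ⟨(P - Q) / 2, (P + Q) / 2, abs_le.2 ⟨by linarith, by linarith⟩,
    (abs_le_of_sq_le_sq' (by linarith) zero_le_one).2, ?_, ?_, ?_, by linarith⟩ <;>
  simp only [HJ.s1, HJ.s2, HJ.N] <;> linarith

theorem hj_main {j : HJ ℝ} {m : ℕ} {r a b W W₂ ι gx gy : ℝ} (hr : 0 < r) (hK : 0 ≤ j.K)
    (hf : 0 ≤ j.f0 r) (hF : 0 ≤ j.F)
    (hp : ∀ S T, 0 ≤ S → S ≤ T → T ≤ 1 → ∀ z ∈ j.pos r S T, 0 ≤ z)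
    (hn : ∀ S T, S ≤ 0 → -S ≤ T → T ≤ 1 → ∀ z ∈ j.neg r S T, 0 ≤ z)
    (h : Feas m a b W W₂ ι gx gy) :
    0 ≤ j.m * (j.x + j.K * (r ^ 2 - r * a)) * (1 - 2 * r * b) +
      (j.Dx + j.DK * (r ^ 2 - r * a) + 2 * r ^ 2 * j.K) * (1 - b ^ 2) -
      j.K * r * (a - (a * b - W) * b) +
      (j.m * (j.x + j.K * (r ^ 2 - r * b)) * (1 - 2 * r * a) +
      (j.Dx + j.DK * (r ^ 2 - r * b) + 2 * r ^ 2 * j.K) * (1 - a ^ 2) -
      j.K * r * (b - (a * b - W) * a)) + 2 * j.e +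
      ι * ((j.y - j.L) * r * (a + b) + (2 * j.L + j.F) * (a * b)) - j.F * W₂ +
      ((j.x + j.K * (r ^ 2 - r * a)) * gy + (j.x + j.K * (r ^ 2 - r * b)) * gx) := by
  obtain ⟨ha, hb, i0, i1, hx, hy⟩ := h.basic
  obtain ⟨S, T, h1, h2, e1, e2, e3, e4⟩ := hj_ST ha hb
  obtain ⟨c1, c2⟩ := h.cof
  have n1 : √((1 - a ^ 2) * (1 - b ^ 2)) ≤ 1 := Real.sqrt_le_one.2 (by nlinarith)
  have ho := Real.abs_le_sqrt h.old
  have hR := h.refined zero_le_one (by rwa [one_mul]) (by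
    rw [one_mul, ← sq_le_one_iff_abs_le_one]
    nlinarith)
  have n0 := Real.sqrt_nonneg ((1 - a ^ 2) * (1 - b ^ 2))
  have n2 := Real.sq_sqrt (mul_nonneg (sub_nonneg.2 ha) (sub_nonneg.2 hb))
  rw [one_pow, one_mul, one_mul, ← e3, ← n2] at hR
  rw [abs_mul, abs_of_nonneg (sub_nonneg.2 i1)] at ho
  rw [← e3] at c1 c2 n0 n1 hR
  obtain ⟨t1, t2⟩ := abs_le.1 h1
  have a1 := (abs_le.1 ((sq_le_one_iff_abs_le_one a).1 ha)).2
  have b1 := (abs_le.1 ((sq_le_one_iff_abs_le_one b).1 hb)).2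
  have hk := mul_nonneg hK hr.le
  have ex : ∀ a, j.x + j.K * (r ^ 2 - r * a) = j.f0 r + j.K * r * (1 - a) := fun a => by
    rw [HJ.f0]
    ring
  have cm : 0 ≤ j.f0 r + j.K * r * (T - S) := add_nonneg hf (mul_nonneg hk (by linarith))
  have xa : 0 ≤ j.f0 r + j.K * r * (1 - a) := add_nonneg hf (mul_nonneg hk (by linarith))
  have xb : 0 ≤ j.f0 r + j.K * r * (1 - b) := add_nonneg hf (mul_nonneg hk (by linarith))
  have g0 : 2 * (j.f0 r + j.K * r * (T - S)) * √(gx * gy) ≤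
      (j.f0 r + j.K * r * (1 - a)) * gy + (j.f0 r + j.K * r * (1 - b)) * gx := by
    refine (abs_le_of_sq_le_sq' ?_ (by positivity)).2
    have k1 : 2 * (T - S) ≤ 1 - a + (1 - b) :=
      (abs_le_of_sq_le_sq' (by nlinarith [sq_nonneg (a - b)]) (by linarith)).2
    have k2 : (j.f0 r + j.K * r * (T - S)) ^ 2 ≤
        (j.f0 r + j.K * r * (1 - a)) * (j.f0 r + j.K * r * (1 - b)) := by
      have := mul_le_mul_of_nonneg_left k1 (mul_nonneg hf hk)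
      have := congrArg ((j.K * r) ^ 2 * ·) e4
      linarith
    rw [mul_pow, mul_pow, Real.sq_sqrt (mul_nonneg hx hy)]
    linarith [mul_le_mul_of_nonneg_right k2 (mul_nonneg hx hy), sq_nonneg
      ((j.f0 r + j.K * r * (1 - a)) * gy - (j.f0 r + j.K * r * (1 - b)) * gx)]
  have g1 := (mul_le_mul_of_nonneg_left ho (mul_nonneg zero_le_two cm)).trans g0
  have g3 : j.cc r S T ≤ 2 * (j.f0 r + j.K * r * (T - S)) * |a * b| := by
    rw [HJ.cc, e2]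
    linarith [mul_le_mul_of_nonneg_left (le_abs_self (a * b)) cm]
  have E : ∀ G, 0 ≤ j.al r S T - j.be r S T * W + ι * j.de r S T - j.F * W₂ + G →
      0 ≤ j.m * (j.x + j.K * (r ^ 2 - r * a)) * (1 - 2 * r * b) +
      (j.Dx + j.DK * (r ^ 2 - r * a) + 2 * r ^ 2 * j.K) * (1 - b ^ 2) -
      j.K * r * (a - (a * b - W) * b) +
      (j.m * (j.x + j.K * (r ^ 2 - r * b)) * (1 - 2 * r * a) +
      (j.Dx + j.DK * (r ^ 2 - r * b) + 2 * r ^ 2 * j.K) * (1 - a ^ 2) -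
      j.K * r * (b - (a * b - W) * a)) + 2 * j.e +
      ι * ((j.y - j.L) * r * (a + b) + (2 * j.L + j.F) * (a * b)) - j.F * W₂ + G := fun G h => by
    simp only [HJ.al, HJ.be, HJ.de, e1, e2] at h
    linarith
  obtain ⟨c3, c4⟩ := abs_le.1 c1
  obtain ⟨c5, c6⟩ := abs_le.1 c2
  refine E _ ?_
  rw [ex a, ex b]
  have T0 : 0 ≤ T := by linarith
  rcases le_total 0 S with hS | hS
  · have H := hp S T hS t2 h2
    simp only [HJ.pos, List.forall_mem_cons] at H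
    refine hj_vert (mul_nonneg hk (by rw [HJ.s1]; positivity)) hF n0 n1 i0.le i1 g3 c4 c6
      (by linarith) (by linarith) ?_ H.1 H.2.1 H.2.2.1 H.2.2.2.1
    refine le_trans ?_ ((mul_le_mul_of_nonneg_left hR (mul_nonneg zero_le_two cm)).trans g0)
    linarith [mul_le_mul_of_nonneg_left (le_abs_self W)
      (mul_nonneg (mul_nonneg zero_le_two cm) (abs_nonneg (a * b)))]
  · have H := hn S T hS (by linarith) h2
    simp only [HJ.neg, List.forall_mem_cons] at H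
    have hB : 0 ≤ -j.be r S T := by
      rw [HJ.be, HJ.s1]
      linarith [mul_nonneg hk (mul_nonneg (neg_nonneg.2 hS) T0)]
    have i2 := sub_nonneg.2 i1
    linarith [mul_nonneg i0.le H.1, mul_nonneg i2 H.2.1, mul_le_mul_of_nonneg_right g3 i2,
      mul_le_mul_of_nonneg_left (show -HJ.N S T ≤ W by linarith) hB,
      mul_le_mul_of_nonneg_left (show W₂ ≤ HJ.N S T by linarith) hF]

end Vale.Agent.P219
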