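import Vale.Agent.P219.G.Basic2
import Vale.Agent.P219.G.Const
import Vale.Agent.P219.G.NCert3

/-!
# The constant of a certificate with non-radial flux  (TASK)

`S = sn ρ`, `ε₀ = eps b ρ`, `u r = ε₀ ww r ∈ (0, 1)` for `r ∈ (0, 2ρ)`, `u (2ρ) = 1` (`ww_add`), `u' = ε₀ sn r`.  `sn² (1 - cβ²) = 4 S² u (1 - u)`, so `cω r = sn r * (2 S √(u (1-u)))^(m-2)`; `cF r = u Y(u,u) + (u - γ) R(u,u) ≤ -(Bh + η)` (`model`;
`γ (cs cβ² - (1 - cβ²)) = u - γ`).  `Gf r = (2S)^m X(u,u) √(u(1-u))^m` is continuous on `[α, 2ρ]`, vanishes at `2ρ`, and has derivative `Bh * cω` on `(0, 2ρ)` (`Der2.hasFDerivAt`), so by parts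
`∫ τ (-Bh) cω = ∫ τ' Gf ≤ x₀ (2S)^m + l / 2` (`sing`, `∫ τ' = 1`, `τ' ≥ 0`; `intervalIntegral.integral_eq_sub_of_hasDerivAt_of_le` for `τ Gf`).
`int_cω`: the function `r ↦ ∫ t in 0..arccos (1 - 2 u r), sin t^(m-1)` has derivative `cω r / S^m` on `(0, 2ρ)`.  `∫ (1 - τ) cω ≤ C ε`.
-/

namespace Vale.Agent.P219

open scoped ContDiff Topology RealInnerProductSpace ENNReal
open MeasureTheory Set Filter Vale.Agent.P255
open St (sn gmod)

variable {m : ℕ} {b ρ : ℝ}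

/-- normalised distance -/
noncomputable def c2U (b ρ r : ℝ) : ℝ := eps b ρ * ww b r

/-- half the sine of the model angle -/
noncomputable def c2Q (b ρ r : ℝ) : ℝ := √(c2U b ρ r * (1 - c2U b ρ r))

/-- the area element -/
noncomputable def c2W (k : ℕ) (b ρ r : ℝ) : ℝ := sn b r * (2 * sn b ρ * c2Q b ρ r) ^ k

theorem c2U_der (b ρ r : ℝ) : HasDerivAt (c2U b ρ) (eps b ρ * sn b r) r :=
  (hasDerivAt_ww b r).const_mul _

theorem c2U_cont (b ρ : ℝ) : Continuous (c2U b ρ) :=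
  continuous_iff_continuousAt.2 fun r => (c2U_der b ρ r).continuousAt

theorem c2Q_cont (b ρ : ℝ) : Continuous (c2Q b ρ) :=
  ((c2U_cont b ρ).mul (continuous_const.sub (c2U_cont b ρ))).sqrt

theorem c2W_cont (k : ℕ) (b ρ : ℝ) : Continuous (c2W k b ρ) :=
  (contDiff_sn b).continuous.mul ((continuous_const.mul (c2Q_cont b ρ)).pow k)

theorem c2U_zero (b ρ : ℝ) : c2U b ρ 0 = 0 := by rw [c2U, ww_zero, mul_zero]

theorem c2U_end (b : ℝ) (hρ : 0 < ρ) : c2U b ρ (2 * ρ) = 1 := by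
  have h := (sn_pos b hρ).ne'
  have h1 := sn_sq b ρ
  rw [c2U, two_mul, ww_add, cs_eq, eps]
  field_simp
  linear_combination -h1

theorem c2U_pos (b : ℝ) (hρ : 0 < ρ) {r : ℝ} (hr : 0 < r) : 0 < c2U b ρ r := by
  have h := sn_pos b hρ
  have h1 := ww_pos b hr
  unfold c2U eps
  positivity

theorem c2U_lt (b : ℝ) (hρ : 0 < ρ) {r : ℝ} (hr : r ∈ Ioo 0 (2 * ρ)) : c2U b ρ r < 1 := by
  have h := sn_pos b hρ
  rw [← c2U_end b hρ]
  exact mul_lt_mul_of_pos_left (strictMonoOn_ww b hr.1.le (hr.1.trans hr.2).le hr.2)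
    (by unfold eps; positivity)

theorem c2Q_pos (b : ℝ) (hρ : 0 < ρ) {r : ℝ} (hr : r ∈ Ioo 0 (2 * ρ)) :
    0 < c2Q b ρ r ∧ c2Q b ρ r ^ 2 = c2U b ρ r * (1 - c2U b ρ r) := by
  have h := mul_pos (c2U_pos b hρ hr.1) (sub_pos.2 (c2U_lt b hρ hr))
  exact ⟨Real.sqrt_pos.2 h, Real.sq_sqrt h.le⟩

theorem c2W_eq (k : ℕ) (b : ℝ) (hρ : 0 < ρ) {r : ℝ} (hr : 0 ≤ r) :
    cω (k + 2) b ρ r = c2W k b ρ r := by
  rcases hr.eq_or_lt with rfl | hr
  · simp [cω, c2W, sn_zero]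
  have h := sn_pos b hρ
  have h1 := sn_pos b hr
  have e : sn b r * √(1 - cβ b ρ r ^ 2) = 2 * sn b ρ * c2Q b ρ r := by
    rw [c2Q, ← Real.sqrt_sq h1.le, ← Real.sqrt_mul (sq_nonneg _),
      ← Real.sqrt_sq (show 0 ≤ 2 * sn b ρ by positivity), ← Real.sqrt_mul (sq_nonneg _)]
    congr 1
    have h2 := sn_sq b r
    rw [cβ, div_pow, mul_pow (hh b ρ), hh_sq b hρ, c2U, eps]
    field_simp
    linear_combination (sn b ρ ^ 2) * h2
  rw [c2W, ← e, cω, mul_pow]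
  simp only [Nat.add_succ_sub_one, Nat.add_sub_cancel]
  ring

theorem c2_int (k : ℕ) (b : ℝ) (hρ : 0 < ρ) :
    ∫ r in (0 : ℝ)..(2 * ρ), c2W k b ρ r = sn b ρ ^ (k + 2) * Sm (k + 2) := by
  have cs : Continuous fun t => Real.sin t ^ (k + 1) := by fun_prop
  set H : ℝ → ℝ := fun t => ∫ s in (0 : ℝ)..t, Real.sin s ^ (k + 1) with hH
  have Hd : ∀ t, HasDerivAt H (Real.sin t ^ (k + 1)) t := fun t =>
    (cs.integral_hasStrictDerivAt 0 t).hasDerivAt
  have Hc : Continuous H := continuous_iff_continuousAt.2 fun t => (Hd t).continuousAt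
  have Uc := c2U_cont b ρ
  have h := (sn_pos b hρ).ne'
  rw [intervalIntegral.integral_eq_sub_of_hasDerivAt_of_le
    (f := fun r => sn b ρ ^ (k + 2) * H (Real.arccos (1 - 2 * c2U b ρ r))) (by positivity)
    (continuous_const.mul (Hc.comp (Real.continuous_arccos.comp (by fun_prop)))).continuousOn
    (fun r hr => ?_) ((c2W_cont k b ρ).intervalIntegrable _ _)]
  · have e1 : (1 : ℝ) - 2 = -1 := by norm_num
    simp [c2U_end b hρ, c2U_zero, e1, hH, Sm]
  · obtain ⟨q0, q1⟩ := c2Q_pos b hρ hr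
    have u0 := c2U_pos b hρ hr.1
    have u1 := c2U_lt b hρ hr
    have e : √(1 - (1 - 2 * c2U b ρ r) ^ 2) = 2 * c2Q b ρ r := by
      rw [show 1 - (1 - 2 * c2U b ρ r) ^ 2 = (2 * c2Q b ρ r) ^ 2 by rw [mul_pow, q1]; ring,
        Real.sqrt_sq (by positivity)]
    refine (((Hd _).comp r ((Real.hasDerivAt_arccos (by linarith) (by linarith)).comp r
      (((c2U_der b ρ r).const_mul 2).const_sub 1))).const_mul _).congr_deriv ?_
    simp only [Function.comp_apply, Real.sin_arccos, e, c2W, eps, mul_pow]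
    field_simp
    ring

theorem int_cω (hm : 2 ≤ m) (b : ℝ) (hρ : 0 < ρ) :
    ∫ r in (0 : ℝ)..(2 * ρ), cω m b ρ r = sn b ρ ^ m * Sm m := by
  obtain ⟨k, rfl⟩ : ∃ k, m = k + 2 := ⟨m - 2, by omega⟩
  rw [← c2_int k b hρ]
  refine intervalIntegral.integral_congr fun r hr => c2W_eq k b hρ ?_
  rw [uIcc_of_le (by positivity)] at hr
  exact hr.1

theorem c2_cut {f g : ℝ → ℝ} {α : ℝ} (hα : 0 < α) (hf : Continuous f) (h0 : ∀ r, r ≤ α → f r = 0)
    (hg : ∀ r, 0 < r → ContinuousAt g r) : Continuous fun r => f r * g r := by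
  refine continuous_iff_continuousAt.2 fun r => ?_
  rcases lt_or_ge 0 r with h | h
  · exact hf.continuousAt.mul (hg r h)
  · refine (continuousAt_const (y := (0 : ℝ))).congr ?_
    filter_upwards [Iio_mem_nhds (h.trans_lt hα)] with x hx
    rw [h0 x (le_of_lt hx), zero_mul]

theorem c2_diag (b : ℝ) (hρ : 0 < ρ) {F : ℝ → ℝ → ℝ}
    (h : ContinuousOn (fun z : ℝ × ℝ => F z.1 z.2) {z | 0 < z.1}) {r : ℝ} (hr : 0 < r) :
    ContinuousAt (fun r => F (c2U b ρ r) (c2U b ρ r)) r :=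
  ContinuousAt.comp (f := fun r => (c2U b ρ r, c2U b ρ r))
    (h.continuousAt (snx_open.mem_nhds (c2U_pos b hρ hr)))
    ((c2U_cont b ρ).prodMk (c2U_cont b ρ)).continuousAt

theorem c2F_eq (b : ℝ) (hρ : 0 < ρ) (Y R : ℝ → ℝ → ℝ) {r : ℝ} (hr : 0 < r) :
    cF b ρ (fun w Q => eps b ρ / hh b ρ * Y (eps b ρ * w) (eps b ρ / hh b ρ * Q))
      (fun w Q => gam b ρ * R (eps b ρ * w) (eps b ρ / hh b ρ * Q)) r =
    c2U b ρ r * Y (c2U b ρ r) (c2U b ρ r) + (c2U b ρ r - gam b ρ) * R (c2U b ρ r) (c2U b ρ r) := by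
  have h0 := (hh_pos b hρ).ne'
  have h1 := (sn_pos b hρ).ne'
  have h2 := (sn_pos b hr).ne'
  have h3 : cs b ρ ≠ 0 := (one_pos.trans_le (one_le_cs b ρ)).ne'
  have e1 : eps b ρ / hh b ρ * (hh b ρ * ww b r) = c2U b ρ r := by
    rw [c2U]
    field_simp
  have e2 : gam b ρ * (cs b r * cβ b ρ r ^ 2 - (1 - cβ b ρ r ^ 2)) = c2U b ρ r - gam b ρ := by
    have h4 := sn_sq b r
    rw [cs_eq b r, cβ, hh, gam, c2U, eps]
    field_simp
    linear_combination (-(cs b ρ ^ 2 * ww b r)) * h4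
  have e3 : eps b ρ * ww b r = c2U b ρ r := rfl
  simp only [cF, e1, e3]
  rw [← e2, mul_comm (eps b ρ / hh b ρ), mul_assoc, e1]
  ring

theorem const_gen (hm : 2 ≤ m) (hρ : 0 < ρ) {X Xu Xp Y Yu Yq R Ru Rq : ℝ → ℝ → ℝ} {η x₀ : ℝ}
    (hη : 0 < η) (hx₀ : 0 < x₀) (derX : Der2 X Xu Xp) (derY : Der2 Y Yu Yq) (derR : Der2 R Ru Rq)
    (sing : ∀ l : ℝ, 0 < l → ∃ u₀ : ℝ, 0 < u₀ ∧ ∀ u p, 0 < u → u ≤ u₀ → p ^ 2 ≤ sg2 (gam b ρ) u →
      |√u ^ m * X u p - x₀| ≤ l)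
    (model : ∀ u, 0 < u → u < 1 → m * X u u * (1 - 2 * u) + 2 * u * (1 - u) * (Xu u u + Xp u u) +
      η + u * Y u u + (u - gam b ρ) * R u u ≤ 0) {l : ℝ} (hl : 0 < l) :
    ∃ ε₁ : ℝ, 0 < ε₁ ∧ ∀ (τ : ℝ → ℝ) (ε : ℝ), Cut τ ε → ε ≤ ε₁ →
      ∫ r in (0 : ℝ)..(2 * ρ), τ r *
        (cF b ρ (fun w Q => eps b ρ / hh b ρ * Y (eps b ρ * w) (eps b ρ / hh b ρ * Q))
          (fun w Q => gam b ρ * R (eps b ρ * w) (eps b ρ / hh b ρ * Q)) r * cω m b ρ r) ≤
        x₀ * (2 * sn b ρ) ^ m - η * sn b ρ ^ m * Sm m + l := by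
  obtain ⟨k, rfl⟩ : ∃ k, m = k + 2 := ⟨m - 2, by omega⟩
  have hS := sn_pos b hρ
  have h2ρ : (0 : ℝ) ≤ 2 * ρ := by positivity
  obtain ⟨P, hP⟩ : ∃ P, P = (2 * sn b ρ) ^ (k + 2) := ⟨_, rfl⟩
  have P0 : 0 < P := by rw [hP]; positivity
  obtain ⟨u₀, u0, hs⟩ := sing (l / 2 / P) (by positivity)
  have Uc := c2U_cont b ρ
  have Wc := c2W_cont k b ρ
  have ev : ∀ᶠ r in 𝓝 (0 : ℝ), c2U b ρ r ≤ u₀ ∧ c2W k b ρ r ≤ l / 2 / (2 * ρ * η) :=
    ((Uc.tendsto 0).eventually_le_const (by rwa [c2U_zero])).and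
      ((Wc.tendsto 0).eventually_le_const (by
        rw [c2W, sn_zero, zero_mul]
        positivity))
  obtain ⟨δ, δ0, hδ⟩ := Metric.eventually_nhds_iff.1 ev
  refine ⟨min (δ / 2) (2 * ρ), by positivity, fun τ ε hτ hε => ?_⟩
  have sm : ∀ r, 0 < r → r ≤ ε → c2U b ρ r ≤ u₀ ∧ c2W k b ρ r ≤ l / 2 / (2 * ρ * η) :=
    fun r h1 h2 => hδ (by
      rw [Real.dist_eq, sub_zero, abs_of_pos h1]
      linarith [min_le_left (δ / 2) (2 * ρ)])
  obtain ⟨α, α0, hα⟩ := hτ.zero'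
  have τc := hτ.smooth.continuous
  have τd : ∀ r, HasDerivAt τ (deriv τ r) r := fun r =>
    (hτ.smooth.differentiable (by norm_num) r).hasDerivAt
  have τ'c : Continuous (deriv τ) := hτ.smooth.continuous_deriv (by norm_num)
  set G : ℝ → ℝ := fun r => P * (X (c2U b ρ r) (c2U b ρ r) * c2Q b ρ r ^ (k + 2)) with hG
  set B : ℝ → ℝ := fun r => ((k + 2 : ℕ) : ℝ) * X (c2U b ρ r) (c2U b ρ r) * (1 - 2 * c2U b ρ r) +
    2 * c2U b ρ r * (1 - c2U b ρ r) *
      (Xu (c2U b ρ r) (c2U b ρ r) + Xp (c2U b ρ r) (c2U b ρ r)) with hB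
  have Gc : ∀ r, 0 < r → ContinuousAt G r := fun r hr =>
    ((c2_diag b hρ derX.continuousOn.1 hr).mul ((c2Q_cont b ρ).pow _).continuousAt).const_mul P
  have Bc : ∀ r, 0 < r → ContinuousAt (fun r => B r * c2W k b ρ r) r := fun r hr => by
    have x1 := c2_diag b hρ derX.continuousOn.1 hr
    have x2 := c2_diag b hρ derX.continuousOn.2.1 hr
    have x3 := c2_diag b hρ derX.continuousOn.2.2 hr
    have x4 : ContinuousAt (c2U b ρ) r := Uc.continuousAt
    exact (((continuousAt_const.mul x1).mul (continuousAt_const.sub (continuousAt_const.mul x4))).add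
      (((continuousAt_const.mul x4).mul (continuousAt_const.sub x4)).mul (x2.add x3))).mul
        Wc.continuousAt
  have Gd : ∀ r ∈ Ioo 0 (2 * ρ), HasDerivAt G (B r * c2W k b ρ r) r := fun r hr => by
    obtain ⟨q0, q1⟩ := c2Q_pos b hρ hr
    have d1 := (derX.hasFDerivAt (c2U_pos b hρ hr.1) (c2U b ρ r)).comp_hasDerivAt r
      ((c2U_der b ρ r).prodMk (c2U_der b ρ r))
    have d2 : HasDerivAt (c2Q b ρ) _ r := ((c2U_der b ρ r).mul ((c2U_der b ρ r).const_sub 1)).sqrt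
      (by rw [Pi.mul_apply, ← q1]; positivity)
    refine ((d1.mul (d2.pow (k + 2))).const_mul P).congr_deriv ?_
    have e : √((c2U b ρ * fun x => 1 - c2U b ρ x) r) = c2Q b ρ r := rfl
    simp only [e, hB, hP, c2W, eps, Function.comp_apply, Pi.pow_apply, add_apply, smul_apply,
      ContinuousLinearMap.coe_fst', ContinuousLinearMap.coe_snd', smul_eq_mul, mul_pow,
      Nat.add_succ_sub_one, pow_succ _ (k + 1), pow_succ _ k]
    field_simp
    linear_combination (2 * sn b r * (Xu (c2U b ρ r) (c2U b ρ r) + Xp (c2U b ρ r) (c2U b ρ r))) * q1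
  have c1 := c2_cut α0 τ'c (fun r hr => (hα r hr).2) Gc
  have c2 := c2_cut α0 τc (fun r hr => (hα r hr).1) Bc
  have c3 := c2_cut α0 τc (fun r hr => (hα r hr).1) Gc
  have c4 := c2_cut α0 τc (fun r hr => (hα r hr).1) (g := fun r =>
    (c2U b ρ r * Y (c2U b ρ r) (c2U b ρ r) + (c2U b ρ r - gam b ρ) *
      R (c2U b ρ r) (c2U b ρ r)) * c2W k b ρ r) fun r hr => by
    have x1 := c2_diag b hρ derY.continuousOn.1 hr
    have x2 := c2_diag b hρ derR.continuousOn.1 hr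
    have x4 : ContinuousAt (c2U b ρ) r := Uc.continuousAt
    exact ((x4.mul x1).add ((x4.sub continuousAt_const).mul x2)).mul Wc.continuousAt
  have τ0 : τ 0 = 0 := (hα 0 α0.le).1
  have f1 := intervalIntegral.integral_eq_sub_of_hasDerivAt_of_le h2ρ c3.continuousOn
    (fun r hr => (τd r).mul (Gd r hr)) ((c1.add c2).intervalIntegrable _ _)
  have f2 := intervalIntegral.integral_eq_sub_of_hasDerivAt (a := 0) (b := 2 * ρ)
    (fun r _ => τd r) (τ'c.intervalIntegrable _ _)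
  have G1 : G (2 * ρ) = 0 := by simp [hG, c2Q, c2U_end b hρ]
  rw [τ0, G1, zero_mul, mul_zero, sub_zero] at f1
  rw [τ0, hτ.one _ (hε.trans (min_le_right _ _)), sub_zero] at f2
  rw [intervalIntegral.integral_congr (g := fun r => τ r * ((c2U b ρ r *
    Y (c2U b ρ r) (c2U b ρ r) + (c2U b ρ r - gam b ρ) * R (c2U b ρ r) (c2U b ρ r)) *
      c2W k b ρ r)) fun r hr => ?_]
  swap
  · rw [uIcc_of_le h2ρ] at hr
    rcases hr.1.eq_or_lt with rfl | h
    · simp only [τ0, zero_mul]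
    · simp only [c2F_eq b hρ Y R h, c2W_eq k b hρ h.le]
  refine (intervalIntegral.integral_mono_on_of_le_Ioo h2ρ (c4.intervalIntegrable _ _)
    (g := fun r => (x₀ * P + l / 2) * deriv τ r - η * c2W k b ρ r + l / 2 / (2 * ρ) -
      (deriv τ r * G r + τ r * (B r * c2W k b ρ r)))
    (Continuous.intervalIntegrable (by fun_prop) _ _) fun r hr => ?_).trans (le_of_eq ?_)
  · have u1 := c2U_pos b hρ hr.1
    have u2 := c2U_lt b hρ hr
    obtain ⟨t0, t1, t2, t3⟩ := hτ.nonneg r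
    have w0 : 0 ≤ c2W k b ρ r := by
      have := sn_pos b hr.1
      have := (c2Q_pos b hρ hr).1
      unfold c2W
      positivity
    have a1 := mul_le_mul_of_nonneg_left (model _ u1 u2) (mul_nonneg t0 w0)
    have a2 : deriv τ r * G r ≤ deriv τ r * (x₀ * P + l / 2) := by
      rcases lt_or_ge ε r with h | h
      · rw [t3 h, zero_mul, zero_mul]
      · refine mul_le_mul_of_nonneg_left ?_ t2
        have a3 := (abs_le.1 (hs _ _ u1 (sm r hr.1 h).1 (cn_sg2 (gam_mem b ρ).1 u1 u2))).2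
        have a4 : √(1 - c2U b ρ r) ^ (k + 2) ≤ 1 :=
          pow_le_one₀ (Real.sqrt_nonneg _) (Real.sqrt_le_one.2 (by linarith))
        have a5 : 0 ≤ √(1 - c2U b ρ r) ^ (k + 2) := by positivity
        have a6 : 0 < x₀ + l / 2 / P := by positivity
        rw [show x₀ * P + l / 2 = P * (x₀ + l / 2 / P) by field_simp]
        refine mul_le_mul_of_nonneg_left ?_ P0.le
        rw [c2Q, Real.sqrt_mul u1.le, mul_pow]
        nlinarith [mul_le_mul_of_nonneg_right (sub_le_iff_le_add'.1 a3) a5]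
    have a7 : η * ((1 - τ r) * c2W k b ρ r) ≤ l / 2 / (2 * ρ) := by
      rcases le_total ε r with h | h
      · rw [hτ.one r h, sub_self, zero_mul, mul_zero]
        positivity
      · have a8 := mul_le_mul_of_nonneg_left (sm r hr.1 h).2 hη.le
        rw [show η * (l / 2 / (2 * ρ * η)) = l / 2 / (2 * ρ) by field_simp] at a8
        nlinarith [mul_nonneg hη.le (mul_nonneg t0 w0)]
    simp only [hB]
    nlinarith
  · rw [intervalIntegral.integral_sub (Continuous.intervalIntegrable (by fun_prop) _ _)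
      (Continuous.intervalIntegrable (by fun_prop) _ _), intervalIntegral.integral_add
      (Continuous.intervalIntegrable (by fun_prop) _ _) intervalIntegrable_const,
      intervalIntegral.integral_sub (Continuous.intervalIntegrable (by fun_prop) _ _)
      (Continuous.intervalIntegrable (by fun_prop) _ _), intervalIntegral.integral_const_mul,
      intervalIntegral.integral_const_mul, f1, f2, c2_int k b hρ, intervalIntegral.integral_const,
      hP, smul_eq_mul]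
    field_simp
    ring

theorem NCert3.const (hm : 2 ≤ m) (hρ : 0 < ρ) (N : NCert3 m (gam b ρ)) {l : ℝ} (hl : 0 < l) :
    ∃ ε₁ : ℝ, 0 < ε₁ ∧ ∀ (τ : ℝ → ℝ) (ε : ℝ), Cut τ ε → ε ≤ ε₁ →
      ∫ r in (0 : ℝ)..(2 * ρ), τ r *
        (cF b ρ (fun w Q => eps b ρ / hh b ρ * N.Y (eps b ρ * w) (eps b ρ / hh b ρ * Q))
          (fun w Q => gam b ρ * N.R (eps b ρ * w) (eps b ρ / hh b ρ * Q)) r * cω m b ρ r) ≤
        N.x₀ * (2 * sn b ρ) ^ m - N.η * sn b ρ ^ m * Sm m + l := by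
  have hm0 : (0 : ℝ) < m := by exact_mod_cast (by omega : 0 < m)
  have hc : 0 ≤ N.μ / (2 * m) := div_nonneg N.μ_nonneg (by positivity)
  refine const_gen hm hρ (X := fun u p => N.X u p + N.μ / (2 * m)) N.η_pos N.x₀_pos
    ⟨N.derX.1.add contDiffOn_const, fun u p hu =>
      ⟨(N.derX.2 u p hu).1.add_const _, (N.derX.2 u p hu).2.add_const _⟩⟩ N.derY N.derR
    (fun l hl => ?_) (fun u h0 h1 => ?_) hl
  · obtain ⟨u₀, h0, h1⟩ := N.sing (l / 2) (half_pos hl)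
    have ct : Continuous fun u : ℝ => √u ^ m * (N.μ / (2 * m)) := by fun_prop
    have ev := (ct.tendsto 0).eventually_le_const (u := l / 2) (by
      rw [Real.sqrt_zero, zero_pow (by omega), zero_mul]
      exact half_pos hl)
    obtain ⟨δ, δ0, hδ⟩ := Metric.eventually_nhds_iff.1 ev
    refine ⟨min u₀ (δ / 2), by positivity, fun u p hu h2 hp => ?_⟩
    have h3 := abs_le.1 (h1 u p hu (h2.trans (min_le_left _ _)) hp)
    have h4 := hδ (y := u) (by
      rw [Real.dist_eq, sub_zero, abs_of_pos hu]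
      linarith [min_le_right u₀ (δ / 2)])
    have h5 : 0 ≤ √u ^ m * (N.μ / (2 * m)) := by positivity
    rw [mul_add, abs_le]
    constructor <;> linarith [h3.1, h3.2]
  · have h := N.model u h0 h1
    have e : m * (N.μ / (2 * m)) = N.μ / 2 := by field_simp
    linear_combination h + (1 - 2 * u) * e

end Vale.Agent.P219
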