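import Vale.Agent.P219.G.Lin1
import Vale.Agent.P219.Half

/-!
# Generalised domains: basic facts and normalisation  (TASK)

`isCompact_UB`: closed and bounded (`LocMetric.exists_bounds`).  Integrability: continuous functions are bounded on the compact set `UB` (or `UB ×ˢ UB`, `Measure.ae_prod_iff_ae_ae` /
`Measure.prod` of a.e. properties), finite measures.
`exists_norm`: replace `N` by a strongly measurable representative; `a ξ = ad (G (p ξ)) (N ξ)` is integrable (`exists_ad_le`, `continuous_ad`; `a = 0` where `N = 0`);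
`m = (μ.withDensity (ofReal ∘ a)).map (fun ξ => (p ξ, nu (G (p ξ)) (N ξ)))`; measurability of `nu` (continuity of `B.inverse` along `G`: `LocMetric.loc_inv`,
`ContinuousLinearMap.IsInvertible.contDiffAt_map_inverse`, or write `nu = dn⁻¹ • inverse`); `nu_spec`: `N v = dn * G ν v`, `a = dn * wt`;
`integral_map`, `integral_withDensity_eq_integral_smul`.  `A_pos`: `div_wt` with `Z y = y`-type field: `dvg id = finrank`, or directly `div` with `Z = id`.
-/

namespace Vale.Agent.P219

open scoped ContDiff Topology RealInnerProductSpace ENNReal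
open MeasureTheory Set Filter Vale.Agent.P255
open St (sn gmod)

variable {E : Type*} [NormedAddCommGroup E] [InnerProductSpace ℝ E] [FiniteDimensional ℝ E]
  [MeasurableSpace E] [BorelSpace E] {G : E → Bil E} {L : E → E → E} {K : Set E} {m : ℕ} {b : ℝ}
  {X : Type*} [MeasurableSpace X] {μ : Measure X}

omit [FiniteDimensional ℝ E] [MeasurableSpace E] [BorelSpace E] in
theorem norm_contG (hG : LocMetric G univ) : Continuous G :=
  (contDiffOn_univ.1 hG.smooth).continuous

omit [MeasurableSpace E] [BorelSpace E] in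
theorem norm_inv (hG : LocMetric G univ) :
    Continuous fun z : E × (E →L[ℝ] ℝ) => (G z.1).inverse z.2 := by
  have hi : Continuous fun y => (G y).inverse := continuous_iff_continuousAt.2 fun y =>
    ((posB_of_loc hG y).inv.contDiffAt_map_inverse (n := 0)).continuousAt.comp
      (norm_contG hG).continuousAt
  exact (hi.comp continuous_fst).clm_apply continuous_snd

omit [MeasurableSpace E] [BorelSpace E] in
theorem isCompact_UB (hG : LocMetric G univ) (hK : IsCompact K) : IsCompact (UB G K) := by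
  obtain ⟨c, C, hc, -, H⟩ := hG.exists_bounds hK (subset_univ K)
  have h1 : Continuous fun z : E × E => G z.1 z.2 z.2 :=
    (((norm_contG hG).comp continuous_fst).clm_apply continuous_snd).clm_apply continuous_snd
  refine (hK.prod (isCompact_closedBall (0 : E) (1 / √c))).of_isClosed_subset
    ((hK.isClosed.preimage continuous_fst).inter (isClosed_eq h1 continuous_const)) ?_
  rintro z ⟨hz, e⟩
  refine ⟨hz, ?_⟩
  have h2 := (H z.1 hz z.2).1
  have hc' := Real.sqrt_pos.2 hc
  rw [mem_closedBall_zero_iff, le_div_iff₀ hc']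
  refine (sq_le_one_iff₀ (by positivity)).1 ?_
  rw [mul_pow, Real.sq_sqrt hc.le, ← e, mul_comm]
  exact h2

theorem NDom.integrable (hG : LocMetric G univ) (hK : IsCompact K) (D : NDom G K) {f : E × E → ℝ}
    (hf : Continuous f) : Integrable f D.μ := by
  obtain ⟨C, hC⟩ := (isCompact_UB hG hK).exists_bound_of_continuousOn hf.continuousOn
  exact (integrable_const C).mono' hf.aestronglyMeasurable (D.supp.mono fun z hz => hC z hz)

theorem NDom.ae_prod (hG : LocMetric G univ) (hK : IsCompact K) (D : NDom G K) :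
    ∀ᵐ z ∂D.μ.prod D.μ, z.1 ∈ UB G K ∧ z.2 ∈ UB G K :=
  (Measure.quasiMeasurePreserving_fst.ae D.supp).and
    (Measure.quasiMeasurePreserving_snd.ae D.supp)

theorem NDom.integrable_prod (hG : LocMetric G univ) (hK : IsCompact K) (D : NDom G K)
    {f : (E × E) × (E × E) → ℝ} (hf : Continuous f) : Integrable f (D.μ.prod D.μ) := by
  obtain ⟨C, hC⟩ := ((isCompact_UB hG hK).prod (isCompact_UB hG hK)).exists_bound_of_continuousOn
    hf.continuousOn
  exact (integrable_const C).mono' hf.aestronglyMeasurable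
    ((D.ae_prod hG hK).mono fun z hz => hC z hz)

theorem NDom.A_nonneg (D : NDom G K) : 0 ≤ D.A := measureReal_nonneg

theorem NDom.V_nonneg (D : NDom G K) : 0 ≤ D.V := vol_nonneg G D.Ω

theorem NDom.A_pos (hG : LocMetric G univ) (hK : IsCompact K) (hE : Module.finrank ℝ E = m + 1)
    (D : NDom G K) (hV : 0 < D.V) : 0 < D.A := by
  refine D.A_nonneg.lt_of_ne fun h0 => hV.ne' ?_
  have h1 : D.μ = 0 := by
    rw [← Measure.measure_univ_eq_zero]
    exact (measureReal_eq_zero_iff (measure_ne_top _ _)).1 h0.symm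
  have h2 := D.div id contDiff_id
  have h3 : ∀ y : E, dvg id y = m + 1 := fun y => by
    rw [dvg, fderiv_id]
    exact trc_id hE
  rw [h1, integral_zero_measure] at h2
  simp only [h3, integral_const, smul_eq_mul, measureReal_restrict_apply_univ] at h2
  have h4 : (volume : Measure E).real D.Ω = 0 :=
    (mul_eq_zero.1 h2).resolve_right (by positivity)
  have h5 : (volume : Measure E) D.Ω = 0 :=
    (measureReal_eq_zero_iff ((measure_mono D.sub).trans_lt hK.measure_lt_top).ne).1 h4
  exact setIntegral_measure_zero _ h5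

theorem NDom.div_wt (hG : LocMetric G univ) (D : NDom G K) {Z : E → E} (hZ : ContDiff ℝ 1 Z) :
    ∫ y in D.Ω, wt (G y) * trc (covD G Z y) = ∫ z, G z.1 z.2 (Z z.1) ∂D.μ := by
  have h1 := D.div (fun x => wt (G x) • Z x)
    (((contDiff_wt hG).of_le (by exact_mod_cast le_top)).smul hZ)
  simp only [fun y => dvg_wt (y := y) hG (hZ.differentiable one_ne_zero y)] at h1
  rw [h1]
  congr 1
  funext z
  have h2 := (wt_pos (posB_of_loc hG z.1)).ne'
  rw [map_smul, smul_eq_mul]
  field_simp

theorem NDom.IsMin.tight {D : NDom G K} {I : ℝ → ℝ} (h : D.IsMin I) : D.Tight := by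
  intro D' e
  have h1 := h D'
  have h2 : D'.V = D.V := by rw [NDom.V, NDom.V, e]
  rw [h2] at h1
  linarith

theorem exists_empty (G : E → Bil E) (K : Set E) : ∃ D : NDom G K, D.Ω = ∅ ∧ D.μ = 0 :=
  ⟨⟨∅, 0, inferInstance, MeasurableSet.empty, empty_subset K, by simp, fun Z _ => by simp⟩,
    rfl, rfl⟩

theorem exists_norm (hG : LocMetric G univ) (hK : IsCompact K) {p : X → E} {N : X → E →L[ℝ] ℝ}
    (hp : Measurable p) (hN : Integrable N μ) (hm : ∀ᵐ ξ ∂μ, N ξ ≠ 0 → p ξ ∈ K) :
    ∃ ν : Measure (E × E), IsFiniteMeasure ν ∧ ν.real univ = ∫ ξ, ad (G (p ξ)) (N ξ) ∂μ ∧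
      (∀ᵐ z ∂ν, z ∈ UB G K) ∧ ∀ Z : E → E, Continuous Z →
        ∫ ξ, N ξ (Z (p ξ)) ∂μ = ∫ z, G z.1 z.2 (Z z.1) / wt (G z.1) ∂ν := by
  obtain ⟨C, -, H⟩ := exists_ad_le hG hK
  have hpN : AEStronglyMeasurable (fun ξ => (p ξ, N ξ)) μ :=
    hp.aestronglyMeasurable.prodMk hN.aestronglyMeasurable
  have ha : Integrable (fun ξ => ad (G (p ξ)) (N ξ)) μ := by
    refine (hN.norm.const_mul C).mono' ((continuous_ad hG).comp_aestronglyMeasurable hpN)
      (hm.mono fun ξ hξ => ?_)
    rw [Real.norm_of_nonneg (ad_nonneg _ _)]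
    by_cases h0 : N ξ = 0
    · rw [h0, ad_zero, norm_zero, mul_zero]
    · exact (H _ (hξ h0) _).1
  have hi : AEStronglyMeasurable (fun ξ => (G (p ξ)).inverse (N ξ)) μ :=
    (norm_inv hG).comp_aestronglyMeasurable hpN
  have hd : AEStronglyMeasurable (fun ξ => dn (G (p ξ)) (N ξ)) μ :=
    (continuous_snd.clm_apply (norm_inv hG)).sqrt.comp_aestronglyMeasurable hpN
  have hφ : AEMeasurable (fun ξ => (p ξ, nu (G (p ξ)) (N ξ))) μ :=
    hp.aemeasurable.prodMk (hd.aemeasurable.inv.smul hi.aemeasurable)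
  have hφ' := hφ.mono_ac (withDensity_absolutelyContinuous μ
    fun ξ => ENNReal.ofReal (ad (G (p ξ)) (N ξ)))
  have hf := isFiniteMeasure_withDensity_ofReal ha.2
  have key : ∀ f : E × E → ℝ, Continuous f →
      ∫ z, f z ∂(μ.withDensity fun ξ => ENNReal.ofReal (ad (G (p ξ)) (N ξ))).map
        (fun ξ => (p ξ, nu (G (p ξ)) (N ξ))) =
      ∫ ξ, ad (G (p ξ)) (N ξ) * f (p ξ, nu (G (p ξ)) (N ξ)) ∂μ := by
    intro f hf
    rw [integral_map hφ' hf.aestronglyMeasurable, integral_withDensity_eq_integral_toReal_smul₀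
      ha.aemeasurable.ennreal_ofReal (ae_of_all _ fun _ => ENNReal.ofReal_lt_top)]
    simp only [ENNReal.toReal_ofReal (ad_nonneg _ _), smul_eq_mul]
  refine ⟨(μ.withDensity fun ξ => ENNReal.ofReal (ad (G (p ξ)) (N ξ))).map
    (fun ξ => (p ξ, nu (G (p ξ)) (N ξ))), inferInstance, ?_, ?_, ?_⟩
  · have := key (fun _ => 1) continuous_const
    simpa only [integral_const, smul_eq_mul, mul_one] using this
  · refine (ae_map_iff hφ' (p := fun z => z ∈ UB G K) (isCompact_UB hG hK).measurableSet).2 ?_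
    rw [ae_withDensity_iff' ha.aemeasurable.ennreal_ofReal]
    refine hm.mono fun ξ hξ h0 => ?_
    have h1 : N ξ ≠ 0 := fun e => h0 (by rw [e, ad_zero, ENNReal.ofReal_zero])
    exact ⟨hξ h1, (nu_spec (posB_of_loc hG _) h1).2.1⟩
  · intro Z hZ
    have hc : Continuous fun z : E × E => G z.1 z.2 (Z z.1) / wt (G z.1) :=
      ((((norm_contG hG).comp continuous_fst).clm_apply continuous_snd).clm_apply
        (hZ.comp continuous_fst)).div ((contDiff_wt hG).continuous.comp continuous_fst)
        fun z => (wt_pos (posB_of_loc hG z.1)).ne'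
    rw [key _ hc]
    congr 1
    funext ξ
    by_cases h0 : N ξ = 0
    · rw [h0, ad_zero, zero_mul, _root_.zero_apply]
    · have h2 := (wt_pos (posB_of_loc hG (p ξ))).ne'
      rw [(nu_spec (posB_of_loc hG (p ξ)) h0).2.2, ad]
      field_simp

theorem Dom.exists_ndom (hG : LocMetric G univ) (hK : IsCompact K) (D : Dom E μ)
    (h : closure D.Ω ⊆ K) : ∃ D' : NDom G K, D'.Ω = D.Ω ∧ D'.A = D.area G := by
  obtain ⟨ν, h1, h2, h3, h4⟩ := exists_norm hG hK D.p_meas D.N_int
    (ae_of_all _ fun ξ _ => h (frontier_subset_closure (D.p_mem ξ)))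
  exact ⟨⟨D.Ω, ν, h1, D.isOpen.measurableSet, subset_closure.trans h, h3,
    fun Z hZ => (D.div Z hZ).trans (h4 Z hZ.continuous)⟩, rfl, h2⟩

end Vale.Agent.P219
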