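import Vale.Agent.P219.G.Iota
import Vale.Agent.P219.G.Norm

/-!
# Continuity of the two-point functions  (TASK)

Off the diagonal `rr > 0` is continuous (`continuous_rr`, `rr_pos`); `fderiv (L x) y` is jointly continuous (`chg_part`, `ContDiff.continuous_fderiv`, see `continuous_jac`), `contDiff_hs`, `contDiff_wt`.
`cont_cut`: at a point with `rr < α` the product vanishes near the point; at the other points both factors are continuous.  The last three lemmas combine these with
`Der2.continuousOn`, `ww_pos`, `Cut.zero'`.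
-/

namespace Vale.Agent.P219

open scoped ContDiff Topology RealInnerProductSpace ENNReal
open MeasureTheory Set Filter Vale.Agent.P255
open St (sn gmod)

variable {E : Type*} [NormedAddCommGroup E] [InnerProductSpace ℝ E] [FiniteDimensional ℝ E]
  {G : E → Bil E} {L : E → E → E} {m : ℕ} {b : ℝ} {ρ ε : ℝ} {τ : ℝ → ℝ}

/-- Pairs of unit vectors with different base points. -/
def OffD (E : Type*) : Set ((E × E) × (E × E)) := {z | z.1.1 ≠ z.2.1}

theorem Pack.cont_cut (hP : Pack G L) {T : Type*} [TopologicalSpace T] {x y : T → E}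
    (hx : Continuous x) (hy : Continuous y) {F : T → ℝ} (hF : ContinuousOn F {t | x t ≠ y t})
    {f : ℝ → ℝ} (hf : Continuous f) {α : ℝ} (hα : 0 < α) (h0 : ∀ r, r ≤ α → f r = 0) :
    Continuous fun t => f (rr G L (x t) (y t)) * F t := by
  have hr : Continuous fun t => rr G L (x t) (y t) := hP.continuous_rr.comp (hx.prodMk hy)
  refine continuous_iff_continuousAt.2 fun t => ?_
  rcases lt_or_ge (rr G L (x t) (y t)) α with h | h
  · refine (continuousAt_const (y := 0)).congr ?_
    filter_upwards [hr.continuousAt (Iic_mem_nhds h)] with s hs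
    rw [h0 _ hs, zero_mul]
  · exact (hf.comp hr).continuousAt.mul (hF.continuousAt
      ((isOpen_ne_fun hx hy).mem_nhds (hP.ne_of_rr_pos (hα.trans_le h))))

section

variable {T : Type*} [TopologicalSpace T] {x y e ν : T → E}

theorem cont_G (hP : Pack G L) (hx : Continuous x) (he : Continuous e) (hν : Continuous ν) :
    Continuous fun t => G (x t) (e t) (ν t) :=
  (((contDiffOn_univ.1 hP.loc.smooth).continuous.comp hx).clm_apply he).clm_apply hν

theorem cont_L (hP : Pack G L) (hx : Continuous x) (hy : Continuous y) :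
    Continuous fun t => L (x t) (y t) := hP.smooth.continuous.comp (hx.prodMk hy)

theorem cont_r (hP : Pack G L) (hx : Continuous x) (hy : Continuous y) :
    Continuous fun t => rr G L (x t) (y t) := hP.continuous_rr.comp (hx.prodMk hy)

theorem cont_D (hP : Pack G L) (hx : Continuous x) (hy : Continuous y) :
    Continuous fun t => fderiv ℝ (L (x t)) (y t) := by
  have h : ContDiff ℝ 0 fun z : E × E => fderiv ℝ (L z.1) z.2 :=
    ContDiff.fderiv (f := fun z : E × E => L z.1) (m := ∞)
      (hP.smooth.comp (contDiff_fst.fst.prodMk contDiff_snd)) contDiff_snd (by simp)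
  exact h.continuous.comp (hx.prodMk hy)

theorem cont_ne (hP : Pack G L) : ∀ t ∈ {t | x t ≠ y t}, rr G L (x t) (y t) ≠ 0 :=
  fun _ h => (hP.rr_pos (Ne.symm h)).ne'

theorem cont_ca (hP : Pack G L) (hx : Continuous x) (hy : Continuous y) (he : Continuous e) :
    ContinuousOn (fun t => ca G L (x t) (y t) (e t)) {t | x t ≠ y t} :=
  (cont_G hP hx he (cont_L hP hx hy)).neg.continuousOn.div (cont_r hP hx hy).continuousOn
    (cont_ne hP)

theorem cont_ca' (hP : Pack G L) (hx : Continuous x) (hy : Continuous y) (he : Continuous e) :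
    ContinuousOn (fun t => ca G L (y t) (x t) (e t)) {t | x t ≠ y t} :=
  (cont_ca hP hy hx he).mono fun _ h => Ne.symm h

theorem cont_sn (hP : Pack G L) (hx : Continuous x) (hy : Continuous y) :
    Continuous fun t => sn b (rr G L (x t) (y t)) := (contDiff_sn b).continuous.comp (cont_r hP hx hy)

theorem cont_cs (hP : Pack G L) (hx : Continuous x) (hy : Continuous y) :
    Continuous fun t => cs b (rr G L (x t) (y t)) := (contDiff_cs b).continuous.comp (cont_r hP hx hy)

theorem cont_sr (hP : Pack G L) (hx : Continuous x) (hy : Continuous y) :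
    ContinuousOn (fun t => sn b (rr G L (x t) (y t)) / rr G L (x t) (y t)) {t | x t ≠ y t} :=
  (cont_sn hP hx hy).continuousOn.div (cont_r hP hx hy).continuousOn (cont_ne hP)

theorem cont_F (hP : Pack G L) (hx : Continuous x) (hy : Continuous y) {F : ℝ → ℝ → ℝ}
    (hF : ContinuousOn (fun z : ℝ × ℝ => F z.1 z.2) {z | 0 < z.1}) {a : T → ℝ}
    (ha : ContinuousOn a {t | x t ≠ y t}) : ContinuousOn
      (fun t => F (ww b (rr G L (x t) (y t))) (sn b (rr G L (x t) (y t)) * a t)) {t | x t ≠ y t} :=
  hF.comp (((contDiff_ww b).continuous.comp (cont_r hP hx hy)).continuousOn.prodMk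
    ((cont_sn hP hx hy).continuousOn.mul ha)) fun _ h => ww_pos b (hP.rr_pos (Ne.symm h))

theorem cont_Mx (hP : Pack G L) (hx : Continuous x) (hy : Continuous y) (he : Continuous e)
    (hν : Continuous ν) :
    ContinuousOn (fun t => Mx b G L (x t) (y t) (e t) (ν t)) {t | x t ≠ y t} := by
  refine ((((((cont_cs (b := b) hP hx hy).sub (continuous_const (y := 1))).continuousOn.mul
    (cont_ca hP hx hy he)).mul (cont_ca' hP hx hy hν))).sub (((cont_sr (b := b) hP hx hy).mul
      (cont_G hP hx he ((cont_D hP hx hy).clm_apply hν)).continuousOn).sub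
      ((((continuousOn_const (c := 1)).sub (cont_sr (b := b) hP hx hy)).div
        ((cont_r hP hx hy).pow 2).continuousOn fun t h => pow_ne_zero _ (cont_ne hP t h)).mul
        ((cont_G hP hy (cont_L hP hy hx) hν).mul
          (cont_G hP hx he (cont_L hP hx hy))).continuousOn))).congr fun t _ => ?_
  simp [Mx, Cm]

theorem cont_jac (hP : Pack G L) (hx : Continuous x) (hy : Continuous y) :
    Continuous fun t => jac G L (x t) (y t) :=
  ((contDiff_wt hP.loc).continuous.comp hx).mul (hP.continuous_jac.comp (hx.prodMk hy)).abs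

theorem cont_iota (hP : Pack G L) (hx : Continuous x) (hy : Continuous y) :
    ContinuousOn (fun t => iota m b G L (x t) (y t)) {t | x t ≠ y t} :=
  (((cont_sr hP hx hy).pow m).mul (cont_jac hP hx hy).continuousOn).div
    ((contDiff_wt hP.loc).continuous.comp hy).continuousOn
    fun _ _ => (wt_pos (posB_of_loc hP.loc _)).ne'

theorem cont_gain (hP : Pack G L) (hx : Continuous x) (hy : Continuous y) (hν : Continuous ν) :
    ContinuousOn (fun t => gain m b G L (x t) (y t) (ν t)) {t | x t ≠ y t} := by
  have h : Continuous fun t => hs G L (x t) (y t) := hP.contDiff_hs.continuous.comp (hx.prodMk hy)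
  exact (((cont_sr hP hx hy).mul ((continuous_trc.comp h).sub
    (cont_G hP hy (h.clm_apply hν) hν)).continuousOn).add
    (((cont_cs hP hx hy).continuousOn.sub (cont_sr hP hx hy)).mul
      (continuousOn_const.sub ((cont_ca' hP hx hy hν).pow 2)))).sub
    (continuous_const.mul (cont_cs hP hx hy)).continuousOn

end

theorem Pack.continuousOn_ca (hP : Pack G L) :
    ContinuousOn (fun z : (E × E) × E => ca G L z.1.1 z.2 z.1.2) {z | z.1.1 ≠ z.2} :=
  cont_ca hP continuous_fst.fst continuous_snd continuous_fst.snd

theorem Pack.continuousOn_Mx (hP : Pack G L) : ContinuousOn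
    (fun z : (E × E) × (E × E) => Mx b G L z.1.1 z.2.1 z.1.2 z.2.2) (OffD E) :=
  cont_Mx hP continuous_fst.fst continuous_snd.fst continuous_fst.snd continuous_snd.snd

theorem Pack.continuous_jac' (hP : Pack G L) : Continuous fun z : E × E => jac G L z.1 z.2 :=
  cont_jac hP continuous_fst continuous_snd

theorem Pack.continuousOn_iota (hP : Pack G L) :
    ContinuousOn (fun z : E × E => iota m b G L z.1 z.2) {z | z.1 ≠ z.2} :=
  cont_iota hP continuous_fst continuous_snd

theorem Pack.continuousOn_gain (hP : Pack G L) :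
    ContinuousOn (fun z : E × (E × E) => gain m b G L z.1 z.2.1 z.2.2) {z | z.1 ≠ z.2.1} :=
  cont_gain hP continuous_fst continuous_snd.fst continuous_snd.snd

variable [MeasurableSpace E] [BorelSpace E]

theorem Pack.continuous_rayT (hP : Pack G L) (C : Cert m b ρ) (h : Cut τ ε) :
    Continuous fun z : (E × E) × (E × E) => C.rayT G L τ z.1.1 z.1.2 z.2.1 z.2.2 := by
  obtain ⟨α, hα, h0⟩ := h.zero'
  have hx : Continuous fun z : (E × E) × (E × E) => z.1.1 := continuous_fst.fst
  have hy : Continuous fun z : (E × E) × (E × E) => z.2.1 := continuous_snd.fst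
  exact hP.cont_cut hx hy ((cont_iota hP hx hy).mul
    ((cont_F hP hx hy C.derΨ.continuousOn.1 (cont_ca hP hx hy continuous_fst.snd)).mul
      ((cont_sn hP hx hy).continuousOn.mul (cont_ca' hP hx hy continuous_snd.snd))))
    h.smooth.continuous hα fun r hr => (h0 r hr).1

theorem Pack.continuous_varT (hP : Pack G L) (C : Cert m b ρ) (h : Cut τ ε) :
    Continuous fun z : (E × E) × (E × E) => C.varT G L τ z.1.1 z.1.2 z.2.1 z.2.2 := by
  obtain ⟨α, hα, h0⟩ := h.zero'
  have hx : Continuous fun z : (E × E) × (E × E) => z.1.1 := continuous_fst.fst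
  have hy : Continuous fun z : (E × E) × (E × E) => z.2.1 := continuous_snd.fst
  have a1 := cont_ca hP hx hy continuous_fst.snd
  have a2 := cont_ca' hP hx hy continuous_snd.snd
  have s := (cont_sn (b := b) hP hx hy).continuousOn (s := {z | z.1.1 ≠ z.2.1})
  have c := (cont_cs (b := b) hP hx hy).continuousOn (s := {z | z.1.1 ≠ z.2.1})
  obtain ⟨d1, d2, d3⟩ := C.derχ.continuousOn
  exact hP.cont_cut hx hy (((((cont_F hP hx hy d1 a1).mul ((continuousOn_const.mul c).sub
    (continuousOn_const.mul (s.mul a2)))).add ((cont_F hP hx hy d2 a1).mul ((s.pow 2).mul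
      (continuousOn_const.sub (a2.pow 2))))).add ((cont_F hP hx hy d3 a1).mul
        ((c.mul (s.mul a1)).sub ((cont_Mx hP hx hy continuous_fst.snd continuous_snd.snd).mul
          (s.mul a2))))).add ((cont_F hP hx hy d1 a1).mul (cont_gain hP hx hy continuous_snd.snd)))
    h.smooth.continuous hα fun r hr => (h0 r hr).1

theorem Pack.continuous_flxT (hP : Pack G L) (C : Cert m b ρ) (h : Cut τ ε) :
    Continuous fun z : (E × E) × (E × E) => C.flxT G L τ z.1.1 z.1.2 z.2.1 z.2.2 := by
  obtain ⟨α, hα, h0⟩ := h.zero'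
  have hx : Continuous fun z : (E × E) × (E × E) => z.1.1 := continuous_fst.fst
  have hy : Continuous fun z : (E × E) × (E × E) => z.2.1 := continuous_snd.fst
  exact hP.cont_cut hx hy (((cont_F hP hx hy C.derχ.continuousOn.1
    (cont_ca hP hx hy continuous_fst.snd)).mul (cont_sn hP hx hy).continuousOn).mul
      (continuousOn_const.sub ((cont_ca' hP hx hy continuous_snd.snd).pow 2)))
    (h.smooth.continuous_deriv (by simp)) hα fun r hr => (h0 r hr).2

end Vale.Agent.P219
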