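import Vale.Agent.P219.G.Const

/-!
# From normalised certificates to certificates  (TASK)

`ε = eps b ρ`, `k = ε / hh b ρ`, `γ = gam b ρ = ε / h²`.  `χ w P = X (ε w) (k P)`, `χw = ε Xu`, `χP = k Xp`, `Ψ w Q = k Y (ε w) (k Q)`, `Ψw = k ε Yu`, `ΨQ = k² Yq`, the same `η`, `χ₀ = x₀ (2 sn ρ)^m`.
With `u = ε ww r`, `σ = k sn r`: `ct γ u = γ cs r`, `sg2 γ u = σ²` (`cs_eq`, `sn_sq`, `hh_sq`, `cs_sq`), `p = σ a`, `q = σ a'`, normalised `M` is `γ M`;
`γ cB = nB`, `γ cD = k nD`, `hh ww < sn β ↔ u < q`.  `sing`: `sn r * r^(m-1) / √u^m → (2 sn ρ)^m` as `r → 0` (`tendsto_sn_div`, `sn_sq`: `sn² / ww → 2`).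
-/

namespace Vale.Agent.P219

open scoped ContDiff Topology RealInnerProductSpace ENNReal
open MeasureTheory Set Filter Vale.Agent.P255
open St (sn gmod)

variable {m : ℕ} {b ρ : ℝ}

theorem conv_der {F Fu Fp : ℝ → ℝ → ℝ} (h : Der2 F Fu Fp) {ε : ℝ} (hε : 0 < ε) (c k : ℝ) :
    Der2 (fun w P => c * F (ε * w) (k * P)) (fun w P => c * (Fu (ε * w) (k * P) * ε))
      fun w P => c * (Fp (ε * w) (k * P) * k) := by
  refine ⟨contDiffOn_const.mul (h.1.comp (f := fun z : ℝ × ℝ => (ε * z.1, k * z.2))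
    (by fun_prop) fun z hz => mul_pos hε hz), fun u p hu => ⟨?_, ?_⟩⟩
  · have h1 := (h.2 (ε * u) (k * p) (mul_pos hε hu)).1.comp u ((hasDerivAt_id u).const_mul ε)
    rw [mul_one] at h1
    exact h1.const_mul c
  · have h1 := (h.2 (ε * u) (k * p) (mul_pos hε hu)).2.comp p ((hasDerivAt_id p).const_mul k)
    rw [mul_one] at h1
    exact h1.const_mul c

theorem conv_alg (b : ℝ) (hρ : 0 < ρ) : eps b ρ = gam b ρ * hh b ρ ^ 2 ∧
    eps b ρ / hh b ρ = gam b ρ * hh b ρ ∧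
    (1 - 2 * gam b ρ) * eps b ρ = gam b ρ * b ^ 2 ∧ eps b ρ * (2 * sn b ρ) ^ 2 = 2 := by
  have h1 := (sn_pos b hρ).ne'
  have h2 : cs b ρ ≠ 0 := (one_pos.trans_le (one_le_cs b ρ)).ne'
  have h3 := cs_sq b ρ
  unfold eps gam hh
  refine ⟨by field_simp, by field_simp, ?_, by field_simp⟩
  field_simp
  linear_combination h3

theorem conv_sing {x₀ l S : ℝ} (b : ℝ) (n : ℕ) (hl : 0 < l) (hS : 0 < S) {ε u₀ : ℝ}
    (hu : 0 < u₀) : ∃ δ : ℝ, 0 < δ ∧ ∀ r, 0 < r → r ≤ δ → ε * ww b r ≤ u₀ ∧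
      x₀ * S - l ≤ S * (x₀ - l / (2 * S)) / cs b r ^ n := by
  have h1 : ∀ᶠ r in 𝓝 (0 : ℝ), ε * ww b r ≤ u₀ :=
    (((contDiff_ww b).continuous.const_mul ε).tendsto 0).eventually_le_const
      (by rwa [ww_zero, mul_zero])
  have h2 : ∀ᶠ r in 𝓝 (0 : ℝ), x₀ * S - l ≤ S * (x₀ - l / (2 * S)) / cs b r ^ n := by
    refine ((continuous_const.div ((contDiff_cs b).continuous.pow n) fun r =>
      pow_ne_zero n (one_pos.trans_le (one_le_cs b r)).ne').tendsto 0).eventually_const_le ?_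
    have e : S * (x₀ - l / (2 * S)) = x₀ * S - l / 2 := by field_simp
    simp only [Pi.div_apply, Pi.pow_apply, cs_zero, one_pow, div_one, e]
    linarith
  obtain ⟨δ, hδ, h3⟩ := Metric.eventually_nhds_iff.1 (h1.and h2)
  refine ⟨δ / 2, half_pos hδ, fun r h4 h5 => h3 ?_⟩
  rw [Real.dist_eq, sub_zero, abs_of_pos h4]
  linarith

theorem NCert.exists_cert (hm : 2 ≤ m) (hρ : 0 < ρ) (N : NCert m (gam b ρ)) :
    Nonempty (Cert m b ρ) := by
  obtain ⟨a1, a2, a3, a4⟩ := conv_alg b hρ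
  obtain ⟨c1, c2⟩ := N.const hm hρ
  have hγ := (gam_mem b ρ).1
  have hh0 := hh_pos b hρ
  have hS := sn_pos b hρ
  obtain ⟨k, hk⟩ : ∃ k, k = eps b ρ / hh b ρ := ⟨_, rfl⟩
  rw [← hk] at a2 c2
  generalize eps b ρ = ε at *
  have hε : 0 < ε := by rw [a1]; positivity
  have hk0 : 0 < k := by rw [a2]; positivity
  have e1 : ∀ r, ct (gam b ρ) (ε * ww b r) = gam b ρ * cs b r := fun r => by
    rw [ct, cs_eq]; linear_combination ww b r * a3
  have e2 : ∀ r, sg2 (gam b ρ) (ε * ww b r) = (k * sn b r) ^ 2 := fun r => by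
    rw [sg2, mul_pow, sn_sq, a2]
    linear_combination ε * ww b r ^ 2 * a3 + gam b ρ * ww b r * (2 + b ^ 2 * ww b r) * a1
  have e3 : ∀ r a, a ^ 2 ≤ 1 → (k * (sn b r * a)) ^ 2 ≤ sg2 (gam b ρ) (ε * ww b r) := fun r a ha => by
    rw [e2, ← mul_assoc, mul_pow]
    exact mul_le_of_le_one_right (sq_nonneg _) ha
  have e4 : ∀ r, 0 < r → 0 < ε * ww b r := fun r hr => mul_pos hε (ww_pos b hr)
  have e5 : ∀ r, ε * ww b r = k * (hh b ρ * ww b r) := fun r => by rw [a1, a2]; ring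
  have eB : ∀ r a a' M, nB m (gam b ρ) N.X N.Xu N.Xp (ε * ww b r) (k * (sn b r * a))
      (k * (sn b r * a')) (gam b ρ * M) = gam b ρ * cB m b ρ (fun w P => 1 * N.X (ε * w) (k * P))
        (fun w P => 1 * (N.Xu (ε * w) (k * P) * ε)) (fun w P => 1 * (N.Xp (ε * w) (k * P) * k))
        r a a' M := fun r a a' M => by
    rw [nB, cB, e1, e2]
    generalize N.X _ _ = A
    generalize N.Xu _ _ = B
    generalize N.Xp _ _ = C
    rw [a1, a2]
    ring
  have eD : ∀ r β, k * nD m (gam b ρ) N.Y N.Yu N.Yq (ε * ww b r) (k * (sn b r * β)) =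
      gam b ρ * cD m b (fun w P => k * N.Y (ε * w) (k * P))
        (fun w P => k * (N.Yu (ε * w) (k * P) * ε)) (fun w P => k * (N.Yq (ε * w) (k * P) * k))
        r β := fun r β => by
    rw [nD, cD, e1, e2]
    generalize N.Y _ _ = A
    generalize N.Yu _ _ = B
    generalize N.Yq _ _ = C
    rw [a1, a2]
    ring
  refine ⟨⟨_, _, _, _, _, _, N.η, N.x₀ * (2 * sn b ρ) ^ m, N.η_pos, mul_pos N.x₀_pos (by positivity),
    conv_der N.derX hε 1 k, conv_der N.derY hε k k, fun r a hr ha => ?_, fun l hl => ?_,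
    fun r a a' M ι gx gy hr ha ha' hM h0 h1 hx hy hg => ?_, fun r β hr hβ h => ?_,
    fun r β hr hβ h => ?_, fun r β hr hβ h => ?_, fun r β hr hβ h => ?_, c1, c2⟩⟩
  · rw [one_mul]
    exact N.X_nonneg _ _ (e4 r hr) (e3 r a ha)
  · have hT : 0 < (2 * sn b ρ) ^ m := by positivity
    obtain ⟨u₀, hu, h1⟩ := N.sing (l / (2 * (2 * sn b ρ) ^ m)) (by positivity)
    obtain ⟨δ, hδ, h2⟩ := conv_sing (x₀ := N.x₀) (ε := ε) b (m - 1) hl hT hu
    refine ⟨δ, hδ, fun r a hr hr' ha => (h2 r hr hr').2.trans ?_⟩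
    have h3 := (abs_le.1 (h1 _ _ (e4 r hr) (h2 r hr hr').1 (e3 r a ha))).1
    have h4 := N.X_nonneg _ _ (e4 r hr) (e3 r a ha)
    have hs := sn_pos b hr
    have hc := one_pos.trans_le (one_le_cs b r)
    have h5 : 2 * sn b ρ * √(ε * ww b r) ≤ sn b r := by
      refine (pow_le_pow_iff_left₀ (by positivity) hs.le two_ne_zero).1 ?_
      rw [mul_pow, Real.sq_sqrt (e4 r hr).le, sn_sq b r]
      have := mul_nonneg (sq_nonneg b) (sq_nonneg (ww b r))
      linear_combination ww b r * a4 + this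
    have h6 : sn b r ^ m ≤ sn b r * (r ^ (m - 1) * cs b r ^ (m - 1)) := by
      rw [← mul_pow, ← Nat.sub_add_cancel (show 1 ≤ m by omega), pow_succ', Nat.add_sub_cancel]
      exact mul_le_mul_of_nonneg_left (pow_le_pow_left₀ hs.le (sn_le b hr.le) _) hs.le
    have h7 := (pow_le_pow_left₀ (by positivity) h5 m).trans h6
    rw [mul_pow] at h7
    rw [div_le_iff₀ (by positivity), one_mul]
    have h8 := mul_le_mul_of_nonneg_left h7 h4
    have h9 := mul_le_mul_of_nonneg_left h3 hT.le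
    linarith
  · have hσ : 0 < k * sn b r := mul_pos hk0 (sn_pos b hr)
    have h2 := N.main _ _ _ (gam b ρ * M) ι gx gy (e4 r hr) (e3 r a ha) (e3 r a' ha') ?_ h0 h1 hx hy ?_
    · rw [eB, eB] at h2
      refine nonneg_of_mul_nonneg_right ?_ hγ
      linear_combination h2
    · rw [e1, e2]
      have h3 := mul_le_mul_of_nonneg_left hM (sq_nonneg (gam b ρ * (k * sn b r) ^ 2))
      linear_combination h3
    · rw [e2]
      have e : k * (sn b r * a) * (k * (sn b r * a')) / (k * sn b r) ^ 2 = a * a' := by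
        rw [div_eq_iff (pow_pos hσ 2).ne']
        ring
      rwa [e]
  · have h1 := N.ray_pos _ _ (e4 r hr) (e3 r β hβ) (by rw [e5]; exact mul_lt_mul_of_pos_left h hk0)
    have h2 := mul_pos hk0 h1
    rw [eD] at h2
    exact (mul_pos_iff_of_pos_left hγ).1 h2
  · have h1 := N.ray_neg _ _ (e4 r hr) (e3 r β hβ)
      (by rw [e5]; exact mul_le_mul_of_nonneg_left h hk0.le)
    have h2 := mul_nonpos_of_nonneg_of_nonpos hk0.le h1
    rw [eD] at h2
    exact nonpos_of_mul_nonpos_right h2 hγ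
  · exact mul_nonneg hk0.le (N.Y_pos _ _ (e4 r hr) (e3 r β hβ)
      (by rw [e5]; exact mul_le_mul_of_nonneg_left h hk0.le))
  · exact mul_nonpos_of_nonneg_of_nonpos hk0.le (N.Y_neg _ _ (e4 r hr) (e3 r β hβ)
      (mul_nonpos_of_nonneg_of_nonpos hk0.le (mul_nonpos_of_nonneg_of_nonpos (sn_pos b hr).le h)))

end Vale.Agent.P219
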