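import Vale.Agent.P219.G.Const2
import Vale.Agent.P219.G.Conv

/-!
# From normalised certificates to certificates, non-radial flux  (TASK)

As `Conv.lean`, with `T w Q = γ R (ε w) (k Q)`, `Tw = γ ε Ru`, `TQ = γ k Rq`; `k² = ε γ`, `b² γ = (1 - 2γ) ε`; `γ cD2 = k nD2`, `cφ = nφ / k^m` (`√(sg2 γ u) = k sn r`); in `main` take `σ = k sn r` and divide by `γ`.
-/

namespace Vale.Agent.P219

open scoped ContDiff Topology RealInnerProductSpace ENNReal
open MeasureTheory Set Filter Vale.Agent.P255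
open St (sn gmod)

variable {m : ℕ} {b ρ : ℝ}

theorem NCert3.exists_cert (hm : 2 ≤ m) (hρ : 0 < ρ) (N : NCert3 m (gam b ρ)) :
    ∃ C : Cert2 m b ρ, C.Gf = fun r => N.μ * (1 - 2 * min (eps b ρ * ww b r) N.u₁) := by
  obtain ⟨a1, a2, a3, a4⟩ := conv_alg b hρ
  have c2 := fun l : ℝ => N.const (l := l) hm hρ
  have hγ := (gam_mem b ρ).1
  have hh0 := hh_pos b hρ
  have hS := sn_pos b hρ
  obtain ⟨k, hk⟩ : ∃ k, k = eps b ρ / hh b ρ := ⟨_, rfl⟩
  rw [← hk] at a2 c2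
  generalize eps b ρ = ε at *
  have hε : 0 < ε := by rw [a1]; positivity
  have hk0 : 0 < k := by rw [a2]; positivity
  have e1 : ∀ r, ct (gam b ρ) (ε * ww b r) = gam b ρ * cs b r := fun r => by
    rw [ct, cs_eq]; linear_combination ww b r * a3
  have e2 : ∀ r, sg2 (gam b ρ) (ε * ww b r) = (k * sn b r) ^ 2 := fun r => by
    rw [sg2, mul_pow, sn_sq, a2]
    linear_combination ε * ww b r ^ 2 * a3 + gam b ρ * ww b r * (2 + b ^ 2 * ww b r) * a1
  have e3 : ∀ r a, a ^ 2 ≤ 1 → (k * (sn b r * a)) ^ 2 ≤ sg2 (gam b ρ) (ε * ww b r) := fun r a ha => by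
    rw [e2, ← mul_assoc, mul_pow]
    exact mul_le_of_le_one_right (sq_nonneg _) ha
  have e4 : ∀ r, 0 < r → 0 < ε * ww b r := fun r hr => mul_pos hε (ww_pos b hr)
  have e5 : ∀ r, ε * ww b r = k * (hh b ρ * ww b r) := fun r => by rw [a1, a2]; ring
  have eB : ∀ r a a' M, nB m (gam b ρ) N.X N.Xu N.Xp (ε * ww b r) (k * (sn b r * a))
      (k * (sn b r * a')) (gam b ρ * M) = gam b ρ * cB m b ρ (fun w P => 1 * N.X (ε * w) (k * P))
        (fun w P => 1 * (N.Xu (ε * w) (k * P) * ε)) (fun w P => 1 * (N.Xp (ε * w) (k * P) * k))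
        r a a' M := fun r a a' M => by
    rw [nB, cB, e1, e2]
    generalize N.X _ _ = A
    generalize N.Xu _ _ = B
    generalize N.Xp _ _ = C
    rw [a1, a2]
    ring
  have eD : ∀ r β, k * nD m (gam b ρ) N.Y N.Yu N.Yq (ε * ww b r) (k * (sn b r * β)) =
      gam b ρ * cD m b (fun w P => k * N.Y (ε * w) (k * P))
        (fun w P => k * (N.Yu (ε * w) (k * P) * ε)) (fun w P => k * (N.Yq (ε * w) (k * P) * k))
        r β := fun r β => by
    rw [nD, cD, e1, e2]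
    generalize N.Y _ _ = A
    generalize N.Yu _ _ = B
    generalize N.Yq _ _ = C
    rw [a1, a2]
    ring
  have a5 : k ^ 2 = ε * gam b ρ := by rw [a1, a2]; ring
  have eD2 : ∀ r β, k * nD2 m (gam b ρ) N.Y N.Yu N.Yq N.R N.Ru N.Rq (ε * ww b r)
      (k * (sn b r * β)) = gam b ρ * cD2 m b (fun w P => k * N.Y (ε * w) (k * P))
        (fun w P => k * (N.Yu (ε * w) (k * P) * ε)) (fun w P => k * (N.Yq (ε * w) (k * P) * k))
        (fun w P => gam b ρ * N.R (ε * w) (k * P))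
        (fun w P => gam b ρ * (N.Ru (ε * w) (k * P) * ε))
        (fun w P => gam b ρ * (N.Rq (ε * w) (k * P) * k)) r β := fun r β => by
    have h := eD r β
    rw [nD2, cD2, e1]
    generalize N.R _ _ = A
    generalize N.Ru _ _ = B
    generalize N.Rq _ _ = C
    generalize sn b r * β = Q at *
    linear_combination h + ((m + 1) * Q * A + k * Q ^ 2 * C) * gam b ρ * a3 +
      ((m + 1) * (1 - 2 * gam b ρ) * Q * A + gam b ρ * cs b r * Q * B +
        (1 - 2 * gam b ρ) * k * Q ^ 2 * C) * a5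
  have eφ : ∀ r β, 0 < r → nφ m (gam b ρ) N.Y N.R (ε * ww b r) (k * (sn b r * β)) =
      k ^ m * cφ m b (fun w P => k * N.Y (ε * w) (k * P))
        (fun w P => gam b ρ * N.R (ε * w) (k * P)) r β := fun r β hr => by
    obtain ⟨n, rfl⟩ : ∃ n, m = n + 1 := ⟨m - 1, by omega⟩
    rw [nφ, cφ, e1, e2, Real.sqrt_sq (mul_pos hk0 (sn_pos b hr)).le, Nat.add_sub_cancel]
    ring
  have cw := (contDiff_ww b).continuous
  refine ⟨⟨_, _, _, _, _, _, _, _, _, N.η, N.x₀ * (2 * sn b ρ) ^ m,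
    fun r => N.μ * (1 - 2 * min (ε * ww b r) N.u₁), by fun_prop, N.η_pos,
    mul_pos N.x₀_pos (by positivity), conv_der N.derX hε 1 k, conv_der N.derY hε k k,
    conv_der N.derR hε (gam b ρ) k, fun r a hr ha => ?_, fun l hl => ?_,
    fun r a a' W W₂ ι gx gy hr hF => ?_, fun r β hr hβ h => ?_, fun r β hr hβ h => ?_, ?_, c2⟩,
    rfl⟩
  · rw [one_mul]
    exact N.X_nonneg _ _ (e4 r hr) (e3 r a ha)
  · have hT : 0 < (2 * sn b ρ) ^ m := by positivity
    obtain ⟨u₀, hu, h1⟩ := N.sing (l / (2 * (2 * sn b ρ) ^ m)) (by positivity)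
    obtain ⟨δ, hδ, h2⟩ := conv_sing (x₀ := N.x₀) (ε := ε) b (m - 1) hl hT hu
    refine ⟨δ, hδ, fun r a hr hr' ha => (h2 r hr hr').2.trans ?_⟩
    have h3 := (abs_le.1 (h1 _ _ (e4 r hr) (h2 r hr hr').1 (e3 r a ha))).1
    have h4 := N.X_nonneg _ _ (e4 r hr) (e3 r a ha)
    have hs := sn_pos b hr
    have hc := one_pos.trans_le (one_le_cs b r)
    have h5 : 2 * sn b ρ * √(ε * ww b r) ≤ sn b r := by
      refine (pow_le_pow_iff_left₀ (by positivity) hs.le two_ne_zero).1 ?_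
      rw [mul_pow, Real.sq_sqrt (e4 r hr).le, sn_sq b r]
      have := mul_nonneg (sq_nonneg b) (sq_nonneg (ww b r))
      linear_combination ww b r * a4 + this
    have h6 : sn b r ^ m ≤ sn b r * (r ^ (m - 1) * cs b r ^ (m - 1)) := by
      rw [← mul_pow, ← Nat.sub_add_cancel (show 1 ≤ m by omega), pow_succ', Nat.add_sub_cancel]
      exact mul_le_mul_of_nonneg_left (pow_le_pow_left₀ hs.le (sn_le b hr.le) _) hs.le
    have h7 := (pow_le_pow_left₀ (by positivity) h5 m).trans h6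
    rw [mul_pow] at h7
    rw [div_le_iff₀ (by positivity), one_mul]
    have h8 := mul_le_mul_of_nonneg_left h7 h4
    have h9 := mul_le_mul_of_nonneg_left h3 hT.le
    linarith
  · have h2 := N.main _ _ a a' W W₂ ι gx gy (e4 r hr) (mul_pos hk0 (sn_pos b hr)) (e2 r).symm hF
    have e : gam b ρ * cs b r * a * a' - gam b ρ * W = gam b ρ * (cs b r * a * a' - W) := by ring
    rw [e1, e, mul_assoc k, mul_assoc k, eB, eB] at h2
    refine nonneg_of_mul_nonneg_right ?_ hγ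
    linear_combination h2
  · have h1 := N.ray_pos _ _ (e4 r hr) (e3 r β hβ) (by rw [e5]; exact mul_lt_mul_of_pos_left h hk0)
    have h2 := mul_pos hk0 h1
    rw [eD2] at h2
    exact (mul_pos_iff_of_pos_left hγ).1 h2
  · have h1 := N.ray_neg _ _ (e4 r hr) (e3 r β hβ)
      (by rw [e5]; exact mul_le_mul_of_nonneg_left h hk0.le)
    have h2 := mul_nonpos_of_nonneg_of_nonpos hk0.le h1
    rw [eD2] at h2
    exact nonpos_of_mul_nonpos_right h2 hγ
  · obtain ⟨B, hB⟩ := N.near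
    have hK : 0 < k ^ m := pow_pos hk0 m
    refine ⟨B / k ^ m, fun l hl => ?_⟩
    obtain ⟨u₀, hu, h1⟩ := hB (k ^ m * l) (mul_pos hK hl)
    obtain ⟨δ, hδ, h2⟩ := conv_sing (x₀ := 0) (ε := ε) b 0 hl one_pos hu
    refine ⟨δ, hδ, fun r β hr hr' hβ => ?_⟩
    obtain ⟨h3, h4, h5⟩ := h1 _ _ (e4 r hr) (h2 r hr hr').1 (e3 r β hβ)
    have hs := sn_pos b hr
    rw [eφ r β hr] at h3 h4 h5
    rw [abs_mul, abs_of_pos hK] at h3
    refine ⟨(le_div_iff₀' hK).2 h3, fun h => le_of_mul_le_mul_left ?_ hK,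
      fun h => le_of_mul_le_mul_left (h5 ?_) hK⟩
    · rw [mul_neg]
      exact h4 (by positivity)
    · exact mul_nonpos_of_nonneg_of_nonpos hk0.le (mul_nonpos_of_nonneg_of_nonpos hs.le h)

end Vale.Agent.P219
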