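import Vale.Agent.P219.G.Field

/-!
# The certificate integrated over pairs

`core_pt`: for `x = y` every term vanishes (`τ 0 = 0`, `Cut.zero'`, `rr_self`); otherwise `τ r ≥ 0` times `C.main` with `r = rr x y`, `a = ca x y e`, `a' = ca y x ν`, `M = Mx x y e ν`, `ι = iota x y`,
`gx = gain y x e`, `gy = gain x y ν` (`rr_symm`, `Mx_symm`, `iota_symm`, `ca_sq_le`, `Mx_bound`, `iota_le_one`, `gain_nonneg`, `gain_mul`).
`core_sum`: integrate `core_pt` over `μ.prod μ` (`ae_prod`, `integrable_prod`, `integral_prod_swap`, `τ ≤ 1`, `measureReal_prod_prod` or `integral_const`) and `pair_var` over `(x, e)` (`integral_prod`).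
-/

namespace Vale.Agent.P219

open scoped ContDiff Topology RealInnerProductSpace ENNReal
open MeasureTheory Set Filter Vale.Agent.P255
open St (sn gmod)

variable {E : Type*} [NormedAddCommGroup E] [InnerProductSpace ℝ E] [FiniteDimensional ℝ E]
  [MeasurableSpace E] [BorelSpace E] {G : E → Bil E} {L : E → E → E} {K : Set E} {m : ℕ} {b : ℝ}
  {ρ ε c H : ℝ} {τ : ℝ → ℝ}

theorem core1_gen0 (hG : LocMetric G univ) (hK : IsCompact K) (D : NDom G K)
    {v f g t : (E × E) × (E × E) → ℝ} (hv : Continuous v) (hf : Continuous f) (hg : Continuous g)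
    (ht : Continuous t) {η : ℝ} (hη : 0 ≤ η) (h2 : ∫ z, t z ∂D.μ.prod D.μ ≤ D.A ^ 2)
    (hpt : ∀ z : (E × E) × (E × E), z.1 ∈ UB G K → z.2 ∈ UB G K →
      0 ≤ v z + v z.swap + 2 * η * t z + g z.swap + g z)
    (hvar : ∀ x ∈ UB G K, ∫ z, (v (x, z) + f (x, z)) ∂D.μ ≤ 0) :
    ∫ z, f z ∂D.μ.prod D.μ ≤ η * D.A ^ 2 + ∫ z, g z ∂D.μ.prod D.μ := by
  have iv := D.integrable_prod hG hK hv
  have i2 := D.integrable_prod hG hK (hv.comp continuous_swap)
  have i3 := D.integrable_prod hG hK ht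
  have i4 := D.integrable_prod hG hK (hg.comp continuous_swap)
  have i5 := D.integrable_prod hG hK hg
  have i6 := D.integrable_prod hG hK hf
  have h1 : 0 ≤ ∫ z, (v z + v z.swap + 2 * η * t z + g z.swap + g z) ∂D.μ.prod D.μ :=
    integral_nonneg_of_ae ((D.ae_prod hG hK).mono fun z hz => hpt z hz.1 hz.2)
  have i7 : Integrable (fun z => v z + v z.swap) (D.μ.prod D.μ) := iv.add i2
  have i8 : Integrable (fun z => v z + v z.swap + 2 * η * t z) (D.μ.prod D.μ) :=
    i7.add (i3.const_mul _)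
  have i9 : Integrable (fun z => v z + v z.swap + 2 * η * t z + g z.swap) (D.μ.prod D.μ) :=
    i8.add i4
  have i2' : Integrable (fun z : (E × E) × (E × E) => v z.swap) (D.μ.prod D.μ) := i2
  have i4' : Integrable (fun z : (E × E) × (E × E) => g z.swap) (D.μ.prod D.μ) := i4
  rw [integral_add i9 i5, integral_add i8 i4', integral_add i7 (i3.const_mul _),
    integral_add iv i2', integral_const_mul, integral_prod_swap v, integral_prod_swap g] at h1
  have h3 : ∫ z, (v z + f z) ∂D.μ.prod D.μ ≤ 0 := by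
    rw [integral_prod (fun z => v z + f z) (iv.add i6)]
    exact integral_nonpos_of_ae (D.supp.mono fun x hx => hvar x hx)
  rw [integral_add iv i6] at h3
  nlinarith [mul_le_mul_of_nonneg_left h2 hη]

theorem core1_one (D : NDom G K) : ∫ _, (1 : ℝ) ∂D.μ.prod D.μ = D.A ^ 2 := by
  rw [integral_const, ← univ_prod_univ, measureReal_prod_prod, smul_eq_mul, mul_one, sq]
  rfl

theorem core1_gen (hG : LocMetric G univ) (hK : IsCompact K) (D : NDom G K)
    {v f g t : (E × E) × (E × E) → ℝ} (hv : Continuous v) (hf : Continuous f) (hg : Continuous g)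
    (ht : Continuous t) {η : ℝ} (hη : 0 ≤ η) (ht1 : ∀ z, t z ≤ 1)
    (hpt : ∀ z : (E × E) × (E × E), z.1 ∈ UB G K → z.2 ∈ UB G K →
      0 ≤ v z + v z.swap + 2 * η * t z + g z.swap + g z)
    (hvar : ∀ x ∈ UB G K, ∫ z, (v (x, z) + f (x, z)) ∂D.μ ≤ 0) :
    ∫ z, f z ∂D.μ.prod D.μ ≤ η * D.A ^ 2 + ∫ z, g z ∂D.μ.prod D.μ :=
  core1_gen0 hG hK D hv hf hg ht hη
    ((integral_mono (D.integrable_prod hG hK ht) (integrable_const 1) ht1).trans_eq (core1_one D))
    hpt hvar

theorem PackK.core_pt (hE : Module.finrank ℝ E = m + 1) (hP : PackK b G L) (C : Cert m b ρ)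
    (hτ : Cut τ ε) {x e y ν : E} (he : G x e e = 1) (hν : G y ν ν = 1) :
    0 ≤ C.varT G L τ x e y ν + C.varT G L τ y ν x e + 2 * C.η * τ (rr G L x y) +
      C.rayT G L τ y ν x e + C.rayT G L τ x e y ν := by
  obtain ⟨α, hα, h0⟩ := hτ.zero'
  by_cases hxy : x = y
  · subst hxy
    have h1 : τ (rr G L x x) = 0 := by
      rw [hP.toPack.rr_self]
      exact (h0 0 hα.le).1
    simp [Cert.varT, Cert.rayT, h1]
  have key := C.main (rr G L x y) (ca G L x y e) (ca G L y x ν) (Mx b G L x y e ν)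
    (iota m b G L x y) (gain m b G L y x e) (gain m b G L x y ν) (hP.toPack.rr_pos (Ne.symm hxy))
    (he ▸ hP.toPack.ca_sq_le x y e) (hν ▸ hP.toPack.ca_sq_le y x ν) (hP.Mx_bound hxy he hν)
    (hP.toPack.iota_nonneg x y) (hP.iota_le_one hE hxy) (hP.gain_nonneg hE (Ne.symm hxy) he)
    (hP.gain_nonneg hE hxy hν) (hP.gain_mul hE hxy he hν)
  have h2 := mul_nonneg (hτ.nonneg (rr G L x y)).1 key
  simp only [Cert.varT, Cert.rayT]
  rw [hP.toPack.rr_symm y x, ← hP.toPack.Mx_symm x y e ν, hP.toPack.iota_symm y x]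
  linarith

theorem PackK.core_sum (hE : Module.finrank ℝ E = m + 1) (hP : PackK b G L) (C : Cert m b ρ)
    {D : NDom G (KB G L c)} (hD : NDom.Stat L c D (m * hh b ρ)) (hτ : Cut τ ε) :
    ∫ z, C.flxT G L τ z.1.1 z.1.2 z.2.1 z.2.2 ∂D.μ.prod D.μ ≤
      C.η * D.A ^ 2 + ∫ z, C.rayT G L τ z.1.1 z.1.2 z.2.1 z.2.2 ∂D.μ.prod D.μ :=
  core1_gen hP.loc (hP.toPack.isCompact_KB c) D (hP.toPack.continuous_varT C hτ)
    (hP.toPack.continuous_flxT C hτ) (hP.toPack.continuous_rayT C hτ)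
    (t := fun z => τ (rr G L z.1.1 z.2.1))
    (hτ.smooth.continuous.comp (cont_r hP.toPack continuous_fst.fst continuous_snd.fst))
    C.η_pos.le (fun _ => (hτ.nonneg _).2.1) (fun _ h1 h2 => hP.core_pt hE C hτ h1.2 h2.2)
    fun x hx => hP.toPack.pair_var hE C hD hτ (x := x.1) (e := x.2) hx

end Vale.Agent.P219
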