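import Vale.Agent.P219.G.Field

/-!
# Almost tangential chords dominate at small scales  (TASK)

For a cut-off `τ` (`exists_cut`) apply `radial_var` to `f r = τ r / r^k` (of class `C²`, since `τ` vanishes near `0`).  `k = m - 1`: the left integrand is at least `τ r / r^k` and the right one at most
`|H| τ r / r^k * r`; as `1 - |H| r ≥ 1/2` for small `r` and everything is bounded for the other `r ≤ R` (compactness), `∫ τ r / r^(m-1) ≤ C` uniformly in `τ` and `x`.  `k = m`:
`m ∫ τ b² / r^m ≤ |H| ∫ τ / r^(m-1) ≤ |H| C`.  With `τ = 1` on `[1/j, ∞)`, monotone convergence (`lintegral_iSup`, or Fatou) shows that `w z = b² / r^m` (zero on the diagonal) has finite integral over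
`μ.prod μ` (Tonelli, measurability of `ca`, `rr`: quotients of continuous functions).  The sets `{0 < r ≤ 1/j}` decrease to `∅`, so the integral of `w` over them tends to `0`
(`tendsto_measure_iInter_atTop` for `withDensity`, or dominated convergence).
-/

namespace Vale.Agent.P219

open scoped ContDiff Topology RealInnerProductSpace ENNReal
open MeasureTheory Set Filter Vale.Agent.P255
open St (sn gmod)

variable {E : Type*} [NormedAddCommGroup E] [InnerProductSpace ℝ E] [FiniteDimensional ℝ E]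
  [MeasurableSpace E] [BorelSpace E] {G : E → Bil E} {L : E → E → E} {K : Set E} {m : ℕ} {b : ℝ}
  {ρ ε c H : ℝ} {τ : ℝ → ℝ}

theorem fin_smooth (hτ : Cut τ ε) (k : ℕ) : ContDiff ℝ 2 fun r => τ r / r ^ k := by
  obtain ⟨α, hα, h0⟩ := hτ.zero
  refine contDiff_iff_contDiffAt.2 fun r => ?_
  rcases lt_or_ge r α with h | h
  · refine (contDiffAt_const (c := (0 : ℝ))).congr_of_eventuallyEq ?_
    filter_upwards [Iio_mem_nhds h] with t ht
    rw [h0 t (le_of_lt ht), zero_div]
  · exact hτ.smooth.contDiffAt.div (contDiffAt_id.pow k) (pow_ne_zero k (hα.trans_le h).ne')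

theorem fin_nonneg (hτ : Cut τ ε) (k : ℕ) (r : ℝ) : 0 ≤ τ r / r ^ k := by
  obtain ⟨α, hα, h0⟩ := hτ.zero
  rcases le_or_gt r α with h | h
  · rw [h0 r h, zero_div]
  · exact div_nonneg (hτ.nonneg r).1 (pow_pos (hα.trans h) k).le

theorem fin_deriv (hτ : Cut τ ε) (k : ℕ) {r : ℝ} (hr : 0 ≤ r) :
    -(k * (τ r / r ^ k)) ≤ deriv (fun r => τ r / r ^ k) r * r := by
  obtain ⟨α, hα, h0⟩ := hτ.zero
  rcases hr.eq_or_lt with rfl | h
  · simp [h0 0 hα.le]
  · have h1 : HasDerivAt τ (deriv τ r) r :=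
      (hτ.smooth.differentiable (by norm_num) r).hasDerivAt
    rw [(h1.fun_div (hasDerivAt_pow k r) (pow_ne_zero k h.ne')).deriv]
    have e : (deriv τ r * r ^ k - τ r * (k * r ^ (k - 1))) / (r ^ k) ^ 2 * r =
        deriv τ r * r / r ^ k - k * (τ r / r ^ k) := by
      rcases k with _ | k
      · simp
      · rw [Nat.add_sub_cancel]
        field_simp
        ring
    rw [e]
    have := div_nonneg (mul_nonneg (hτ.nonneg r).2.2.1 hr) (pow_pos h k).le
    linarith

theorem fin_var (hE : Module.finrank ℝ E = m + 1) (hP : Pack G L)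
    {D : NDom G (KB G L c)} (hD : NDom.Stat L c D H) {x : E} (hx : x ∈ KB G L c) (hτ : Cut τ ε)
    (k : ℕ) :
    ∫ z, τ (rr G L x z.1) / rr G L x z.1 ^ k * (m - k + k * ca G L z.1 x z.2 ^ 2) ∂D.μ ≤
      |H| * ∫ z, τ (rr G L x z.1) / rr G L x z.1 ^ k * rr G L x z.1 ∂D.μ := by
  obtain ⟨α, hα, h0⟩ := hτ.zero
  have hK := hP.isCompact_KB c
  have hf := fin_smooth hτ k
  have hn := fin_nonneg hτ k
  have hd := fun r => fin_deriv hτ k (r := r)
  have hz : ∀ r, r ≤ α → τ r / r ^ k = 0 := fun r hr => by rw [h0 r hr, zero_div]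
  change ∫ z, (fun r => τ r / r ^ k) (rr G L x z.1) * _ ∂D.μ ≤
    _ * ∫ z, (fun r => τ r / r ^ k) (rr G L x z.1) * _ ∂D.μ
  change ∀ r, 0 ≤ (fun r => τ r / r ^ k) r at hn
  change ∀ r, r ≤ α → (fun r => τ r / r ^ k) r = 0 at hz
  change ∀ r, 0 ≤ r → -(k * (fun r => τ r / r ^ k) r) ≤ _ at hd
  generalize (fun r => τ r / r ^ k) = f at hf hn hd hz
  have hr : Continuous fun z : E × E => rr G L x z.1 := cont_r hP continuous_const continuous_fst
  have ha : ContinuousOn (fun z : E × E => ca G L z.1 x z.2) {z | x ≠ z.1} :=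
    cont_ca' hP continuous_const continuous_fst continuous_snd
  have hz' : ∀ r, r ≤ α / 2 → deriv f r * r = 0 := fun r h => by
    have : f =ᶠ[𝓝 r] fun _ => 0 := by
      filter_upwards [Iio_mem_nhds (show r < α by linarith)] with t ht
      exact hz t (le_of_lt ht)
    rw [this.deriv_eq, deriv_const, zero_mul]
  have i1 := D.integrable hP.loc hK (hP.cont_cut continuous_const continuous_fst
    (continuousOn_const.add (continuousOn_const.mul (ha.pow 2)) :
      ContinuousOn (fun z : E × E => (m - k : ℝ) + k * ca G L z.1 x z.2 ^ 2) _)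
    hf.continuous hα hz)
  have i2 := D.integrable hP.loc hK (((hf.continuous.comp hr).mul (continuous_const (y := (m : ℝ)))).add
    (hP.cont_cut continuous_const continuous_fst (continuousOn_const.sub (ha.pow 2) :
      ContinuousOn (fun z : E × E => 1 - ca G L z.1 x z.2 ^ 2) _)
      ((hf.continuous_deriv (by norm_num)).mul continuous_id) (half_pos hα) hz'))
  have i3 := D.integrable hP.loc hK (hP.cont_cut continuous_const continuous_fst ha
    (hf.continuous.mul continuous_id) hα fun r h => by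
      rw [Pi.mul_apply, hz r h, zero_mul])
  have i4 := D.integrable hP.loc hK ((hf.continuous.comp hr).mul hr)
  have hs : ∀ᵐ z ∂D.μ, ca G L z.1 x z.2 ^ 2 ≤ 1 :=
    D.supp.mono fun z h => (hP.ca_sq_le _ _ _).trans_eq h.2
  refine (integral_mono_ae i1 i2 (hs.mono fun z h => ?_)).trans
    ((hP.radial_var hE hD hx hf hn hα hz).trans ?_)
  · have h1 := mul_le_mul_of_nonneg_right (hd _ (rr_nonneg G L x z.1)) (sub_nonneg.2 h)
    simp only [Pi.add_apply, Pi.mul_apply, Pi.sub_apply, Function.comp_apply, id]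
    linarith
  · refine (le_abs_self _).trans ?_
    rw [abs_mul]
    refine mul_le_mul_of_nonneg_left ((abs_integral_le_integral_abs).trans
      (integral_mono_ae i3.abs i4 (hs.mono fun z h => ?_))) (abs_nonneg H)
    have h1 := mul_nonneg (hn (rr G L x z.1)) (rr_nonneg G L x z.1)
    simp only
    rw [abs_mul, abs_of_nonneg h1]
    exact mul_le_of_le_one_right h1 ((sq_le_one_iff_abs_le_one _).1 h)

theorem fin_pt {h R t r : ℝ} (hh : 0 ≤ h) (ht : t ≤ 1) (h0 : 0 ≤ r) (hr : r ≤ R) (k : ℕ)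
    (hn : 0 ≤ t / r ^ k) : h * (t / r ^ k * r) ≤ t / r ^ k / 2 + h * R * (2 * (h + 1)) ^ k := by
  have hR := h0.trans hr
  rcases le_or_gt (2 * (h + 1) * r) 1 with h1 | h1
  · have h2 : h * r ≤ 1 / 2 := by nlinarith
    have h3 := mul_le_mul_of_nonneg_left h2 hn
    have h4 : 0 ≤ h * R * (2 * (h + 1)) ^ k := by positivity
    linarith
  · have r0 : 0 < r := by
      refine h0.lt_of_ne fun e => ?_
      rw [← e] at h1
      linarith
    have h2 : t / r ^ k ≤ (2 * (h + 1)) ^ k := by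
      rw [div_le_iff₀ (pow_pos r0 k), ← mul_pow]
      exact ht.trans (one_le_pow₀ h1.le)
    have h3 := mul_le_mul_of_nonneg_left (mul_le_mul h2 hr h0 (by positivity)) hh
    linarith

theorem fin_unif (hE : Module.finrank ℝ E = m + 1) (hm : 1 ≤ m) (hP : Pack G L)
    {D : NDom G (KB G L c)} (hD : NDom.Stat L c D H) : ∃ C : ℝ, ∀ (τ : ℝ → ℝ) (ε : ℝ), Cut τ ε →
      ∀ x ∈ KB G L c,
        ∫ z, τ (rr G L x z.1) / rr G L x z.1 ^ m * ca G L z.1 x z.2 ^ 2 ∂D.μ ≤ C := by
  obtain ⟨k, rfl⟩ : ∃ k, m = k + 1 := ⟨m - 1, by omega⟩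
  have hK := hP.isCompact_KB c
  refine ⟨|H| * (2 * (|H| * (2 * √c) * (2 * (|H| + 1)) ^ k * D.A)), fun τ ε hτ x hx => ?_⟩
  obtain ⟨α, hα, h0⟩ := hτ.zero
  have hr : Continuous fun z : E × E => rr G L x z.1 := cont_r hP continuous_const continuous_fst
  have ha : ContinuousOn (fun z : E × E => ca G L z.1 x z.2) {z | x ≠ z.1} :=
    cont_ca' hP continuous_const continuous_fst continuous_snd
  have hz : ∀ j : ℕ, ∀ r, r ≤ α → τ r / r ^ j = 0 := fun j r hr => by rw [h0 r hr, zero_div]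
  have i1 : Integrable (fun z : E × E => τ (rr G L x z.1) / rr G L x z.1 ^ k) D.μ :=
    D.integrable hP.loc hK ((fin_smooth hτ k).continuous.comp hr)
  have i2 : Integrable (fun z : E × E => τ (rr G L x z.1) / rr G L x z.1 ^ k *
      (((k + 1 : ℕ) : ℝ) - k + k * ca G L z.1 x z.2 ^ 2)) D.μ :=
    D.integrable hP.loc hK (hP.cont_cut continuous_const continuous_fst
      (continuousOn_const.add (continuousOn_const.mul (ha.pow 2)))
      (fin_smooth hτ k).continuous hα (hz k))
  have i3 : Integrable (fun z : E × E =>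
      |H| * (τ (rr G L x z.1) / rr G L x z.1 ^ k * rr G L x z.1)) D.μ :=
    (D.integrable hP.loc hK (((fin_smooth hτ k).continuous.comp hr).mul hr)).const_mul _
  have i4 : Integrable (fun z : E × E => τ (rr G L x z.1) / rr G L x z.1 ^ (k + 1) *
      ca G L z.1 x z.2 ^ 2) D.μ :=
    D.integrable hP.loc hK (hP.cont_cut continuous_const continuous_fst (ha.pow 2)
      (fin_smooth hτ _).continuous hα (hz _))
  have a1 : ∫ z, τ (rr G L x z.1) / rr G L x z.1 ^ k ∂D.μ ≤
      (∫ z, τ (rr G L x z.1) / rr G L x z.1 ^ k ∂D.μ) / 2 +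
        |H| * (2 * √c) * (2 * (|H| + 1)) ^ k * D.A := by
    refine (integral_mono i1 i2 fun z => ?_).trans ((fin_var hE hP hD hx hτ k).trans ?_)
    · refine le_mul_of_one_le_right (fin_nonneg hτ k _) ?_
      have : (0 : ℝ) ≤ k * ca G L z.1 x z.2 ^ 2 := by positivity
      push_cast
      linarith
    · rw [← integral_const_mul]
      refine (integral_mono_ae i3 ((i1.div_const 2).add (integrable_const
        (|H| * (2 * √c) * (2 * (|H| + 1)) ^ k))) (D.supp.mono fun z h => ?_)).trans (le_of_eq ?_)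
      · refine fin_pt (abs_nonneg H) (hτ.nonneg _).2.1 (rr_nonneg G L _ _) ?_ k (fin_nonneg hτ k _)
        have b1 := hP.triangle x 0 z.1
        have b2 : rr G L x 0 ≤ √c := Real.sqrt_le_sqrt hx
        have b3 : rr G L z.1 0 ≤ √c := Real.sqrt_le_sqrt h.1
        rw [hP.rr_symm 0] at b1
        linarith
      · rw [integral_add' (i1.div_const 2) (integrable_const _), integral_div, integral_const,
          smul_eq_mul, mul_comm (D.μ.real univ)]
        rfl
  have a2 := fin_var hE hP hD hx hτ (k + 1)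
  have e : ∀ z : E × E, τ (rr G L x z.1) / rr G L x z.1 ^ (k + 1) * rr G L x z.1 =
      τ (rr G L x z.1) / rr G L x z.1 ^ k := fun z => by
    rcases (rr_nonneg G L x z.1).eq_or_lt with h | h
    · rw [← h, h0 0 hα.le, zero_div, zero_div, zero_mul]
    · field_simp
      ring
  simp only [e, sub_self, zero_add, mul_left_comm _ ((k + 1 : ℕ) : ℝ)] at a2
  rw [integral_const_mul] at a2
  refine le_trans (le_mul_of_one_le_left (integral_nonneg fun z =>
    mul_nonneg (fin_nonneg hτ _ _) (sq_nonneg _)) (by exact_mod_cast hm)) (a2.trans ?_)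
  exact mul_le_mul_of_nonneg_left (by linarith) (abs_nonneg H)

theorem fin_int (hE : Module.finrank ℝ E = m + 1) (hm : 1 ≤ m) (hP : Pack G L)
    {D : NDom G (KB G L c)} (hD : NDom.Stat L c D H) :
    Integrable (fun z : (E × E) × (E × E) =>
      1 / rr G L z.1.1 z.2.1 ^ m * ca G L z.2.1 z.1.1 z.2.2 ^ 2) (D.μ.prod D.μ) := by
  obtain ⟨C, hC⟩ := fin_unif hE hm hP hD
  have hK := hP.isCompact_KB c
  have hex : ∀ j : ℕ, ∃ τ, Cut τ (1 / ((j : ℝ) + 1)) := fun j => by
    have : (0 : ℝ) < 1 / ((j : ℝ) + 1) := by positivity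
    obtain ⟨τ, h, -⟩ := exists_cut (half_pos this) (half_lt_self this)
    exact ⟨τ, h⟩
  choose τ hτ using hex
  obtain ⟨F, hF⟩ : ∃ F : ℕ → (E × E) × (E × E) → ℝ, F = fun j z =>
    τ j (rr G L z.1.1 z.2.1) / rr G L z.1.1 z.2.1 ^ m * ca G L z.2.1 z.1.1 z.2.2 ^ 2 := ⟨_, rfl⟩
  have hc : ∀ j, Continuous (F j) := fun j => by
    obtain ⟨α, hα, h0⟩ := (hτ j).zero
    rw [hF]
    exact hP.cont_cut continuous_fst.fst continuous_snd.fst
      ((cont_ca' hP continuous_fst.fst continuous_snd.fst continuous_snd.snd).pow 2)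
      (fin_smooth (hτ j) m).continuous hα fun r hr => by rw [h0 r hr, zero_div]
  have hn : ∀ j z, 0 ≤ F j z := fun j z => by
    rw [hF]
    exact mul_nonneg (fin_nonneg (hτ j) m _) (sq_nonneg _)
  have hi := fun j => D.integrable_prod hP.loc hK (hc j)
  have hb : ∀ j, ∫ z, F j z ∂D.μ.prod D.μ ≤ C * D.A := fun j => by
    rw [integral_prod _ (hi j)]
    refine (integral_mono_ae (hi j).integral_prod_left (integrable_const C)
      (D.supp.mono fun z h => ?_)).trans (le_of_eq ?_)
    · rw [hF]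
      exact hC _ _ (hτ j) _ h.1
    · rw [integral_const, smul_eq_mul, mul_comm]
      rfl
  have ht : ∀ z, Tendsto (fun j => F j z) atTop
      (𝓝 (1 / rr G L z.1.1 z.2.1 ^ m * ca G L z.2.1 z.1.1 z.2.2 ^ 2)) := fun z => by
    refine tendsto_const_nhds.congr' ?_
    rcases (rr_nonneg G L z.1.1 z.2.1).eq_or_lt with h | h
    · refine Eventually.of_forall fun j => ?_
      simp only [hF, ← h, zero_pow (Nat.one_le_iff_ne_zero.1 hm), div_zero]
    · filter_upwards [tendsto_one_div_add_atTop_nhds_zero_nat.eventually (gt_mem_nhds h)] with j hj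
      simp only [hF, (hτ j).one _ hj.le]
  refine ⟨aestronglyMeasurable_of_tendsto_ae atTop (fun j => (hi j).1) (Eventually.of_forall ht), ?_⟩
  refine lt_of_le_of_lt ?_ (ENNReal.ofReal_lt_top (r := C * D.A))
  refine le_trans (le_of_eq (lintegral_congr fun z => (ht z).enorm.liminf_eq.symm))
    ((lintegral_liminf_le' fun j => (hi j).1.enorm).trans
      (liminf_le_of_frequently_le' (Frequently.of_forall fun j => ?_)))
  rw [← ofReal_integral_norm_eq_lintegral_enorm (hi j)]
  refine ENNReal.ofReal_le_ofReal (le_trans (le_of_eq ?_) (hb j))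
  exact integral_congr_ae (Eventually.of_forall fun z => Real.norm_of_nonneg (hn j z))

theorem Pack.fin_small (hE : Module.finrank ℝ E = m + 1) (hm : 1 ≤ m) (hP : Pack G L)
    {D : NDom G (KB G L c)} (hD : NDom.Stat L c D H) {l : ℝ} (hl : 0 < l) :
    ∃ ε₀ : ℝ, 0 < ε₀ ∧ ∀ g : ℝ → ℝ, Continuous g → (∃ α : ℝ, 0 < α ∧ ∀ r, r ≤ α → g r = 0) →
      (∀ r, ε₀ ≤ r → g r = 0) → (∀ r, 0 < r → g r ≤ 1 / r ^ m) →
        ∫ z, g (rr G L z.1.1 z.2.1) * ca G L z.2.1 z.1.1 z.2.2 ^ 2 ∂D.μ.prod D.μ ≤ l := by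
  have hw := fin_int hE hm hP hD
  have hK := hP.isCompact_KB c
  have hr : Continuous fun z : (E × E) × (E × E) => rr G L z.1.1 z.2.1 :=
    cont_r hP continuous_fst.fst continuous_snd.fst
  obtain ⟨w, hwd⟩ : ∃ w : (E × E) × (E × E) → ℝ,
    w = fun z => 1 / rr G L z.1.1 z.2.1 ^ m * ca G L z.2.1 z.1.1 z.2.2 ^ 2 := ⟨_, rfl⟩
  rw [← hwd] at hw
  have hn : ∀ z, 0 ≤ w z := fun z => by
    rw [hwd]
    exact mul_nonneg (one_div_nonneg.2 (pow_nonneg (rr_nonneg G L _ _) m)) (sq_nonneg _)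
  have hS : ∀ j : ℕ, MeasurableSet {z : (E × E) × (E × E) |
      rr G L z.1.1 z.2.1 ≤ 1 / ((j : ℝ) + 1)} := fun j =>
    (isClosed_le hr continuous_const).measurableSet
  have ht := tendsto_integral_of_dominated_convergence (μ := D.μ.prod D.μ)
    (F := fun j : ℕ => {z : (E × E) × (E × E) | rr G L z.1.1 z.2.1 ≤ 1 / ((j : ℝ) + 1)}.indicator w)
    (f := fun _ => 0) w (fun j => (hw.indicator (hS j)).1) hw
    (fun j => Eventually.of_forall fun z =>
      (norm_indicator_le_norm_self _ _).trans_eq (Real.norm_of_nonneg (hn z)))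
    (Eventually.of_forall fun z => by
      refine tendsto_const_nhds.congr' ?_
      rcases (rr_nonneg G L z.1.1 z.2.1).eq_or_lt with h | h
      · refine Eventually.of_forall fun j => (indicator_apply_eq_zero.2 fun _ => ?_).symm
        simp only [hwd, ← h, zero_pow (Nat.one_le_iff_ne_zero.1 hm), div_zero, zero_mul]
      · filter_upwards [tendsto_one_div_add_atTop_nhds_zero_nat.eventually (gt_mem_nhds h)]
          with j hj
        exact (indicator_of_notMem (show z ∉ {z : (E × E) × (E × E) |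
          rr G L z.1.1 z.2.1 ≤ 1 / ((j : ℝ) + 1)} from not_le.2 hj) w).symm)
  rw [integral_zero] at ht
  obtain ⟨j, hj⟩ := (ht.eventually (gt_mem_nhds hl)).exists
  refine ⟨1 / ((j : ℝ) + 1), by positivity, fun g hg ⟨α, hα, h0⟩ h1 h2 => le_trans ?_ hj.le⟩
  refine integral_mono (D.integrable_prod hP.loc hK (hP.cont_cut continuous_fst.fst
    continuous_snd.fst ((cont_ca' hP continuous_fst.fst continuous_snd.fst
      continuous_snd.snd).pow 2) hg hα h0)) (hw.indicator (hS j)) fun z => ?_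
  have h3 := indicator_nonneg (s := {z : (E × E) × (E × E) |
    rr G L z.1.1 z.2.1 ≤ 1 / ((j : ℝ) + 1)}) (fun z _ => hn z) z
  rcases le_or_gt (1 / ((j : ℝ) + 1)) (rr G L z.1.1 z.2.1) with h | h
  · simpa only [h1 _ h, zero_mul] using h3
  rcases (rr_nonneg G L z.1.1 z.2.1).eq_or_lt with h4 | h4
  · simpa only [h0 _ (h4.symm.trans_le hα.le), zero_mul] using h3
  · rw [indicator_of_mem (show z ∈ {z : (E × E) × (E × E) |
      rr G L z.1.1 z.2.1 ≤ 1 / ((j : ℝ) + 1)} from h.le), hwd]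
    exact mul_le_mul_of_nonneg_right (h2 _ h4) (sq_nonneg _)

end Vale.Agent.P219
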