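import Vale.Agent.P219.G.Basic

/-!
# Compactness in `L¹`  (TASK)

`mol_close`: `mol φ S x - ind S x = ∫ z, ρ z (ind S (x - z) - ind S x)`, Fubini.  `exists_L1_limit`: the family `ind (Ω k)` is totally bounded in `L¹`: for a fixed bump `φ` of radius
`η` the functions `mol φ (Ω k)` are within `C η`, are uniformly bounded and uniformly Lipschitz (`|mol x - mol x'| ≤ ∫ |ρ (x - z) - ρ (x' - z)|`, or from the translation bound), and vanish off a
fixed compact set; Arzela-Ascoli (`BoundedContinuousFunction.arzela_ascoli`) or a direct finite net (values on a finite grid).  Then `TotallyBounded.closure`,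
`isCompact_iff_totallyBounded_isComplete`, `IsCompact.tendsto_subseq` in `Lp ℝ 1`; an a.e. convergent subsequence (`TendstoInMeasure.exists_seq_tendsto_ae`) shows that the
limit is a.e. `0` or `1` and `0` off `K`; `S = K ∩ {f = 1}` for a measurable representative.
-/

namespace Vale.Agent.P219

open scoped ContDiff Topology RealInnerProductSpace ENNReal
open MeasureTheory Set Filter Vale.Agent.P255
open St (sn gmod)

variable {E : Type*} [NormedAddCommGroup E] [InnerProductSpace ℝ E] [FiniteDimensional ℝ E]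
  [MeasurableSpace E] [BorelSpace E] {G : E → Bil E} {L : E → E → E} {K : Set E} {m : ℕ} {b : ℝ}

theorem mol_apply (φ : ContDiffBump (0 : E)) (S : Set E) (x : E) :
    mol φ S x = ∫ z, φ.normed volume z * ind S (x - z) := by
  rfl

theorem contDiff_mol (φ : ContDiffBump (0 : E)) {S : Set E} (hS : MeasurableSet S) :
    ContDiff ℝ ∞ (mol φ S) := by
  exact φ.hasCompactSupport_normed.contDiff_convolution_left _ φ.contDiff_normed
    ((locallyIntegrable_const (1 : ℝ)).indicator hS)

omit [NormedAddCommGroup E] [InnerProductSpace ℝ E] [FiniteDimensional ℝ E] [MeasurableSpace E]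
  [BorelSpace E] in
theorem l1cpt_ind (S : Set E) (x : E) : 0 ≤ ind S x ∧ ind S x ≤ 1 := by
  by_cases h : x ∈ S <;> simp [ind, h]

theorem mol_mem (φ : ContDiffBump (0 : E)) {S : Set E} (hS : MeasurableSet S) (x : E) :
    0 ≤ mol φ S x ∧ mol φ S x ≤ 1 := by
  have _ := hS
  rw [mol_apply]
  refine ⟨integral_nonneg fun z => mul_nonneg (φ.nonneg_normed z) (l1cpt_ind S _).1, ?_⟩
  rw [← φ.integral_normed (μ := volume)]
  exact integral_mono_of_nonneg
    (Eventually.of_forall fun z => mul_nonneg (φ.nonneg_normed z) (l1cpt_ind S _).1)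
    φ.integrable_normed
    (Eventually.of_forall fun z => mul_le_of_le_one_right (φ.nonneg_normed z) (l1cpt_ind S _).2)

theorem tsupport_mol (φ : ContDiffBump (0 : E)) {S : Set E} (h : S ⊆ K) :
    tsupport (mol φ S) ⊆ Metric.cthickening φ.rOut K := by
  refine closure_minimal (fun x hx => ?_) Metric.isClosed_cthickening
  by_contra hc
  refine hx ?_
  rw [mol_apply]
  refine integral_eq_zero_of_ae (Eventually.of_forall fun z => ?_)
  by_cases hz : z ∈ Metric.ball (0 : E) φ.rOut
  · have h1 : x - z ∉ S := fun h2 => hc (Metric.mem_cthickening_of_dist_le x (x - z) _ K (h h2)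
      (by simpa [dist_eq_norm] using (mem_ball_zero_iff.1 hz).le))
    simp [ind, h1]
  · rw [← φ.support_normed_eq (μ := volume), Function.notMem_support] at hz
    simp [hz]

theorem l1cpt_int (hK : IsCompact K) {S : Set E} (hS : MeasurableSet S) (h : S ⊆ K) :
    Integrable (ind S) volume :=
  (integrable_indicator_iff hS).2
    (integrableOn_const ((measure_mono h).trans_lt hK.measure_lt_top).ne)

theorem mol_close (hK : IsCompact K) (φ : ContDiffBump (0 : E)) {S : Set E} (hS : MeasurableSet S)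
    (h : S ⊆ K) {C : ℝ} (h0 : 0 ≤ C)
    (hC : ∀ h : E, ∫ x, |ind S (x + h) - ind S x| ≤ C * ‖h‖) :
    ∫ x, |mol φ S x - ind S x| ≤ C * φ.rOut := by
  have hi := l1cpt_int hK hS h
  have hρ : Integrable (φ.normed volume) volume := φ.integrable_normed
  have h1 : Integrable (fun p : E × E => φ.normed volume p.2 * ind S (p.1 - p.2))
      (volume.prod volume) := hρ.convolution_integrand (ContinuousLinearMap.mul ℝ ℝ) hi
  have h2 : Integrable (fun p : E × E => ind S p.1 * φ.normed volume p.2) (volume.prod volume) :=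
    hi.mul_prod hρ
  have h3 : Integrable (fun p : E × E => φ.normed volume p.2 * |ind S (p.1 - p.2) - ind S p.1|)
      (volume.prod volume) := by
    refine (h1.sub h2).abs.congr (Eventually.of_forall fun p => ?_)
    show |φ.normed volume p.2 * ind S (p.1 - p.2) - ind S p.1 * φ.normed volume p.2| = _
    rw [mul_comm (ind S p.1), ← mul_sub, abs_mul, abs_of_nonneg (φ.nonneg_normed _)]
  have h4 : ∀ x, |mol φ S x - ind S x| ≤ ∫ z, φ.normed volume z * |ind S (x - z) - ind S x| := by
    intro x
    have a1 : Integrable (fun z => φ.normed volume z * ind S (x - z)) volume :=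
      hρ.mul_bdd (c := 1) (((measurable_one.indicator hS).comp
        (measurable_const.sub measurable_id)).aestronglyMeasurable)
        (Eventually.of_forall fun z => by
          rw [Real.norm_of_nonneg (l1cpt_ind S _).1]; exact (l1cpt_ind S _).2)
    have a2 : mol φ S x - ind S x = ∫ z, φ.normed volume z * (ind S (x - z) - ind S x) := by
      simp only [mul_sub]
      rw [integral_sub a1 (hρ.mul_const _), integral_mul_const, φ.integral_normed, one_mul,
        mol_apply]
    rw [a2]
    refine abs_integral_le_integral_abs.trans (le_of_eq ?_)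
    refine integral_congr_ae (Eventually.of_forall fun z => ?_)
    show |φ.normed volume z * (ind S (x - z) - ind S x)| = _
    rw [abs_mul, abs_of_nonneg (φ.nonneg_normed _)]
  calc ∫ x, |mol φ S x - ind S x|
      ≤ ∫ x, ∫ z, φ.normed volume z * |ind S (x - z) - ind S x| :=
        integral_mono_of_nonneg (Eventually.of_forall fun x => abs_nonneg _)
          h3.integral_prod_left (Eventually.of_forall h4)
    _ = ∫ z, ∫ x, φ.normed volume z * |ind S (x - z) - ind S x| :=
        integral_integral_swap (f := fun x z => φ.normed volume z * |ind S (x - z) - ind S x|) h3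
    _ ≤ ∫ z, φ.normed volume z * (C * φ.rOut) := by
        refine integral_mono_of_nonneg (Eventually.of_forall fun z => integral_nonneg fun x =>
          mul_nonneg (φ.nonneg_normed _) (abs_nonneg _)) (hρ.mul_const _)
          (Eventually.of_forall fun z => ?_)
        show ∫ x, φ.normed volume z * |ind S (x - z) - ind S x| ≤ φ.normed volume z * (C * φ.rOut)
        rw [integral_const_mul]
        by_cases hz : z ∈ Metric.ball (0 : E) φ.rOut
        · refine mul_le_mul_of_nonneg_left ?_ (φ.nonneg_normed _)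
          have a1 := hC (-z)
          simp only [← sub_eq_add_neg, norm_neg] at a1
          exact a1.trans (mul_le_mul_of_nonneg_left (mem_ball_zero_iff.1 hz).le h0)
        · rw [← φ.support_normed_eq (μ := volume), Function.notMem_support] at hz
          simp [hz]
    _ = C * φ.rOut := by rw [integral_mul_const, φ.integral_normed, one_mul]

theorem l1cpt_lip (hK : IsCompact K) (φ : ContDiffBump (0 : E)) {S : Set E}
    (hS : MeasurableSet S) (h : S ⊆ K) {C M : ℝ} (hM : ∀ z, φ.normed volume z ≤ M)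
    (hC : ∀ h : E, ∫ x, |ind S (x + h) - ind S x| ≤ C * ‖h‖) (x y : E) :
    |mol φ S x - mol φ S y| ≤ M * (C * ‖x - y‖) := by
  have hi := l1cpt_int hK hS h
  have hM0 : 0 ≤ M := (φ.nonneg_normed 0).trans (hM 0)
  have a1 : ∀ w : E, Integrable (fun z => φ.normed volume z * ind S (w - z)) volume := fun w =>
    (hi.comp_sub_left w).bdd_mul (c := M) φ.continuous_normed.aestronglyMeasurable
      (Eventually.of_forall fun z => by
        rw [Real.norm_of_nonneg (φ.nonneg_normed z)]; exact hM z)
  rw [mol_apply, mol_apply, ← integral_sub (a1 x) (a1 y)]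
  have a2 := integral_sub_left_eq_self (fun w => |ind S (w + (x - y)) - ind S w|) volume y
  have a3 : ∀ z, y - z + (x - y) = x - z := fun z => by abel
  simp only [a3] at a2
  calc |∫ z, (φ.normed volume z * ind S (x - z) - φ.normed volume z * ind S (y - z))|
      ≤ ∫ z, |φ.normed volume z * ind S (x - z) - φ.normed volume z * ind S (y - z)| :=
        abs_integral_le_integral_abs
    _ ≤ ∫ z, M * |ind S (x - z) - ind S (y - z)| := by
        refine integral_mono_of_nonneg (Eventually.of_forall fun z => abs_nonneg _)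
          (((hi.comp_sub_left x).sub (hi.comp_sub_left y)).abs.const_mul M)
          (Eventually.of_forall fun z => ?_)
        show |φ.normed volume z * ind S (x - z) - φ.normed volume z * ind S (y - z)| ≤ _
        rw [← mul_sub, abs_mul, abs_of_nonneg (φ.nonneg_normed _)]
        exact mul_le_mul_of_nonneg_right (hM z) (abs_nonneg _)
    _ ≤ M * (C * ‖x - y‖) := by
        rw [integral_const_mul, a2]
        exact mul_le_mul_of_nonneg_left (hC _) hM0

theorem l1cpt_floor {a b δ : ℝ} (ha : 0 ≤ a) (hb : 0 ≤ b) (hδ : 0 < δ)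
    (h : ⌊a / δ⌋₊ = ⌊b / δ⌋₊) : |a - b| ≤ δ := by
  have a1 := Nat.floor_le (div_nonneg ha hδ.le)
  have a2 := Nat.lt_floor_add_one (a / δ)
  have b1 := Nat.floor_le (div_nonneg hb hδ.le)
  have b2 := Nat.lt_floor_add_one (b / δ)
  rw [h] at a1 a2
  rw [le_div_iff₀ hδ] at a1 b1
  rw [div_lt_iff₀ hδ] at a2 b2
  rw [abs_le]
  constructor <;> nlinarith

theorem l1cpt_disc (hK : IsCompact K) {Ω : ℕ → Set E} (hm : ∀ k, MeasurableSet (Ω k))
    (hs : ∀ k, Ω k ⊆ K) {C : ℝ} (h0 : 0 ≤ C)
    (hC : ∀ k (h : E), ∫ x, |ind (Ω k) (x + h) - ind (Ω k) x| ≤ C * ‖h‖) {ε : ℝ} (hε : 0 < ε) :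
    ∃ (T : Finset E) (N : ℕ) (F : ℕ → T → Fin N), ∀ j k, F j = F k →
      ∫ x, |ind (Ω j) x - ind (Ω k) x| < ε := by
  have hη : 0 < ε / (4 * (C + 1)) := by positivity
  let φ : ContDiffBump (0 : E) := ⟨ε / (4 * (C + 1)) / 2, ε / (4 * (C + 1)), half_pos hη,
    half_lt_self hη⟩
  have hφ : C * φ.rOut ≤ ε / 4 := by
    show C * (ε / (4 * (C + 1))) ≤ ε / 4
    rw [mul_div_assoc', div_le_div_iff₀ (by positivity) (by positivity)]
    nlinarith
  obtain ⟨M, hM⟩ : ∃ M : ℝ, ∀ z, φ.normed volume z ≤ M :=
    ⟨_, φ.normed_le_div_measure_closedBall_rIn volume⟩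
  have hM0 : 0 ≤ M := (φ.nonneg_normed 0).trans (hM 0)
  have hK' : IsCompact (Metric.cthickening φ.rOut K) := hK.cthickening
  set K' := Metric.cthickening φ.rOut K with hK'd
  have hv : 0 ≤ volume.real K' := measureReal_nonneg
  set δ := ε / (4 * (1 + 2 * (M * C)) * (volume.real K' + 1)) with hδd
  have hδ : 0 < δ := by positivity
  obtain ⟨t, -, htf, hcov⟩ := finite_cover_balls_of_compact hK' hδ
  refine ⟨htf.toFinset, ⌊1 / δ⌋₊ + 1, fun k y => ⟨⌊mol φ (Ω k) y / δ⌋₊, Nat.lt_succ_of_le
    (Nat.floor_mono (div_le_div_of_nonneg_right (mol_mem φ (hm k) y).2 hδ.le))⟩, fun j k hjk => ?_⟩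
  have hpt : ∀ x, |mol φ (Ω j) x - mol φ (Ω k) x| ≤
      K'.indicator (fun _ => δ * (1 + 2 * (M * C))) x := by
    intro x
    by_cases hx : x ∈ K'
    · rw [indicator_of_mem hx]
      obtain ⟨y, hy, hxy⟩ := mem_iUnion₂.1 (hcov hx)
      have b1 : ⌊mol φ (Ω j) y / δ⌋₊ = ⌊mol φ (Ω k) y / δ⌋₊ :=
        congrArg Fin.val (congrFun hjk ⟨y, htf.mem_toFinset.2 hy⟩)
      have b2 := abs_le.1 (l1cpt_floor (mol_mem φ (hm j) y).1 (mol_mem φ (hm k) y).1 hδ b1)
      have b3 : M * (C * ‖x - y‖) ≤ M * C * δ := by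
        rw [← mul_assoc]
        exact mul_le_mul_of_nonneg_left (mem_ball_iff_norm.1 hxy).le (mul_nonneg hM0 h0)
      have b4 := abs_le.1 ((l1cpt_lip hK φ (hm j) (hs j) hM (hC j) x y).trans b3)
      have b5 := abs_le.1 ((l1cpt_lip hK φ (hm k) (hs k) hM (hC k) x y).trans b3)
      rw [abs_le]
      constructor <;> linarith [b2.1, b2.2, b4.1, b4.2, b5.1, b5.2]
    · rw [indicator_of_notMem hx,
        image_eq_zero_of_notMem_tsupport fun h => hx (tsupport_mol φ (hs j) h),
        image_eq_zero_of_notMem_tsupport fun h => hx (tsupport_mol φ (hs k) h), sub_self, abs_zero]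
  have hmi : ∀ k, Integrable (mol φ (Ω k)) volume := fun k =>
    (contDiff_mol φ (hm k)).continuous.integrable_of_hasCompactSupport
      (hK'.of_isClosed_subset (isClosed_tsupport _) (tsupport_mol φ (hs k)))
  have hi : ∀ k, Integrable (ind (Ω k)) volume := fun k => l1cpt_int hK (hm k) (hs k)
  have c1 : ∫ x, |mol φ (Ω j) x - mol φ (Ω k) x| ≤ ε / 4 := by
    refine (integral_mono_of_nonneg (Eventually.of_forall fun x => abs_nonneg _)
      ((integrable_indicator_iff hK'.measurableSet).2 (integrableOn_const hK'.measure_lt_top.ne))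
      (Eventually.of_forall hpt)).trans ?_
    rw [integral_indicator_const _ hK'.measurableSet, smul_eq_mul]
    have e : δ * (1 + 2 * (M * C)) = ε / 4 / (volume.real K' + 1) := by
      rw [hδd]
      field_simp
    rw [e, mul_div_assoc', div_le_iff₀ (by positivity)]
    nlinarith
  have c2 := (mol_close hK φ (hm j) (hs j) h0 (hC j)).trans hφ
  have c3 := (mol_close hK φ (hm k) (hs k) h0 (hC k)).trans hφ
  have i1 := ((hmi j).sub (hmi k)).abs
  have i2 := ((hmi j).sub (hi j)).abs
  have i3 := ((hmi k).sub (hi k)).abs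
  simp only [Pi.sub_apply] at i1 i2 i3
  have c4 : ∫ x, |ind (Ω j) x - ind (Ω k) x| ≤ ∫ x, (|mol φ (Ω j) x - mol φ (Ω k) x| +
      |mol φ (Ω j) x - ind (Ω j) x| + |mol φ (Ω k) x - ind (Ω k) x|) := by
    refine integral_mono_of_nonneg (Eventually.of_forall fun x => abs_nonneg _)
      ((i1.add i2).add i3) (Eventually.of_forall fun x => ?_)
    show |ind (Ω j) x - ind (Ω k) x| ≤ |mol φ (Ω j) x - mol φ (Ω k) x| +
      |mol φ (Ω j) x - ind (Ω j) x| + |mol φ (Ω k) x - ind (Ω k) x|
    rw [abs_le]
    constructor <;> linarith [le_abs_self (mol φ (Ω j) x - mol φ (Ω k) x),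
      neg_abs_le (mol φ (Ω j) x - mol φ (Ω k) x), le_abs_self (mol φ (Ω j) x - ind (Ω j) x),
      neg_abs_le (mol φ (Ω j) x - ind (Ω j) x), le_abs_self (mol φ (Ω k) x - ind (Ω k) x),
      neg_abs_le (mol φ (Ω k) x - ind (Ω k) x)]
  rw [integral_add (i1.fun_add i2) i3, integral_add i1 i2] at c4
  linarith

theorem exists_L1_limit (hK : IsCompact K) {Ω : ℕ → Set E} (hm : ∀ k, MeasurableSet (Ω k))
    (hs : ∀ k, Ω k ⊆ K) {C : ℝ} (h0 : 0 ≤ C)
    (hC : ∀ k (h : E), ∫ x, |ind (Ω k) (x + h) - ind (Ω k) x| ≤ C * ‖h‖) :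
    ∃ (φ : ℕ → ℕ) (S : Set E), StrictMono φ ∧ MeasurableSet S ∧ S ⊆ K ∧
      Tendsto (fun k => ∫ x, |ind (Ω (φ k)) x - ind S x|) atTop (𝓝 0) := by
  classical
  have hi : ∀ k, Integrable (ind (Ω k)) volume := fun k => l1cpt_int hK (hm k) (hs k)
  let f : ℕ → E →₁[volume] ℝ := fun k => (hi k).toL1 _
  have hf : ∀ k, (f k : E → ℝ) =ᵐ[volume] ind (Ω k) := fun k => (hi k).coeFn_toL1
  have hTB : TotallyBounded (range f) := by
    refine Metric.totallyBounded_of_finite_discretization fun ε hε => ?_
    obtain ⟨T, N, F, hF⟩ := l1cpt_disc hK hm hs h0 hC hε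
    refine ⟨T → Fin N, inferInstance, fun x => F x.2.choose, fun x y hxy => ?_⟩
    rw [← x.2.choose_spec, ← y.2.choose_spec, L1.dist_eq_integral_dist]
    refine lt_of_eq_of_lt (integral_congr_ae ?_) (hF _ _ hxy)
    filter_upwards [hf x.2.choose, hf y.2.choose] with a a1 a2
    rw [a1, a2, Real.dist_eq]
  obtain ⟨g, -, ψ, hψ, hlim⟩ := (hTB.closure.isCompact_of_isClosed isClosed_closure).tendsto_subseq
    (x := f) fun k => subset_closure (mem_range_self k)
  have hg : Measurable g := (Lp.stronglyMeasurable g).measurable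
  refine ⟨ψ, K ∩ {x | 1 / 2 < g x}, hψ,
    hK.measurableSet.inter (measurableSet_lt measurable_const hg), inter_subset_left, ?_⟩
  have h2 := (tendsto_iff_dist_tendsto_zero.1 hlim).const_mul 2
  rw [mul_zero] at h2
  refine squeeze_zero (fun k => integral_nonneg fun x => abs_nonneg _) (fun k => ?_) h2
  rw [L1.dist_eq_integral_dist, ← integral_const_mul]
  refine integral_mono_of_nonneg (Eventually.of_forall fun x => abs_nonneg _)
    (((L1.integrable_coeFn (f (ψ k))).sub (L1.integrable_coeFn g)).norm.const_mul 2 |>.congr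
      (Eventually.of_forall fun x => by simp [dist_eq_norm])) ?_
  filter_upwards [hf (ψ k)] with x hx
  show _ ≤ 2 * dist (f (ψ k) x) (g x)
  rw [hx, Real.dist_eq]
  by_cases a1 : x ∈ Ω (ψ k)
  · by_cases a2 : 1 / 2 < g x
    · have a3 : x ∈ K ∩ {x | 1 / 2 < g x} := ⟨hs _ a1, a2⟩
      simp only [ind, indicator_of_mem a1, indicator_of_mem a3, sub_self, abs_zero]
      positivity
    · have a3 : x ∉ K ∩ {x | 1 / 2 < g x} := fun h => a2 h.2
      simp only [ind, indicator_of_mem a1, indicator_of_notMem a3, Pi.one_apply, sub_zero, abs_one]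
      linarith [le_abs_self (1 - g x)]
  · by_cases a3 : x ∈ K ∩ {x | 1 / 2 < g x}
    · have a2 : 1 / 2 < g x := a3.2
      simp only [ind, indicator_of_notMem a1, indicator_of_mem a3, Pi.one_apply, zero_sub, abs_neg,
        abs_one]
      linarith [le_abs_self (g x)]
    · simp only [ind, indicator_of_notMem a1, indicator_of_notMem a3, sub_self, abs_zero]
      positivity

end Vale.Agent.P219
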