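import Vale.Agent.P219.G.Norm

/-!
# The translation estimate; pairs of close points  (TASK)

`transl`: for `φ` of class `C¹` with `|φ| ≤ 1`, `g t = ∫ x in Ω, φ (x - t • h)` has derivative `-∫ x in Ω, fderiv φ (x - t • h) h = -∫ G ν h φ(..) / wt ∂μ` (`div` with `Z x = φ (x - t • h) • h`,
`dvg_smul`), bounded by `C ‖h‖ A`; so `∫ (ind (x + h) - ind x) φ x ≤ C ‖h‖ A`.  Take `φₖ = bumpₖ ⋆ s` with `s = ind (· + h) - ind` (values in `{-1, 0, 1}`, `s * s = |s|`):
`HasCompactSupport.contDiff_convolution_left`, `ContDiffBump.ae_convolution_tendsto_right_of_locallyIntegrable`, dominated convergence.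
-/

namespace Vale.Agent.P219

open scoped ContDiff Topology RealInnerProductSpace ENNReal
open MeasureTheory Set Filter Vale.Agent.P255
open St (sn gmod)

variable {E : Type*} [NormedAddCommGroup E] [InnerProductSpace ℝ E] [FiniteDimensional ℝ E]
  [MeasurableSpace E] [BorelSpace E] {G : E → Bil E} {L : E → E → E} {K : Set E} {m : ℕ} {b : ℝ}

omit [MeasurableSpace E] [BorelSpace E] in
theorem transl_const (hG : LocMetric G univ) (hK : IsCompact K) : ∃ C : ℝ, 0 < C ∧
    ∀ z ∈ UB G K, ∀ h : E, |G z.1 z.2 h / wt (G z.1)| ≤ C * ‖h‖ := by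
  have hGc : Continuous G :=
    continuous_iff_continuousAt.2 fun y => (hG.loc_contDiffAt (mem_univ y)).continuousAt
  have hw : Continuous fun y => wt (G y) := (contDiff_wt hG).continuous
  have hc : Continuous fun z : E × E => (wt (G z.1))⁻¹ • G z.1 z.2 :=
    ((hw.comp continuous_fst).inv₀ fun z => (wt_pos (posB_of_loc hG z.1)).ne').smul
      ((hGc.comp continuous_fst).clm_apply continuous_snd)
  obtain ⟨C, hC⟩ := (isCompact_UB hG hK).exists_bound_of_continuousOn hc.continuousOn
  refine ⟨max C 1, lt_max_of_lt_right one_pos, fun z hz h => ?_⟩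
  have h1 := ((wt (G z.1))⁻¹ • G z.1 z.2).le_of_opNorm_le ((hC z hz).trans (le_max_left C 1)) h
  rw [div_eq_inv_mul]
  exact h1

theorem transl_flux {C : ℝ}
    (hC : ∀ z ∈ UB G K, ∀ h : E, |G z.1 z.2 h / wt (G z.1)| ≤ C * ‖h‖) (D : NDom G K) (h : E)
    {ψ : E → ℝ} (hψ : ContDiff ℝ 1 ψ) (h1 : ∀ x, |ψ x| ≤ 1) :
    ‖∫ y in D.Ω, fderiv ℝ ψ y h‖ ≤ C * ‖h‖ * D.A := by
  have h2 := D.div (fun y => ψ y • h) (hψ.smul contDiff_const)
  have h3 : ∀ y, dvg (fun y => ψ y • h) y = fderiv ℝ ψ y h := by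
    intro y
    rw [dvg_smul (Z := fun _ => h) (hψ.differentiable one_ne_zero y) (differentiableAt_const h)]
    simp [dvg]
  simp only [h3] at h2
  rw [h2]
  refine norm_integral_le_of_norm_le_const ?_
  filter_upwards [D.supp] with z hz
  have h4 := hC z hz h
  rw [map_smul, smul_eq_mul, mul_div_assoc, Real.norm_eq_abs, abs_mul]
  exact (mul_le_of_le_one_left (abs_nonneg _) (h1 _)).trans h4

theorem transl_smooth (hK : IsCompact K) {C : ℝ}
    (hC : ∀ z ∈ UB G K, ∀ h : E, |G z.1 z.2 h / wt (G z.1)| ≤ C * ‖h‖) (D : NDom G K) (h : E)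
    {φ : E → ℝ} (hφ : ContDiff ℝ 1 φ) (h1 : ∀ x, |φ x| ≤ 1) :
    ‖∫ y in D.Ω, (φ y - φ (y - h))‖ ≤ C * ‖h‖ * D.A := by
  have hd := hφ.differentiable one_ne_zero
  have hc : Continuous fun z : ℝ × E => fderiv ℝ φ (z.2 - h + z.1 • h) h :=
    ((hφ.continuous_fderiv one_ne_zero).comp (by fun_prop)).clm_apply continuous_const
  have h2 : ∀ y, φ y - φ (y - h) = ∫ t in (0 : ℝ)..1, fderiv ℝ φ (y - h + t • h) h := by
    intro y
    have h3 : ∀ t : ℝ, HasDerivAt (fun t : ℝ => φ (y - h + t • h))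
        (fderiv ℝ φ (y - h + t • h) h) t := by
      intro t
      have h4 : HasDerivAt (fun t : ℝ => y - h + t • h) h t := by
        simpa using ((hasDerivAt_id t).smul_const h).const_add (y - h)
      exact (hd _).hasFDerivAt.comp_hasDerivAt t h4
    rw [intervalIntegral.integral_eq_sub_of_hasDerivAt (fun t _ => h3 t)
      ((hc.comp (Continuous.prodMk_left y)).intervalIntegrable 0 1)]
    simp
  simp only [h2]
  have h3 : Integrable (Function.uncurry fun (t : ℝ) (y : E) => fderiv ℝ φ (y - h + t • h) h)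
      ((volume.restrict (Set.uIoc (0 : ℝ) 1)).prod (volume.restrict D.Ω)) := by
    rw [Measure.prod_restrict]
    refine (hc.continuousOn.integrableOn_compact
      ((isCompact_Icc (a := (0 : ℝ)) (b := 1)).prod hK)).mono_set ?_
    refine prod_mono ?_ D.sub
    rw [uIoc_of_le zero_le_one]
    exact Ioc_subset_Icc_self
  rw [← intervalIntegral_integral_swap h3]
  have h4 : ∀ t ∈ Set.uIoc (0 : ℝ) 1,
      ‖∫ y in D.Ω, fderiv ℝ φ (y - h + t • h) h‖ ≤ C * ‖h‖ * D.A := by
    intro t _
    have h5 := transl_flux hC D h (ψ := fun y => φ (y + (t • h - h)))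
      (hφ.comp (contDiff_id.add contDiff_const)) fun x => h1 _
    simp only [fderiv_comp_add_right] at h5
    have h6 : ∀ y : E, y - h + t • h = y + (t • h - h) := fun y => by abel
    simp only [h6]
    exact h5
  simpa using intervalIntegral.norm_integral_le_of_norm_le_const h4

theorem transl_ind_int (hK : IsCompact K) (D : NDom G K) : Integrable (ind D.Ω) :=
  (integrable_indicator_iff D.meas).2
    ((continuousOn_const.integrableOn_compact hK).mono_set D.sub)

theorem transl_test (hK : IsCompact K) {C : ℝ}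
    (hC : ∀ z ∈ UB G K, ∀ h : E, |G z.1 z.2 h / wt (G z.1)| ≤ C * ‖h‖) (D : NDom G K) (h : E)
    {φ : E → ℝ} (hφ : ContDiff ℝ 1 φ) (h1 : ∀ x, |φ x| ≤ 1) :
    ∫ x, (ind D.Ω (x + h) - ind D.Ω x) * φ x ≤ C * ‖h‖ * D.A := by
  have hi := transl_ind_int hK D
  have hm := hφ.continuous.aestronglyMeasurable (μ := volume)
  have i1 : Integrable fun x => ind D.Ω x * φ x :=
    hi.mul_bdd hm (Eventually.of_forall h1)
  have i2 : Integrable fun x => ind D.Ω (x + h) * φ x :=
    (hi.comp_add_right h).mul_bdd hm (Eventually.of_forall h1)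
  have i3 : Integrable fun x => ind D.Ω x * φ (x - h) := by
    simpa using i2.comp_sub_right h
  have e1 : ∫ x, ind D.Ω (x + h) * φ x = ∫ x, ind D.Ω x * φ (x - h) := by
    rw [← integral_sub_right_eq_self (fun x => ind D.Ω (x + h) * φ x) h]
    simp
  have e2 : ∫ y in D.Ω, (φ y - φ (y - h)) =
      (∫ x, ind D.Ω x * φ x) - ∫ x, ind D.Ω x * φ (x - h) := by
    rw [← integral_sub i1 i3, ← integral_indicator D.meas]
    congr 1
    funext x
    by_cases hx : x ∈ D.Ω <;> simp [ind, hx]
  have h2 := transl_smooth hK hC D h hφ h1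
  simp only [sub_mul]
  rw [integral_sub i2 i1, e1]
  rw [e2, Real.norm_eq_abs] at h2
  linarith [(abs_le.1 h2).1]

theorem transl (hG : LocMetric G univ) (hK : IsCompact K) : ∃ C : ℝ, 0 < C ∧
    ∀ (D : NDom G K) (h : E), ∫ x, |ind D.Ω (x + h) - ind D.Ω x| ≤ C * ‖h‖ * D.A := by
  obtain ⟨C, hC0, hC⟩ := transl_const hG hK
  refine ⟨C, hC0, fun D h => ?_⟩
  have hi := transl_ind_int hK D
  set s : E → ℝ := fun x => ind D.Ω (x + h) - ind D.Ω x with hs
  have si : Integrable s := (hi.comp_add_right h).sub hi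
  have s1 : ∀ x, |s x| ≤ 1 ∧ s x * s x = |s x| := by
    intro x
    by_cases h1 : x + h ∈ D.Ω <;> by_cases h2 : x ∈ D.Ω <;> simp [hs, ind, h1, h2]
  let β : ℕ → ContDiffBump (0 : E) := fun k =>
    ⟨1 / ((k : ℝ) + 1) / 2, 1 / ((k : ℝ) + 1), by positivity, half_lt_self (by positivity)⟩
  let φ : ℕ → E → ℝ := fun k =>
    convolution ((β k).normed volume) s (ContinuousLinearMap.lsmul ℝ ℝ) volume
  have φ1 : ∀ k, ContDiff ℝ 1 (φ k) := fun k =>
    (β k).hasCompactSupport_normed.contDiff_convolution_left _ (β k).contDiff_normed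
      si.locallyIntegrable
  have φ2 : ∀ k x, |φ k x| ≤ 1 := by
    intro k x
    have h1 := dist_convolution_le (μ := volume) (x₀ := x) (z₀ := (0 : ℝ)) (g := s) zero_le_one
      (β k).support_normed_eq.subset (β k).nonneg_normed (β k).integral_normed
      si.aestronglyMeasurable fun y _ => by simpa using (s1 y).1
    simpa using h1
  have φ3 : ∀ᵐ x, Tendsto (fun k => φ k x) atTop (𝓝 (s x)) :=
    ContDiffBump.ae_convolution_tendsto_right_of_locallyIntegrable (K := 2)
      tendsto_one_div_add_atTop_nhds_zero_nat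
      (Eventually.of_forall fun k => le_of_eq (by simp only [β]; ring)) si.locallyIntegrable
  have lim : Tendsto (fun k => ∫ x, s x * φ k x) atTop (𝓝 (∫ x, |s x|)) := by
    refine tendsto_integral_of_dominated_convergence (fun x => |s x|)
      (fun k => si.aestronglyMeasurable.mul (φ1 k).continuous.aestronglyMeasurable) si.abs
      (fun k => Eventually.of_forall fun x => ?_) ?_
    · rw [Real.norm_eq_abs, abs_mul]
      exact mul_le_of_le_one_right (abs_nonneg _) (φ2 k x)
    · filter_upwards [φ3] with x hx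
      rw [← (s1 x).2]
      exact hx.const_mul _
  exact le_of_tendsto' lim fun k => transl_test hK hC D h (φ1 k) (φ2 k)

end Vale.Agent.P219
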