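import Vale.Agent.P219.G.MCpt
import Vale.Agent.P219.G.L1Cpt
import Vale.Agent.P219.G.Transl

/-!
# Existence of minimisers; mollification does not lose area

`exists_min`: `V ∈ [0, vol G K]` (`vol_mono`), so `I V` is bounded and the functional is bounded below; the class is nonempty (`exists_empty`); a minimising sequence
(`exists_seq_tendsto_sInf`) has bounded area; `transl`, `exists_L1_limit`; the volumes converge (`wt` is bounded on `K`), so the areas converge to `inf + I V`; `exists_limit` with `K' = K`.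
`low`: otherwise take bumps `φₖ` with `rOut = min η (1 / (k + 1))`; `u k = mol φₖ Ω`, `N = -fderiv (u k)`, `p = id`, `μ = volume`; `∫ u dvg Z = -∫ fderiv u (Z)` by `integral_dvg_zero`
for `u • Z` (`dvg_smul`); `exists_norm` with the compact set `cthickening rOut K` (`tsupport_mol`; `ad_smul`); `mol_close`, `transl`; `exists_limit` with `K' = cthickening 1 K` contradicts `Tight`.
-/

namespace Vale.Agent.P219

open scoped ContDiff Topology RealInnerProductSpace ENNReal
open MeasureTheory Set Filter Vale.Agent.P255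
open St (sn gmod)

variable {E : Type*} [NormedAddCommGroup E] [InnerProductSpace ℝ E] [FiniteDimensional ℝ E]
  [MeasurableSpace E] [BorelSpace E] {G : E → Bil E} {L : E → E → E} {K : Set E} {m : ℕ} {b : ℝ}

theorem exist_int {S : Set E} (hS : MeasurableSet S) (f : E → ℝ) :
    ∫ y, ind S y * f y = ∫ y in S, f y := by
  rw [← integral_indicator hS]
  refine integral_congr_ae (ae_of_all _ fun y => ?_)
  by_cases h : y ∈ S <;> simp [ind, h]

theorem exist_ind (hK : IsCompact K) {S : Set E} (hS : MeasurableSet S) (h : S ⊆ K) :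
    Integrable (ind S) :=
  (integrable_indicator_iff hS).2
    (integrableOn_const ((measure_mono h).trans_lt hK.measure_lt_top).ne)

theorem exist_vol (hG : LocMetric G univ) (hK : IsCompact K) : ∃ W : ℝ, ∀ S T : Set E,
    MeasurableSet S → MeasurableSet T → S ⊆ K → T ⊆ K →
      |vol G S - vol G T| ≤ W * ∫ x, |ind S x - ind T x| := by
  obtain ⟨W, hW⟩ := hK.exists_bound_of_continuousOn (contDiff_wt hG).continuous.continuousOn
  refine ⟨W, fun S T hS hT h1 h2 => ?_⟩
  have k : ∀ {S : Set E}, MeasurableSet S → S ⊆ K → Integrable fun y => ind S y * wt (G y) :=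
    fun {S} hS h => ((integrable_indicator_iff hS).2
      (integrableOn_wt hG (hK.isBounded.subset h))).congr (ae_of_all _ fun y => by
        by_cases h : y ∈ S <;> simp [ind, h])
  rw [vol, vol, ← exist_int hS, ← exist_int hT, ← integral_sub (k hS h1) (k hT h2),
    ← integral_const_mul, ← Real.norm_eq_abs]
  refine norm_integral_le_of_norm_le
    (((exist_ind hK hS h1).sub (exist_ind hK hT h2)).abs.const_mul W) (ae_of_all _ fun y => ?_)
  rw [← sub_mul, norm_mul, mul_comm, Real.norm_eq_abs (_ - _)]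
  by_cases h : y ∈ K
  · exact mul_le_mul_of_nonneg_right (hW y h) (abs_nonneg _)
  · simp [ind, mt (@h1 y) h, mt (@h2 y) h]

theorem exist_mol (hG : LocMetric G univ) (hK : IsCompact K) (φ : ContDiffBump (0 : E))
    {S : Set E} (hS : MeasurableSet S) (h : S ⊆ K) : ∃ ν : Measure (E × E), IsFiniteMeasure ν ∧
      ν.real univ = ∫ x, ad (G x) (fderiv ℝ (mol φ S) x) ∧
      (∀ᵐ z ∂ν, z ∈ UB G (Metric.cthickening φ.rOut K)) ∧ Integrable (mol φ S) ∧
      ∀ Z : E → E, ContDiff ℝ 1 Z →
        ∫ y, mol φ S y * dvg Z y = ∫ z, G z.1 z.2 (Z z.1) / wt (G z.1) ∂ν := by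
  have h1 : ContDiff ℝ 1 (mol φ S) := (contDiff_mol φ hS).of_le (by simp)
  have h2 := tsupport_mol φ h
  have h3 : HasCompactSupport (mol φ S) :=
    hK.cthickening.of_isClosed_subset (isClosed_tsupport _) h2
  have h4 := h1.continuous_fderiv one_ne_zero
  obtain ⟨ν, k1, k2, k3, k4⟩ := exists_norm hG (hK.cthickening (r := φ.rOut)) (μ := volume)
    (N := fun x => -fderiv ℝ (mol φ S) x) measurable_id
    (h4.integrable_of_hasCompactSupport (h3.fderiv ℝ)).neg
    (ae_of_all _ fun x hx => h2 (support_fderiv_subset ℝ (neg_ne_zero.1 hx)))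
  refine ⟨ν, k1, k2.trans (integral_congr_ae (ae_of_all _ fun x => ?_)), k3,
    h1.continuous.integrable_of_hasCompactSupport h3, fun Z hZ => ?_⟩
  · beta_reduce
    rw [← neg_one_smul ℝ, ad_smul (posB_of_loc hG _), abs_neg, abs_one, one_mul, id]
  · have h5 : ∫ y, dvg (fun x => mol φ S x • Z x) y = 0 :=
      integral_dvg_zero (h1.smul hZ) h3.smul_right
    have h6 : Integrable fun y => fderiv ℝ (mol φ S) y (Z y) :=
      (h4.clm_apply hZ.continuous).integrable_of_hasCompactSupport
        ((h3.fderiv ℝ).mono fun y hy h0 => hy (by simp [h0]))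
    have h7 : Integrable fun y => mol φ S y * dvg Z y :=
      (h1.continuous.mul (continuous_dvg hZ)).integrable_of_hasCompactSupport h3.mul_right
    simp only [dvg_smul (h1.differentiable one_ne_zero _) (hZ.differentiable one_ne_zero _)] at h5
    rw [integral_add h6 h7] at h5
    rw [← k4 Z hZ.continuous]
    simp only [neg_apply, id, integral_neg]
    linarith

theorem exists_min (hG : LocMetric G univ) (hK : IsCompact K) {I : ℝ → ℝ}
    (hI : ContinuousOn I (Ici 0)) : ∃ D : NDom G K, D.IsMin I := by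
  obtain ⟨B, hB⟩ := (isCompact_Icc (a := 0) (b := vol G K)).exists_bound_of_continuousOn
    (hI.mono Icc_subset_Ici_self)
  have h1 : ∀ D : NDom G K, I D.V ≤ B := fun D =>
    (le_abs_self _).trans (hB _ ⟨D.V_nonneg, vol_mono hG hK.isBounded D.sub⟩)
  have hb : BddBelow (range fun D : NDom G K => D.A - I D.V) :=
    ⟨-B, forall_mem_range.2 fun D => by linarith [h1 D, D.A_nonneg]⟩
  obtain ⟨u, hu, hl, hm⟩ := exists_seq_tendsto_sInf
    ⟨_, mem_range_self (exists_empty G K).choose⟩ hb
  choose D hD using hm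
  have h2 : ∀ k, (D k).A ≤ u 0 + B := fun k => by
    linarith [hD k, h1 (D k), hu (Nat.zero_le k)]
  obtain ⟨C, hC, h3⟩ := transl hG hK
  obtain ⟨φ, S, hφ, hS, hSK, h4⟩ := exists_L1_limit hK (fun k => (D k).meas) (fun k => (D k).sub)
    (mul_nonneg hC.le ((D 0).A_nonneg.trans (h2 0))) fun k h => (h3 (D k) h).trans (by
      rw [mul_right_comm]
      have := h2 k
      gcongr)
  obtain ⟨W, hW⟩ := exist_vol hG hK
  have h5 : Tendsto (fun k => (D (φ k)).V) atTop (𝓝 (vol G S)) :=
    tendsto_iff_norm_sub_tendsto_zero.2 (squeeze_zero (fun _ => norm_nonneg _)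
      (fun k => hW _ _ (D (φ k)).meas hS (D (φ k)).sub hSK) (by simpa using h4.const_mul W))
  have h6 := (hl.comp hφ.tendsto_atTop).add ((hI _ (vol_nonneg G S)).tendsto.comp
    (tendsto_nhdsWithin_iff.2 ⟨h5, .of_forall fun k => (D (φ k)).V_nonneg⟩))
  obtain ⟨D₀, h7, h8⟩ := exists_limit hG hK hK subset_rfl (fun k => (D (φ k)).fin)
    (fun k => exist_ind hK (D (φ k)).meas (D (φ k)).sub)
    (fun k x hx => indicator_of_notMem (mt (@(D (φ k)).sub x) hx) _) (fun k => (D (φ k)).supp)
    (fun k Z hZ => (exist_int (D (φ k)).meas _).trans ((D (φ k)).div Z hZ)) hS hSK h4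
    (fun δ _ => .of_forall fun k => (D (φ k)).supp.mono fun z hz =>
      Metric.self_subset_cthickening K hz.1)
    (fun δ hδ => ((h6.eventually (eventually_le_nhds (lt_add_of_pos_right _ hδ))).mono
      fun k hk => le_of_eq_of_le (eq_add_of_sub_eq (hD (φ k))) hk).frequently)
  refine ⟨D₀, fun D' => le_trans ?_ (csInf_le hb (mem_range_self D'))⟩
  rw [NDom.V, h7]
  linarith

theorem NDom.Tight.low (hG : LocMetric G univ) (hK : IsCompact K) {D : NDom G K} (h : D.Tight)
    {l η : ℝ} (hl : 0 < l) (hη : 0 < η) : ∃ φ : ContDiffBump (0 : E), φ.rOut ≤ η ∧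
      D.A - l ≤ ∫ x, ad (G x) (fderiv ℝ (mol φ D.Ω) x) := by
  by_contra hc
  push Not at hc
  have hr : ∀ k : ℕ, 0 < min η (1 / ((k : ℝ) + 1)) := fun k => by positivity
  let φ : ℕ → ContDiffBump (0 : E) := fun k =>
    ⟨min η (1 / ((k : ℝ) + 1)) / 2, min η (1 / ((k : ℝ) + 1)), half_pos (hr k), half_lt_self (hr k)⟩
  have h1 : ∀ k : ℕ, (φ k).rOut ≤ 1 / ((k : ℝ) + 1) := fun k => min_le_right _ _
  have h2 : Tendsto (fun k => (φ k).rOut) atTop (𝓝 0) :=
    squeeze_zero (fun k => (hr k).le) h1 tendsto_one_div_add_atTop_nhds_zero_nat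
  have h3 : ∀ k, Metric.cthickening (φ k).rOut K ⊆ Metric.cthickening 1 K := fun k =>
    Metric.cthickening_mono ((h1 k).trans (div_le_one_of_le₀ (by simp) (by positivity))) K
  choose ν k1 k2 k3 k4 k5 using fun k => exist_mol hG hK (φ k) D.meas D.sub
  obtain ⟨C, hC, h4⟩ := transl hG hK
  obtain ⟨D₀, h5, h6⟩ := exists_limit hG hK (hK.cthickening (r := 1))
    (Metric.self_subset_cthickening K) k1 k4
    (fun k x hx => image_eq_zero_of_notMem_tsupport fun h => hx (h3 k (tsupport_mol _ D.sub h)))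
    (fun k => (k3 k).mono fun z hz => ⟨h3 k hz.1, hz.2⟩) k5 D.meas D.sub
    (squeeze_zero (fun _ => integral_nonneg fun _ => abs_nonneg _)
      (fun k => mol_close hK (φ k) D.meas D.sub (mul_nonneg hC.le D.A_nonneg) fun h =>
        (h4 D h).trans_eq (mul_right_comm _ _ _)) (by simpa using h2.const_mul (C * D.A)))
    (fun δ hδ => (h2.eventually (eventually_le_nhds hδ)).mono fun k hk => (k3 k).mono fun z hz =>
      Metric.cthickening_mono hk K hz.1) (a := D.A - l)
    fun δ hδ => .of_forall fun k => by linarith [k2 k, hc (φ k) (min_le_left _ _)]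
  linarith [h D₀ h5]

end Vale.Agent.P219
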