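import Vale.Agent.P219.G.Gam1
import Vale.Agent.P219.G.Axial
import Vale.Agent.P219.G.Exist

/-!
# Nonlocal perimeter: the lower limit  (TASK)

Choose `l'` small with `(1 - l')² (1 + l')^(-(m+2)) c (A - l') ≥ c A - l / 2`, `c = cm / m * ∫ K₀ r^(m+1)`.  `K₁ = cthickening 1 K`, `η` from `gam_avg`, `φ` from `low` with `rOut ≤ min η 1`, `u = mol φ Ω`.
If the claim failed there would be `εₖ → 0` violating it; Fatou's lemma (`lintegral_liminf_le`, twice or on the product) and `|u x - u (x + ε v)| / ε → |fderiv u x v|`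
(`HasFDerivAt.lim`, `HasLineDerivAt`) give `liminf ≥ ∫⁻ x in K₁, ∫⁻ v, K₀(..) |fderiv u x v| wt²`; `ang`; `fderiv u = 0` off `K₁` (`tsupport_mol`, `ad_zero`);
`ofReal_integral_eq_lintegral_ofReal` (continuous, compact support: `continuous_ad`).
-/

namespace Vale.Agent.P219

open scoped ContDiff Topology RealInnerProductSpace ENNReal
open MeasureTheory Set Filter Vale.Agent.P255
open St (sn gmod)

variable {E : Type*} [NormedAddCommGroup E] [InnerProductSpace ℝ E] [FiniteDimensional ℝ E]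
  [MeasurableSpace E] [BorelSpace E] {G : E → Bil E} {L : E → E → E} {K : Set E} {m : ℕ} {b : ℝ}

theorem gam2_ofReal {X : Type*} [MeasurableSpace X] {μ : Measure X} {f : X → ℝ}
    (h0 : ∀ᵐ x ∂μ, 0 ≤ f x) (hf : Measurable f) :
    ENNReal.ofReal (∫ x, f x ∂μ) ≤ ∫⁻ x, ENNReal.ofReal (f x) ∂μ := by
  rw [integral_eq_lintegral_of_nonneg_ae h0 hf.aestronglyMeasurable]
  exact ENNReal.ofReal_toReal_le

theorem gam2_two {X Y ι : Type*} [MeasurableSpace X] [MeasurableSpace Y] (μ : Measure X)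
    (ν : Measure Y) [SFinite ν] (l : Filter ι) [l.IsCountablyGenerated] [l.NeBot]
    (F : ι → X → Y → ℝ) (F₀ : X → Y → ℝ) (hm : ∀ i, Measurable fun z : X × Y => F i z.1 z.2)
    (ht : ∀ x y, Tendsto (fun i => F i x y) l (𝓝 (F₀ x y))) :
    ∫⁻ x, ∫⁻ y, ENNReal.ofReal (F₀ x y) ∂ν ∂μ ≤
      liminf (fun i => ∫⁻ x, ∫⁻ y, ENNReal.ofReal (F i x y) ∂ν ∂μ) l := by
  have mF : ∀ i, Measurable fun z : X × Y => ENNReal.ofReal (F i z.1 z.2) :=
    fun i => ENNReal.measurable_ofReal.comp (hm i)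
  refine le_trans (lintegral_mono fun x => ?_)
    (lintegral_liminf_le fun i => (mF i).lintegral_prod_right')
  refine le_trans (lintegral_mono fun v => ?_)
    (lintegral_liminf_le fun i => (mF i).comp measurable_prodMk_left)
  exact (ENNReal.tendsto_ofReal (ht x v)).liminf_eq.ge

theorem gam2_fatou (hG : LocMetric G univ) (K₁ : Set E) {K₀ : ℝ → ℝ} (h : Continuous K₀) (c : ℝ)
    {u : E → ℝ} (hu : Differentiable ℝ u) :
    ∫⁻ x in K₁, ∫⁻ v : E,
        ENNReal.ofReal (K₀ (c * √(G x v v)) * |fderiv ℝ u x v| * wt (G x) ^ 2) ≤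
      liminf (fun ε : ℝ => ∫⁻ x in K₁, ∫⁻ v : E, ENNReal.ofReal
        (K₀ (c * √(G x v v)) * (|u x - u (x + ε • v)| / ε) * wt (G x) ^ 2)) (𝓝[>] 0) := by
  have cG : Continuous G := (contDiffOn_univ.1 hG.smooth).continuous
  have c1 : Continuous fun z : E × E => G z.1 z.2 z.2 :=
    ((cG.comp continuous_fst).clm_apply continuous_snd).clm_apply continuous_snd
  have c2 : Continuous fun z : E × E => K₀ (c * √(G z.1 z.2 z.2)) :=
    h.comp (continuous_const.mul c1.sqrt)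
  have c3 : Continuous fun z : E × E => wt (G z.1) ^ 2 :=
    ((contDiff_wt hG).continuous.comp continuous_fst).pow 2
  have cu := hu.continuous
  have c4 : ∀ ε : ℝ, Continuous fun z : E × E => |u z.1 - u (z.1 + ε • z.2)| / ε := fun ε => by
    fun_prop
  refine gam2_two _ _ _ (fun ε x v => K₀ (c * √(G x v v)) * (|u x - u (x + ε • v)| / ε) *
    wt (G x) ^ 2) _ (fun ε => ((c2.mul (c4 ε)).mul c3).measurable) fun x v => ?_
  refine (Tendsto.const_mul _ ?_).mul_const _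
  refine ((hu x).hasFDerivAt.hasLineDerivAt v).tendsto_slope_zero_right.abs.congr' ?_
  filter_upwards [self_mem_nhdsWithin] with ε hε
  rw [smul_eq_mul, abs_mul, abs_inv, abs_of_pos hε, abs_sub_comm, inv_mul_eq_div]

theorem gam2_ang (hE : Module.finrank ℝ E = m + 1) (hm : 1 ≤ m) {B : Bil E} (hB : PosB B)
    (N : E →L[ℝ] ℝ) {K₀ : ℝ → ℝ} (h : Ker K₀) {c : ℝ} (hc : 0 < c) :
    ENNReal.ofReal (2 * (cm E m / m * ∫ r in (0 : ℝ)..1, K₀ r * r ^ (m + 1)) / c ^ (m + 2)) *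
        ENNReal.ofReal (ad B N) ≤
      ∫⁻ v : E, ENNReal.ofReal (K₀ (c * √(B v v)) * |N v| * wt B ^ 2) := by
  have hw := wt_pos hB
  have hcm := cm_pos E m
  have ha := ad_nonneg B N
  have e : ∀ v : E, ENNReal.ofReal (K₀ (c * √(B v v)) * |N v| * wt B ^ 2) =
      ENNReal.ofReal (K₀ (c * √(B v v))) * ENNReal.ofReal |N v| * ENNReal.ofReal (wt B ^ 2) :=
    fun v => by
      rw [ENNReal.ofReal_mul' (sq_nonneg _), ENNReal.ofReal_mul (h.nonneg _)]
  have hI : ENNReal.ofReal (∫ r in (0 : ℝ)..1, K₀ r * r ^ (m + 1)) ≤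
      ∫⁻ r in Ioi (0 : ℝ), ENNReal.ofReal (r ^ (m + 1)) * ENNReal.ofReal (K₀ r) := by
    rw [intervalIntegral.integral_of_le zero_le_one]
    refine (gam2_ofReal (f := fun r => K₀ r * r ^ (m + 1)) ?_
      (h.cont.mul (continuous_pow _)).measurable).trans ?_
    · filter_upwards [ae_restrict_mem measurableSet_Ioc] with r hr
      exact mul_nonneg (h.nonneg r) (pow_nonneg hr.1.le _)
    · refine le_trans (le_of_eq ?_) (lintegral_mono_set (s := Ioc 0 1) Ioc_subset_Ioi_self)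
      exact lintegral_congr fun r => by rw [ENNReal.ofReal_mul (h.nonneg r), mul_comm]
  simp only [e]
  rw [lintegral_mul_const' _ _ ENNReal.ofReal_ne_top, ang hE hm hB N
    (k := fun r => ENNReal.ofReal (K₀ r)) (ENNReal.measurable_ofReal.comp h.cont.measurable) hc]
  refine le_trans (le_of_eq ?_) (mul_le_mul_left (mul_le_mul_right hI _) _)
  rw [← ENNReal.ofReal_mul' ha, ← ENNReal.ofReal_mul (by positivity),
    ← ENNReal.ofReal_mul' (sq_nonneg _)]
  refine congrArg ENNReal.ofReal ?_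
  field_simp

theorem Pack.gam (hE : Module.finrank ℝ E = m + 1) (hm : 1 ≤ m) (hP : Pack G L) (hK : IsCompact K)
    {D : NDom G K} (hD : D.Tight) {K₀ : ℝ → ℝ} (h : Ker K₀) {l : ℝ} (hl : 0 < l) :
    ∃ ε₀ : ℝ, 0 < ε₀ ∧ ∀ ε : ℝ, 0 < ε → ε ≤ ε₀ →
      ENNReal.ofReal ((cm E m / m * ∫ r in (0 : ℝ)..1, K₀ r * r ^ (m + 1)) * D.A - l) ≤
        Qp m G L K₀ D.Ω ε := by
  have hc0 : 0 ≤ cm E m / m * ∫ r in (0 : ℝ)..1, K₀ r * r ^ (m + 1) :=
    mul_nonneg (div_nonneg (cm_pos E m).le (Nat.cast_nonneg m))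
      (intervalIntegral.integral_nonneg zero_le_one fun r hr =>
        mul_nonneg (h.nonneg r) (pow_nonneg hr.1 _))
  have hA := fun (x : E) (N : E →L[ℝ] ℝ) (c : ℝ) (hc : 0 < c) =>
    gam2_ang hE hm (posB_of_loc hP.loc x) N h hc
  generalize cm E m / m * ∫ r in (0 : ℝ)..1, K₀ r * r ^ (m + 1) = c at hc0 hA
  rcases le_or_gt (c * D.A - l) 0 with h0 | h0
  · exact ⟨1, one_pos, fun ε _ _ => by simp [ENNReal.ofReal_of_nonpos h0]⟩
  have ct : ContinuousAt (fun t : ℝ => (1 - t) ^ 2 / 2 * (2 * c / (1 + t) ^ (m + 2) * (D.A - t)))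
      0 := by
    refine ContinuousAt.mul (by fun_prop) (ContinuousAt.mul (ContinuousAt.div (by fun_prop)
      (by fun_prop) (by simp)) (by fun_prop))
  obtain ⟨t, ht, h1⟩ := ((show ∀ᶠ t in 𝓝[>] (0 : ℝ), t ∈ Ioo (0 : ℝ) 1 from
    Ioo_mem_nhdsGT one_pos).and ((ct.eventually (lt_mem_nhds (show c * D.A - l < _ by
      simp only [sub_zero, add_zero, one_pow, div_one]
      linarith))).filter_mono nhdsWithin_le_nhds)).exists
  obtain ⟨η, η0, hη⟩ := hP.gam_avg hE (hK.cthickening (r := 1)) h ht.1 ht.2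
  obtain ⟨φ, hφ, hlow⟩ := hD.low hP.loc hK ht.1 (lt_min η0 one_pos)
  have hu := contDiff_mol φ D.meas
  have ht0 : 0 < (1 - t) ^ 2 / 2 := by
    have := sub_pos.2 ht.2
    positivity
  have ha0 : 0 ≤ 2 * c / (1 + t) ^ (m + 2) := by
    have := ht.1
    positivity
  have mA : Measurable fun x => ad (G x) (fderiv ℝ (mol φ D.Ω) x) :=
    ((continuous_ad hP.loc).comp (continuous_id.prodMk
      (hu.continuous_fderiv (by simp)))).measurable
  have k1 : ENNReal.ofReal (D.A - t) ≤ ∫⁻ x in Metric.cthickening 1 K,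
      ENNReal.ofReal (ad (G x) (fderiv ℝ (mol φ D.Ω) x)) := by
    refine le_trans (ENNReal.ofReal_le_ofReal (hlow.trans_eq ?_))
      (gam2_ofReal (Eventually.of_forall fun x => ad_nonneg _ _) mA)
    refine (setIntegral_eq_integral_of_forall_compl_eq_zero fun x hx => ?_).symm
    rw [fderiv_of_notMem_tsupport, ad_zero]
    exact fun hx' => hx (Metric.cthickening_mono (hφ.trans (min_le_right _ _)) K
      (tsupport_mol φ D.sub hx'))
  have k2 := (lintegral_mono (μ := volume.restrict (Metric.cthickening 1 K)) fun x =>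
    hA x (fderiv ℝ (mol φ D.Ω) x) (1 + t) (by linarith [ht.1])).trans
    (gam2_fatou hP.loc _ h.cont (1 + t) (hu.differentiable (by simp)))
  rw [lintegral_const_mul' _ _ ENNReal.ofReal_ne_top] at k2
  have k3 := (mul_le_mul_right k1 _).trans k2
  rw [← ENNReal.ofReal_mul ha0] at k3
  have k4 : (c * D.A - l) / ((1 - t) ^ 2 / 2) < 2 * c / (1 + t) ^ (m + 2) * (D.A - t) :=
    (div_lt_iff₀' ht0).2 h1
  have k5 := eventually_lt_of_lt_liminf
    (((ENNReal.ofReal_lt_ofReal_iff ((div_pos h0 ht0).trans k4)).2 k4).trans_le k3)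
  obtain ⟨ε₀, e0, he⟩ := mem_nhdsGT_iff_exists_Ioc_subset.1 k5
  refine ⟨min ε₀ η, lt_min e0 η0, fun ε hε h2 => le_trans ?_
    (hη φ (hφ.trans (min_le_left _ _)) ε hε (h2.trans (min_le_right _ _)) _ D.meas)⟩
  refine le_trans (le_of_eq ?_)
    (mul_le_mul_right (le_of_lt (he ⟨hε, h2.trans (min_le_left _ _)⟩)) _)
  rw [← ENNReal.ofReal_mul ht0.le, mul_div_cancel₀ _ ht0.ne']

end Vale.Agent.P219
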