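import Vale.Agent.P219.G.Gam1

/-!
# The kernel  (TASK)

`K₀ r = max (1 - r) 0`-like (`(1 - r)₊`, or `(1 - r²)₊`).  For `r > 0` put `g r = ∫ t in r..1, t^m K₀ t` (zero for `r ≥ 1`, `C¹`), `ψ₁ r = ∫ s in r..1, g s / s^m` (`C²` on `r > 0`, zero for `r ≥ 1`),
so `ψ₁' = -g / r^m`, `ψ₁'' + m ψ₁' / r = K₀`, `0 ≤ g ≤ 1`, `0 ≤ ψ₁ ≤ r^(1-m)`, `|ψ₁'| ≤ r^(-m)`.  `ψ r = ζ (r / θ) ψ₁ r` with a fixed smooth `ζ`, `0` on `Iic (1/2)`, `1` on `Ici 1`, values in `[0,1]`
(`Real.smoothTransition`), `ζ', ζ''` bounded; for `θ / 2 ≤ r ≤ θ` every term of `ψ'' + m ψ' / r` is `O(θ^(-(m+1)))`, and `K₀ ≤ 1 ≤ θ^(-(m+1))`.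
`m ∫ ψ r^(m-1) ≤ m ∫ ψ₁ r^(m-1)` over `[θ/2, 1]`, which is at most `∫ K₀ r^(m+1)`: the function `r^m ψ₁ - r g` has derivative `m r^(m-1) ψ₁ - 2 g + r^(m+1) K₀`... simpler: `(r^m ψ₁)' = m r^(m-1) ψ₁ - g` and
`(r g)' = g - r^(m+1) K₀`, so `m ∫_a^1 r^(m-1) ψ₁ = ∫_a^1 g - a^m ψ₁ a ≤ ∫_a^1 r^(m+1) K₀ - a g a - a^m ψ₁ a`.  `I₀ = ∫ over [1/2, 1] of ψ₁ r^(m-1) > 0`.
-/

namespace Vale.Agent.P219

open scoped ContDiff Topology RealInnerProductSpace ENNReal
open MeasureTheory Set Filter Vale.Agent.P255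
open St (sn gmod)

variable {m : ℕ}

/-- The kernel. -/
noncomputable def kernK (r : ℝ) : ℝ := max (1 - r) 0

/-- The flux. -/
noncomputable def kernG (m : ℕ) (r : ℝ) : ℝ := ∫ t in r..1, t ^ m * kernK t

/-- The potential. -/
noncomputable def kernP (m : ℕ) (r : ℝ) : ℝ := ∫ s in r..1, kernG m s / s ^ m

theorem kern_cont : Continuous kernK := (continuous_const.sub continuous_id).max continuous_const

theorem kern_zero {r : ℝ} (h : 1 ≤ r) : kernK r = 0 := max_eq_right (by linarith)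

theorem kern_nonneg (r : ℝ) : 0 ≤ kernK r := le_max_right _ _

theorem kern_le {r : ℝ} (h : 0 ≤ r) : kernK r ≤ 1 := max_le (by linarith) zero_le_one

theorem kern_int {f : ℝ → ℝ} (hf : ∀ t, 1 ≤ t → f t = 0) {r : ℝ} (h : 1 ≤ r) :
    ∫ t in r..1, f t = 0 := by
  rw [intervalIntegral.integral_congr (g := fun _ => 0) fun t ht => hf t ?_,
    intervalIntegral.integral_zero]
  rw [uIcc_of_ge h] at ht
  exact ht.1

theorem kern_c1 (m : ℕ) : Continuous fun t : ℝ => t ^ m * kernK t := (continuous_pow m).mul kern_cont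

theorem kernG_der (m : ℕ) (r : ℝ) : HasDerivAt (kernG m) (-(r ^ m * kernK r)) r :=
  intervalIntegral.integral_hasDerivAt_left ((kern_c1 m).intervalIntegrable _ _)
    ((kern_c1 m).stronglyMeasurableAtFilter _ _) (kern_c1 m).continuousAt

theorem kernG_cd (m : ℕ) : ContDiff ℝ 1 (kernG m) := by
  refine contDiff_one_iff_deriv.2 ⟨fun r => (kernG_der m r).differentiableAt, ?_⟩
  rw [funext fun r => (kernG_der m r).deriv]
  exact (kern_c1 m).neg

theorem kernG_zero (m : ℕ) {r : ℝ} (h : 1 ≤ r) : kernG m r = 0 :=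
  kern_int (fun t ht => by rw [kern_zero ht, mul_zero]) h

theorem kernG_bd (m : ℕ) {r : ℝ} (h : 0 ≤ r) : 0 ≤ kernG m r ∧ kernG m r ≤ 1 := by
  rcases le_total r 1 with h1 | h1
  · refine ⟨intervalIntegral.integral_nonneg h1 fun t ht =>
      mul_nonneg (pow_nonneg (h.trans ht.1) _) (kern_nonneg t), ?_⟩
    refine (intervalIntegral.integral_mono_on (g := fun _ => 1) h1
      ((kern_c1 m).intervalIntegrable _ _) intervalIntegrable_const fun t ht =>
      mul_le_one₀ (pow_le_one₀ (h.trans ht.1) ht.2) (kern_nonneg t) (kern_le (h.trans ht.1))).trans ?_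
    simpa using h
  · rw [kernG_zero m h1]
    exact ⟨le_rfl, zero_le_one⟩

theorem kernG_pos (m : ℕ) {r : ℝ} (h : 0 < r) (h1 : r < 1) : 0 < kernG m r :=
  intervalIntegral.intervalIntegral_pos_of_pos_on ((kern_c1 m).intervalIntegrable _ _)
    (fun t ht => mul_pos (pow_pos (h.trans ht.1) _) (lt_max_of_lt_left (sub_pos.2 ht.2))) h1

theorem kern_c2 (m : ℕ) : ContDiffOn ℝ 1 (fun s => kernG m s / s ^ m) (Ioi 0) :=
  (kernG_cd m).contDiffOn.div (contDiff_id.pow m).contDiffOn fun _ hs => (pow_pos hs m).ne'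

theorem kern_sub {r : ℝ} (h : 0 < r) : uIcc r 1 ⊆ Ioi 0 := fun _ ht =>
  (lt_min h one_pos).trans_le ht.1

theorem kern_ii (m : ℕ) {r : ℝ} (h : 0 < r) :
    IntervalIntegrable (fun s => kernG m s / s ^ m) volume r 1 :=
  ((kern_c2 m).continuousOn.mono (kern_sub h)).intervalIntegrable

theorem kernP_der (m : ℕ) {r : ℝ} (h : 0 < r) :
    HasDerivAt (kernP m) (-(kernG m r / r ^ m)) r :=
  intervalIntegral.integral_hasDerivAt_left (kern_ii m h)
    ((kern_c2 m).continuousOn.stronglyMeasurableAtFilter isOpen_Ioi r h)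
    ((kern_c2 m).continuousOn.continuousAt (Ioi_mem_nhds h))

theorem kernP_der2 (n : ℕ) {r : ℝ} (h : 0 < r) :
    HasDerivAt (fun r => -(kernG (n + 1) r / r ^ (n + 1)))
      (kernK r + (n + 1 : ℕ) * (kernG (n + 1) r / r ^ (n + 1)) / r) r := by
  refine (((kernG_der (n + 1) r).div (hasDerivAt_pow (n + 1) r) (pow_pos h _).ne').neg).congr_deriv ?_
  rw [Nat.add_sub_cancel]
  field_simp
  ring

theorem kernP_cd (m : ℕ) : ContDiffOn ℝ 2 (kernP m) (Ioi 0) :=
  (contDiffOn_succ_iff_deriv_of_isOpen (n := 1) isOpen_Ioi).2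
    ⟨fun _ h => (kernP_der m h).differentiableAt.differentiableWithinAt, by simp,
      (kern_c2 m).neg.congr fun _ h => (kernP_der m h).deriv⟩

theorem kernP_zero (m : ℕ) {r : ℝ} (h : 1 ≤ r) : kernP m r = 0 :=
  kern_int (fun t ht => by rw [kernG_zero m ht, zero_div]) h

theorem kernP_nonneg (m : ℕ) {r : ℝ} (h : 0 < r) : 0 ≤ kernP m r := by
  rcases le_total r 1 with h1 | h1
  · exact intervalIntegral.integral_nonneg h1 fun t ht =>
      div_nonneg (kernG_bd m (h.le.trans ht.1)).1 (pow_nonneg (h.le.trans ht.1) _)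
  · rw [kernP_zero m h1]

theorem kernP_pos (m : ℕ) {r : ℝ} (h : 0 < r) (h1 : r < 1) : 0 < kernP m r :=
  intervalIntegral.intervalIntegral_pos_of_pos_on (kern_ii m h)
    (fun t ht => div_pos (kernG_pos m (h.trans ht.1) ht.2) (pow_pos (h.trans ht.1) _)) h1

theorem kernP_le (n : ℕ) {r : ℝ} (h : 0 < r) (h1 : r ≤ 1) : kernP (n + 2) r ≤ r⁻¹ ^ (n + 1) := by
  have c : ContinuousOn (fun s : ℝ => ((n + 1 : ℕ) : ℝ) / s ^ (n + 2)) (uIcc r 1) :=
    continuousOn_const.div (continuous_pow _).continuousOn fun s hs => (pow_pos (kern_sub h hs) _).ne'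
  have e := intervalIntegral.integral_eq_sub_of_hasDerivAt (f := fun s : ℝ => -(s ^ (n + 1))⁻¹)
    (fun s hs => by
      have h2 : 0 < s := kern_sub h hs
      refine ((hasDerivAt_pow (n + 1) s).inv (pow_pos h2 _).ne').neg.congr_deriv ?_
      rw [Nat.add_sub_cancel]
      field_simp
      ring) c.intervalIntegrable
  refine (intervalIntegral.integral_mono_on h1 (kern_ii _ h) c.intervalIntegrable fun t ht =>
    div_le_div_of_nonneg_right ((kernG_bd _ (h.le.trans ht.1)).2.trans ?_)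
      (pow_nonneg (h.le.trans ht.1) _)).trans (e.trans_le ?_)
  · exact_mod_cast Nat.le_add_left 1 n
  · simp

theorem kern_mom (n : ℕ) {a : ℝ} (h : 0 < a) (h1 : a ≤ 1) :
    (n + 1 : ℕ) * ∫ r in a..1, kernP (n + 1) r * r ^ n ≤ ∫ r in a..1, kernK r * r ^ (n + 1 + 1) := by
  have c1 : IntervalIntegrable (fun r => ((n + 1 : ℕ) : ℝ) * (kernP (n + 1) r * r ^ n)) volume a 1 :=
    (continuousOn_const.mul (((kernP_cd _).continuousOn.mono (kern_sub h)).mul
      (continuous_pow n).continuousOn)).intervalIntegrable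
  have c2 : IntervalIntegrable (fun r => kernK r * r ^ (n + 1 + 1)) volume a 1 :=
    (kern_cont.mul (continuous_pow _)).intervalIntegrable _ _
  have e := intervalIntegral.integral_eq_sub_of_hasDerivAt
    (f := fun s : ℝ => s ^ (n + 1) * kernP (n + 1) s + s * kernG (n + 1) s)
    (fun s hs => by
      have h2 : 0 < s := kern_sub h hs
      refine (((hasDerivAt_pow (n + 1) s).mul (kernP_der _ h2)).add
        ((hasDerivAt_id s).mul (kernG_der _ s))).congr_deriv ?_
      rw [Nat.add_sub_cancel, id]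
      field_simp
      ring) (c1.sub c2)
  rw [intervalIntegral.integral_sub c1 c2, intervalIntegral.integral_const_mul, kernP_zero _ le_rfl,
    kernG_zero _ le_rfl] at e
  have := mul_nonneg (pow_nonneg h.le (n + 1)) (kernP_nonneg (n + 1) h)
  have := mul_nonneg h.le (kernG_bd (n + 1) h.le).1
  linarith

theorem kern_st0 {t c : ℝ} (h : Real.smoothTransition =ᶠ[𝓝 t] fun _ => c) :
    deriv Real.smoothTransition t = 0 ∧ deriv (deriv Real.smoothTransition) t = 0 := by
  have h1 := h.deriv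
  have h2 := h1.deriv_eq
  rw [deriv_const'] at h1 h2
  exact ⟨h1.eq_of_nhds, h2.trans (deriv_const _ _)⟩

theorem kern_st : ∃ B : ℝ, 0 ≤ B ∧ ∀ t ∈ Icc (0 : ℝ) 1, |deriv Real.smoothTransition t| ≤ B ∧
    |deriv (deriv Real.smoothTransition) t| ≤ B := by
  have h1 : ContDiff ℝ 1 (deriv Real.smoothTransition) :=
    (Real.smoothTransition.contDiff (n := 2)).deriv'
  obtain ⟨B₁, b1⟩ := isCompact_Icc.exists_bound_of_continuousOn
    (h1.continuous.continuousOn (s := Icc (0 : ℝ) 1))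
  obtain ⟨B₂, b2⟩ := isCompact_Icc.exists_bound_of_continuousOn
    ((h1.continuous_deriv le_rfl).continuousOn (s := Icc (0 : ℝ) 1))
  exact ⟨max (max B₁ B₂) 0, le_max_right _ _, fun t ht =>
    ⟨(b1 t ht).trans (le_max_of_le_left (le_max_left _ _)),
      (b2 t ht).trans (le_max_of_le_left (le_max_right _ _))⟩⟩

theorem kern_lap (n : ℕ) (u : ℝ) {r : ℝ} (h : 0 < r) :
    deriv (deriv fun r => Real.smoothTransition (u * r - 1) * kernP (n + 1) r) r +
      (n + 1 : ℕ) * deriv (fun r => Real.smoothTransition (u * r - 1) * kernP (n + 1) r) r / r =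
    Real.smoothTransition (u * r - 1) * kernK r +
      deriv (deriv Real.smoothTransition) (u * r - 1) * (u ^ 2 * kernP (n + 1) r) -
      2 * (deriv Real.smoothTransition (u * r - 1) * (u * (kernG (n + 1) r * r⁻¹ ^ (n + 1)))) +
      (n + 1 : ℕ) * (deriv Real.smoothTransition (u * r - 1) * (u * r⁻¹ * kernP (n + 1) r)) := by
  have s2 : ContDiff ℝ 2 Real.smoothTransition := Real.smoothTransition.contDiff
  have s1 : ContDiff ℝ 1 (deriv Real.smoothTransition) := s2.deriv'
  have l : ∀ r : ℝ, HasDerivAt (fun r => u * r - 1) u r := fun r => by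
    simpa using ((hasDerivAt_id r).const_mul u).sub_const 1
  have z1 : ∀ r : ℝ, HasDerivAt (fun r => Real.smoothTransition (u * r - 1))
      (deriv Real.smoothTransition (u * r - 1) * u) r := fun r =>
    (s2.differentiable (by simp) _).hasDerivAt.comp r (l r)
  have z2 : HasDerivAt (fun r => deriv Real.smoothTransition (u * r - 1))
      (deriv (deriv Real.smoothTransition) (u * r - 1) * u) r :=
    (s1.differentiable (by simp) _).hasDerivAt.comp r (l r)
  have d1 : ∀ r : ℝ, 0 < r →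
      deriv (fun r => Real.smoothTransition (u * r - 1) * kernP (n + 1) r) r =
      deriv Real.smoothTransition (u * r - 1) * u * kernP (n + 1) r +
        Real.smoothTransition (u * r - 1) * -(kernG (n + 1) r / r ^ (n + 1)) := fun r h =>
    ((z1 r).mul (kernP_der _ h)).deriv
  have d2 := (((z2.mul_const u).mul (kernP_der (n + 1) h)).add ((z1 r).mul (kernP_der2 n h))).deriv
  rw [EventuallyEq.deriv_eq (eventually_of_mem (Ioi_mem_nhds h) d1), d1 r h]
  refine (congrArg (· + _) d2).trans ?_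
  rw [inv_pow]
  field_simp
  ring

theorem exists_kern (hm : 2 ≤ m) : ∃ (K₀ : ℝ → ℝ) (C₁ I₀ : ℝ), Ker K₀ ∧ 0 < C₁ ∧ 0 < I₀ ∧
    ∀ θ : ℝ, 0 < θ → θ ≤ 1 / 2 → ∃ ψ : ℝ → ℝ, ContDiff ℝ 2 ψ ∧ (∀ r, 0 ≤ ψ r) ∧
      (∀ r, r ≤ θ / 2 → ψ r = 0) ∧ (∀ r, 1 ≤ r → ψ r = 0) ∧
      I₀ ≤ ∫ r in (0 : ℝ)..1, ψ r * r ^ (m - 1) ∧
      m * ∫ r in (0 : ℝ)..1, ψ r * r ^ (m - 1) ≤ ∫ r in (0 : ℝ)..1, K₀ r * r ^ (m + 1) ∧
      ∀ r, 0 < r → K₀ r - (if r ≤ θ then C₁ / θ ^ (m + 1) else 0) ≤
        deriv (deriv ψ) r + m * deriv ψ r / r := by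
  obtain ⟨n, rfl⟩ : ∃ n, m = n + 2 := ⟨m - 2, by omega⟩
  obtain ⟨B, hB, b⟩ := kern_st
  have cP : ∀ a : ℝ, 0 < a → IntervalIntegrable (fun r => kernP (n + 2) r * r ^ (n + 1)) volume a 1 :=
    fun a h => (((kernP_cd _).continuousOn.mono (kern_sub h)).mul
      (continuous_pow _).continuousOn).intervalIntegrable
  refine ⟨kernK, (1 + (n + 5) * B) * 2 ^ (n + 2 + 1), ∫ r in (1 / 2 : ℝ)..1,
    kernP (n + 2) r * r ^ (n + 1), ⟨kern_cont, fun x _ y _ h => max_le_max (by linarith) le_rfl,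
    kern_nonneg, fun _ => kern_zero⟩, by positivity,
    intervalIntegral.intervalIntegral_pos_of_pos_on (cP _ (by norm_num)) (fun t ht =>
      mul_pos (kernP_pos _ (by linarith [ht.1]) ht.2) (pow_pos (by linarith [ht.1]) _))
      (by norm_num), fun θ h0 h1 => ?_⟩
  obtain ⟨u, hu, rfl⟩ : ∃ u : ℝ, 0 < u ∧ θ = 2 / u := ⟨2 / θ, by positivity, by field_simp⟩
  have u4 : 4 ≤ u := by
    rw [div_le_div_iff₀ hu two_pos] at h1
    linarith
  have e1 : 2 / u / 2 = u⁻¹ := by field_simp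
  have a0 : 0 < u⁻¹ := inv_pos.2 hu
  have a1 : u⁻¹ ≤ 1 := inv_le_one_of_one_le₀ (by linarith)
  have z0 : ∀ r, r ≤ u⁻¹ → Real.smoothTransition (u * r - 1) * kernP (n + 2) r = 0 := fun r h => by
    rw [Real.smoothTransition.zero_of_nonpos (by rwa [sub_nonpos, ← le_inv_mul_iff₀ hu, mul_one]),
      zero_mul]
  have cd : ContDiff ℝ 2 fun r => Real.smoothTransition (u * r - 1) * kernP (n + 2) r := by
    refine contDiff_iff_contDiffAt.2 fun r => ?_
    rcases lt_or_ge 0 r with h | h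
    · exact (Real.smoothTransition.contDiff.comp
        ((contDiff_const.mul contDiff_id).sub contDiff_const)).contDiffAt.mul
        ((kernP_cd _).contDiffAt (Ioi_mem_nhds h))
    · exact contDiffAt_const.congr_of_eventuallyEq
        (eventually_of_mem (Iic_mem_nhds (h.trans_lt a0)) z0)
  have nn : ∀ r, 0 ≤ Real.smoothTransition (u * r - 1) * kernP (n + 2) r := fun r => by
    rcases lt_or_ge 0 r with h | h
    · exact mul_nonneg (Real.smoothTransition.nonneg _) (kernP_nonneg _ h)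
    · rw [z0 r (h.trans a0.le)]
  have ci : ∀ a a' : ℝ, IntervalIntegrable (fun r => Real.smoothTransition (u * r - 1) *
      kernP (n + 2) r * r ^ (n + 1)) volume a a' := fun a a' =>
    (cd.continuous.mul (continuous_pow _)).intervalIntegrable _ _
  refine ⟨_, cd, nn, fun r h => z0 r (e1 ▸ h), fun r h => by rw [kernP_zero _ h, mul_zero], ?_, ?_,
    fun r h => ?_⟩
  · refine le_trans (le_of_eq (intervalIntegral.integral_congr fun r hr => ?_))
      (intervalIntegral.integral_mono_interval (a := 1 / 2) (b := 1) (by norm_num) (by norm_num)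
        le_rfl (ae_restrict_of_forall_mem measurableSet_Ioc fun r hr =>
          mul_nonneg (nn r) (pow_nonneg hr.1.le _)) (ci 0 1))
    rw [uIcc_of_le (by norm_num)] at hr
    rw [Real.smoothTransition.one_of_one_le (by nlinarith [hr.1]), one_mul]
    rfl
  · have e2 : ∫ r in (0 : ℝ)..u⁻¹, Real.smoothTransition (u * r - 1) * kernP (n + 2) r *
        r ^ (n + 1) = 0 := by
      rw [intervalIntegral.integral_congr (g := fun _ => 0) fun t ht => ?_,
        intervalIntegral.integral_zero]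
      rw [uIcc_of_le a0.le] at ht
      simp only [z0 t ht.2, zero_mul]
    change _ * ∫ r in (0 : ℝ)..1, _ * r ^ (n + 1) ≤ _
    rw [← intervalIntegral.integral_add_adjacent_intervals (ci 0 u⁻¹) (ci _ 1), e2, zero_add]
    refine le_trans (mul_le_mul_of_nonneg_left (intervalIntegral.integral_mono_on a1 (ci _ _)
      (cP _ a0) fun t ht => mul_le_mul_of_nonneg_right (mul_le_of_le_one_left
        (kernP_nonneg _ (a0.trans_le ht.1)) (Real.smoothTransition.le_one _))
        (pow_nonneg (a0.le.trans ht.1) _)) (Nat.cast_nonneg _)) ((kern_mom (n + 1) a0 a1).trans ?_)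
    exact intervalIntegral.integral_mono_interval a0.le a1 le_rfl
      (ae_restrict_of_forall_mem measurableSet_Ioc fun r hr =>
        mul_nonneg (kern_nonneg r) (pow_nonneg hr.1.le _))
      ((kern_cont.mul (continuous_pow _)).intervalIntegrable _ _)
  · rw [kern_lap (n + 1) u h]
    have e3 : (1 + (n + 5) * B) * 2 ^ (n + 2 + 1) / (2 / u) ^ (n + 2 + 1) =
        (1 + (n + 5) * B) * u ^ (n + 2 + 1) := by
      rw [div_pow]
      field_simp
    have k1 := kern_le h.le
    have k2 : 1 ≤ u ^ (n + 2 + 1) := one_le_pow₀ (by linarith)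
    have k3 := mul_nonneg (Real.smoothTransition.nonneg (u * r - 1)) (kern_nonneg r)
    split_ifs with h2
    · rw [e3]
      rcases lt_or_ge (u * r - 1) 0 with h3 | h3
      · obtain ⟨d1, d2⟩ := kern_st0 (eventually_of_mem (Iic_mem_nhds h3) fun t ht =>
          Real.smoothTransition.zero_of_nonpos ht)
        rw [d1, d2]
        have : 0 ≤ (n + 5) * B * u ^ (n + 2 + 1) := by positivity
        linarith
      · rw [le_div_iff₀ hu] at h2
        obtain ⟨d1, d2⟩ := b _ ⟨h3, by linarith⟩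
        have r1 : r⁻¹ ≤ u := by
          rw [inv_le_iff_one_le_mul₀ h]
          linarith
        have r0 := (inv_pos.2 h).le
        have p0 := kernP_nonneg (n + 2) h
        have p1 := (kernP_le n h (by nlinarith)).trans (pow_le_pow_left₀ r0 r1 _)
        obtain ⟨g0, g1⟩ := kernG_bd (n + 2) h.le
        have t1 : u ^ 2 * kernP (n + 2) r ≤ u ^ (n + 2 + 1) :=
          (mul_le_mul_of_nonneg_left p1 (by positivity)).trans_eq (by ring)
        have t2 : u * (kernG (n + 2) r * r⁻¹ ^ (n + 2)) ≤ u ^ (n + 2 + 1) :=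
          (mul_le_mul_of_nonneg_left ((mul_le_of_le_one_left (by positivity) g1).trans
            (pow_le_pow_left₀ r0 r1 _)) hu.le).trans_eq (by ring)
        have t3 : u * r⁻¹ * kernP (n + 2) r ≤ u ^ (n + 2 + 1) :=
          (mul_le_mul (mul_le_mul_of_nonneg_left r1 hu.le) p1 p0 (by positivity)).trans_eq (by ring)
        have key : ∀ d x : ℝ, |d| ≤ B → 0 ≤ x → x ≤ u ^ (n + 2 + 1) →
            |d * x| ≤ B * u ^ (n + 2 + 1) := fun d x hd x0 x1 => by
          rw [abs_mul, abs_of_nonneg x0]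
          exact mul_le_mul hd x1 x0 hB
        have s1 := (abs_le.1 (key _ _ d2 (by positivity) t1)).1
        have s2 := (abs_le.1 (key _ _ d1 (by positivity) t2)).2
        have s3 := mul_le_mul_of_nonneg_left (abs_le.1 (key _ _ d1 (by positivity) t3)).1
          (Nat.cast_nonneg (α := ℝ) (n + 1 + 1))
        push_cast at s3 ⊢
        linarith
    · rw [not_le, div_lt_iff₀ hu] at h2
      obtain ⟨d1, d2⟩ := kern_st0 (eventually_of_mem (Ici_mem_nhds
        (show 1 < u * r - 1 by linarith)) fun t ht => Real.smoothTransition.one_of_one_le ht)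
      rw [d1, d2, Real.smoothTransition.one_of_one_le (by linarith)]
      simp

end Vale.Agent.P219
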