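import Vale.Agent.P219.G.FluxC
import Vale.Agent.P219.G.Gam2
import Vale.Agent.P219.G.Kern
import Vale.Agent.P219.G.Fin

/-!
# The averaged lower density bound  (TASK)

If `A = 0` take any cut-off (`exists_cut`; the measure is zero).  Otherwise fix `K₀, C₁, I₀` (`exists_kern`), `C` (`fluxC`), `θ` with `C C₁ θ ≤ l I₀ / 4`, then `ψ`, `I = ∫ ψ r^(m-1) ≥ I₀`, bounds `M₁ ≥ ψ`,
`M₂ ≥ |ψ'|` (continuous with compact support).  For small `ε`: `ψε r = ψ (r / ε) / ε^m`, `τ r = (∫ t in 0..r/ε, ψ t t^(m-1)) / I`, `τ' r / r^(m-1) = ψε r / I` for `r > 0`; `fluxC` with `M = M₁ / ε^m`,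
`M' = M₂ / ε^(m+1)`, `c' = C₁ / (θ^(m+1) ε^(m+2))`, `t = θ ε`, and `gam` give `∬ ψε ≥ cm I A - l' - C (M₁ ε + M₂ ε + C₁ θ) A`; `fin_small` for `g = ψε / M₁` (take `M₁ > 0`; `ψε r ≤ M₁ / r^m` as `ψε r = 0` for `r ≥ ε`).
-/

namespace Vale.Agent.P219

open scoped ContDiff Topology RealInnerProductSpace ENNReal
open MeasureTheory Set Filter Vale.Agent.P255
open St (sn gmod)

variable {E : Type*} [NormedAddCommGroup E] [InnerProductSpace ℝ E] [FiniteDimensional ℝ E]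
  [MeasurableSpace E] [BorelSpace E] {G : E → Bil E} {L : E → E → E} {K : Set E} {m : ℕ} {b : ℝ}
  {ρ ε c H : ℝ} {τ : ℝ → ℝ}

theorem flux_der {f : ℝ → ℝ} (hf : Differentiable ℝ f) (ε a : ℝ) :
    deriv (fun r => f (r / ε) / a) = fun r => deriv f (r / ε) / (a * ε) := by
  funext r
  refine (((hf (r / ε)).hasDerivAt.comp r ((hasDerivAt_id r).div_const ε)).div_const a).deriv.trans ?_
  ring

theorem flux_cut {ψ : ℝ → ℝ} {θ I : ℝ} (n : ℕ) (hθ : 0 < θ) (hε : 0 < ε) (h1 : ContDiff ℝ 2 ψ)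
    (h2 : ∀ r, 0 ≤ ψ r) (h3 : ∀ r, r ≤ θ / 2 → ψ r = 0) (h4 : ∀ r, 1 ≤ r → ψ r = 0)
    (hI : ∫ r in (0 : ℝ)..1, ψ r * r ^ n = I) (h0 : 0 < I) :
    ∃ τ : ℝ → ℝ, Cut τ ε ∧ ∀ r, deriv τ r / r ^ n = ψ (r / ε) / ε ^ (n + 1) / I := by
  have c : Continuous fun r => ψ r * r ^ n := h1.continuous.mul (continuous_pow n)
  have d : ∀ r, HasDerivAt (fun s => ∫ t in (0 : ℝ)..s, ψ t * t ^ n) (ψ r * r ^ n) r :=
    fun r => (c.integral_hasStrictDerivAt 0 r).hasDerivAt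
  have e := flux_der (fun r => (d r).differentiableAt) ε I
  simp only [fun r => (d r).deriv] at e
  have df0 : Differentiable ℝ fun s => ∫ t in (0 : ℝ)..s, ψ t * t ^ n :=
    fun r => (d r).differentiableAt
  have df : Differentiable ℝ fun r => (∫ t in (0 : ℝ)..r / ε, ψ t * t ^ n) / I :=
    (df0.comp (differentiable_id.div_const ε)).div_const I
  refine ⟨fun r => (∫ t in (0 : ℝ)..r / ε, ψ t * t ^ n) / I, ⟨?_, ?_, ⟨θ / 2 * ε, by positivity,
    fun r hr => ?_⟩, fun r hr => ?_⟩, fun r => ?_⟩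
  · refine (contDiff_succ_iff_deriv (n := 1)).2 ⟨df, by simp, ?_⟩
    rw [e]
    exact (((h1.of_le one_le_two).comp (contDiff_id.div_const ε)).mul
      ((contDiff_id.div_const ε).pow n)).div_const _
  · refine monotone_of_deriv_nonneg df fun r => ?_
    rw [e]
    refine div_nonneg ?_ (by positivity)
    rcases le_total 0 (r / ε) with h | h
    · exact mul_nonneg (h2 _) (pow_nonneg h n)
    · rw [h3 _ (h.trans (by positivity)), zero_mul]
  · rw [intervalIntegral.integral_congr (g := fun _ => 0) fun t ht => ?_,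
      intervalIntegral.integral_zero, zero_div]
    have : t ≤ θ / 2 := ht.2.trans (max_le (by positivity) ((div_le_iff₀ hε).2 hr))
    simp only [h3 t this, zero_mul]
  · have r1 : 1 ≤ r / ε := (one_le_div hε).2 hr
    rw [← intervalIntegral.integral_add_adjacent_intervals (c.intervalIntegrable 0 1)
      (c.intervalIntegrable 1 _), hI, intervalIntegral.integral_congr (g := fun _ => 0)
        fun t ht => ?_, intervalIntegral.integral_zero, add_zero, div_self h0.ne']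
    rw [uIcc_of_le r1] at ht
    simp only [h4 t ht.1, zero_mul]
  · rw [e]
    rcases eq_or_ne r 0 with rfl | hr
    · simp only [zero_div, h3 0 (by positivity), zero_mul]
    · simp only [div_pow, pow_succ]
      field_simp

theorem Pack.fluxN (hE : Module.finrank ℝ E = m + 1) (hm : 2 ≤ m) (hP : Pack G L)
    {D : NDom G (KB G L c)} (hD : NDom.Stat L c D H) (hT : D.Tight) {l ε₀ : ℝ} (hl : 0 < l)
    (hε : 0 < ε₀) : ∃ (τ : ℝ → ℝ) (ε : ℝ), ε ≤ ε₀ ∧ Cut τ ε ∧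
      (cm E m - l) * D.A ≤ ∫ z, deriv τ (rr G L z.1.1 z.2.1) / rr G L z.1.1 z.2.1 ^ (m - 1) *
        (1 - ca G L z.2.1 z.1.1 z.2.2 ^ 2) ∂D.μ.prod D.μ := by
  have hK := hP.isCompact_KB c
  rcases D.A_nonneg.eq_or_lt with hA | hA
  · obtain ⟨τ, hτ, -⟩ := exists_cut (half_pos hε) (half_lt_self hε)
    have h1 : D.μ = 0 := by
      rw [← Measure.measure_univ_eq_zero]
      exact (measureReal_eq_zero_iff (measure_ne_top _ _)).1 hA.symm
    refine ⟨τ, ε₀, le_rfl, hτ, ?_⟩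
    rw [← hA, h1, Measure.zero_prod, integral_zero_measure, mul_zero]
  obtain ⟨K₀, C₁, I₀, hK₀, hC₁, hI₀, hk⟩ := exists_kern hm
  obtain ⟨C, hC, hf⟩ := hP.fluxC hE hK
  obtain ⟨θ, θ0, θ1, θ2⟩ : ∃ θ : ℝ, 0 < θ ∧ θ ≤ 1 / 2 ∧ C * (C₁ * θ) ≤ l * I₀ / 4 :=
    ⟨min (1 / 2) (l * I₀ / 4 / (C * C₁)), by positivity, min_le_left _ _, by
      rw [← mul_assoc, ← le_div_iff₀' (by positivity)]
      exact min_le_right _ _⟩
  obtain ⟨ψ, p1, p2, p3, p4, p5, p6, p7⟩ := hk θ θ0 θ1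
  have cs : HasCompactSupport ψ := HasCompactSupport.intro (isCompact_Icc (a := 0) (b := 1))
    fun r hr => by
      rcases not_and_or.1 hr with h | h
      · exact p3 r ((not_le.1 h).le.trans (by positivity))
      · exact p4 r (not_le.1 h).le
  have p1' : ContDiff ℝ 1 (deriv ψ) := p1.deriv'
  obtain ⟨N₁, hN₁⟩ := p1.continuous.bounded_above_of_compact_support cs
  obtain ⟨M₂, hM₂⟩ := p1'.continuous.bounded_above_of_compact_support cs.deriv
  obtain ⟨M₁, M0, hM₁⟩ : ∃ M₁, 0 < M₁ ∧ ∀ r, ψ r ≤ M₁ := ⟨max N₁ 1, by positivity, fun r =>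
    (le_abs_self _).trans ((hN₁ r).trans (le_max_left _ _))⟩
  have M0' : 0 ≤ M₂ := (norm_nonneg _).trans (hM₂ 0)
  obtain ⟨e₁, he₁, hg⟩ := hP.gam hE (by omega) hK hT hK₀ (l := l * I₀ / 4 * D.A) (by positivity)
  obtain ⟨e₂, he₂, hs⟩ := hP.fin_small hE (by omega) hD (l := l * I₀ / 4 * D.A / M₁)
    (by positivity)
  obtain ⟨ε, ε0, ε1, ε2, ε3, ε4, ε5⟩ : ∃ ε : ℝ, 0 < ε ∧ ε ≤ ε₀ ∧ ε ≤ e₁ ∧ ε ≤ e₂ ∧ ε ≤ 1 ∧
      C * ((M₁ + M₂) * ε) ≤ l * I₀ / 4 :=
    ⟨min (min (min ε₀ e₁) (min e₂ 1)) (l * I₀ / 4 / (C * (M₁ + M₂))), by positivity,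
      by simp, by simp, by simp, by simp, by
        rw [← mul_assoc, ← le_div_iff₀' (by positivity)]
        exact min_le_right _ _⟩
  obtain ⟨n, rfl⟩ : ∃ n, m = n + 1 := ⟨m - 1, by omega⟩
  rw [Nat.add_sub_cancel] at p5 p6 ⊢
  obtain ⟨I, hI⟩ : ∃ I, ∫ r in (0 : ℝ)..1, ψ r * r ^ n = I := ⟨_, rfl⟩
  rw [hI] at p5 p6
  have I0 : 0 < I := hI₀.trans_le p5
  obtain ⟨τ, hτ, hd⟩ := flux_cut n θ0 ε0 p1 p2 p3 p4 hI I0
  refine ⟨τ, ε, ε1, hτ, ?_⟩
  have z0 : ∀ r, r ≤ θ / 2 * ε → ψ (r / ε) / ε ^ (n + 1) = 0 := fun r hr => by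
    rw [p3 _ ((div_le_iff₀ ε0).2 hr), zero_div]
  have z1 : ∀ r, ε ≤ r → ψ (r / ε) / ε ^ (n + 1) = 0 := fun r hr => by
    rw [p4 _ ((one_le_div ε0).2 hr), zero_div]
  have hB : Bump (fun r => ψ (r / ε) / ε ^ (n + 1)) (M₁ / ε ^ (n + 1)) ε :=
    ⟨(p1.comp (contDiff_id.div_const ε)).div_const _, fun r => ⟨div_nonneg (p2 _) (by positivity),
      div_le_div_of_nonneg_right (hM₁ _) (by positivity)⟩, ⟨θ / 2 * ε, by positivity, z0⟩, z1⟩
  have d1 := flux_der (p1.differentiable (by simp)) ε (ε ^ (n + 1))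
  have d2 := flux_der (p1'.differentiable (by simp)) ε (ε ^ (n + 1) * ε)
  have k1 := (hg ε ε0 ε2).trans (hf D _ K₀ _ (M₂ / (ε ^ (n + 1) * ε))
    (C₁ / θ ^ (n + 1 + 1) / ε ^ (n + 1 + 2)) ε (θ * ε) hB hK₀ (by positivity) (by nlinarith) ε4
    (by positivity) (fun r => by
      rw [d1, abs_div, abs_of_pos (by positivity : 0 < ε ^ (n + 1) * ε)]
      exact div_le_div_of_nonneg_right (hM₂ _) (by positivity)) fun r hr => by
      have := div_le_div_of_nonneg_right (p7 (r / ε) (by positivity)) (pow_pos ε0 (n + 1 + 2)).le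
      rw [sub_div, ite_div, zero_div] at this
      rw [d1, d2]
      simp only [← div_le_iff₀ ε0]
      refine this.trans_eq ?_
      field_simp
      ring)
  have cψ : Continuous fun r => ψ (r / ε) / ε ^ (n + 1) := hB.smooth.continuous
  have hx : Continuous fun z : (E × E) × (E × E) => z.1.1 := continuous_fst.fst
  have hy : Continuous fun z : (E × E) × (E × E) => z.2.1 := continuous_snd.fst
  have i1 : Integrable (fun z : (E × E) × (E × E) => ψ (rr G L z.1.1 z.2.1 / ε) / ε ^ (n + 1))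
      (D.μ.prod D.μ) := D.integrable_prod hP.loc hK (cψ.comp (cont_r hP hx hy))
  have i2 : Integrable (fun z : (E × E) × (E × E) => ψ (rr G L z.1.1 z.2.1 / ε) / ε ^ (n + 1) *
      ca G L z.2.1 z.1.1 z.2.2 ^ 2) (D.μ.prod D.μ) := D.integrable_prod hP.loc hK (hP.cont_cut hx hy
    ((cont_ca' hP hx hy continuous_snd.snd).pow 2) cψ (by positivity) z0)
  have k2 := hs (fun r => ψ (r / ε) / ε ^ (n + 1) / M₁) (cψ.div_const _)
    ⟨θ / 2 * ε, by positivity, fun r hr => by rw [z0 r hr, zero_div]⟩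
    (fun r hr => by rw [z1 r (ε3.trans hr), zero_div]) fun r hr => by
      rcases le_total ε r with h | h
      · rw [z1 r h, zero_div]
        positivity
      · rw [div_right_comm]
        exact div_le_div₀ zero_le_one (div_le_one_of_le₀ (hM₁ _) M0.le) (by positivity)
          (pow_le_pow_left₀ hr.le h _)
  simp only [div_mul_eq_mul_div _ M₁] at k2
  rw [integral_div, div_le_div_iff_of_pos_right M0] at k2
  have n1 : 0 ≤ ∫ z, ψ (rr G L z.1.1 z.2.1 / ε) / ε ^ (n + 1) ∂D.μ.prod D.μ :=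
    integral_nonneg fun z => (hB.mem _).1
  rw [ENNReal.ofReal_le_ofReal_iff (by positivity),
    show M₁ / ε ^ (n + 1) * ε ^ (n + 1 + 1) + M₂ / (ε ^ (n + 1) * ε) * ε ^ (n + 1 + 2) +
      C₁ / θ ^ (n + 1 + 1) / ε ^ (n + 1 + 2) * (θ * ε) ^ (n + 1 + 2) = (M₁ + M₂) * ε + C₁ * θ by
      field_simp
      ring] at k1
  have k3 : cm E (n + 1) * I ≤ cm E (n + 1) / (n + 1 : ℕ) *
      ∫ r in (0 : ℝ)..1, K₀ r * r ^ (n + 1 + 1) := by
    rw [div_mul_eq_mul_div, mul_div_assoc]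
    exact mul_le_mul_of_nonneg_left ((le_div_iff₀' (by positivity)).2 p6) (cm_pos E _).le
  simp only [hd, div_mul_eq_mul_div _ I, mul_sub, mul_one]
  rw [integral_div, integral_sub i1 i2, le_div_iff₀ I0]
  have q1 := mul_le_mul_of_nonneg_right k3 hA.le
  have q2 := mul_le_mul_of_nonneg_right (add_le_add ε5 θ2) hA.le
  have q3 := mul_le_mul_of_nonneg_left p5 (mul_pos hl hA).le
  linarith

end Vale.Agent.P219
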