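import Vale.Agent.P219.G.PushN
import Vale.Agent.P219.G.Cont
import Vale.Agent.P219.FluxE

/-!
# The divergence theorem along rays  (TASK)

`P` from `Pack.chg` at `y`, `Φ x = P (L y x)` (`Pack.diffeo`), `‖Φ x‖ = rr y x`, `⟪-P ν, Φ x⟫ / ‖Φ x‖ = ca y x ν`.  On `E` let `Z v = (F ‖v‖ (β v) / ‖v‖^(m+1)) • v`, `β v = ⟪-P ν, v⟫ / ‖v‖`; `Z` is `C¹`
(zero near `0`).  `dvg Z v = Fr ‖v‖ (β v) / ‖v‖^m` for `v ≠ 0`: `dvg_smul`, `dvg id = m + 1`, and the derivative of the scalar factor in the direction `v` is the derivative at `t = 1` of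
`t ↦ F (t ‖v‖) (β v) / (t ‖v‖)^(m+1)`.  `div_pio`; `(fderiv Φ x).inverse (Φ x) = -L x y` (`radial`), `|det (fderiv Φ x)| = jac y x` (`chg_det`); `Diffeo.integral_image` for the left side
(the point `y` is a null set).
-/

namespace Vale.Agent.P219

open scoped ContDiff Topology RealInnerProductSpace ENNReal
open MeasureTheory Set Filter Vale.Agent.P255
open St (sn gmod)

variable {E : Type*} [NormedAddCommGroup E] [InnerProductSpace ℝ E] [FiniteDimensional ℝ E]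
  [MeasurableSpace E] [BorelSpace E] {G : E → Bil E} {L : E → E → E} {K : Set E} {m : ℕ} {b : ℝ}
  {ρ ε c H : ℝ} {τ : ℝ → ℝ}

omit [FiniteDimensional ℝ E] [MeasurableSpace E] [BorelSpace E] in
theorem phi_smooth {F : ℝ → ℝ → ℝ} (hF : ContDiffOn ℝ 1 (fun z : ℝ × ℝ => F z.1 z.2) {z | 0 < z.1})
    {α : ℝ} (hα : 0 < α) (h0 : ∀ r β, r ≤ α → F r β = 0) (n : E) (k : ℕ) :
    ContDiff ℝ 1 fun v : E => F ‖v‖ (⟪n, v⟫ / ‖v‖) / ‖v‖ ^ k := by
  refine contDiff_iff_contDiffAt.2 fun v => ?_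
  by_cases hv : v = 0
  · subst hv
    refine (contDiffAt_const (c := (0 : ℝ))).congr_of_eventuallyEq ?_
    filter_upwards [Metric.ball_mem_nhds (0 : E) hα] with w hw
    rw [h0 _ _ (mem_ball_zero_iff.1 hw).le, zero_div]
  · have h1 : ContDiffAt ℝ 1 (fun v : E => ‖v‖) v := contDiffAt_norm ℝ hv
    have h2 : 0 < ‖v‖ := norm_pos_iff.2 hv
    have h3 : ContDiffAt ℝ 1 (fun v : E => (‖v‖, ⟪n, v⟫ / ‖v‖)) v :=
      h1.prodMk ((contDiffAt_const.inner ℝ contDiffAt_id).div h1 h2.ne')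
    have h4 : ContDiffAt ℝ 1 (fun z : ℝ × ℝ => F z.1 z.2) (‖v‖, ⟪n, v⟫ / ‖v‖) :=
      hF.contDiffAt ((isOpen_lt continuous_const continuous_fst).mem_nhds h2)
    exact (ContDiffAt.comp (f := fun v : E => (‖v‖, ⟪n, v⟫ / ‖v‖)) v h4 h3).div (h1.pow k)
      (pow_pos h2 k).ne'

omit [MeasurableSpace E] [BorelSpace E] in
theorem phi_dvg (hE : Module.finrank ℝ E = m + 1) {F Fr : ℝ → ℝ → ℝ}
    (hFr : ∀ r β, 0 < r → HasDerivAt (fun t => F t β) (Fr r β) r) (n : E) {v : E} (hv : v ≠ 0)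
    (hf : DifferentiableAt ℝ (fun v : E => F ‖v‖ (⟪n, v⟫ / ‖v‖) / ‖v‖ ^ (m + 1)) v) :
    dvg (fun v : E => (F ‖v‖ (⟪n, v⟫ / ‖v‖) / ‖v‖ ^ (m + 1)) • v) v =
      Fr ‖v‖ (⟪n, v⟫ / ‖v‖) / ‖v‖ ^ m := by
  have h2 : 0 < ‖v‖ := norm_pos_iff.2 hv
  have h3 : dvg (fun x : E => x) v = m + 1 := by
    rw [dvg, fderiv_fun_id, ContinuousLinearMap.coe_id, LinearMap.trace_id, hE]
    push_cast
    rfl
  have h4 : HasDerivAt (fun t : ℝ => t • v) v 1 := by
    simpa using (hasDerivAt_id (1 : ℝ)).smul_const v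
  have h5 := HasFDerivAt.comp_hasDerivAt_of_eq (1 : ℝ) hf.hasFDerivAt h4 (one_smul ℝ v).symm
  have h6 : HasDerivAt (fun t : ℝ => t * ‖v‖) ‖v‖ 1 := by
    simpa using (hasDerivAt_id (1 : ℝ)).mul_const ‖v‖
  have h7 := ((hFr ‖v‖ (⟪n, v⟫ / ‖v‖) h2).comp_of_eq (1 : ℝ) h6 (one_mul _).symm).div
    (h6.pow (m + 1)) (by simpa using fun h => absurd h hv)
  have h8 : (fun v : E => F ‖v‖ (⟪n, v⟫ / ‖v‖) / ‖v‖ ^ (m + 1)) ∘ (fun t : ℝ => t • v) =ᶠ[𝓝 1]
      ((fun t => F t (⟪n, v⟫ / ‖v‖)) ∘ fun t : ℝ => t * ‖v‖) / (fun t : ℝ => t * ‖v‖) ^ (m + 1) := by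
    filter_upwards [lt_mem_nhds (zero_lt_one' ℝ)] with t ht
    simp only [Function.comp_apply, Pi.div_apply, Pi.pow_apply, norm_smul, Real.norm_eq_abs,
      abs_of_pos ht, real_inner_smul_right, mul_div_mul_left _ _ ht.ne']
  rw [dvg_smul (Z := fun x => x) hf differentiableAt_id, h3,
    h5.unique (h7.congr_of_eventuallyEq h8)]
  simp only [Function.comp_apply, Pi.pow_apply, one_mul, Nat.add_sub_cancel]
  push_cast
  field_simp
  ring

theorem Pack.phi_id (hE : Module.finrank ℝ E = m + 1) (hP : Pack G L) (D : NDom G K) (y ν : E)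
    {F Fr : ℝ → ℝ → ℝ} (hF : ContDiffOn ℝ 1 (fun z : ℝ × ℝ => F z.1 z.2) {z | 0 < z.1})
    (hFr : ∀ r β, 0 < r → HasDerivAt (fun t => F t β) (Fr r β) r) {α : ℝ} (hα : 0 < α)
    (h0 : ∀ r β, r ≤ α → F r β = 0) :
    ∫ x in D.Ω, Fr (rr G L y x) (ca G L y x ν) * jac G L y x / rr G L y x ^ m =
      ∫ z, F (rr G L y z.1) (ca G L y z.1 ν) * ca G L z.1 y z.2 * jac G L y z.1 /
        (wt (G z.1) * rr G L y z.1 ^ m) ∂D.μ := by
  have : Nontrivial E := Module.nontrivial_of_finrank_pos (R := ℝ) (by omega)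
  obtain ⟨P, h1, h2, h3⟩ := hP.chg y
  have hΦ := hP.diffeo y P
  have hf := phi_smooth hF hα h0 (-P ν) (m + 1)
  have key := D.div_pio hP.loc hΦ (hf.smul contDiff_id)
  have e1 : ∀ x, ‖P (L y x)‖ = rr G L y x := fun x => by
    rw [rr, qq, h1, real_inner_self_eq_norm_sq, Real.sqrt_sq (norm_nonneg _)]
  have e2 : ∀ x, ⟪-P ν, P (L y x)⟫ / rr G L y x = ca G L y x ν := fun x => by
    rw [ca, h1, inner_neg_left]
  have e3 : ∀ x, (fderiv ℝ (fun x => P (L y x)) x).inverse (P (L y x)) = -L x y := fun x => by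
    rw [(isInvertible_of_det (hΦ.det_ne x)).inverse_apply_eq]
    have h4 := ((P : E →L[ℝ] E).hasFDerivAt.comp x
      ((chg_smooth hP y).differentiable (by simp) x).hasFDerivAt).fderiv
    have h5 : fderiv ℝ (fun x => P (L y x)) x = _ := h4
    rw [h5, map_neg, ContinuousLinearMap.comp_apply, hP.radial, map_neg, neg_neg]
    rfl
  rw [(h3 _ D.meas _).1] at key
  refine Eq.trans (integral_congr_ae (ae_restrict_of_ae ?_)) (key.trans (integral_congr_ae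
    (ae_of_all _ fun z => ?_)))
  · filter_upwards [Measure.ae_ne volume y] with x hx
    have h4 : P (L y x) ≠ 0 := by
      rw [← norm_pos_iff, e1]
      exact hP.rr_pos hx
    have h5 := phi_dvg hE hFr (-P ν) h4 (hf.differentiable one_ne_zero _)
    refine Eq.trans ?_ (congrArg (wt (G y) * |(fderiv ℝ (L y) x).det| * ·) h5).symm
    simp only [e1, e2, jac]
    ring
  · have e4 : rr G L z.1 y = rr G L y z.1 := by rw [rr, rr, hP.sym]
    simp only [Pi.smul_apply', id, map_smul, e1, e2, e3, chg_det, abs_mul, ← h2, smul_eq_mul,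
      map_neg, jac]
    rw [ca.eq_1 G L z.1, e4]
    ring

end Vale.Agent.P219
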