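import Vale.Agent.P219.G.Ray1
import Vale.Agent.P219.G.Phi

/-!
# The ray bound for a certificate  (TASK)

`φ r β = sn r^(m+1) * Ψ (ww r) (sn r * β)`, `φr = sn r^m * cD r β` (`Der2.hasFDerivAt`), `Φ = cΦ`, `Dd = {hh ww < sn β}`; `exists_chord`, the fields `ray_pos`, `ray_neg`, `Ψ_pos`, `Ψ_neg`, `const`, `const_le`.
`phi_id` with `F = τ φ` identifies `∫ rayT` with the integral over `Ω`; `Pack.chg` at `y` (and `lintegral_image_eq_lintegral_abs_det_fderiv_mul`, `chg_det`) moves both integrals to `E`, with `e = -P ν`,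
`S = Φ '' Ω`; the image of the set in `dfc` is contained in the set of `ray_euc` by injectivity.
`dfc_ae`: the integrand is positive on the set (`ray_pos`, `ca_sq_le`, `jac_pos`) and continuous off `y`; `setLIntegral_eq_zero_iff` / `lintegral_eq_zero_iff'`; countable union.
-/

namespace Vale.Agent.P219

open scoped ContDiff Topology RealInnerProductSpace ENNReal
open MeasureTheory Set Filter Vale.Agent.P255
open St (sn gmod)

variable {E : Type*} [NormedAddCommGroup E] [InnerProductSpace ℝ E] [FiniteDimensional ℝ E]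
  [MeasurableSpace E] [BorelSpace E] {G : E → Bil E} {L : E → E → E} {K : Set E} {m : ℕ} {b : ℝ}
  {ρ ε c H : ℝ} {τ : ℝ → ℝ}

theorem ray2_map (b : ℝ) : ContDiff ℝ ∞ (fun z : ℝ × ℝ => (ww b z.1, sn b z.1 * z.2)) ∧
    MapsTo (fun z : ℝ × ℝ => (ww b z.1, sn b z.1 * z.2)) {z | 0 < z.1} {z | 0 < z.1} :=
  ⟨((contDiff_ww b).comp contDiff_fst).prodMk
    (((contDiff_sn b).comp contDiff_fst).mul contDiff_snd), fun _ hz => ww_pos b hz⟩

theorem ray2_phi {Ψ Ψw ΨQ : ℝ → ℝ → ℝ} (h : Der2 Ψ Ψw ΨQ) (m : ℕ) (b : ℝ) : ContDiffOn ℝ 1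
    (fun z : ℝ × ℝ => sn b z.1 ^ (m + 1) * Ψ (ww b z.1) (sn b z.1 * z.2)) {z | 0 < z.1} :=
  ((((contDiff_sn b).of_le (by simp)).comp contDiff_fst).pow _).contDiffOn.mul
    ((h.1.of_le one_le_two).comp ((ray2_map b).1.of_le (by simp)).contDiffOn (ray2_map b).2)

theorem ray2_cD {Ψ Ψw ΨQ : ℝ → ℝ → ℝ} (h : Der2 Ψ Ψw ΨQ) (m : ℕ) (b : ℝ) : ContinuousOn
    (fun z : ℝ × ℝ => sn b z.1 ^ m * cD m b Ψ Ψw ΨQ z.1 z.2) {z | 0 < z.1} := by
  obtain ⟨d1, d2, d3⟩ := h.continuousOn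
  have k := (ray2_map b).1.continuous.continuousOn (s := {z | 0 < z.1})
  have s := ((contDiff_sn b).continuous.comp continuous_fst).continuousOn
    (s := {z : ℝ × ℝ | 0 < z.1})
  have c := ((contDiff_cs b).continuous.comp continuous_fst).continuousOn
    (s := {z : ℝ × ℝ | 0 < z.1})
  exact (s.pow m).mul ((((continuousOn_const.mul c).mul (d1.comp k (ray2_map b).2)).add
    ((s.pow 2).mul (d2.comp k (ray2_map b).2))).add
    ((c.mul (s.mul continuousOn_snd)).mul (d3.comp k (ray2_map b).2)))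

theorem ray2_der {Ψ Ψw ΨQ : ℝ → ℝ → ℝ} (h : Der2 Ψ Ψw ΨQ) (m : ℕ) (b : ℝ) (r β : ℝ) (hr : 0 < r) :
    HasDerivAt (fun t => sn b t ^ (m + 1) * Ψ (ww b t) (sn b t * β))
      (sn b r ^ m * cD m b Ψ Ψw ΨQ r β) r := by
  have h1 := HasFDerivAt.comp_hasDerivAt (f := fun t => (ww b t, sn b t * β)) r
    (h.hasFDerivAt (ww_pos b hr) (sn b r * β))
    ((hasDerivAt_ww b r).prodMk ((hasDerivAt_sn b r).mul_const β))
  refine (((hasDerivAt_sn b r).pow (m + 1)).mul h1).congr_deriv ?_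
  simp [cD]
  ring

theorem ray2_den (b : ℝ) (hρ : 0 < ρ) {β : ℝ} (h : β ∈ Ioc (0 : ℝ) 1) :
    0 < hh b ρ ^ 2 - b ^ 2 * β ^ 2 := by
  have h1 := sn_pos b hρ
  have h2 : 0 < 1 / sn b ρ ^ 2 := by positivity
  have h3 := mul_le_of_le_one_right (sq_nonneg b) (pow_le_one₀ (n := 2) h.1.le h.2)
  rw [hh_sq b hρ]
  linarith

theorem ray2_Phi {Ψ Ψw ΨQ : ℝ → ℝ → ℝ} (h : Der2 Ψ Ψw ΨQ) (m : ℕ) (b : ℝ) (hρ : 0 < ρ) :
    ContinuousOn (cΦ m b ρ Ψ) (Ioc 0 1) := by
  have h1 : ContinuousOn (wE b ρ) (Ioc 0 1) :=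
    ContinuousOn.div (by fun_prop) (by fun_prop) fun β hβ => (ray2_den b hρ hβ).ne'
  exact (((continuousOn_const.mul h1).div continuousOn_id fun β hβ => hβ.1.ne').pow _).mul
    (h.continuousOn.1.comp (h1.prodMk (continuousOn_const.mul h1)) fun β hβ =>
      div_pos (mul_pos two_pos (pow_pos hβ.1 2)) (ray2_den b hρ hβ))

theorem ray2_euc (hE : Module.finrank ℝ E = m + 1) (hm : 1 ≤ m) (hρ : 0 < ρ) (C : Cert m b ρ)
    (hτ : Cut τ ε) {e : E} (he : ‖e‖ = 1) {S : Set E} (hS : MeasurableSet S)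
    (hb : Bornology.IsBounded S) {I : ℝ} (hI : I = ∫ v in S, (deriv τ ‖v‖ * (sn b ‖v‖ ^ (m + 1) *
      C.Ψ (ww b ‖v‖) (sn b ‖v‖ * (⟪e, v⟫ / ‖v‖))) + τ ‖v‖ * (sn b ‖v‖ ^ m *
        cD m b C.Ψ C.Ψw C.ΨQ ‖v‖ (⟪e, v⟫ / ‖v‖))) / ‖v‖ ^ m) :
    I ≤ cm E m * C.R₀ ∧
      ∫⁻ v in {v : E | v ∉ S ∧ hh b ρ * ww b ‖v‖ < sn b ‖v‖ * (⟪e, v⟫ / ‖v‖) ∧ ε ≤ ‖v‖},
        ENNReal.ofReal (sn b ‖v‖ ^ m * cD m b C.Ψ C.Ψw C.ΨQ ‖v‖ (⟪e, v⟫ / ‖v‖) / ‖v‖ ^ m) ≤
        ENNReal.ofReal (cm E m * C.R₀ - I) := by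
  obtain ⟨l₀, hl₀⟩ := exists_chord b hρ
  have hh0 := hh_pos b hρ
  rw [hI]
  refine ray_euc hE hm he (φ := fun r β => sn b r ^ (m + 1) * C.Ψ (ww b r) (sn b r * β))
    (φr := fun r β => sn b r ^ m * cD m b C.Ψ C.Ψw C.ΨQ r β) (Φ := cΦ m b ρ C.Ψ)
    (Dd := {z | hh b ρ * ww b z.1 < sn b z.1 * z.2}) hτ
    (isOpen_lt (continuous_const.mul ((contDiff_ww b).continuous.comp continuous_fst))
      (((contDiff_sn b).continuous.comp continuous_fst).mul continuous_snd)).measurableSet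
    (ray2_Phi C.derΨ m b hρ) (ray2_phi C.derΨ m b).continuousOn (ray2_cD C.derΨ m b)
    (ray2_der C.derΨ m b) (fun β h0 h1 => ?_) (fun β h1 h0 r hr => ?_) (sub_nonneg.2 C.const_le)
    C.const hS hb
  · obtain ⟨l, l0, -, l1, l2, l3⟩ := hl₀ β h0 h1
    have h2 : β ^ 2 ≤ 1 := pow_le_one₀ h0.le h1
    have l4 : sn b l * β = hh b ρ * wE b ρ β := by rw [l2, div_mul_cancel₀ _ h0.ne']
    refine ⟨l, l0, by rw [l4, l1, l2, cΦ], fun r hr => ⟨l3 r hr, fun k => ?_, fun k => ?_,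
      fun k => ?_⟩⟩
    · refine mul_nonneg (pow_pos (sn_pos b hr) _).le (C.Ψ_pos r β hr h2 ?_)
      rcases k.eq_or_lt with rfl | k
      · rw [l4, l1]
      · exact ((l3 r hr).2 k).le
    · exact mul_nonneg (pow_pos (sn_pos b hr) _).le (C.ray_pos r β hr h2 ((l3 r hr).2 k)).le
    · exact mul_nonpos_of_nonneg_of_nonpos (pow_pos (sn_pos b hr) _).le
        (C.ray_neg r β hr h2 (not_lt.1 fun k' => k.not_gt ((l3 r hr).1 k')))
  · have h2 : β ^ 2 ≤ 1 := by nlinarith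
    have h3 : sn b r * β ≤ hh b ρ * ww b r :=
      (mul_nonpos_of_nonneg_of_nonpos (sn_pos b hr).le h0).trans (mul_pos hh0 (ww_pos b hr)).le
    exact ⟨h3.not_gt, mul_nonpos_of_nonneg_of_nonpos (pow_pos (sn_pos b hr) _).le
      (C.Ψ_neg r β hr h2 h0), mul_nonpos_of_nonneg_of_nonpos (pow_pos (sn_pos b hr) _).le
      (C.ray_neg r β hr h2 h3)⟩

theorem ray2_meas (hP : Pack G L) {S : Set E} (hS : MeasurableSet S) (y ν : E) (b ρ ε : ℝ) :
    MeasurableSet {x | x ∉ S ∧ hh b ρ * ww b (rr G L y x) < sn b (rr G L y x) * ca G L y x ν ∧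
      ε ≤ rr G L y x} := by
  have h1 : Continuous fun x => rr G L y x := cont_r hP continuous_const continuous_id
  have h2 : Measurable fun x => ca G L y x ν :=
    (cont_G hP continuous_const continuous_const
      (cont_L hP continuous_const continuous_id)).neg.measurable.div h1.measurable
  exact hS.compl.inter ((measurableSet_lt
    (continuous_const.mul ((contDiff_ww b).continuous.comp h1)).measurable
    (((contDiff_sn b).continuous.comp h1).measurable.mul h2)).inter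
    (measurableSet_le measurable_const h1.measurable))

theorem Pack.ray (hE : Module.finrank ℝ E = m + 1) (hm : 1 ≤ m) (hP : Pack G L) (hK : IsCompact K)
    (hρ : 0 < ρ) (C : Cert m b ρ) (D : NDom G K) (hτ : Cut τ ε) {y ν : E} (hν : G y ν ν = 1) :
    ∫ z, C.rayT G L τ y ν z.1 z.2 ∂D.μ ≤ cm E m * C.R₀ ∧
      C.dfc G L D.Ω y ν ε ≤
        ENNReal.ofReal (cm E m * C.R₀ - ∫ z, C.rayT G L τ y ν z.1 z.2 ∂D.μ) := by
  obtain ⟨P, h1, h2, h3⟩ := hP.chg y
  have hd := hP.diffeo y P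
  have hn : ∀ x, ‖P (L y x)‖ = rr G L y x := fun x => by
    rw [rr, qq, h1, real_inner_self_eq_norm_sq, Real.sqrt_sq (norm_nonneg _)]
  have ha : ∀ x, ⟪-P ν, P (L y x)⟫ / rr G L y x = ca G L y x ν := fun x => by
    rw [ca, h1, inner_neg_left]
  have he : ‖-P ν‖ = 1 := by
    rw [h1, real_inner_self_eq_norm_sq] at hν
    rw [norm_neg, ← sq_eq_sq₀ (norm_nonneg _) zero_le_one, hν, one_pow]
  obtain ⟨α, hα, h0⟩ := hτ.zero
  have h4 := hP.phi_id hE D y ν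
    (F := fun r β => τ r * (sn b r ^ (m + 1) * C.Ψ (ww b r) (sn b r * β)))
    (Fr := fun r β => deriv τ r * (sn b r ^ (m + 1) * C.Ψ (ww b r) (sn b r * β)) +
      τ r * (sn b r ^ m * cD m b C.Ψ C.Ψw C.ΨQ r β))
    (((hτ.smooth.of_le one_le_two).comp contDiff_fst).contDiffOn.mul (ray2_phi C.derΨ m b))
    (fun r β hr => (hτ.smooth.differentiable two_ne_zero r).hasDerivAt.mul
      (ray2_der C.derΨ m b r β hr)) hα fun r β hr => by rw [h0 r hr, zero_mul]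
  obtain ⟨k1, k2⟩ := ray2_euc hE hm hρ C hτ he (hd.measurableSet_image D.meas)
    ((hK.image hd.smooth.continuous).isBounded.subset (image_mono D.sub))
    (I := ∫ z, C.rayT G L τ y ν z.1 z.2 ∂D.μ) (by
      rw [(h3 _ D.meas _).1]
      simp only [hn, ha]
      refine Eq.trans (integral_congr_ae (ae_of_all _ fun z => ?_))
        (h4.symm.trans (integral_congr_ae (ae_of_all _ fun x => ?_)))
      · simp only [Cert.rayT, iota]
        ring
      · simp only [jac]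
        ring)
  refine ⟨k1, le_trans ?_ k2⟩
  refine le_trans (le_of_eq ?_) (lintegral_mono_set (s := (fun x => P (L y x)) ''
    {x | x ∉ D.Ω ∧ hh b ρ * ww b (rr G L y x) < sn b (rr G L y x) * ca G L y x ν ∧
      ε ≤ rr G L y x}) ?_)
  · rw [lintegral_image_eq_lintegral_abs_det_fderiv_mul volume (ray2_meas hP D.meas y ν b ρ ε)
      (push_deriv hd _) hd.inj.injOn, Cert.dfc]
    refine lintegral_congr fun x => ?_
    rw [← ENNReal.ofReal_mul (abs_nonneg _), chg_det, abs_mul, ← h2, hn, ha, jac]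
    exact congrArg _ (by ring)
  · rintro _ ⟨x, ⟨a1, a2, a3⟩, rfl⟩
    refine ⟨fun k => a1 (hd.inj.mem_set_image.1 k), ?_⟩
    simp only [hn, ha]
    exact ⟨a2, a3⟩

theorem Cert.dfc_anti (C : Cert m b ρ) (S : Set E) (y ν : E) {ε ε' : ℝ} (h : ε ≤ ε') :
    C.dfc G L S y ν ε' ≤ C.dfc G L S y ν ε :=
  lintegral_mono_set fun _ hx => ⟨hx.1, hx.2.1, h.trans hx.2.2⟩

theorem Pack.dfc_ae (hP : Pack G L) (C : Cert m b ρ) {S : Set E} (hS : MeasurableSet S) {y ν : E}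
    (hν : G y ν ν = 1) (h : ∀ k : ℕ, C.dfc G L S y ν (1 / (k + 1)) = 0) :
    ∀ᵐ x, hh b ρ * ww b (rr G L y x) < sn b (rr G L y x) * ca G L y x ν → x ∈ S := by
  have h1 : ContinuousOn (fun x => ENNReal.ofReal (sn b (rr G L y x) ^ m *
      cD m b C.Ψ C.Ψw C.ΨQ (rr G L y x) (ca G L y x ν) * jac G L y x / rr G L y x ^ m))
      {x | y ≠ x} := by
    have k := (cont_r hP (continuous_const (y := y)) continuous_id).continuousOn (s := {x | y ≠ x})
    exact ENNReal.continuous_ofReal.comp_continuousOn ((((ray2_cD C.derΨ m b).comp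
      (k.prodMk (cont_ca hP continuous_const continuous_id continuous_const))
      fun x hx => hP.rr_pos (Ne.symm hx)).mul
      (cont_jac hP continuous_const continuous_id).continuousOn).div (k.pow m)
      fun x hx => (pow_pos (hP.rr_pos (Ne.symm hx)) m).ne')
  have h2 : ∀ k : ℕ, ∀ᵐ x, x ∉ {x | x ∉ S ∧
      hh b ρ * ww b (rr G L y x) < sn b (rr G L y x) * ca G L y x ν ∧
      1 / ((k : ℝ) + 1) ≤ rr G L y x} := fun k => by
    have hM := ray2_meas hP hS y ν b ρ (1 / (k + 1))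
    have h3 := (lintegral_eq_zero_iff' ((h1.mono fun x hx => hP.ne_of_rr_pos
      (Nat.one_div_pos_of_nat.trans_le hx.2.2)).aemeasurable hM)).1 (h k)
    filter_upwards [(ae_restrict_iff' hM).1 h3] with x hx hx'
    have hr : 0 < rr G L y x := Nat.one_div_pos_of_nat.trans_le hx'.2.2
    exact (ENNReal.ofReal_pos.2 (div_pos (mul_pos (mul_pos (pow_pos (sn_pos b hr) m)
      (C.ray_pos _ _ hr ((hP.ca_sq_le y x ν).trans hν.le) hx'.2.1)) (hP.jac_pos y x))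
      (pow_pos hr m))).ne' (hx hx')
  filter_upwards [ae_all_iff.2 h2] with x hx hx'
  have hr : 0 < rr G L y x := (rr_nonneg G L y x).lt_of_ne fun e => by
    rw [← e, ww_zero, sn_zero, mul_zero, zero_mul] at hx'
    exact hx'.false
  obtain ⟨k, hk⟩ := exists_nat_one_div_lt hr
  exact by_contra fun a => hx k ⟨a, hx', hk.le⟩

end Vale.Agent.P219
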