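import Vale.Agent.P219.G.Core1
import Vale.Agent.P219.G.Flux
import Vale.Agent.P219.G.Ray2

/-!
# The main inequality

Choose `l' > 0` with `l' ≤ χ₀` and `(χ₀ - l') (cm - l') A ≥ χ₀ cm A - l`; `ε₁` from `C.sing`, `τ, ε` from `fluxN` with `ε ≤ min ε₀ (ε₁)`.  Pointwise a.e.
`(χ₀ - l') τ' r / r^(m-1) (1 - b²) ≤ flxT` (`τ' r = 0` for `r > ε` or `r ≤ α`; `Cut.nonneg`; continuity by `cont_cut`).  `f z = cm R₀ - ∫ z', rayT z z'` is integrable (`Integrable.integral_prod_left`), `ray`, `dfc_anti`,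
`∫ f = cm R₀ A - ∬ rayT ≤ cm R₀ A + η A² - ∬ flxT` (`core_sum`), and `cm (χ₀ - R₀) = η Am` (`cm_mul_Sm`).
-/

namespace Vale.Agent.P219

open scoped ContDiff Topology RealInnerProductSpace ENNReal
open MeasureTheory Set Filter Vale.Agent.P255
open St (sn gmod)

variable {E : Type*} [NormedAddCommGroup E] [InnerProductSpace ℝ E] [FiniteDimensional ℝ E]
  [MeasurableSpace E] [BorelSpace E] {G : E → Bil E} {L : E → E → E} {K : Set E} {m : ℕ} {b : ℝ}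
  {ρ ε c H : ℝ} {τ : ℝ → ℝ}

theorem core2_sing (hP : Pack G L) {χ : ℝ → ℝ → ℝ} {χ₀ l ε₁ : ℝ} (hτ : Cut τ ε) (h : ε ≤ ε₁)
    (hs : ∀ r a, 0 < r → r ≤ ε₁ → a ^ 2 ≤ 1 →
      χ₀ - l ≤ χ (ww b r) (sn b r * a) * sn b r * r ^ (m - 1)) {x e y ν : E} (he : G x e e = 1)
    (hν : G y ν ν = 1) :
    (χ₀ - l) * (deriv τ (rr G L x y) / rr G L x y ^ (m - 1) * (1 - ca G L y x ν ^ 2)) ≤
      deriv τ (rr G L x y) * (χ (ww b (rr G L x y)) (sn b (rr G L x y) * ca G L x y e) *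
        sn b (rr G L x y) * (1 - ca G L y x ν ^ 2)) := by
  obtain ⟨α, hα, h0⟩ := hτ.zero'
  set r := rr G L x y
  rcases le_or_gt r α with h1 | h1
  · simp [(h0 r h1).2]
  rcases lt_or_ge ε r with h2 | h2
  · simp [(hτ.nonneg r).2.2.2 h2]
  have hr : 0 < r := hα.trans h1
  have h3 := hs r (ca G L x y e) hr (h2.trans h) (he ▸ hP.ca_sq_le x y e)
  have h4 : 0 ≤ deriv τ r / r ^ (m - 1) * (1 - ca G L y x ν ^ 2) :=
    mul_nonneg (div_nonneg (hτ.nonneg r).2.2.1 (by positivity))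
      (sub_nonneg.2 (hν ▸ hP.ca_sq_le y x ν))
  refine (mul_le_mul_of_nonneg_right h3 h4).trans_eq ?_
  field_simp

theorem core2_gen (hE : Module.finrank ℝ E = m + 1) (hm : 2 ≤ m) (hP : Pack G L)
    {D : NDom G (KB G L c)} (hD : NDom.Stat L c D H) (hT : D.Tight) {η χ₀ R₀ A₀ : ℝ} (hχ : 0 < χ₀)
    (hcm : cm E m * (χ₀ - R₀) = η * A₀) {flx ray : (ℝ → ℝ) → (E × E) × (E × E) → ℝ}
    {dfc : E × E → ℝ → ℝ≥0∞}
    (hsing : ∀ l : ℝ, 0 < l → ∃ ε₁ : ℝ, 0 < ε₁ ∧ ∀ τ ε, Cut τ ε → ε ≤ ε₁ →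
      ∀ z : (E × E) × (E × E), z.1 ∈ UB G (KB G L c) → z.2 ∈ UB G (KB G L c) →
        (χ₀ - l) * (deriv τ (rr G L z.1.1 z.2.1) / rr G L z.1.1 z.2.1 ^ (m - 1) *
          (1 - ca G L z.2.1 z.1.1 z.2.2 ^ 2)) ≤ flx τ z)
    (hcont : ∀ τ ε, Cut τ ε → Continuous (flx τ) ∧ Continuous (ray τ))
    {ε₃ : ℝ} (p3 : 0 < ε₃) (hsum : ∀ τ ε, Cut τ ε → ε ≤ ε₃ →
      ∫ z, flx τ z ∂D.μ.prod D.μ ≤ η * D.A ^ 2 + ∫ z, ray τ z ∂D.μ.prod D.μ)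
    (hray : ∀ l : ℝ, 0 < l → ∃ ε₁ : ℝ, 0 < ε₁ ∧ ∀ τ ε, Cut τ ε → ε ≤ ε₁ →
      ∀ y ∈ UB G (KB G L c), ∫ z, ray τ (y, z) ∂D.μ ≤ cm E m * (R₀ + l) ∧
        dfc y ε ≤ ENNReal.ofReal (cm E m * (R₀ + l) - ∫ z, ray τ (y, z) ∂D.μ))
    (hanti : ∀ y ε ε', ε ≤ ε' → dfc y ε' ≤ dfc y ε) {l ε₀ : ℝ} (hl : 0 < l) (hε : 0 < ε₀) :
    ∃ f : E × E → ℝ, Integrable f D.μ ∧
      (∀ᵐ z ∂D.μ, 0 ≤ f z ∧ dfc z ε₀ ≤ ENNReal.ofReal (f z)) ∧
      ∫ z, f z ∂D.μ ≤ η * D.A * (D.A - A₀) + l := by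
  have hK := hP.isCompact_KB c
  have hA := D.A_nonneg
  have hc := cm_pos E m
  obtain ⟨l', h0, h1, h2⟩ : ∃ l' : ℝ, 0 < l' ∧ l' ≤ χ₀ ∧ l' * ((χ₀ + 2 * cm E m) * D.A) ≤ l := by
    refine ⟨min χ₀ (l / ((χ₀ + 2 * cm E m) * D.A + 1)), by positivity, min_le_left _ _, ?_⟩
    have h3 : min χ₀ (l / ((χ₀ + 2 * cm E m) * D.A + 1)) * ((χ₀ + 2 * cm E m) * D.A + 1) ≤ l :=
      (le_div_iff₀ (by positivity)).1 (min_le_right _ _)
    have h4 : 0 < min χ₀ (l / ((χ₀ + 2 * cm E m) * D.A + 1)) := by positivity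
    nlinarith
  obtain ⟨ε₁, p1, q1⟩ := hsing l' h0
  obtain ⟨ε₂, p2, q2⟩ := hray l' h0
  obtain ⟨τ, ε, hle, hτ, hF⟩ := hP.fluxN hE hm hD hT h0 (lt_min hε (lt_min p1 (lt_min p2 p3)))
  have e0 : ε ≤ ε₀ := hle.trans (min_le_left _ _)
  have e1 : ε ≤ ε₁ := hle.trans ((min_le_right _ _).trans (min_le_left _ _))
  have e4 : ε ≤ min ε₂ ε₃ := hle.trans ((min_le_right _ _).trans (min_le_right _ _))
  have e2 : ε ≤ ε₂ := e4.trans (min_le_left _ _)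
  have i1 := D.integrable_prod hP.loc hK (hcont τ ε hτ).1
  have i2 := D.integrable_prod hP.loc hK (hcont τ ε hτ).2
  have i3 : Integrable (fun y => ∫ z, ray τ (y, z) ∂D.μ) D.μ := i2.integral_prod_left
  refine ⟨fun y => cm E m * (R₀ + l') - ∫ z, ray τ (y, z) ∂D.μ, (integrable_const _).sub i3,
    D.supp.mono fun y hy => ⟨sub_nonneg.2 (q2 τ ε hτ e2 y hy).1,
      (hanti y ε ε₀ e0).trans (q2 τ ε hτ e2 y hy).2⟩, ?_⟩
  rw [integral_sub (integrable_const _) i3, integral_const, ← integral_prod _ i2, smul_eq_mul]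
  obtain ⟨α, hα, hz⟩ := hτ.zero'
  have hx : Continuous fun z : (E × E) × (E × E) => z.1.1 := continuous_fst.fst
  have hy : Continuous fun z : (E × E) × (E × E) => z.2.1 := continuous_snd.fst
  have c1 : Continuous fun z : (E × E) × (E × E) => deriv τ (rr G L z.1.1 z.2.1) *
      ((rr G L z.1.1 z.2.1 ^ (m - 1))⁻¹ * (1 - ca G L z.2.1 z.1.1 z.2.2 ^ 2)) :=
    hP.cont_cut hx hy ((((cont_r hP hx hy).continuousOn.pow _).inv₀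
      fun t ht => pow_ne_zero _ (cont_ne hP t ht)).mul
        (continuousOn_const.sub ((cont_ca' hP hx hy continuous_snd.snd).pow 2)))
      (hτ.smooth.continuous_deriv (by norm_num)) hα fun r hr => (hz r hr).2
  have i4 : Integrable (fun z : (E × E) × (E × E) => deriv τ (rr G L z.1.1 z.2.1) /
      rr G L z.1.1 z.2.1 ^ (m - 1) * (1 - ca G L z.2.1 z.1.1 z.2.2 ^ 2)) (D.μ.prod D.μ) := by
    simpa only [div_eq_mul_inv, mul_assoc] using D.integrable_prod hP.loc hK c1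
  have h3 := integral_mono_ae (i4.const_mul (χ₀ - l')) i1
    ((D.ae_prod hP.loc hK).mono fun z hz => q1 τ ε hτ e1 z hz.1 hz.2)
  rw [integral_const_mul] at h3
  have h4 := mul_le_mul_of_nonneg_left hF (sub_nonneg.2 h1)
  have h5 := hsum τ ε hτ (e4.trans (min_le_right _ _))
  have h6 : D.μ.real univ = D.A := rfl
  have h7 : cm E m * (χ₀ - R₀) * D.A = η * A₀ * D.A := by rw [hcm]
  rw [h6]
  nlinarith [mul_nonneg (mul_nonneg h0.le h0.le) hA]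

theorem core2_cm (η χ₀ b ρ : ℝ) (m : ℕ) :
    cm E m * (χ₀ - (χ₀ - η * sn b ρ ^ m * Sm m)) = η * Am (om E) m b ρ := by
  rw [Am, ← cm_mul_Sm (E := E) m]
  ring

theorem PackK.core (hE : Module.finrank ℝ E = m + 1) (hm : 2 ≤ m) (hP : PackK b G L) (hρ : 0 < ρ)
    (C : Cert m b ρ) {D : NDom G (KB G L c)} (hD : NDom.Stat L c D (m * hh b ρ)) (hT : D.Tight)
    {l ε₀ : ℝ} (hl : 0 < l) (hε : 0 < ε₀) :
    ∃ f : E × E → ℝ, Integrable f D.μ ∧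
      (∀ᵐ z ∂D.μ, 0 ≤ f z ∧ C.dfc G L D.Ω z.1 z.2 ε₀ ≤ ENNReal.ofReal (f z)) ∧
      ∫ z, f z ∂D.μ ≤ C.η * D.A * (D.A - Am (om E) m b ρ) + l := by
  refine core2_gen hE hm hP.toPack hD hT C.χ₀_pos (R₀ := C.R₀) (core2_cm C.η C.χ₀ b ρ m)
    (flx := fun τ z => C.flxT G L τ z.1.1 z.1.2 z.2.1 z.2.2)
    (ray := fun τ z => C.rayT G L τ z.1.1 z.1.2 z.2.1 z.2.2)
    (dfc := fun z ε => C.dfc G L D.Ω z.1 z.2 ε) (fun l hl => ?_)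
    (fun τ ε hτ => ⟨hP.toPack.continuous_flxT C hτ, hP.toPack.continuous_rayT C hτ⟩)
    one_pos
    (fun τ ε hτ _ => hP.core_sum hE C hD hτ) (fun l hl => ⟨1, one_pos, fun τ ε hτ _ y hy => ?_⟩)
    (fun y ε ε' h => C.dfc_anti D.Ω y.1 y.2 h) hl hε
  · obtain ⟨ε₁, h1, h2⟩ := C.sing l hl
    exact ⟨ε₁, h1, fun τ ε hτ h z hz1 hz2 => core2_sing hP.toPack hτ h h2 hz1.2 hz2.2⟩
  · obtain ⟨h1, h2⟩ := hP.toPack.ray hE (by omega) (hP.toPack.isCompact_KB c) hρ C D hτ hy.2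
    have h3 : cm E m * C.R₀ ≤ cm E m * (C.R₀ + l) :=
      mul_le_mul_of_nonneg_left (by linarith) (cm_pos E m).le
    exact ⟨h1.trans h3, h2.trans (ENNReal.ofReal_le_ofReal (sub_le_sub_right h3 _))⟩

end Vale.Agent.P219
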