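import Vale.Agent.P219.G.Basic2
import Vale.Agent.P219.G.Cont

/-!
# The geometric configuration is feasible  (TASK)

`Mc_eq`: `Cm y x = (fderiv (L y) x) ∘ S` (see `Iota.lean`), on vectors orthogonal to the chord `(Cm y x)⁻¹ = (s/r)⁻¹ (fderiv (L y) x)⁻¹`, and `Cm y x (L x y) = -L y x`.  `Mc_symm`: `Cm_adj`, `iota_symm`.
`feas`: `P` from `block x y`; `P (L y x) = Cm (L y x) = -L x y` (take `h = L y x`, `k = t • k`, `t → 0` in the inequality; `exq (L y x) = 0`).  Let `Q : E ≃L Euc (m+1)` with `G x u v = ⟪Q u, Q v⟫` (`exists_sqrt` and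
`(stdOrthonormalBasis ℝ E).reindex .. |>.repr`, or `exists_onb`).  `C = Q ∘ Cm ∘ P⁻¹ ∘ Q⁻¹`, `A₁ = Q ∘ Ex ∘ Q⁻¹`, `A₂ = (Q P) ∘ Ey ∘ (Q P)⁻¹` with the excess operators `Ex`, `Ey` used in the proof of `gain_mul`
(`Iota.lean`), `n = r⁻¹ • Q (L x y)`, `e' = Q e`, `f = Q (P ν)`; `LinearMap.det_conj`, `LinearMap.trace_conj'`, `wt_comp`, `iota_eq`.
`continuous_rayT`: as in `Cont.lean`; the inverse is continuous (`ContinuousLinearMap.IsInvertible.contDiffAt_map_inverse`, `isInvertible_of_det`).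
-/

namespace Vale.Agent.P219

open scoped ContDiff Topology RealInnerProductSpace ENNReal
open MeasureTheory Set Filter Vale.Agent.P255
open St (sn gmod)

variable {E : Type*} [NormedAddCommGroup E] [InnerProductSpace ℝ E] [FiniteDimensional ℝ E]
  {G : E → Bil E} {L : E → E → E} {m : ℕ} {b : ℝ} {ρ ε : ℝ} {τ : ℝ → ℝ}

theorem feasG_det (hP : Pack G L) {x y : E} (h : x ≠ y) : (Cm b G L x y).det ≠ 0 := by
  have : Nontrivial E := ⟨⟨x, y, h⟩⟩
  obtain ⟨k, hk⟩ := Nat.exists_eq_succ_of_ne_zero (Module.finrank_pos (R := ℝ) (M := E)).ne'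
  have hr := hP.rr_pos h.symm
  rw [iota_det hk hP h]
  exact mul_ne_zero (hP.det_ne x y) (pow_ne_zero _ (div_pos (sn_pos b hr) hr).ne')

theorem feasG_abs (hE : Module.finrank ℝ E = m + 1) {B₁ B₂ : Bil E} (h₁ : PosB B₁) (h₂ : PosB B₂)
    {P C A₁ A₂ : E →L[ℝ] E} {u v e ν : E} (hP : ∀ h, B₁ (P h) (P h) = B₂ h h)
    (hC : ∀ h, B₁ (C h) (C h) ≤ B₂ h h) (hd : C.det ≠ 0)
    (h : ∀ k l, 2 * B₁ k (P l - C l) ≤ B₁ (A₁ k) k + B₂ (A₂ l) l) (hu : B₁ u u = 1)
    (he : B₁ e e = 1) (hν : B₂ ν ν = 1) (hv : C v = u) (hadj : ∀ l, B₁ u (C l) = B₂ v l)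
    (a1 : B₁ (A₁ u) u = 0) (a2 : B₂ (A₂ v) v = 0) {a a' W W₂ ι gx gy : ℝ} (ha : a = -B₁ u e)
    (ha' : a' = B₂ v ν) (hι : ι = wt B₁ * |C.det| / wt B₂) (hW : W = B₁ e (C ν) + a * a')
    (hW₂ : W₂ = ι * (B₂ (C.inverse e) ν + a * a')) (hx : gx = tdv B₁ A₁ e)
    (hy : gy = tdv B₂ A₂ ν) : Feas m a a' W W₂ ι gx gy := by
  have pol : ∀ u v, B₁ (P u) (P v) = B₂ u v := fun u v => by
    have := hP (u + v)
    simp only [map_add, add_apply, hP, h₁.1 (P v) (P u), h₂.1 v u] at this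
    linarith
  have hPv : P v = u := by
    have k := discrim_le_zero (a := B₁ (A₁ (P v - C v)) (P v - C v))
      (b := -2 * B₁ (P v - C v) (P v - C v)) (c := 0) fun t => by
        have := h (t • (P v - C v)) v
        simp only [map_smul, smul_apply, smul_eq_mul, a2] at this
        linarith
    rw [discrim, mul_zero, sub_zero] at k
    by_contra hne
    have := h₁.2 (P v - C v) (by rw [hv]; exact sub_ne_zero.2 hne)
    nlinarith
  have hPd : P.det ≠ 0 := det_ne_of_injective ((injective_iff_map_eq_zero P).2 fun l hl => by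
    by_contra h0
    have := h₂.2 l h0
    rw [← hP, hl] at this
    simp at this)
  have hw : wt B₂ = |P.det| * wt B₁ := by
    rw [← wt_comp]
    exact congrArg wt (ContinuousLinearMap.ext fun u => ContinuousLinearMap.ext fun v =>
      (pol u v).symm)
  obtain ⟨P, rfl⟩ := isInvertible_of_det hPd
  obtain ⟨C, rfl⟩ := isInvertible_of_det hd
  obtain ⟨Q₀, hQ₀, -⟩ := exists_sqrt h₁
  obtain ⟨Q, hQ⟩ : ∃ Q : E ≃L[ℝ] EuclideanSpace ℝ (Fin (m + 1)), ∀ u v, B₁ u v = ⟪Q u, Q v⟫ :=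
    ⟨Q₀.trans ((stdOrthonormalBasis ℝ E).reindex (finCongr hE)).repr.toContinuousLinearEquiv,
      fun u v => (hQ₀ u v).trans (((stdOrthonormalBasis ℝ E).reindex
        (finCongr hE)).repr.inner_map_map (Q₀ u) (Q₀ v)).symm⟩
  obtain ⟨R, hR⟩ : ∃ R : E ≃L[ℝ] EuclideanSpace ℝ (Fin (m + 1)), R = P.trans Q := ⟨_, rfl⟩
  have hR1 : ∀ l, R l = Q (P l) := fun l => by rw [hR]; rfl
  have hR2 : ∀ u v, B₂ u v = ⟪R u, R v⟫ := fun u v => by
    rw [hR1, hR1, ← hQ]
    exact (pol u v).symm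
  have hRv : R v = Q u := by rw [hR1]; exact congrArg Q hPv
  have n1 : ∀ {z : EuclideanSpace ℝ (Fin (m + 1))}, ⟪z, z⟫ = (1 : ℝ) → ‖z‖ = 1 := fun hz => by
    rw [real_inner_self_eq_norm_sq] at hz
    exact (pow_eq_one_iff_of_nonneg (norm_nonneg _) two_ne_zero).1 hz
  have dC : ((R.symm.trans C).trans Q).toContinuousLinearMap.det =
      (C : E →L[ℝ] E).det * ((P : E →L[ℝ] E).det)⁻¹ := by
    rw [← P.det_coe_symm, ContinuousLinearMap.det, ContinuousLinearMap.det,
      ContinuousLinearMap.det, ← LinearMap.det_comp, ← LinearMap.det_conj _ Q.toLinearEquiv, hR]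
    rfl
  have tr : ∀ (S : E ≃L[ℝ] EuclideanSpace ℝ (Fin (m + 1))) (A : E →L[ℝ] E),
      LinearMap.trace ℝ _ (S.toContinuousLinearMap ∘L A ∘L
        S.symm.toContinuousLinearMap).toLinearMap = trc A :=
    fun S A => LinearMap.trace_conj' (A : E →ₗ[ℝ] E) S.toLinearEquiv
  refine ⟨((R.symm.trans C).trans Q).toContinuousLinearMap,
    Q.toContinuousLinearMap ∘L A₁ ∘L Q.symm.toContinuousLinearMap,
    R.toContinuousLinearMap ∘L A₂ ∘L R.symm.toContinuousLinearMap, Q u, Q e, R ν, n1 (by rw [← hQ, hu]),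
    n1 (by rw [← hQ, he]), n1 (by rw [← hR2, hν]), ?_, fun l => ?_, fun l => ?_, ?_,
    fun k l => ?_, ?_, ?_, by rw [ha, hQ], by rw [ha', hR2, hRv], ?_, ?_, ?_, ?_, ?_⟩
  · show Q (C (R.symm (Q u))) = Q u
    rw [← hRv, R.symm_apply_apply, hRv]
    exact congrArg Q hv
  · obtain ⟨l, rfl⟩ := R.surjective l
    show ⟪Q u, Q (C (R.symm (R l)))⟫ = _
    rw [R.symm_apply_apply, ← hQ, ← hRv, ← hR2]
    exact hadj l
  · obtain ⟨l, rfl⟩ := R.surjective l
    show ‖Q (C (R.symm (R l)))‖ ≤ _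
    rw [R.symm_apply_apply]
    refine (pow_le_pow_iff_left₀ (norm_nonneg _) (norm_nonneg _) two_ne_zero).1 ?_
    rw [← real_inner_self_eq_norm_sq, ← real_inner_self_eq_norm_sq, ← hQ, ← hR2]
    exact hC l
  · rw [dC]
    exact mul_ne_zero hd (inv_ne_zero hPd)
  · obtain ⟨l, rfl⟩ := R.surjective l
    obtain ⟨k, rfl⟩ := Q.surjective k
    show 2 * ⟪Q k, R l - Q (C (R.symm (R l)))⟫ ≤ ⟪Q (A₁ (Q.symm (Q k))), Q k⟫ +
      ⟪R (A₂ (R.symm (R l))), R l⟫
    rw [R.symm_apply_apply, Q.symm_apply_apply, ← hQ, ← hR2, hR1, ← map_sub, ← hQ]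
    exact h k l
  · show ⟪Q (A₁ (Q.symm (Q u))), Q u⟫ = _
    rw [Q.symm_apply_apply, ← hQ, a1]
  · show ⟪R (A₂ (R.symm (Q u))), Q u⟫ = _
    rw [← hRv, R.symm_apply_apply, ← hR2, a2]
  · rw [dC, hι, hw, abs_mul, abs_inv]
    have := (wt_pos h₁).ne'
    field_simp
  · show W = ⟪Q e, Q (C (R.symm (R ν)))⟫ + _
    rw [R.symm_apply_apply, ← hQ, hW]
    rfl
  · rw [ContinuousLinearMap.inverse_equiv]
    show W₂ = ι * (⟪R (C.symm (Q.symm (Q e))), R ν⟫ + _)
    rw [Q.symm_apply_apply, ← hR2, hW₂, ContinuousLinearMap.inverse_equiv]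
    rfl
  · rw [tr]
    show gx = _ - ⟪Q (A₁ (Q.symm (Q e))), Q e⟫
    rw [Q.symm_apply_apply, ← hQ, hx, tdv]
  · rw [tr]
    show gy = _ - ⟪R (A₂ (R.symm (R ν))), R ν⟫
    rw [R.symm_apply_apply, ← hR2, hy, tdv]

theorem Pack.Mc_eq (hP : Pack G L) {x y : E} (h : x ≠ y) (e ν : E) :
    Mc m b G L y x ν e = iota m b G L y x * ((cs b (rr G L y x) - 1) * ca G L y x ν * ca G L x y e -
      G x e ((Cm b G L y x).inverse ν)) := by
  have hx := (posB_of_loc hP.loc x).1
  have hy := (posB_of_loc hP.loc y).1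
  have hr := hP.rr_pos h
  have hs := sn_pos b hr
  obtain ⟨w, hw⟩ : ∃ w, w = (fderiv ℝ (L y) x).inverse (-ν - (ca G L y x ν / rr G L y x) • L y x) :=
    ⟨_, rfl⟩
  have h1 : fderiv ℝ (L y) x w = -ν - (ca G L y x ν / rr G L y x) • L y x := by
    rw [hw]
    exact (isInvertible_of_det (hP.det_ne y x)).self_apply_inverse _
  have h2 : G x (L x y) w = 0 := by
    have := hP.mixed y x w (L y x)
    rw [h1, hP.radial] at this
    simp only [map_sub, map_neg, map_smul, sub_apply, neg_apply, smul_apply, smul_eq_mul,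
      iota_sq' hP y x, ca] at this
    rw [← neg_eq_zero, ← this]
    field_simp
    ring
  have h3 : Cm b G L y x ((-(rr G L y x / sn b (rr G L y x))) • w +
      (ca G L y x ν / rr G L y x) • L x y) = ν := by
    rw [map_add, map_smul, map_smul, hP.Cm_radial h.symm, iota_Cm_apply, h2, h1, mul_zero,
      zero_smul, sub_zero, smul_smul]
    have e : -(rr G L y x / sn b (rr G L y x)) * (sn b (rr G L y x) / rr G L y x) = -1 := by
      field_simp
    rw [e]
    module
  have h4 := (isInvertible_of_det (feasG_det (b := b) hP h.symm)).inverse_apply_self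
    ((-(rr G L y x / sn b (rr G L y x))) • w + (ca G L y x ν / rr G L y x) • L x y)
  rw [h3] at h4
  rw [h4, Mc, ← hw, map_add, map_smul, map_smul, ca.eq_def G L x y e, hP.rr_symm x y]
  simp only [smul_eq_mul]
  ring

theorem Pack.Mc_symm (hP : Pack G L) {x y : E} (h : x ≠ y) (e ν : E) :
    Mc m b G L y x ν e = Mc m b G L x y e ν := by
  have h1 := (isInvertible_of_det (feasG_det (b := b) hP h.symm)).self_apply_inverse ν
  have h2 := (isInvertible_of_det (feasG_det (b := b) hP h)).self_apply_inverse e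
  have h3 := hP.Cm_adj (b := b) x y ((Cm b G L y x).inverse ν) ((Cm b G L x y).inverse e)
  rw [h1, h2, (posB_of_loc hP.loc x).1, (posB_of_loc hP.loc y).1] at h3
  rw [hP.Mc_eq h, hP.Mc_eq h.symm, h3, hP.iota_symm y x, hP.rr_symm y x]
  ring

theorem PackK.feas (hE : Module.finrank ℝ E = m + 1) (hP : PackK b G L) {x y e ν : E} (h : x ≠ y)
    (he : G x e e = 1) (hν : G y ν ν = 1) :
    Feas m (ca G L x y e) (ca G L y x ν)
      (cs b (rr G L x y) * ca G L x y e * ca G L y x ν - Mx b G L x y e ν)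
      (iota m b G L x y * cs b (rr G L x y) * ca G L x y e * ca G L y x ν - Mc m b G L y x ν e)
      (iota m b G L x y) (gain m b G L y x e) (gain m b G L x y ν) := by
  have hx := posB_of_loc hP.loc x
  have hy := posB_of_loc hP.loc y
  have hr := (hP.toPack.rr_pos h.symm).ne'
  obtain ⟨P, h1, h2⟩ := hP.block x y h
  refine feasG_abs hE hx hy h1 (hP.contrK x y h) (feasG_det hP.toPack h) (A₁ := iotaA b G L y x)
    (A₂ := iotaA b G L x y) (u := (rr G L x y)⁻¹ • L x y) (v := (-(rr G L x y)⁻¹) • L y x)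
    (fun k l => by rw [iotaA_form hP.toPack, iotaA_form hP.toPack]; exact h2 k l) ?_ he hν ?_
    (fun l => ?_) ?_ ?_ ?_ ?_ (hP.toPack.iota_eq hE h) ?_ ?_
    (iotaA_tdv hE hP.toPack h.symm he).symm (iotaA_tdv hE hP.toPack h hν).symm
  · simp only [map_smul, smul_apply, smul_eq_mul, iota_sq' hP.toPack x y]
    field_simp
  · rw [map_smul, hP.toPack.Cm_radial h, smul_neg, neg_smul, neg_neg]
  · rw [hP.toPack.Cm_adj, map_smul, hP.toPack.Cm_radial h.symm, hy.1 l, smul_neg, neg_smul]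
  · simp only [map_smul, smul_apply, smul_eq_mul, iotaA_radial hP.toPack, mul_zero]
  · simp only [map_smul, smul_apply, smul_eq_mul, iotaA_radial hP.toPack, mul_zero]
  · rw [ca, map_smul, smul_apply, smul_eq_mul, hx.1 e]
    ring
  · rw [ca, map_smul, smul_apply, smul_eq_mul, hy.1 ν, hP.toPack.rr_symm y x]
    ring
  · rw [Mx]
    ring
  · rw [hP.toPack.Mc_symm h, hP.toPack.Mc_eq h.symm, hy.1 ν]
    ring

theorem feasG_cont {T : Type*} [TopologicalSpace T] {x y e ν : T → E} (hP : Pack G L)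
    (hx : Continuous x) (hy : Continuous y) (he : Continuous e) (hν : Continuous ν) :
    ContinuousOn (fun t => Mc m b G L (x t) (y t) (ν t) (e t)) {t | x t ≠ y t} := by
  have hi : Continuous fun t => (fderiv ℝ (L (x t)) (y t)).inverse :=
    continuous_iff_continuousAt.2 fun t => ContinuousAt.comp (g := ContinuousLinearMap.inverse)
      ((isInvertible_of_det (hP.det_ne (x t) (y t))).contDiffAt_map_inverse (n := 0)).continuousAt
      (cont_D hP hx hy).continuousAt
  have hG := ((contDiffOn_univ.1 hP.loc.smooth).continuous.comp hy).clm_apply he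
  have hr := (cont_r hP hx hy).continuousOn (s := {t | x t ≠ y t})
  exact (cont_iota hP hx hy).mul (((((cont_cs hP hx hy).continuousOn.mul
    (cont_ca hP hx hy hν)).mul (cont_ca' hP hx hy he))).add
    ((hr.div (cont_sn hP hx hy).continuousOn fun t h => (sn_pos b (hP.rr_pos (Ne.symm h))).ne').mul
      (hG.continuousOn.clm_apply (hi.continuousOn.clm_apply (hν.neg.continuousOn.sub
        (((cont_ca hP hx hy hν).div hr (cont_ne hP)).smul (cont_L hP hx hy).continuousOn))))))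

theorem Pack.continuousOn_Mc (hP : Pack G L) : ContinuousOn
    (fun z : (E × E) × (E × E) => Mc m b G L z.1.1 z.2.1 z.1.2 z.2.2) (OffD E) := by
  exact feasG_cont hP continuous_fst.fst continuous_snd.fst continuous_snd.snd continuous_fst.snd

variable [MeasurableSpace E] [BorelSpace E]

theorem Pack.continuous_rayT2 (hP : Pack G L) (C : Cert2 m b ρ) (h : Cut τ ε) :
    Continuous fun z : (E × E) × (E × E) => C.rayT G L τ z.1.1 z.1.2 z.2.1 z.2.2 := by
  obtain ⟨α, hα, h0⟩ := h.zero'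
  have hx : Continuous fun z : (E × E) × (E × E) => z.1.1 := continuous_fst.fst
  have hy : Continuous fun z : (E × E) × (E × E) => z.2.1 := continuous_snd.fst
  have a1 := cont_ca hP hx hy continuous_fst.snd
  exact hP.cont_cut hx hy (((cont_iota hP hx hy).mul
    ((cont_F hP hx hy C.derΨ.continuousOn.1 a1).mul
      ((cont_sn hP hx hy).continuousOn.mul (cont_ca' hP hx hy continuous_snd.snd)))).add
      ((cont_F hP hx hy C.derT.continuousOn.1 a1).mul
        (feasG_cont hP hx hy continuous_snd.snd continuous_fst.snd)))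
    h.smooth.continuous hα fun r hr => (h0 r hr).1

theorem Pack.continuous_varT2 (hP : Pack G L) (C : Cert2 m b ρ) (h : Cut τ ε) :
    Continuous fun z : (E × E) × (E × E) => C.varT G L τ z.1.1 z.1.2 z.2.1 z.2.2 := by
  obtain ⟨α, hα, h0⟩ := h.zero'
  have hx : Continuous fun z : (E × E) × (E × E) => z.1.1 := continuous_fst.fst
  have hy : Continuous fun z : (E × E) × (E × E) => z.2.1 := continuous_snd.fst
  have a1 := cont_ca hP hx hy continuous_fst.snd
  have a2 := cont_ca' hP hx hy continuous_snd.snd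
  have s := (cont_sn (b := b) hP hx hy).continuousOn (s := {z | z.1.1 ≠ z.2.1})
  have c := (cont_cs (b := b) hP hx hy).continuousOn (s := {z | z.1.1 ≠ z.2.1})
  obtain ⟨d1, d2, d3⟩ := C.derχ.continuousOn
  exact hP.cont_cut hx hy (((((cont_F hP hx hy d1 a1).mul ((continuousOn_const.mul c).sub
    (continuousOn_const.mul (s.mul a2)))).add ((cont_F hP hx hy d2 a1).mul ((s.pow 2).mul
      (continuousOn_const.sub (a2.pow 2))))).add ((cont_F hP hx hy d3 a1).mul
        ((c.mul (s.mul a1)).sub ((cont_Mx hP hx hy continuous_fst.snd continuous_snd.snd).mul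
          (s.mul a2))))).add ((cont_F hP hx hy d1 a1).mul (cont_gain hP hx hy continuous_snd.snd)))
    h.smooth.continuous hα fun r hr => (h0 r hr).1

theorem Pack.continuous_flxT2 (hP : Pack G L) (C : Cert2 m b ρ) (h : Cut τ ε) :
    Continuous fun z : (E × E) × (E × E) => C.flxT G L τ z.1.1 z.1.2 z.2.1 z.2.2 := by
  obtain ⟨α, hα, h0⟩ := h.zero'
  have hx : Continuous fun z : (E × E) × (E × E) => z.1.1 := continuous_fst.fst
  have hy : Continuous fun z : (E × E) × (E × E) => z.2.1 := continuous_snd.fst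
  exact hP.cont_cut hx hy (((cont_F hP hx hy C.derχ.continuousOn.1
    (cont_ca hP hx hy continuous_fst.snd)).mul (cont_sn hP hx hy).continuousOn).mul
      (continuousOn_const.sub ((cont_ca' hP hx hy continuous_snd.snd).pow 2)))
    (h.smooth.continuous_deriv (by simp)) hα fun r hr => (h0 r hr).2

end Vale.Agent.P219
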