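import Vale.Agent.P219.G.Phi

/-!
# The divergence theorem for angular fields  (TASK)

As `phi_id` (`Phi.lean`), with `e' = -P ν`, `β v = ⟪e', v⟫ / ‖v‖` and the field `Z v = (T ‖v‖ (β v) / ‖v‖^(m-1)) • (e' - (β v / ‖v‖) • v)`.  Let `ξ v = e' - (β v / ‖v‖) • v`, orthogonal to `v`, `⟪e', ξ⟫ = 1 - β²`
(here `‖e'‖ = 1`).  `fderiv ‖·‖ v ξ = 0`, `fderiv β v ξ = (1 - β²) / ‖v‖`, `dvg ξ = -(m β / ‖v‖)` (`dvg_smul`, `dvg id = m + 1`, `fderiv (β / ‖·‖) v v = -β / ‖v‖`).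
`(fderiv Φ x).inverse (P w) = (fderiv (L y) x).inverse w`.
-/

namespace Vale.Agent.P219

open scoped ContDiff Topology RealInnerProductSpace ENNReal
open MeasureTheory Set Filter Vale.Agent.P255
open St (sn gmod)

variable {E : Type*} [NormedAddCommGroup E] [InnerProductSpace ℝ E] [FiniteDimensional ℝ E]
  [MeasurableSpace E] [BorelSpace E] {G : E → Bil E} {L : E → E → E} {K : Set E} {m : ℕ} {b : ℝ}
  {ρ ε c H : ℝ} {τ : ℝ → ℝ}

omit [FiniteDimensional ℝ E] [MeasurableSpace E] [BorelSpace E] in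
theorem phi2_dir {f : E → ℝ} {v h : E} {d : ℝ} (hf : DifferentiableAt ℝ f v)
    (hd : HasDerivAt (fun t : ℝ => f (v + t • h)) d 0) : fderiv ℝ f v h = d := by
  have h4 : HasDerivAt (fun t : ℝ => v + t • h) h 0 := by
    simpa using ((hasDerivAt_id (0 : ℝ)).smul_const h).const_add v
  exact (HasFDerivAt.comp_hasDerivAt_of_eq (0 : ℝ) hf.hasFDerivAt h4 (by simp)).unique hd

omit [FiniteDimensional ℝ E] [MeasurableSpace E] [BorelSpace E] in
theorem phi2_norm {v : E} (hv : v ≠ 0) (h : E) :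
    HasDerivAt (fun t : ℝ => ‖v + t • h‖) (⟪v, h⟫ / ‖v‖) 0 := by
  have h2 : 0 < ‖v‖ := norm_pos_iff.2 hv
  have h4 : HasDerivAt (fun t : ℝ => v + t • h) h 0 := by
    simpa using ((hasDerivAt_id (0 : ℝ)).smul_const h).const_add v
  have h5 := h4.norm_sq.sqrt (by simpa using hv)
  simp only [zero_smul, add_zero, Real.sqrt_sq (norm_nonneg _)] at h5
  refine h5.congr_deriv ?_
  field_simp

omit [FiniteDimensional ℝ E] [MeasurableSpace E] [BorelSpace E] in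
theorem phi2_inner (n v h : E) : HasDerivAt (fun t : ℝ => ⟪n, v + t • h⟫) ⟪n, h⟫ 0 := by
  simp only [inner_add_right, real_inner_smul_right]
  simpa using ((hasDerivAt_id (0 : ℝ)).mul_const ⟪n, h⟫).const_add ⟪n, v⟫

theorem phi2_chain {T : ℝ → ℝ → ℝ} {p q : ℝ → ℝ} {d q' : ℝ}
    (hT : DifferentiableAt ℝ (fun z : ℝ × ℝ => T z.1 z.2) (p 0, q 0))
    (hd : HasDerivAt (T (p 0)) d (q 0)) (hp : HasDerivAt p 0 0) (hq : HasDerivAt q q' 0) :
    HasDerivAt (fun t => T (p t) (q t)) (q' * d) 0 := by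
  have h1 := HasFDerivAt.comp_hasDerivAt (0 : ℝ) hT.hasFDerivAt (hp.prodMk hq)
  have h2 := HasFDerivAt.comp_hasDerivAt (q 0) hT.hasFDerivAt
    ((hasDerivAt_const (q 0) (p 0)).prodMk (hasDerivAt_id (q 0)))
  have h3 := h2.unique hd
  refine HasDerivAt.congr_deriv h1 ?_
  have e : ((0 : ℝ), q') = q' • ((0 : ℝ), (1 : ℝ)) := by simp
  rw [e, map_smul, h3, smul_eq_mul]

omit [MeasurableSpace E] [BorelSpace E] in
theorem phi2_xi (hE : Module.finrank ℝ E = m + 1) (n : E) {v : E} (hv : v ≠ 0) :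
    DifferentiableAt ℝ (fun w : E => n - (⟪n, w⟫ / ‖w‖ / ‖w‖) • w) v ∧
      dvg (fun w : E => n - (⟪n, w⟫ / ‖w‖ / ‖w‖) • w) v = -(m * (⟪n, v⟫ / ‖v‖) / ‖v‖) := by
  have h2 : 0 < ‖v‖ := norm_pos_iff.2 hv
  have h1 : ContDiffAt ℝ 1 (fun w : E => ‖w‖) v := contDiffAt_norm ℝ hv
  have hs : DifferentiableAt ℝ (fun w : E => ⟪n, w⟫ / ‖w‖ / ‖w‖) v :=
    (((contDiffAt_const.inner ℝ contDiffAt_id).div h1 h2.ne').div h1 h2.ne').differentiableAt
      one_ne_zero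
  refine ⟨(hs.smul differentiableAt_id).const_sub n, ?_⟩
  have h3 : dvg (fun x : E => x) v = m + 1 := by
    rw [dvg, fderiv_fun_id, ContinuousLinearMap.coe_id, LinearMap.trace_id, hE]
    push_cast
    rfl
  have h4 : dvg (fun w : E => n - (⟪n, w⟫ / ‖w‖ / ‖w‖) • w) v =
      -dvg (fun w : E => (⟪n, w⟫ / ‖w‖ / ‖w‖) • w) v := by
    rw [dvg, dvg, fderiv_const_sub, ContinuousLinearMap.toLinearMap_neg, map_neg]
  have h5 := phi2_norm hv v
  have h6 := ((phi2_inner n v v).div h5 (by simpa using hv)).div h5 (by simpa using hv)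
  rw [h4, dvg_smul (Z := fun x => x) hs differentiableAt_id, h3, phi2_dir hs h6]
  simp only [Pi.div_apply, zero_smul, add_zero, real_inner_self_eq_norm_sq]
  field_simp
  ring

omit [MeasurableSpace E] [BorelSpace E] in
theorem phi2_dvg {k : ℕ} (hE : Module.finrank ℝ E = (k + 1) + 1) {T Tβ : ℝ → ℝ → ℝ}
    (hT : ContDiffOn ℝ 1 (fun z : ℝ × ℝ => T z.1 z.2) {z | 0 < z.1})
    (hTβ : ∀ r β, 0 < r → HasDerivAt (T r) (Tβ r β) β) {n : E} (hn : ⟪n, n⟫ = 1) {v : E}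
    (hv : v ≠ 0) (hf : DifferentiableAt ℝ (fun v : E => T ‖v‖ (⟪n, v⟫ / ‖v‖) / ‖v‖ ^ k) v) :
    dvg (fun v : E => (T ‖v‖ (⟪n, v⟫ / ‖v‖) / ‖v‖ ^ k) • (n - (⟪n, v⟫ / ‖v‖ / ‖v‖) • v)) v =
      ((1 - (⟪n, v⟫ / ‖v‖) ^ 2) * Tβ ‖v‖ (⟪n, v⟫ / ‖v‖) -
        (k + 1 : ℕ) * (⟪n, v⟫ / ‖v‖) * T ‖v‖ (⟪n, v⟫ / ‖v‖)) / ‖v‖ ^ (k + 1) := by
  have h2 : 0 < ‖v‖ := norm_pos_iff.2 hv
  obtain ⟨h3, h4⟩ := phi2_xi hE n hv
  rw [dvg_smul hf h3, h4]
  set ξ : E := n - (⟪n, v⟫ / ‖v‖ / ‖v‖) • v with hξ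
  have e1 : ⟪v, ξ⟫ / ‖v‖ = 0 := by
    rw [hξ, inner_sub_right, real_inner_smul_right, real_inner_self_eq_norm_sq, real_inner_comm]
    field_simp
    ring
  have e2 : ⟪n, ξ⟫ = 1 - (⟪n, v⟫ / ‖v‖) ^ 2 := by
    rw [hξ, inner_sub_right, real_inner_smul_right, hn]
    field_simp
  have h5 := phi2_norm hv ξ
  rw [e1] at h5
  have h6 := (phi2_inner n v ξ).div h5 (by simpa using hv)
  have h7 : DifferentiableAt ℝ (fun z : ℝ × ℝ => T z.1 z.2) (‖v‖, ⟪n, v⟫ / ‖v‖) :=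
    (hT.contDiffAt ((isOpen_lt continuous_const continuous_fst).mem_nhds h2)).differentiableAt
      one_ne_zero
  have h8 := phi2_chain (T := T) (p := fun t : ℝ => ‖v + t • ξ‖)
    (q := fun t : ℝ => ⟪n, v + t • ξ⟫ / ‖v + t • ξ‖) (d := Tβ ‖v‖ (⟪n, v⟫ / ‖v‖))
    (by simpa only [zero_smul, add_zero] using h7)
    (by simpa only [zero_smul, add_zero] using hTβ _ _ h2) h5 h6
  have h9 := h8.div (h5.pow k) (by simpa using fun h => absurd h hv)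
  rw [phi2_dir hf h9]
  simp only [Pi.pow_apply, zero_smul, add_zero, e2]
  push_cast
  field_simp
  ring

theorem Pack.phi_id2 (hE : Module.finrank ℝ E = m + 1) (hm : 1 ≤ m) (hP : Pack G L) (D : NDom G K)
    {y ν : E} (hν : G y ν ν = 1) {T Tβ : ℝ → ℝ → ℝ}
    (hT : ContDiffOn ℝ 1 (fun z : ℝ × ℝ => T z.1 z.2) {z | 0 < z.1})
    (hTβ : ∀ r β, 0 < r → HasDerivAt (T r) (Tβ r β) β) {α : ℝ} (hα : 0 < α)
    (h0 : ∀ r β, r ≤ α → T r β = 0) :
    ∫ x in D.Ω, ((1 - ca G L y x ν ^ 2) * Tβ (rr G L y x) (ca G L y x ν) -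
        m * ca G L y x ν * T (rr G L y x) (ca G L y x ν)) * jac G L y x / rr G L y x ^ m =
      ∫ z, T (rr G L y z.1) (ca G L y z.1 ν) * G z.1 z.2 ((fderiv ℝ (L y) z.1).inverse
        (-ν - (ca G L y z.1 ν / rr G L y z.1) • L y z.1)) * jac G L y z.1 /
        (wt (G z.1) * rr G L y z.1 ^ (m - 1)) ∂D.μ := by
  obtain ⟨k, rfl⟩ : ∃ k, m = k + 1 := ⟨m - 1, by omega⟩
  have : Nontrivial E := Module.nontrivial_of_finrank_pos (R := ℝ) (by omega)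
  obtain ⟨P, h1, h2, h3⟩ := hP.chg y
  have hΦ := hP.diffeo y P
  have hf := phi_smooth hT hα h0 (-P ν) k
  have hg := phi_smooth (F := fun r β => T r β * β) (hT.mul contDiffOn_snd) hα
    (fun r β hr => by rw [h0 r β hr, zero_mul]) (-P ν) (k + 1)
  have hZ : ContDiff ℝ 1 fun v : E => (T ‖v‖ (⟪-P ν, v⟫ / ‖v‖) / ‖v‖ ^ k) •
      (-P ν - (⟪-P ν, v⟫ / ‖v‖ / ‖v‖) • v) := by
    have e : (fun v : E => (T ‖v‖ (⟪-P ν, v⟫ / ‖v‖) / ‖v‖ ^ k) •
        (-P ν - (⟪-P ν, v⟫ / ‖v‖ / ‖v‖) • v)) =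
        fun v : E => (T ‖v‖ (⟪-P ν, v⟫ / ‖v‖) / ‖v‖ ^ k) • (-P ν) -
          (T ‖v‖ (⟪-P ν, v⟫ / ‖v‖) * (⟪-P ν, v⟫ / ‖v‖) / ‖v‖ ^ (k + 1)) • v := by
      funext v
      rw [smul_sub, smul_smul, div_mul_div_comm, ← pow_succ]
    rw [e]
    exact (hf.smul contDiff_const).sub (hg.smul contDiff_id)
  have key := D.div_pio hP.loc hΦ hZ
  have hn : ⟪-P ν, -P ν⟫ = 1 := by rw [inner_neg_neg, ← h1, hν]
  have e1 : ∀ x, ‖P (L y x)‖ = rr G L y x := fun x => by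
    rw [rr, qq, h1, real_inner_self_eq_norm_sq, Real.sqrt_sq (norm_nonneg _)]
  have e2 : ∀ x, ⟪-P ν, P (L y x)⟫ / rr G L y x = ca G L y x ν := fun x => by
    rw [ca, h1, inner_neg_left]
  have e3 : ∀ x w, (fderiv ℝ (fun x => P (L y x)) x).inverse (P w) =
      (fderiv ℝ (L y) x).inverse w := fun x w => by
    rw [(isInvertible_of_det (hΦ.det_ne x)).inverse_apply_eq]
    have h4 := ((P : E →L[ℝ] E).hasFDerivAt.comp x
      ((chg_smooth hP y).differentiable (by simp) x).hasFDerivAt).fderiv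
    have h5 : fderiv ℝ (fun x => P (L y x)) x = _ := h4
    have h6 := (hP.diffeo y (ContinuousLinearEquiv.refl ℝ E)).det_ne x
    have h7 : (fderiv ℝ (L y) x).IsInvertible := isInvertible_of_det h6
    rw [h5, ContinuousLinearMap.comp_apply, (h7.inverse_apply_eq.1 rfl).symm]
    rfl
  rw [(h3 _ D.meas _).1] at key
  refine Eq.trans (integral_congr_ae (ae_restrict_of_ae ?_)) (key.trans (integral_congr_ae
    (ae_of_all _ fun z => ?_)))
  · filter_upwards [Measure.ae_ne volume y] with x hx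
    have h4 : P (L y x) ≠ 0 := by
      rw [← norm_pos_iff, e1]
      exact hP.rr_pos hx
    have h5 := phi2_dvg hE hT hTβ hn h4 (hf.differentiable one_ne_zero _)
    refine Eq.trans ?_ (congrArg (wt (G y) * |(fderiv ℝ (L y) x).det| * ·) h5).symm
    simp only [e1, e2, jac]
    ring
  · have e4 : -P ν - (ca G L y z.1 ν / rr G L y z.1) • P (L y z.1) =
        P (-ν - (ca G L y z.1 ν / rr G L y z.1) • L y z.1) := by
      rw [map_sub, map_neg, map_smul]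
    simp only [e1, e2, e4]
    simp only [map_smul (fderiv ℝ (fun x => P (L y x)) z.1).inverse, map_smul (G z.1 z.2), e3,
      chg_det, abs_mul, ← h2, smul_eq_mul, jac, Nat.add_sub_cancel]
    ring

end Vale.Agent.P219
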