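import Vale.Agent.P219.G.Ray4
import Vale.Agent.P219.G.Phi2
import Vale.Agent.P219.G.FeasG
import Vale.Agent.P219.G.Ray2

/-!
# The flux bound for a certificate  (TASK)

Follow `Ray2.lean`.  `φ = cφ`, `θ r β = sn r^(m-1) * T (ww r) (sn r * β)`, `dv = sn^m * cD2` (`Der2.hasFDerivAt`, `cs_sq`), `β₀ = cβ b ρ`, `β₁ = β₀ / sn` (`sn_sq`, `cs_eq`), `Lm = 2 ρ` (`ww_add`, `sn_add`: `ww (2ρ) = 2 sn ρ²`,
`sn (2ρ) = 2 sn ρ cs ρ`), `β₀ → 0` (`sn_sq`: `ww ≤ sn² / 2`).  The boundary integrand is `τ (cF cω)` on `(0, 2ρ)` (`sn β₀ = hh ww`, `β₀² ≤ 1`).  `phi_id` with `F = τ φ` plus `phi_id2` with `T = τ θ` identify `∫ rayT` with the integral over `Ω`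
(integrability: `cont_cut`); `Pack.chg` moves the integrals to `E`.
-/

namespace Vale.Agent.P219

open scoped ContDiff Topology RealInnerProductSpace ENNReal
open MeasureTheory Set Filter Vale.Agent.P255
open St (sn gmod)

variable {E : Type*} [NormedAddCommGroup E] [InnerProductSpace ℝ E] [FiniteDimensional ℝ E]
  [MeasurableSpace E] [BorelSpace E] {G : E → Bil E} {L : E → E → E} {K : Set E} {m : ℕ} {b : ℝ}
  {ρ ε c H : ℝ} {τ : ℝ → ℝ}

/-- The angular component. -/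
noncomputable def Cert2.ray5t (C : Cert2 m b ρ) (r β : ℝ) : ℝ :=
  sn b r ^ (m - 1) * C.T (ww b r) (sn b r * β)

/-- Its derivative. -/
noncomputable def Cert2.ray5tb (C : Cert2 m b ρ) (r β : ℝ) : ℝ :=
  sn b r ^ (m - 1) * (C.TQ (ww b r) (sn b r * β) * sn b r)

/-- The divergence. -/
noncomputable def Cert2.ray5d (C : Cert2 m b ρ) (r β : ℝ) : ℝ :=
  sn b r ^ m * cD2 m b C.Ψ C.Ψw C.ΨQ C.T C.Tw C.TQ r β

/-- The radial derivative of the radial component. -/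
noncomputable def Cert2.ray5r (C : Cert2 m b ρ) (r β : ℝ) : ℝ :=
  C.ray5d r β - ((1 - β ^ 2) * C.ray5tb r β - m * β * C.ray5t r β)

theorem ray5_T {T Tw TQ : ℝ → ℝ → ℝ} (h : Der2 T Tw TQ) (b : ℝ) :
    ContDiffOn ℝ 1 (fun z : ℝ × ℝ => T (ww b z.1) (sn b z.1 * z.2)) {z | 0 < z.1} :=
  (h.1.of_le one_le_two).comp ((ray2_map b).1.of_le (by simp)).contDiffOn (ray2_map b).2

theorem ray5_sn (b : ℝ) : ContDiff ℝ 1 fun z : ℝ × ℝ => sn b z.1 :=
  ((contDiff_sn b).of_le (by simp)).comp contDiff_fst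

theorem ray5_cs (b : ℝ) : ContDiff ℝ 1 fun z : ℝ × ℝ => cs b z.1 :=
  ((contDiff_cs b).of_le (by simp)).comp contDiff_fst

theorem ray5_phi (C : Cert2 m b ρ) :
    ContDiffOn ℝ 1 (fun z : ℝ × ℝ => cφ m b C.Ψ C.T z.1 z.2) {z | 0 < z.1} :=
  (ray2_phi C.derΨ m b).add
    (((((ray5_sn b).pow m).mul (ray5_cs b)).mul contDiff_snd).contDiffOn.mul (ray5_T C.derT b))

theorem ray5_t (C : Cert2 m b ρ) :
    ContDiffOn ℝ 1 (fun z : ℝ × ℝ => C.ray5t z.1 z.2) {z | 0 < z.1} :=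
  ((ray5_sn b).pow _).contDiffOn.mul (ray5_T C.derT b)

theorem ray5_tb (C : Cert2 m b ρ) :
    ContinuousOn (fun z : ℝ × ℝ => C.ray5tb z.1 z.2) {z | 0 < z.1} :=
  ((ray5_sn b).continuous.pow _).continuousOn.mul ((C.derT.continuousOn.2.2.comp
    (ray2_map b).1.continuous.continuousOn (ray2_map b).2).mul (ray5_sn b).continuous.continuousOn)

theorem ray5_d (C : Cert2 m b ρ) :
    ContinuousOn (fun z : ℝ × ℝ => C.ray5d z.1 z.2) {z | 0 < z.1} := by
  obtain ⟨d1, d2, d3⟩ := C.derT.continuousOn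
  have k := (ray2_map b).1.continuous.continuousOn (s := {z | 0 < z.1})
  have s := (ray5_sn b).continuous.continuousOn (s := {z : ℝ × ℝ | 0 < z.1})
  have c := (ray5_cs b).continuous.continuousOn (s := {z : ℝ × ℝ | 0 < z.1})
  have q := s.mul continuousOn_snd
  refine ((ray2_cD C.derΨ m b).add ((s.pow m).mul
    ((((continuousOn_const (c := (m + 1) * b ^ 2)).mul q).mul (d1.comp k (ray2_map b).2)).add
    (((c.mul q).mul (d2.comp k (ray2_map b).2)).add
    (((continuousOn_const (c := 1)).add ((continuousOn_const (c := b ^ 2)).mul (q.pow 2))).mul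
      (d3.comp k (ray2_map b).2)))))).congr fun z _ => ?_
  simp only [Cert2.ray5d, cD2, Pi.add_apply, Pi.mul_apply, Pi.pow_apply, Function.comp_apply]
  ring

theorem ray5_r (C : Cert2 m b ρ) :
    ContinuousOn (fun z : ℝ × ℝ => C.ray5r z.1 z.2) {z | 0 < z.1} :=
  (ray5_d C).sub (((continuousOn_const.sub (continuousOn_snd.pow 2)).mul (ray5_tb C)).sub
    ((continuousOn_const.mul continuousOn_snd).mul (ray5_t C).continuousOn))

theorem ray5_dt (C : Cert2 m b ρ) (r β : ℝ) (hr : 0 < r) :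
    HasDerivAt (C.ray5t r) (C.ray5tb r β) β :=
  ((C.derT.2 _ (sn b r * β) (ww_pos b hr)).2.comp β
    (hasDerivAt_const_mul (sn b r) (x := β))).const_mul _

theorem ray5_dphi (hm : 1 ≤ m) (C : Cert2 m b ρ) (r β : ℝ) (hr : 0 < r) :
    HasDerivAt (fun t => cφ m b C.Ψ C.T t β) (C.ray5r r β) r := by
  have h1 := HasFDerivAt.comp_hasDerivAt (f := fun t => (ww b t, sn b t * β)) r
    (C.derT.hasFDerivAt (ww_pos b hr) (sn b r * β))
    ((hasDerivAt_ww b r).prodMk ((hasDerivAt_sn b r).mul_const β))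
  refine ((ray2_der C.derΨ m b r β hr).add (((((hasDerivAt_sn b r).pow m).mul
    (hasDerivAt_cs b r)).mul_const β).mul h1)).congr_deriv ?_
  obtain ⟨k, rfl⟩ := Nat.exists_eq_add_of_le' hm
  simp only [Cert2.ray5r, Cert2.ray5d, Cert2.ray5t, Cert2.ray5tb, cD2, Nat.add_sub_cancel,
    Pi.pow_apply, Pi.mul_apply, Function.comp_apply, ContinuousLinearMap.add_apply,
    ContinuousLinearMap.smul_apply, ContinuousLinearMap.coe_fst', ContinuousLinearMap.coe_snd',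
    smul_eq_mul]
  push_cast
  linear_combination (sn b r ^ k * β * ((k + 1) * C.T (ww b r) (sn b r * β) +
    sn b r * β * C.TQ (ww b r) (sn b r * β))) * cs_sq b r

theorem ray5_beta (b : ℝ) (hρ : 0 < ρ) (r : ℝ) (hr : 0 < r) :
    HasDerivAt (cβ b ρ) (cβ b ρ r / sn b r) r ∧ 0 < cβ b ρ r / sn b r ∧ 0 < cβ b ρ r := by
  have h1 := sn_pos b hr
  have h2 : 0 < cβ b ρ r := div_pos (mul_pos (hh_pos b hρ) (ww_pos b hr)) h1
  refine ⟨(((hasDerivAt_ww b r).const_mul (hh b ρ)).div (hasDerivAt_sn b r) h1.ne').congr_deriv ?_,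
    div_pos h2 h1, h2⟩
  rw [cβ, cs_eq]
  field_simp
  linear_combination hh b ρ * sn_sq b r

theorem ray5_ww (b ρ : ℝ) : ww b (2 * ρ) = 2 * sn b ρ ^ 2 := by
  rw [two_mul, ww_add, cs_eq]
  linear_combination (-1 : ℝ) * sn_sq b ρ

theorem ray5_one (b : ℝ) (hρ : 0 < ρ) : cβ b ρ (2 * ρ) = 1 := by
  have h1 := sn_pos b hρ
  have h2 := one_pos.trans_le (one_le_cs b ρ)
  rw [cβ, ray5_ww, two_mul ρ, sn_add, hh]
  field_simp
  ring

theorem ray5_le (b : ℝ) (hρ : 0 < ρ) {r : ℝ} (hr : 0 < r) (h : r ≤ 2 * ρ) : cβ b ρ r ^ 2 ≤ 1 := by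
  have h1 := sn_pos b hρ
  have h2 := ww_pos b hr
  have h3 : ww b r ≤ 2 * sn b ρ ^ 2 :=
    ray5_ww b ρ ▸ (strictMonoOn_ww b).monotoneOn hr.le (hr.le.trans h) h
  have h4 : 1 / sn b ρ ^ 2 * ww b r ≤ 2 := by
    rw [one_div, inv_mul_le_iff₀ (pow_pos h1 2)]
    linarith
  rw [cβ, div_pow, div_le_one (pow_pos (sn_pos b hr) 2), sn_sq, mul_pow, hh_sq b hρ]
  nlinarith

theorem ray5_lim (b : ℝ) (hρ : 0 < ρ) : Tendsto (cβ b ρ) (𝓝[>] 0) (𝓝 0) := by
  have h1 : Tendsto (fun r => hh b ρ * sn b r) (𝓝 0) (𝓝 0) := by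
    simpa only [sn_zero, mul_zero] using ((contDiff_sn b).continuous.tendsto 0).const_mul (hh b ρ)
  refine squeeze_zero' ?_ ?_ (h1.mono_left nhdsWithin_le_nhds)
  · filter_upwards [self_mem_nhdsWithin] with r hr
    exact (ray5_beta b hρ r hr).2.2.le
  · filter_upwards [self_mem_nhdsWithin] with r hr
    have h2 := ww_pos b hr
    have h3 : ww b r ≤ sn b r * sn b r := by
      have := sn_sq b r
      have : 0 ≤ b ^ 2 * ww b r * ww b r := by positivity
      linarith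
    rw [cβ, div_le_iff₀ (sn_pos b hr), mul_assoc]
    exact mul_le_mul_of_nonneg_left h3 (hh_pos b hρ).le

theorem ray5_bd (hm : 2 ≤ m) (hρ : 0 < ρ) (C : Cert2 m b ρ) {r : ℝ} (hr : 0 < r) (h : r ≤ 2 * ρ) :
    cφ m b C.Ψ C.T r (cβ b ρ r) * (cβ b ρ r / sn b r) * √(1 - cβ b ρ r ^ 2) ^ (m - 2) -
      C.ray5t r (cβ b ρ r) * √(1 - cβ b ρ r ^ 2) ^ m = cF b ρ C.Ψ C.T r * cω m b ρ r := by
  have h1 := sn_pos b hr
  have h2 : sn b r * cβ b ρ r = hh b ρ * ww b r := mul_div_cancel₀ _ h1.ne'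
  have h3 := Real.sq_sqrt (sub_nonneg.2 (ray5_le b hρ hr h))
  obtain ⟨k, rfl⟩ := Nat.exists_eq_add_of_le' hm
  simp only [cφ, cF, cω, Cert2.ray5t, ← h2, Nat.add_sub_cancel, Nat.add_succ_sub_one]
  rw [pow_add √(1 - cβ b ρ r ^ 2) k 2, h3]
  field_simp
  ring

theorem ray5_euc (hE : Module.finrank ℝ E = m + 1) (hm : 2 ≤ m) (hρ : 0 < ρ) (C : Cert2 m b ρ)
    {l : ℝ} (hl : 0 < l) : ∃ ε₁ : ℝ, 0 < ε₁ ∧ ∀ (τ : ℝ → ℝ) (ε : ℝ), Cut τ ε → ε ≤ ε₁ →
      ∀ e : E, ‖e‖ = 1 → ∀ S : Set E, MeasurableSet S → Bornology.IsBounded S → ∀ I : ℝ,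
        I = ∫ v in S, (deriv τ ‖v‖ * cφ m b C.Ψ C.T ‖v‖ (⟪e, v⟫ / ‖v‖) +
          τ ‖v‖ * C.ray5d ‖v‖ (⟪e, v⟫ / ‖v‖)) / ‖v‖ ^ m →
        I ≤ cm E m * (C.R₀ + l) ∧
          ∫⁻ v in {v : E | v ∉ S ∧ cβ b ρ ‖v‖ < ⟪e, v⟫ / ‖v‖ ∧ ε ≤ ‖v‖},
            ENNReal.ofReal (C.ray5d ‖v‖ (⟪e, v⟫ / ‖v‖) / ‖v‖ ^ m) ≤
            ENNReal.ofReal (cm E m * (C.R₀ + l) - I) := by
  obtain ⟨B, hB⟩ := C.near
  obtain ⟨ε₁, e1, k1⟩ := ray_euc2 hE hm (φ := cφ m b C.Ψ C.T) (φr := C.ray5r) (θ := C.ray5t)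
    (θβ := C.ray5tb) (dv := C.ray5d) (β₀ := cβ b ρ) (β₁ := fun r => cβ b ρ r / sn b r)
    (mul_pos two_pos hρ) (ray5_phi C).continuousOn (ray5_r C) (ray5_t C).continuousOn (ray5_tb C)
    (ray5_dphi (by omega) C) (ray5_dt C) (fun r β _ => (sub_add_cancel _ _).symm)
    (ray5_beta b hρ)
    (ContinuousOn.div (fun r hr => (ray5_beta b hρ r hr).1.continuousAt.continuousWithinAt)
      (contDiff_sn b).continuous.continuousOn fun r hr => (sn_pos b hr).ne')
    (ray5_lim b hρ) (ray5_one b hρ)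
    (fun r β hr h1 h2 => mul_nonneg (pow_pos (sn_pos b hr) _).le (C.ray_pos r β hr h1 (by
      rwa [cβ, div_lt_iff₀' (sn_pos b hr)] at h2)).le)
    (fun r β hr h1 h2 => mul_nonpos_of_nonneg_of_nonpos (pow_pos (sn_pos b hr) _).le
      (C.ray_neg r β hr h1 (by rwa [cβ, le_div_iff₀' (sn_pos b hr)] at h2))) hB (half_pos hl)
  obtain ⟨ε₂, e2, k2⟩ := C.const _ (half_pos hl)
  refine ⟨min ε₁ ε₂, lt_min e1 e2, fun τ ε hτ hε e he S hS hb I hI => ?_⟩
  obtain ⟨a1, a2⟩ := k1 τ ε hτ (hε.trans (min_le_left _ _)) e he S hS hb I _ hI rfl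
  have a3 := k2 τ ε hτ (hε.trans (min_le_right _ _))
  obtain ⟨α, hα, h0⟩ := hτ.zero
  rw [intervalIntegral.integral_congr (g := fun r => τ r * (cF b ρ C.Ψ C.T r * cω m b ρ r))
    fun r hr => by
      rw [uIcc_of_le (by positivity)] at hr
      rcases hr.1.eq_or_lt with rfl | h
      · simp only [h0 0 hα.le, zero_mul]
      · simp only [ray5_bd hm hρ C h hr.2]] at a1 a2
  have a4 := mul_le_mul_of_nonneg_left
    (show (∫ r in (0 : ℝ)..(2 * ρ), τ r * (cF b ρ C.Ψ C.T r * cω m b ρ r)) + l / 2 ≤ C.R₀ + l by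
      rw [Cert2.R₀]; linarith) (cm_pos E m).le
  exact ⟨a1.trans a4, a2.trans (ENNReal.ofReal_le_ofReal (sub_le_sub_right a4 _))⟩

theorem ray5_int (hP : Pack G L) (hK : IsCompact K) (D : NDom G K) (y ν : E) {g : ℝ → ℝ → ℝ}
    (hg : ContinuousOn (fun z : ℝ × ℝ => g z.1 z.2) {z | 0 < z.1}) {f : ℝ → ℝ} (hf : Continuous f)
    {α : ℝ} (hα : 0 < α) (h0 : ∀ r, r ≤ α → f r = 0) (m : ℕ) :
    IntegrableOn (fun x => f (rr G L y x) *
      (g (rr G L y x) (ca G L y x ν) * jac G L y x / rr G L y x ^ m)) D.Ω := by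
  have k := (cont_r hP (continuous_const (y := y)) continuous_id).continuousOn (s := {x | y ≠ x})
  exact ((hP.cont_cut continuous_const continuous_id (((hg.comp
    (k.prodMk (cont_ca hP continuous_const continuous_id continuous_const))
    fun x hx => hP.rr_pos (Ne.symm hx)).mul
    (cont_jac hP continuous_const continuous_id).continuousOn).div (k.pow m)
    fun x hx => (pow_pos (hP.rr_pos (Ne.symm hx)) m).ne') hf hα h0).continuousOn.integrableOn_compact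
    hK).mono_set D.sub

theorem ray5_id (hE : Module.finrank ℝ E = m + 1) (hm : 2 ≤ m) (hP : Pack G L) (hK : IsCompact K)
    (C : Cert2 m b ρ) (hτ : Cut τ ε) (D : NDom G K) {y ν : E} (hν : G y ν ν = 1) :
    ∫ z, C.rayT G L τ y ν z.1 z.2 ∂D.μ = ∫ x in D.Ω,
      (deriv τ (rr G L y x) * cφ m b C.Ψ C.T (rr G L y x) (ca G L y x ν) +
        τ (rr G L y x) * C.ray5d (rr G L y x) (ca G L y x ν)) * jac G L y x / rr G L y x ^ m := by
  obtain ⟨α, hα, h0⟩ := hτ.zero'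
  have t1 : ContDiffOn ℝ 1 (fun z : ℝ × ℝ => τ z.1) {z | 0 < z.1} :=
    ((hτ.smooth.of_le one_le_two).comp contDiff_fst).contDiffOn
  have h4 := hP.phi_id hE D y ν (F := fun r β => τ r * cφ m b C.Ψ C.T r β)
    (Fr := fun r β => deriv τ r * cφ m b C.Ψ C.T r β + τ r * C.ray5r r β) (t1.mul (ray5_phi C))
    (fun r β hr => (hτ.smooth.differentiable two_ne_zero r).hasDerivAt.mul
      (ray5_dphi (by omega) C r β hr)) hα fun r β hr => by rw [(h0 r hr).1, zero_mul]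
  have h5 := hP.phi_id2 hE (by omega) D hν (T := fun r β => τ r * C.ray5t r β)
    (Tβ := fun r β => τ r * C.ray5tb r β) (t1.mul (ray5_t C))
    (fun r β hr => (ray5_dt C r β hr).const_mul (τ r)) hα
    fun r β hr => by rw [(h0 r hr).1, zero_mul]
  have i1 := ray5_int hP hK D y ν (ray5_phi C).continuousOn
    (hτ.smooth.continuous_deriv one_le_two) hα (fun r hr => (h0 r hr).2) m
  have i2 := ray5_int hP hK D y ν (ray5_r C) hτ.smooth.continuous hα (fun r hr => (h0 r hr).1) m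
  have i3 := ray5_int hP hK D y ν (ray5_d C) hτ.smooth.continuous hα (fun r hr => (h0 r hr).1) m
  have hx : Continuous fun z : E × E => z.1 := continuous_fst
  have hy : Continuous fun _ : E × E => y := continuous_const
  have k := (cont_r hP hy hx).continuousOn (s := {z | y ≠ z.1})
  have j1 := NDom.integrable hP.loc hK D ((hP.continuous_rayT2 C hτ).comp
    ((continuous_const (y := (y, ν))).prodMk continuous_id))
  have j2 := NDom.integrable hP.loc hK D (hP.cont_cut hy hx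
    (((((ray5_phi C).continuousOn.comp (k.prodMk (cont_ca hP hy hx (continuous_const (y := ν))))
      fun z hz => hP.rr_pos (Ne.symm hz)).mul (cont_ca' hP hy hx continuous_snd)).mul
      (cont_jac hP hy hx).continuousOn).div
      (((contDiff_wt hP.loc).continuous.comp hx).continuousOn.mul (k.pow m))
      fun z hz => mul_ne_zero (wt_pos (posB_of_loc hP.loc _)).ne'
        (pow_pos (hP.rr_pos (Ne.symm hz)) m).ne')
    hτ.smooth.continuous hα fun r hr => (h0 r hr).1)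
  have j3 : Integrable (fun z : E × E => τ (rr G L y z.1) *
      cφ m b C.Ψ C.T (rr G L y z.1) (ca G L y z.1 ν) * ca G L z.1 y z.2 * jac G L y z.1 /
        (wt (G z.1) * rr G L y z.1 ^ m)) D.μ := by
    refine j2.congr (ae_of_all _ fun z => ?_)
    simp only [Pi.div_apply, Pi.mul_apply, Pi.pow_apply, Function.comp_apply]
    ring
  have e1 := (integral_sub j1 j3).symm.trans
    (Eq.trans (integral_congr_ae (ae_of_all _ fun z => by
      simp only [Function.comp_apply, id, Cert2.rayT, Mc, iota, cφ, Cert2.ray5t]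
      rcases le_or_gt (rr G L y z.1) α with h | h
      · simp only [(h0 _ h).1, zero_mul, zero_div, sub_zero]
      · have a1 := (hα.trans h).ne'
        have a2 := (sn_pos b (hα.trans h)).ne'
        have a3 := (wt_pos (posB_of_loc hP.loc z.1)).ne'
        obtain ⟨k, rfl⟩ := Nat.exists_eq_add_of_le' (show 1 ≤ m by omega)
        simp only [Nat.add_sub_cancel, div_pow]
        field_simp
        ring)) h5.symm)
  rw [← h4, sub_eq_iff_eq_add, ← integral_add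
    ((i3.sub i2).congr (ae_of_all _ fun x => by
      simp only [Pi.sub_apply, Cert2.ray5r]
      ring))
    ((i1.add i2).congr (ae_of_all _ fun x => by
      simp only [Pi.add_apply]
      ring))] at e1
  refine e1.trans (integral_congr_ae (ae_of_all _ fun x => ?_))
  simp only [Cert2.ray5r]
  ring

theorem Pack.ray2 (hE : Module.finrank ℝ E = m + 1) (hm : 2 ≤ m) (hP : Pack G L) (hK : IsCompact K)
    (hρ : 0 < ρ) (C : Cert2 m b ρ) {l : ℝ} (hl : 0 < l) :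
    ∃ ε₁ : ℝ, 0 < ε₁ ∧ ∀ (τ : ℝ → ℝ) (ε : ℝ), Cut τ ε → ε ≤ ε₁ → ∀ (D : NDom G K) (y ν : E),
      G y ν ν = 1 → ∫ z, C.rayT G L τ y ν z.1 z.2 ∂D.μ ≤ cm E m * (C.R₀ + l) ∧
        C.dfc G L D.Ω y ν ε ≤
          ENNReal.ofReal (cm E m * (C.R₀ + l) - ∫ z, C.rayT G L τ y ν z.1 z.2 ∂D.μ) := by
  obtain ⟨ε₁, e1, hk⟩ := ray5_euc hE hm hρ C hl
  refine ⟨ε₁, e1, fun τ ε hτ hε D y ν hν => ?_⟩
  obtain ⟨P, h1, h2, h3⟩ := hP.chg y
  have hd := hP.diffeo y P
  have hn : ∀ x, ‖P (L y x)‖ = rr G L y x := fun x => by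
    rw [rr, qq, h1, real_inner_self_eq_norm_sq, Real.sqrt_sq (norm_nonneg _)]
  have ha : ∀ x, ⟪-P ν, P (L y x)⟫ / rr G L y x = ca G L y x ν := fun x => by
    rw [ca, h1, inner_neg_left]
  have he : ‖-P ν‖ = 1 := by
    rw [h1, real_inner_self_eq_norm_sq] at hν
    rw [norm_neg, ← sq_eq_sq₀ (norm_nonneg _) zero_le_one, hν, one_pow]
  obtain ⟨k1, k2⟩ := hk τ ε hτ hε _ he _ (hd.measurableSet_image D.meas)
    ((hK.image hd.smooth.continuous).isBounded.subset (image_mono D.sub))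
    (∫ z, C.rayT G L τ y ν z.1 z.2 ∂D.μ) (by
      rw [(h3 _ D.meas _).1]
      simp only [hn, ha]
      refine (ray5_id hE hm hP hK C hτ D hν).trans (integral_congr_ae (ae_of_all _ fun x => ?_))
      simp only [jac]
      ring)
  refine ⟨k1, le_trans ?_ k2⟩
  refine le_trans (le_of_eq ?_) (lintegral_mono_set (s := (fun x => P (L y x)) ''
    {x | x ∉ D.Ω ∧ hh b ρ * ww b (rr G L y x) < sn b (rr G L y x) * ca G L y x ν ∧
      ε ≤ rr G L y x}) ?_)
  · rw [lintegral_image_eq_lintegral_abs_det_fderiv_mul volume (ray2_meas hP D.meas y ν b ρ ε)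
      (push_deriv hd _) hd.inj.injOn, Cert2.dfc]
    refine lintegral_congr fun x => ?_
    rw [← ENNReal.ofReal_mul (abs_nonneg _), chg_det, abs_mul, ← h2, hn, ha, jac, Cert2.ray5d]
    exact congrArg _ (by ring)
  · rintro _ ⟨x, ⟨a1, a2, a3⟩, rfl⟩
    refine ⟨fun k => a1 (hd.inj.mem_set_image.1 k), ?_⟩
    simp only [hn, ha]
    have hr : 0 < rr G L y x := (rr_nonneg G L y x).lt_of_ne fun e => by
      rw [← e, ww_zero, sn_zero, mul_zero, zero_mul] at a2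
      exact a2.false
    exact ⟨(div_lt_iff₀' (sn_pos b hr)).2 a2, a3⟩

theorem Cert2.dfc_anti (C : Cert2 m b ρ) (S : Set E) (y ν : E) {ε ε' : ℝ} (h : ε ≤ ε') :
    C.dfc G L S y ν ε' ≤ C.dfc G L S y ν ε :=
  lintegral_mono_set fun _ hx => ⟨hx.1, hx.2.1, h.trans hx.2.2⟩

theorem Pack.dfc_ae2 (hP : Pack G L) (C : Cert2 m b ρ) {S : Set E} (hS : MeasurableSet S) {y ν : E}
    (hν : G y ν ν = 1) (h : ∀ k : ℕ, C.dfc G L S y ν (1 / (k + 1)) = 0) :
    ∀ᵐ x, hh b ρ * ww b (rr G L y x) < sn b (rr G L y x) * ca G L y x ν → x ∈ S := by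
  have h1 : ContinuousOn (fun x => ENNReal.ofReal (sn b (rr G L y x) ^ m *
      cD2 m b C.Ψ C.Ψw C.ΨQ C.T C.Tw C.TQ (rr G L y x) (ca G L y x ν) * jac G L y x /
        rr G L y x ^ m)) {x | y ≠ x} := by
    have k := (cont_r hP (continuous_const (y := y)) continuous_id).continuousOn (s := {x | y ≠ x})
    exact ENNReal.continuous_ofReal.comp_continuousOn ((((ray5_d C).comp
      (k.prodMk (cont_ca hP continuous_const continuous_id continuous_const))
      fun x hx => hP.rr_pos (Ne.symm hx)).mul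
      (cont_jac hP continuous_const continuous_id).continuousOn).div (k.pow m)
      fun x hx => (pow_pos (hP.rr_pos (Ne.symm hx)) m).ne')
  have h2 : ∀ k : ℕ, ∀ᵐ x, x ∉ {x | x ∉ S ∧
      hh b ρ * ww b (rr G L y x) < sn b (rr G L y x) * ca G L y x ν ∧
      1 / ((k : ℝ) + 1) ≤ rr G L y x} := fun k => by
    have hM := ray2_meas hP hS y ν b ρ (1 / (k + 1))
    have h3 := (lintegral_eq_zero_iff' ((h1.mono fun x hx => hP.ne_of_rr_pos
      (Nat.one_div_pos_of_nat.trans_le hx.2.2)).aemeasurable hM)).1 (h k)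
    filter_upwards [(ae_restrict_iff' hM).1 h3] with x hx hx'
    have hr : 0 < rr G L y x := Nat.one_div_pos_of_nat.trans_le hx'.2.2
    exact (ENNReal.ofReal_pos.2 (div_pos (mul_pos (mul_pos (pow_pos (sn_pos b hr) m)
      (C.ray_pos _ _ hr ((hP.ca_sq_le y x ν).trans hν.le) hx'.2.1)) (hP.jac_pos y x))
      (pow_pos hr m))).ne' (hx hx')
  filter_upwards [ae_all_iff.2 h2] with x hx hx'
  have hr : 0 < rr G L y x := (rr_nonneg G L y x).lt_of_ne fun e => by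
    rw [← e, ww_zero, sn_zero, mul_zero, zero_mul] at hx'
    exact hx'.false
  obtain ⟨k, hk⟩ := exists_nat_one_div_lt hr
  exact by_contra fun a => hx k ⟨a, hx', hk.le⟩

end Vale.Agent.P219
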