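import Vale.Agent.P219.G.Final
import Vale.Agent.P219.G.Ray5
import Vale.Agent.P219.G.Conv2
import Vale.Agent.P219.G.Bary4

/-!
# The core argument for certificates with a non-radial flux field
-/

namespace Vale.Agent.P219

open scoped ContDiff Topology RealInnerProductSpace ENNReal
open MeasureTheory Set Filter Vale.Agent.P255
open St (sn gmod)

variable {E : Type*} [NormedAddCommGroup E] [InnerProductSpace ℝ E] [FiniteDimensional ℝ E]
  [MeasurableSpace E] [BorelSpace E] {G : E → Bil E} {L : E → E → E} {K : Set E} {m : ℕ} {b : ℝ}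
  {ρ ε c H : ℝ} {τ : ℝ → ℝ}

omit [MeasurableSpace E] [BorelSpace E] in
theorem PackK.core_pt2 (hE : Module.finrank ℝ E = m + 1) (hP : PackK b G L) (C : Cert2 m b ρ)
    (hτ : Cut τ ε) {x e y ν : E} (he : G x e e = 1) (hν : G y ν ν = 1) :
    0 ≤ C.varT G L τ x e y ν + C.varT G L τ y ν x e +
      2 * C.η * (τ (rr G L x y) + τ (rr G L x y) * C.Gf (rr G L x y) / (2 * C.η)) +
      C.rayT G L τ y ν x e + C.rayT G L τ x e y ν := by
  obtain ⟨α, hα, h0⟩ := hτ.zero'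
  by_cases hxy : x = y
  · subst hxy
    have h1 : τ (rr G L x x) = 0 := by
      rw [hP.toPack.rr_self]
      exact (h0 0 hα.le).1
    simp [Cert2.varT, Cert2.rayT, h1]
  have key := C.main (rr G L x y) _ _ _ _ _ _ _ (hP.toPack.rr_pos (Ne.symm hxy))
    (hP.feas hE hxy he hν)
  have h2 := mul_nonneg (hτ.nonneg (rr G L x y)).1 key
  simp only [Cert2.varT, Cert2.rayT]
  rw [hP.toPack.rr_symm y x, ← hP.toPack.Mx_symm x y e ν, hP.toPack.iota_symm y x,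
    ← hP.toPack.Mc_symm hxy e ν]
  simp only [sub_sub_cancel] at h2
  have h3 := C.η_pos
  rw [mul_add (2 * C.η), mul_div_cancel₀ _ (by positivity)]
  linarith

theorem PackK.core_sum2 (hE : Module.finrank ℝ E = m + 1) (hP : PackK b G L) (C : Cert2 m b ρ)
    {D : NDom G (KB G L c)} (hD : NDom.Stat L c D (m * hh b ρ)) (hτ : Cut τ ε) (hε : ε ≤ ρ)
    (h0 : ∀ r, 0 ≤ r → r ≤ ρ → 0 ≤ C.Gf r)
    (hB : ∫ z, C.Gf (rr G L z.1.1 z.2.1) ∂D.μ.prod D.μ ≤ 0) :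
    ∫ z, C.flxT G L τ z.1.1 z.1.2 z.2.1 z.2.2 ∂D.μ.prod D.μ ≤
      C.η * D.A ^ 2 + ∫ z, C.rayT G L τ z.1.1 z.1.2 z.2.1 z.2.2 ∂D.μ.prod D.μ := by
  have hK := hP.toPack.isCompact_KB c
  have cr : Continuous fun z : (E × E) × (E × E) => rr G L z.1.1 z.2.1 :=
    cont_r hP.toPack continuous_fst.fst continuous_snd.fst
  have c1 := hτ.smooth.continuous.comp cr
  have c2 := C.Gf_cont.comp cr
  have hη := C.η_pos
  refine core1_gen0 hP.loc hK D (hP.toPack.continuous_varT2 C hτ)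
    (hP.toPack.continuous_flxT2 C hτ) (hP.toPack.continuous_rayT2 C hτ)
    (t := fun z => τ (rr G L z.1.1 z.2.1) +
      τ (rr G L z.1.1 z.2.1) * C.Gf (rr G L z.1.1 z.2.1) / (2 * C.η))
    (c1.add ((c1.mul c2).div_const _)) hη.le ?_ (fun _ h1 h2 => hP.core_pt2 hE C hτ h1.2 h2.2)
    fun x hx => hP.toPack.pair_var2 C hD hτ (x := x.1) (e := x.2) hx
  have i2 : Integrable (fun z : (E × E) × (E × E) => C.Gf (rr G L z.1.1 z.2.1) / (2 * C.η))
      (D.μ.prod D.μ) := (D.integrable_prod hP.loc hK c2).div_const _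
  refine (integral_mono (D.integrable_prod hP.loc hK (c1.add ((c1.mul c2).div_const _)))
    ((integrable_const 1).add i2) fun z => ?_).trans ?_
  · obtain ⟨t0, t1, -, -⟩ := hτ.nonneg (rr G L z.1.1 z.2.1)
    refine add_le_add t1 (div_le_div_of_nonneg_right ?_ (by positivity))
    rcases le_total ε (rr G L z.1.1 z.2.1) with h | h
    · exact (congrArg (· * _) (hτ.one _ h)).trans_le (one_mul _).le
    · exact mul_le_of_le_one_left (h0 _ (rr_nonneg _ _ _ _) (h.trans hε)) t1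
  · refine (integral_add (integrable_const 1) i2).trans_le ?_
    rw [core1_one, integral_div]
    linarith [div_nonpos_of_nonpos_of_nonneg hB (by positivity : 0 ≤ 2 * C.η)]

theorem PackK.core2 (hE : Module.finrank ℝ E = m + 1) (hm : 2 ≤ m) (hP : PackK b G L) (hρ : 0 < ρ)
    (C : Cert2 m b ρ) {D : NDom G (KB G L c)} (hD : NDom.Stat L c D (m * hh b ρ)) (hT : D.Tight)
    (h0 : ∀ r, 0 ≤ r → r ≤ ρ → 0 ≤ C.Gf r)
    (hB : ∫ z, C.Gf (rr G L z.1.1 z.2.1) ∂D.μ.prod D.μ ≤ 0) {l ε₀ : ℝ} (hl : 0 < l) (hε : 0 < ε₀) :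
    ∃ f : E × E → ℝ, Integrable f D.μ ∧
      (∀ᵐ z ∂D.μ, 0 ≤ f z ∧ C.dfc G L D.Ω z.1 z.2 ε₀ ≤ ENNReal.ofReal (f z)) ∧
      ∫ z, f z ∂D.μ ≤ C.η * D.A * (D.A - Am (om E) m b ρ) + l := by
  refine core2_gen hE hm hP.toPack hD hT C.χ₀_pos (R₀ := C.R₀) (core2_cm C.η C.χ₀ b ρ m)
    (flx := fun τ z => C.flxT G L τ z.1.1 z.1.2 z.2.1 z.2.2)
    (ray := fun τ z => C.rayT G L τ z.1.1 z.1.2 z.2.1 z.2.2)
    (dfc := fun z ε => C.dfc G L D.Ω z.1 z.2 ε) (fun l hl => ?_)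
    (fun τ ε hτ => ⟨hP.toPack.continuous_flxT2 C hτ, hP.toPack.continuous_rayT2 C hτ⟩)
    hρ (fun τ ε hτ h => hP.core_sum2 hE C hD hτ h h0 hB) (fun l hl => ?_)
    (fun y ε ε' h => C.dfc_anti D.Ω y.1 y.2 h) hl hε
  · obtain ⟨ε₁, h1, h2⟩ := C.sing l hl
    exact ⟨ε₁, h1, fun τ ε hτ h z hz1 hz2 => core2_sing hP.toPack hτ h h2 hz1.2 hz2.2⟩
  · obtain ⟨ε₁, h1, h2⟩ := hP.toPack.ray2 hE hm (hP.toPack.isCompact_KB c) hρ C hl
    exact ⟨ε₁, h1, fun τ ε hτ h y hy => h2 τ ε hτ h D y.1 y.2 hy.2⟩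

theorem PackK.coreP2 (hE : Module.finrank ℝ E = m + 1) (hm : 2 ≤ m) (hP : PackK b G L) (hρ : 0 < ρ)
    (C : Cert2 m b ρ) (c : ℝ) (h0 : ∀ r, 0 ≤ r → r ≤ ρ → 0 ≤ C.Gf r)
    (hB : ∀ D : NDom G (KB G L c), NDom.Stat L c D (m * hh b ρ) →
      ∫ z, C.Gf (rr G L z.1.1 z.2.1) ∂D.μ.prod D.μ ≤ 0) : CoreP m b G L c ρ :=
  ⟨C.η, fun S z ε => C.dfc G L S z.1 z.2 ε, C.η_pos,
    fun D hD hT _ _ hl hε => hP.core2 hE hm hρ C hD hT h0 (hB D hD) hl hε,
    fun _ hS _ _ hν h => hP.toPack.dfc_ae2 C hS hν h⟩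

theorem PackK.coreP3 (hE : Module.finrank ℝ E = m + 1) (hm : 2 ≤ m) (hP : PackK b G L) (hρ : 0 < ρ)
    (N : NCert3 m (gam b ρ)) (hc : N.μ = 0 ∨ 0 < c) : CoreP m b G L c ρ := by
  obtain ⟨C, hC⟩ := N.exists_cert hm hρ
  have hS := sn_pos b hρ
  refine hP.coreP2 hE hm hρ C c (fun r h0 h1 => ?_) fun D hD => ?_
  · rw [hC]
    refine mul_nonneg N.μ_nonneg ?_
    have h2 : ww b r ≤ ww b ρ := (strictMonoOn_ww b).monotoneOn h0 hρ.le h1
    have h3 : eps b ρ * ww b r ≤ 1 / 2 := by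
      rw [eps, div_mul_eq_mul_div, div_le_div_iff₀ (by positivity) two_pos, sn_sq]
      nlinarith [ww_pos b hρ, mul_nonneg (sq_nonneg b) (sq_nonneg (ww b ρ))]
    linarith [min_le_left (eps b ρ * ww b r) N.u₁]
  · rcases eq_or_ne N.μ 0 with h | h
    · simp [hC, h]
    have h1 := hP.bary hE (by omega) (hc.resolve_left h) hρ hD (N.bary.resolve_left h)
    have cr : Continuous fun z : (E × E) × (E × E) => rr G L z.1.1 z.2.1 :=
      cont_r hP.toPack continuous_fst.fst continuous_snd.fst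
    have cw := (contDiff_ww b).continuous
    have i1 : Integrable (fun z : (E × E) × (E × E) =>
        min (eps b ρ * ww b (rr G L z.1.1 z.2.1)) N.u₁) (D.μ.prod D.μ) :=
      D.integrable_prod hP.loc (hP.toPack.isCompact_KB c) (by fun_prop)
    simp only [hC]
    rw [integral_const_mul, integral_sub (integrable_const 1) (i1.const_mul 2), integral_const_mul,
      core1_one]
    exact mul_nonpos_of_nonneg_of_nonpos N.μ_nonneg (by linarith)

theorem coreN2 {m : ℕ} (hm : 2 ≤ m) {b ρ : ℝ} (hρ : 0 < ρ) (hN : Nonempty (NCert2 m (gam b ρ)))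
    {G : Euc (m + 1) → Bil (Euc (m + 1))} {L : Euc (m + 1) → Euc (m + 1) → Euc (m + 1)}
    (hP : PackK b G L) (c : ℝ) : CoreP m b G L c ρ :=
  hN.elim fun N => hP.coreP3 finrank_euclideanSpace_fin hm hρ N.to3 (Or.inl rfl)

theorem coreN3 {m : ℕ} (hm : 2 ≤ m) {b ρ : ℝ} (hρ : 0 < ρ) (hN : Nonempty (NCert3 m (gam b ρ)))
    {G : Euc (m + 1) → Bil (Euc (m + 1))} {L : Euc (m + 1) → Euc (m + 1) → Euc (m + 1)}
    (hP : PackK b G L) {c : ℝ} (hc : 0 < c) : CoreP m b G L c ρ :=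
  hN.elim fun N => hP.coreP3 finrank_euclideanSpace_fin hm hρ N (Or.inr hc)

end Vale.Agent.P219
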