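import Vale.Agent.P219.G.PackL

/-!
# Comparison of the distance with the norm  (TASK)

Upper bounds: `t ↦ L x' (x' + t • h)` and the mean value theorem with `contr` (as in `ExpPack.cos`): `rr x' (x' + h)² ≤ sup over t of G (x' + t • h) h h`; uniform continuity of `G` on
`cthickening 1 K` and `LocMetric.exists_bounds`.  Lower bound: near the diagonal `‖L x y - (y - x)‖ ≤ ‖y - x‖ / 2` uniformly (`fderiv_self`, uniform continuity of
`fderiv` of `L` on a compact set, mean value inequality); away from it `rr` is continuous and positive on a compact set.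
`nbhd`: `triangle` with the origin and `proper`.  `vol_ball`: the set lies in a closed ball of radius `C t` (`Measure.addHaar_closedBall`).
-/

namespace Vale.Agent.P219

open scoped ContDiff Topology RealInnerProductSpace ENNReal
open MeasureTheory Set Filter Vale.Agent.P255
open St (sn gmod)

variable {E : Type*} [NormedAddCommGroup E] [InnerProductSpace ℝ E] [FiniteDimensional ℝ E]
  [MeasurableSpace E] [BorelSpace E] {G : E → Bil E} {L : E → E → E} {K : Set E} {m : ℕ} {b : ℝ}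

theorem dist_uc {X F : Type*} [PseudoMetricSpace X] [PseudoMetricSpace F] {K : Set X}
    (hK : IsCompact K) {f : X → F} (hf : Continuous f) {ε : ℝ} (hε : 0 < ε) :
    ∃ δ : ℝ, 0 < δ ∧ ∀ x ∈ K, ∀ y, dist x y ≤ δ → dist (f x) (f y) ≤ ε := by
  obtain ⟨δ, hδ, h⟩ := _root_.Metric.uniformity_basis_dist_le.mem_iff.1
    (hK.uniformContinuousAt_of_continuousAt f (fun a _ => hf.continuousAt)
      (_root_.Metric.uniformity_basis_dist_le.mem_of_mem hε))
  exact ⟨δ, hδ, fun x hx y hy => h (a := (x, y)) hy hx⟩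

omit [MeasurableSpace E] [BorelSpace E] in
theorem dist_up (hP : Pack G L) (x h : E) :
    ∃ t ∈ Ioo (0 : ℝ) 1, qq G L x (x + h) ≤ G (x + t • h) h h := by
  have hd : Differentiable ℝ (L x) := (chg_smooth hP x).differentiable (by simp)
  have hB := posB_of_loc hP.loc x
  set a := L x (x + h) with ha
  have h1 : ∀ t : ℝ, HasDerivAt (fun s : ℝ => G x a (L x (x + s • h)))
      (G x a (fderiv ℝ (L x) (x + t • h) h)) t := fun t =>
    (G x a).hasFDerivAt.comp_hasDerivAt t ((hd _).hasFDerivAt.comp_hasDerivAt t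
      (by simpa using ((hasDerivAt_id' t).smul_const h).const_add x))
  obtain ⟨ξ, h2, hξ⟩ := exists_hasDerivAt_eq_slope _ _ zero_lt_one
    (fun t _ => (h1 t).continuousAt.continuousWithinAt) fun t _ => h1 t
  rw [one_smul, zero_smul, add_zero, hP.self, map_zero, sub_zero, sub_zero, div_one, ← ha] at hξ
  have h3 := hB.sq_le a (fderiv ℝ (L x) (x + ξ • h) h)
  rw [hξ, sq] at h3
  refine ⟨ξ, h2, ?_⟩
  rcases (hB.nonneg a).eq_or_lt with h0 | h0
  · exact h0.ge.trans ((posB_of_loc hP.loc _).nonneg _)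
  · exact (le_of_mul_le_mul_left h3 h0).trans (hP.contr ..)

omit [MeasurableSpace E] [BorelSpace E] in
theorem dist_near (hP : Pack G L) (hK : IsCompact K) :
    ∃ δ : ℝ, 0 < δ ∧ ∀ x ∈ K, ∀ y, dist x y ≤ δ → ‖x - y‖ ≤ 2 * ‖L x y‖ := by
  have h : ContDiff ℝ 0 fun z : E × E => fderiv ℝ (L z.1) z.2 :=
    ContDiff.fderiv (f := fun z : E × E => L z.1) (m := ∞)
      (hP.smooth.comp (contDiff_fst.fst.prodMk contDiff_snd)) contDiff_snd (by simp)
  obtain ⟨δ, hδ, h1⟩ := dist_uc (hK.prod hK) h.continuous one_half_pos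
  refine ⟨δ, hδ, fun x hx y hy => ?_⟩
  have h2 := (convex_closedBall x δ).norm_image_sub_le_of_norm_fderiv_le' (𝕜 := ℝ) (f := L x)
    (φ := ContinuousLinearMap.id ℝ E) (C := 1 / 2)
    (fun z _ => (chg_smooth hP x).differentiable (by simp) z) (fun z hz => by
      have := h1 (x, x) ⟨hx, hx⟩ (x, z) (by
        rw [dist_prod_same_left, dist_comm]
        exact hz)
      rwa [hP.fderiv_self, dist_comm, dist_eq_norm] at this)
    (_root_.Metric.mem_closedBall_self hδ.le) (_root_.Metric.mem_closedBall'.2 hy)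
  rw [hP.self, sub_zero, ContinuousLinearMap.id_apply] at h2
  rw [norm_sub_rev]
  linarith [norm_sub_norm_le (y - x) (L x y), norm_sub_rev (y - x) (L x y)]

omit [MeasurableSpace E] [BorelSpace E] in
theorem Pack.dist_cmp (hP : Pack G L) (hK : IsCompact K) : ∃ C : ℝ, 0 < C ∧
    ∀ x ∈ K, ∀ y ∈ K, ‖x - y‖ ≤ C * rr G L x y ∧ rr G L x y ≤ C * ‖x - y‖ := by
  obtain ⟨r, hr⟩ := hK.isBounded.subset_closedBall 0
  obtain ⟨c, C, hc, hC, hb⟩ := hP.loc.exists_bounds (isCompact_closedBall (0 : E) r) (subset_univ _)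
  obtain ⟨δ, hδ, h1⟩ := dist_near hP hK
  have hne : ∀ z ∈ K ×ˢ K ∩ {z : E × E | δ ≤ dist z.1 z.2}, 0 < rr G L z.1 z.2 := fun z hz =>
    hP.rr_pos (dist_pos.1 (hδ.trans_le hz.2)).symm
  obtain ⟨M, hM⟩ := ((hK.prod hK).inter_right (isClosed_le continuous_const continuous_dist)
    ).exists_bound_of_continuousOn (f := fun z => ‖z.1 - z.2‖ / rr G L z.1 z.2)
    ((continuous_fst.sub continuous_snd).norm.continuousOn.div hP.continuous_rr.continuousOn
      fun z hz => (hne z hz).ne')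
  have hc' := Real.sqrt_pos.2 hc
  have p1 : 0 < 2 / √c := by positivity
  have p2 := abs_nonneg M
  have p3 := Real.sqrt_nonneg C
  refine ⟨2 / √c + |M| + √C, by positivity, fun x hx y hy => ⟨?_, ?_⟩⟩
  · have h0 := rr_nonneg G L x y
    rcases le_total (dist x y) δ with h | h
    · have h2 : √c * ‖L x y‖ ≤ rr G L x y := by
        rw [← Real.sqrt_sq (norm_nonneg (L x y)), ← Real.sqrt_mul hc.le]
        exact Real.sqrt_le_sqrt (hb x (hr hx) _).1
      calc _ ≤ 2 * ‖L x y‖ := h1 x hx y h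
        _ = 2 / √c * (√c * ‖L x y‖) := by field_simp
        _ ≤ _ := mul_le_mul (by linarith) h2 (by positivity) (by positivity)
    · have h2 := (le_abs_self _).trans ((hM (x, y) ⟨⟨hx, hy⟩, h⟩).trans (le_abs_self M))
      rw [div_le_iff₀ (hne (x, y) ⟨⟨hx, hy⟩, h⟩)] at h2
      exact h2.trans (mul_le_mul_of_nonneg_right (by linarith) h0)
  · obtain ⟨t, ht, h2⟩ := dist_up hP x (y - x)
    rw [add_sub_cancel] at h2
    have h3 := h2.trans (hb _ ((convex_closedBall _ _).add_smul_sub_mem (hr hx) (hr hy)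
      ⟨ht.1.le, ht.2.le⟩) _).2
    refine (Real.sqrt_le_sqrt h3).trans ?_
    rw [Real.sqrt_mul hC.le, Real.sqrt_sq (norm_nonneg _), norm_sub_rev]
    exact mul_le_mul_of_nonneg_right (by linarith) (norm_nonneg _)

omit [MeasurableSpace E] [BorelSpace E] in
theorem Pack.dist_fine (hP : Pack G L) (hK : IsCompact K) {l : ℝ} (hl : 0 < l) :
    ∃ η : ℝ, 0 < η ∧ ∀ x ∈ K, ∀ z h : E, ‖z‖ ≤ η → ‖h‖ ≤ η →
      rr G L (x - z) (x + h - z) ≤ (1 + l) * √(G x h h) ∧
        (1 - l) * wt (G x) ≤ wt (G (x - z)) ∧ (1 - l) * wt (G x) ≤ wt (G (x + h - z)) := by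
  obtain ⟨c, C, hc, -, hb⟩ := hP.loc.exists_bounds hK (subset_univ _)
  have hw := (contDiff_wt hP.loc).continuous
  obtain ⟨a, ha, h1⟩ := hK.exists_forall_le' hw.continuousOn
    fun y _ => wt_pos (posB_of_loc hP.loc y)
  obtain ⟨δ, hδ, h2⟩ := dist_uc hK (contDiffOn_univ.1 hP.loc.smooth).continuous (mul_pos hl hc)
  obtain ⟨δ', hδ', h3⟩ := dist_uc hK hw (mul_pos hl ha)
  refine ⟨min δ δ' / 2, by positivity, fun x hx z h hz hh => ?_⟩
  have h4 : ∀ t ∈ Icc (0 : ℝ) 1, dist x (x - z + t • h) ≤ min δ δ' := fun t ht => by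
    rw [dist_eq_norm, show x - (x - z + t • h) = z - t • h by abel]
    refine (norm_sub_le _ _).trans ?_
    rw [norm_smul, Real.norm_of_nonneg ht.1]
    linarith [mul_le_of_le_one_left (norm_nonneg h) ht.2]
  have h5 : ∀ t ∈ Icc (0 : ℝ) 1, (1 - l) * wt (G x) ≤ wt (G (x - z + t • h)) := fun t ht => by
    have := (abs_le.1 (h3 x hx _ ((h4 t ht).trans (min_le_right _ _)))).2
    linarith [mul_le_mul_of_nonneg_left (h1 x hx) hl.le]
  rw [show x + h - z = x - z + h by abel]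
  refine ⟨?_, by simpa using h5 0 ⟨le_rfl, zero_le_one⟩, by simpa using h5 1 ⟨zero_le_one, le_rfl⟩⟩
  obtain ⟨t, ht, h6⟩ := dist_up hP (x - z) h
  have h7 := h2 x hx _ ((h4 t ⟨ht.1.le, ht.2.le⟩).trans (min_le_left _ _))
  rw [dist_comm, dist_eq_norm] at h7
  have h8 := (le_abs_self _).trans ((G (x - z + t • h) - G x).le_opNorm₂ h h)
  simp only [sub_apply] at h8
  have h9 := (posB_of_loc hP.loc x).nonneg h
  rw [← Real.sqrt_sq (by positivity : 0 ≤ 1 + l), ← Real.sqrt_mul (sq_nonneg _)]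
  refine Real.sqrt_le_sqrt (h6.trans ?_)
  nlinarith [mul_le_mul_of_nonneg_right h7 (mul_self_nonneg ‖h‖),
    mul_le_mul_of_nonneg_left (hb x hx h).1 hl.le, mul_nonneg hl.le h9,
    mul_nonneg (sq_nonneg l) h9]

omit [MeasurableSpace E] [BorelSpace E] in
theorem Pack.nbhd (hP : Pack G L) (hK : IsCompact K) (R : ℝ) :
    ∃ K' : Set E, IsCompact K' ∧ K ⊆ K' ∧ ∀ y ∈ K, ∀ x, rr G L x y ≤ R → x ∈ K' := by
  obtain ⟨c, -, hc⟩ := hP.exists_KB hK
  refine ⟨K ∪ KB G L ((R + √c) ^ 2), hK.union (hP.isCompact_KB _), subset_union_left,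
    fun y hy x hx => Or.inr ?_⟩
  show qq G L x 0 ≤ _
  rw [← hP.rr_sq]
  exact pow_le_pow_left₀ (rr_nonneg ..)
    ((hP.triangle x y 0).trans (add_le_add hx (Real.sqrt_le_sqrt (hc hy)))) 2

theorem Pack.vol_ball (hE : Module.finrank ℝ E = m + 1) (hP : Pack G L) (hK : IsCompact K) :
    ∃ C : ℝ, 0 < C ∧ ∀ x ∈ K, ∀ t : ℝ, 0 < t → t ≤ 1 →
      volume {y | rr G L x y ≤ t} ≤ ENNReal.ofReal (C * t ^ (m + 1)) := by
  obtain ⟨K', h1, h2, h3⟩ := hP.nbhd hK 1
  obtain ⟨C, hC, h4⟩ := hP.dist_cmp h1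
  have hV : 0 ≤ (volume : Measure E).real (_root_.Metric.closedBall 0 1) := measureReal_nonneg
  refine ⟨C ^ (m + 1) * ((volume : Measure E).real (_root_.Metric.closedBall 0 1) + 1),
    by positivity, fun x hx t ht ht1 => ?_⟩
  refine (measure_mono (t := _root_.Metric.closedBall x (C * t)) fun y hy => ?_).trans ?_
  · rw [_root_.Metric.mem_closedBall', dist_eq_norm]
    exact (h4 x (h2 hx) y (h3 x hx y ((hP.rr_symm ..).trans_le (le_trans hy ht1)))).1.trans
      (mul_le_mul_of_nonneg_left hy hC.le)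
  · rw [← ofReal_measureReal measure_closedBall_lt_top.ne,
      Measure.addHaar_real_closedBall' _ x (by positivity), hE, mul_pow, mul_right_comm]
    refine ENNReal.ofReal_le_ofReal ?_
    gcongr
    linarith

end Vale.Agent.P219
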