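import Vale.Agent.P219.G.Transl
import Vale.Agent.P219.G.Dist

/-!
# Pairs of close points  (TASK)

With `K'` from `Pack.nbhd K 1`: `y ∈ Ω`, `rr x y ≤ t` force `x ∈ K'`, `‖x - y‖ ≤ C t` (`dist_cmp`), `wt ≤ C`; substitute `x = y + h` (`lintegral_add_left_eq_self`), Tonelli
(`lintegral_lintegral_swap`), `ind Ω y * (1 - ind Ω (y + h)) ≤ |ind Ω (y + h) - ind Ω y|`, `transl` (`ofReal_integral_eq_lintegral_ofReal`), volume of the ball
(`Measure.addHaar_closedBall`).
-/

namespace Vale.Agent.P219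

open scoped ContDiff Topology RealInnerProductSpace ENNReal
open MeasureTheory Set Filter Vale.Agent.P255
open St (sn gmod)

variable {E : Type*} [NormedAddCommGroup E] [InnerProductSpace ℝ E] [FiniteDimensional ℝ E]
  [MeasurableSpace E] [BorelSpace E] {G : E → Bil E} {L : E → E → E} {K : Set E} {m : ℕ} {b : ℝ}

theorem Pack.crude (hE : Module.finrank ℝ E = m + 1) (hP : Pack G L) (hK : IsCompact K) :
    ∃ C : ℝ, 0 < C ∧ ∀ (D : NDom G K) (t : ℝ), 0 < t → t ≤ 1 →
      ∫⁻ y in D.Ω, ∫⁻ x in D.Ωᶜ ∩ {x | rr G L x y ≤ t}, ENNReal.ofReal (wt (G x) * wt (G y)) ≤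
        ENNReal.ofReal (C * t ^ (m + 2) * D.A) := by
  obtain ⟨K', hK', sub, near⟩ := hP.nbhd hK 1
  obtain ⟨C₁, c1, h1⟩ := hP.dist_cmp hK'
  obtain ⟨C₂, c2, h2⟩ := transl hP.loc hK
  obtain ⟨W, hW⟩ := hK'.exists_bound_of_continuousOn (contDiff_wt hP.loc).continuous.continuousOn
  have hW' : ∀ x ∈ K', wt (G x) ≤ |W| + 1 := fun x hx =>
    ((le_abs_self _).trans (hW x hx)).trans ((le_abs_self W).trans (le_add_of_nonneg_right zero_le_one))
  have W0 : 0 < |W| + 1 := by positivity
  generalize |W| + 1 = w at hW' W0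
  have o0 : 0 < om E := om_pos
  refine ⟨w * w * (C₂ * C₁) * (C₁ ^ (m + 1) * om E), by positivity, fun D t t0 t1 => ?_⟩
  have hA := D.A_nonneg
  have im : Measurable (ind D.Ω) := measurable_one.indicator D.meas
  have ii : Integrable (ind D.Ω) := (integrable_indicator_iff D.meas).2
    (integrableOn_const ((measure_mono D.sub).trans_lt hK.measure_lt_top).ne)
  have Fm : Measurable fun z : E × E => ENNReal.ofReal |ind D.Ω (z.1 + z.2) - ind D.Ω z.1| :=
    (continuous_abs.measurable.comp ((im.comp (measurable_fst.add measurable_snd)).sub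
      (im.comp measurable_fst))).ennreal_ofReal
  have s1 : ∀ y ∈ D.Ω, ∫⁻ x in D.Ωᶜ ∩ {x | rr G L x y ≤ t}, ENNReal.ofReal (wt (G x) * wt (G y)) ≤
      ENNReal.ofReal (w * w) * ∫⁻ h in Metric.closedBall (0 : E) (C₁ * t),
        ENNReal.ofReal |ind D.Ω (y + h) - ind D.Ω y| := by
    intro y hy
    have ms : MeasurableSet (D.Ωᶜ ∩ {x | rr G L x y ≤ t}) := D.meas.compl.inter
      (measurableSet_le (hP.continuous_rr.comp (Continuous.prodMk_left y)).measurable
        measurable_const)
    rw [← lintegral_const_mul' _ _ ENNReal.ofReal_ne_top,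
      ← lintegral_indicator Metric.isClosed_closedBall.measurableSet,
      ← lintegral_sub_right_eq_self (μ := volume) _ y]
    refine le_trans (setLIntegral_mono' ms fun x hx => ?_) (setLIntegral_le_lintegral _ _)
    have x1 : x ∈ K' := near y (D.sub hy) x (le_trans hx.2 t1)
    have y1 : y ∈ K' := sub (D.sub hy)
    have x2 : x - y ∈ Metric.closedBall (0 : E) (C₁ * t) :=
      mem_closedBall_zero_iff.2 ((h1 x x1 y y1).1.trans (mul_le_mul_of_nonneg_left hx.2 c1.le))
    rw [indicator_of_mem x2, add_sub_cancel, ind, indicator_of_notMem hx.1, indicator_of_mem hy]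
    simp only [Pi.one_apply, zero_sub, abs_neg, abs_one, ENNReal.ofReal_one, mul_one]
    exact ENNReal.ofReal_le_ofReal (mul_le_mul (hW' x x1) (hW' y y1) (Real.sqrt_nonneg _) W0.le)
  have s2 : ∀ h ∈ Metric.closedBall (0 : E) (C₁ * t),
      ∫⁻ y, ENNReal.ofReal |ind D.Ω (y + h) - ind D.Ω y| ≤
        ENNReal.ofReal (C₂ * (C₁ * t) * D.A) := by
    intro h hh
    refine (ofReal_integral_eq_lintegral_ofReal ((ii.comp_add_right h).sub ii).abs
      (Eventually.of_forall fun _ => abs_nonneg _)).symm.trans_le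
      (ENNReal.ofReal_le_ofReal ((h2 D h).trans ?_))
    have := mem_closedBall_zero_iff.1 hh
    gcongr
  refine (setLIntegral_mono' D.meas s1).trans ((setLIntegral_le_lintegral _ _).trans ?_)
  rw [lintegral_const_mul' _ _ ENNReal.ofReal_ne_top, lintegral_lintegral_swap Fm.aemeasurable]
  refine (mul_le_mul_right
    (setLIntegral_mono' Metric.isClosed_closedBall.measurableSet s2) _).trans ?_
  rw [setLIntegral_const, Measure.addHaar_closedBall _ _ (by positivity), hE,
    ← ENNReal.ofReal_toReal (a := volume (Metric.ball (0 : E) 1)) measure_ball_lt_top.ne,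
    ← ENNReal.ofReal_mul (by positivity), ← ENNReal.ofReal_mul (by positivity),
    ← ENNReal.ofReal_mul (by positivity)]
  refine le_of_eq (congrArg _ ?_)
  rw [om]
  ring

end Vale.Agent.P219
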