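import Vale.Agent.P219.G.Cont
import Vale.Agent.P219.G.Basic2

/-!
# The first variation inequality for the two families of fields

All fields are `Z y = F y • (-L y x)` with `F` of class `C²`, `F ≥ 0`.
-/

namespace Vale.Agent.P219

open scoped ContDiff Topology RealInnerProductSpace ENNReal
open MeasureTheory Set Filter Vale.Agent.P255
open St (sn gmod)

variable {E : Type*} [NormedAddCommGroup E] [InnerProductSpace ℝ E] [FiniteDimensional ℝ E]
  [MeasurableSpace E] [BorelSpace E] {G : E → Bil E} {L : E → E → E} {K : Set E} {m : ℕ} {b : ℝ}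
  {ρ ε c H : ℝ} {τ : ℝ → ℝ}

omit [MeasurableSpace E] [BorelSpace E] in
theorem field_ca (hP : Pack G L) (x y ν : E) :
    G y ν (L y x) = -(rr G L x y * ca G L y x ν) := by
  rcases eq_or_ne x y with rfl | h
  · rw [hP.self, map_zero, hP.rr_self, zero_mul, neg_zero]
  · have := (hP.rr_pos h.symm).ne'
    rw [ca, hP.rr_symm y x]
    field_simp

omit [MeasurableSpace E] [BorelSpace E] in
theorem field_dr (hP : Pack G L) {x y : E} (h : x ≠ y) :
    ∃ R' : E →L[ℝ] ℝ, HasFDerivAt (rr G L x) R' y ∧ ∀ k, R' k = ca G L y x k :=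
  ⟨_, hP.hasFDerivAt_rr h, fun k => by
    rw [smul_apply, (posB_of_loc hP.loc y).1, ca, hP.rr_symm y x, smul_eq_mul]
    ring⟩

theorem field_gen (hP : Pack G L) {D : NDom G (KB G L c)} (hD : NDom.Stat L c D H) {x : E}
    (hx : x ∈ KB G L c) {F : E → ℝ} (hF : ContDiff ℝ 2 F) (h0 : ∀ y, 0 ≤ F y) {φ : E × E → ℝ}
    (hφ : ∀ y ν, ∃ F' : E →L[ℝ] ℝ, HasFDerivAt F F' y ∧ φ (y, ν) =
      F y * tdv (G y) (hs G L x y) ν - F' (L y x) - F' ν * (rr G L x y * ca G L y x ν)) :
    Continuous φ ∧ Continuous (fun z : E × E => F z.1 * (rr G L x z.1 * ca G L z.1 x z.2)) ∧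
      ∫ z, φ z ∂D.μ ≤ H * ∫ z, F z.1 * (rr G L x z.1 * ca G L z.1 x z.2) ∂D.μ := by
  have hL : ContDiff ℝ 2 fun y => -L y x :=
    ((hP.smooth.of_le chg_two).comp (contDiff_id.prodMk contDiff_const)).neg
  have hZ : ContDiff ℝ 2 fun y => F y • -L y x := hF.smul hL
  have e1 : φ = fun z : E × E => tdv (G z.1) (covD G (fun y => F y • -L y x) z.1) z.2 := by
    funext ⟨y, ν⟩
    obtain ⟨F', h1, h2⟩ := hφ y ν
    rw [h2, covD_smul h1 (hL.differentiable two_ne_zero y), tdv_add, tdv_smul, tdv_smulRight,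
      map_neg, map_neg, neg_apply, (posB_of_loc hP.loc y).1 (L y x), field_ca hP, hs]
    ring
  have e2 : (fun z : E × E => F z.1 * (rr G L x z.1 * ca G L z.1 x z.2)) =
      fun z => G z.1 z.2 (F z.1 • -L z.1 x) := by
    funext z
    rw [map_smul, map_neg, field_ca hP, neg_neg, smul_eq_mul]
  have c1 : Continuous fun z : E × E => covD G (fun y => F y • -L y x) z.1 :=
    (continuous_covD hP.loc (hZ.of_le one_le_two)).comp continuous_fst
  rw [e1, e2]
  refine ⟨(continuous_trc.comp c1).sub (cont_G hP continuous_fst (c1.clm_apply continuous_snd)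
    continuous_snd), cont_G hP continuous_fst continuous_snd (hZ.continuous.comp continuous_fst),
    hD _ hZ fun y hy => ?_⟩
  rw [map_smul, map_neg, smul_eq_mul, mul_neg, neg_nonpos]
  exact mul_nonneg (h0 y) (hP.outward hy hx)

omit [MeasurableSpace E] [BorelSpace E] in
theorem field_zero (hP : Pack G L) {f : ℝ → ℝ} {α : ℝ} (hα : 0 < α) (hz : ∀ r, r ≤ α → f r = 0)
    (x : E) (g : E → ℝ) : (fun y => f (rr G L x y) * g y) =ᶠ[𝓝 x] (fun _ => 0) ∧
      f (rr G L x x) = 0 ∧ deriv f (rr G L x x) = 0 := by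
  have h1 : f =ᶠ[𝓝 (rr G L x x)] fun _ => 0 := by
    rw [hP.rr_self]
    exact (eventually_le_nhds hα).mono hz
  refine ⟨((hP.continuous_rr.comp (continuous_const.prodMk continuous_id)).continuousAt.eventually
    h1).mono fun y hy => ?_, h1.eq_of_nhds, by rw [h1.deriv_eq, deriv_const]⟩
  exact mul_eq_zero_of_left hy _

omit [MeasurableSpace E] [BorelSpace E] in
theorem field_r (hP : Pack G L) {x y : E} (h : x ≠ y) : ContDiffAt ℝ 2 (rr G L x) y :=
  ((hP.contDiffAt_rr h).of_le chg_two).comp y (contDiffAt_const.prodMk contDiffAt_id)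

omit [MeasurableSpace E] [BorelSpace E] in
theorem field_smooth (hP : Pack G L) {f : ℝ → ℝ} (hf : ContDiff ℝ 2 f) {α : ℝ} (hα : 0 < α)
    (hz : ∀ r, r ≤ α → f r = 0) (x : E) {g : E → ℝ} (hg : ∀ y, x ≠ y → ContDiffAt ℝ 2 g y) :
    ContDiff ℝ 2 fun y => f (rr G L x y) * g y := contDiff_iff_contDiffAt.2 fun y => by
  rcases eq_or_ne x y with rfl | hy
  · exact contDiffAt_const.congr_of_eventuallyEq (field_zero hP hα hz x g).1
  · exact (hf.contDiffAt.comp y (field_r hP hy)).mul (hg y hy)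

theorem Pack.radial_var (hE : Module.finrank ℝ E = m + 1) (hP : Pack G L)
    {D : NDom G (KB G L c)} (hD : NDom.Stat L c D H) {x : E} (hx : x ∈ KB G L c) {f : ℝ → ℝ}
    (hf : ContDiff ℝ 2 f) (h0 : ∀ r, 0 ≤ f r) {α : ℝ} (hα : 0 < α) (hz : ∀ r, r ≤ α → f r = 0) :
    ∫ z, (f (rr G L x z.1) * m +
        deriv f (rr G L x z.1) * rr G L x z.1 * (1 - ca G L z.1 x z.2 ^ 2)) ∂D.μ ≤
      H * ∫ z, f (rr G L x z.1) * rr G L x z.1 * ca G L z.1 x z.2 ∂D.μ := by
  have hF := field_smooth hP hf hα hz x (g := fun _ => 1) fun _ _ => contDiffAt_const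
  obtain ⟨c1, -, h⟩ := field_gen hP hD hx hF (fun y => by simpa using h0 _)
    (φ := fun z => f (rr G L x z.1) * tdv (G z.1) (hs G L x z.1) z.2 +
      deriv f (rr G L x z.1) * rr G L x z.1 * (1 - ca G L z.1 x z.2 ^ 2)) fun y ν => by
      rcases eq_or_ne x y with rfl | hy
      · obtain ⟨h1, h2, h3⟩ := field_zero hP hα hz x fun _ => 1
        refine ⟨0, (hasFDerivAt_const _ _).congr_of_eventuallyEq h1, ?_⟩
        simp [h2, h3]
      · obtain ⟨R', h1, h2⟩ := field_dr hP hy
        refine ⟨_, ((hf.differentiable two_ne_zero _).hasDerivAt.comp_hasFDerivAt y h1).mul_const 1,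
          ?_⟩
        simp only [smul_apply, smul_eq_mul, h2, hP.ca_log, hP.rr_symm y x]
        ring
  have hK := hP.isCompact_KB c
  have c2 : Continuous fun z : E × E => hs G L x z.1 :=
    hP.contDiff_hs.continuous.comp (continuous_const.prodMk continuous_fst)
  have c3 : Continuous fun z : E × E => f (rr G L x z.1) * (tdv (G z.1) (hs G L x z.1) z.2 - m) :=
    (hf.continuous.comp (cont_r hP continuous_const continuous_fst)).mul
      (((continuous_trc.comp c2).sub (cont_G hP continuous_fst (c2.clm_apply continuous_snd)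
        continuous_snd)).sub continuous_const)
  simp only [mul_one, ← mul_assoc] at h
  refine le_trans (integral_mono_ae (D.integrable hP.loc hK ((c1.sub c3).congr fun z => by
    simp only [Pi.sub_apply]
    ring)) (D.integrable hP.loc hK c1) (D.supp.mono fun z hz => ?_)) h
  have h1 := tdv_nonneg (posB_of_loc hP.loc z.1)
    (A := hs G L x z.1 + (-1 : ℝ) • ContinuousLinearMap.id ℝ E) (fun k => by
      have := hP.hs_ge x z.1 k
      simp only [add_apply, smul_apply, ContinuousLinearMap.id_apply, map_add, map_smul, smul_eq_mul]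
      linarith) hz.2
  rw [tdv_add, tdv_smul, tdv_id hE hz.2] at h1
  have := mul_nonneg (h0 (rr G L x z.1)) h1
  beta_reduce
  linarith

omit [MeasurableSpace E] [BorelSpace E] in
theorem Pack.hasFDerivAt_P (hP : Pack G L) {x y : E} (h : x ≠ y) (e : E) :
    ∃ P' : E →L[ℝ] ℝ, HasFDerivAt (fun z => sn b (rr G L x z) * ca G L x z e) P' y ∧
      ∀ k, P' k = Mx b G L x y e k := by
  obtain ⟨R', h1, h2⟩ := field_dr hP h
  have hr := (hP.rr_pos h.symm).ne'
  have h3 : HasFDerivAt (L x) (fderiv ℝ (L x) y) y :=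
    ((hP.smooth.comp (contDiff_const.prodMk contDiff_id)).differentiable (by simp) y).hasFDerivAt
  have h4 := ((G x e).hasFDerivAt.comp y h3).neg.mul ((hasDerivAt_inv hr).comp_hasFDerivAt y h1)
  refine ⟨_, ((hasDerivAt_sn b _).comp_hasFDerivAt y h1).mul h4, fun k => ?_⟩
  have h5 := field_ca hP y x e
  rw [hP.rr_symm y x] at h5
  simp only [Mx, iota_Cm_apply, add_apply, smul_apply, neg_apply, ContinuousLinearMap.comp_apply,
    smul_eq_mul, map_sub, map_smul, h2, (posB_of_loc hP.loc y).1 (L y x), field_ca hP x y k,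
    Function.comp_apply, Pi.neg_apply, h5]
  field_simp
  ring

omit [MeasurableSpace E] [BorelSpace E] in
theorem field_Mx (hP : Pack G L) {x y : E} (h : x ≠ y) (e : E) :
    Mx b G L x y e (L y x) = -(cs b (rr G L x y) * ca G L x y e * rr G L x y) := by
  rw [Mx, hP.Cm_radial h, hP.ca_log, map_neg, field_ca hP y x e, hP.rr_symm y x]
  ring

theorem pair_gen (hP : Pack G L) {χ χw χP : ℝ → ℝ → ℝ} (hd : Der2 χ χw χP)
    (hn : ∀ r a, 0 < r → a ^ 2 ≤ 1 → 0 ≤ χ (ww b r) (sn b r * a))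
    {D : NDom G (KB G L c)} (hD : NDom.Stat L c D (m * hh b ρ)) (hτ : Cut τ ε) {x e : E}
    (hx : (x, e) ∈ UB G (KB G L c)) :
    ∫ z, (τ (rr G L x z.1) * (cB m b ρ χ χw χP (rr G L x z.1) (ca G L x z.1 e) (ca G L z.1 x z.2)
      (Mx b G L x z.1 e z.2) +
      χ (ww b (rr G L x z.1)) (sn b (rr G L x z.1) * ca G L x z.1 e) * gain m b G L x z.1 z.2) +
      deriv τ (rr G L x z.1) * (χ (ww b (rr G L x z.1)) (sn b (rr G L x z.1) * ca G L x z.1 e) *
        sn b (rr G L x z.1) * (1 - ca G L z.1 x z.2 ^ 2))) ∂D.μ ≤ 0 := by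
  obtain ⟨α, hα, hz⟩ := hτ.zero
  have hr : ∀ {y}, x ≠ y → 0 < rr G L x y := fun h => hP.rr_pos h.symm
  have hF := field_smooth hP hτ.smooth hα hz x (g := fun y =>
      χ (ww b (rr G L x y)) (sn b (rr G L x y) * ca G L x y e) * (sn b (rr G L x y) * (rr G L x y)⁻¹))
    fun y hy => by
      have h1 := field_r hP hy
      have h2 := ((contDiff_sn b).of_le chg_two).contDiffAt.comp y h1
      have h3 : ContDiffAt ℝ 2 (fun y => ca G L x y e) y :=
        ((G x e).contDiff.comp ((hP.smooth.of_le chg_two).comp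
          (contDiff_const.prodMk contDiff_id))).contDiffAt.neg.div h1 (hr hy).ne'
      exact ((hd.1.contDiffAt (snx_open.mem_nhds (ww_pos b (hr hy)))).comp y
        ((((contDiff_ww b).of_le chg_two).contDiffAt.comp y h1).prodMk (h2.mul h3))).mul
        (h2.mul (h1.inv (hr hy).ne'))
  obtain ⟨c1, c2, h⟩ := field_gen hP hD hx.1 hF (fun y => by
      rcases eq_or_ne x y with rfl | hy
      · rw [(field_zero hP hα hz x fun _ => 1).2.1, zero_mul]
      · exact mul_nonneg (hτ.nonneg _).1 (mul_nonneg (hn _ _ (hr hy)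
          ((hP.ca_sq_le x y e).trans_eq hx.2)) (mul_pos (sn_pos b (hr hy)) (inv_pos.2 (hr hy))).le))
    (φ := fun z => τ (rr G L x z.1) * (cB m b ρ χ χw χP (rr G L x z.1) (ca G L x z.1 e)
      (ca G L z.1 x z.2) (Mx b G L x z.1 e z.2) +
      χ (ww b (rr G L x z.1)) (sn b (rr G L x z.1) * ca G L x z.1 e) * gain m b G L x z.1 z.2) +
      deriv τ (rr G L x z.1) * (χ (ww b (rr G L x z.1)) (sn b (rr G L x z.1) * ca G L x z.1 e) *
        sn b (rr G L x z.1) * (1 - ca G L z.1 x z.2 ^ 2)) + m * hh b ρ * (τ (rr G L x z.1) *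
        (χ (ww b (rr G L x z.1)) (sn b (rr G L x z.1) * ca G L x z.1 e) *
          (sn b (rr G L x z.1) * (rr G L x z.1)⁻¹)) * (rr G L x z.1 * ca G L z.1 x z.2)))
    fun y ν => by
      rcases eq_or_ne x y with rfl | hy
      · obtain ⟨h1, h2, h3⟩ := field_zero hP hα hz x fun y =>
          χ (ww b (rr G L x y)) (sn b (rr G L x y) * ca G L x y e) *
            (sn b (rr G L x y) * (rr G L x y)⁻¹)
        refine ⟨0, (hasFDerivAt_const _ _).congr_of_eventuallyEq h1, ?_⟩
        simp [h2, h3]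
      · obtain ⟨R', h1, h2⟩ := field_dr hP hy
        obtain ⟨P', h3, h4⟩ := hP.hasFDerivAt_P (b := b) hy e
        have h5 := (hd.hasFDerivAt (ww_pos b (hr hy)) (sn b (rr G L x y) * ca G L x y e)).comp y
          (((hasDerivAt_ww b _).comp_hasFDerivAt y h1).prodMk h3)
        refine ⟨_, ((hτ.smooth.differentiable two_ne_zero _).hasDerivAt.comp_hasFDerivAt y h1).mul
          (h5.mul (((hasDerivAt_sn b _).comp_hasFDerivAt y h1).mul
            ((hasDerivAt_inv (hr hy).ne').comp_hasFDerivAt y h1))), ?_⟩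
        have := (hr hy).ne'
        simp only [add_apply, smul_apply, ContinuousLinearMap.comp_apply,
          ContinuousLinearMap.prod_apply, ContinuousLinearMap.coe_fst', ContinuousLinearMap.coe_snd',
          smul_eq_mul, h2, h4, hP.ca_log, hP.rr_symm y x, field_Mx hP hy, Function.comp_apply,
          cB, gain]
        field_simp
        ring
  have hK := hP.isCompact_KB c
  have h1 := integral_sub (D.integrable hP.loc hK c1)
    ((D.integrable hP.loc hK c2).const_mul (m * hh b ρ))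
  simp only [add_sub_cancel_right, integral_const_mul] at h1
  linarith

theorem Pack.pair_var (hE : Module.finrank ℝ E = m + 1) (hP : Pack G L) (C : Cert m b ρ)
    {D : NDom G (KB G L c)} (hD : NDom.Stat L c D (m * hh b ρ)) (hτ : Cut τ ε) {x e : E}
    (hx : (x, e) ∈ UB G (KB G L c)) :
    ∫ z, (C.varT G L τ x e z.1 z.2 + C.flxT G L τ x e z.1 z.2) ∂D.μ ≤ 0 :=
  have _ := hE
  pair_gen hP C.derχ C.nonneg hD hτ hx

theorem Pack.pair_var2 (hP : Pack G L) (C : Cert2 m b ρ)
    {D : NDom G (KB G L c)} (hD : NDom.Stat L c D (m * hh b ρ)) (hτ : Cut τ ε) {x e : E}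
    (hx : (x, e) ∈ UB G (KB G L c)) :
    ∫ z, (C.varT G L τ x e z.1 z.2 + C.flxT G L τ x e z.1 z.2) ∂D.μ ≤ 0 :=
  pair_gen hP C.derχ C.nonneg hD hτ hx

end Vale.Agent.P219
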