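import Vale.Agent.P219.G.Lin1

/-!
# Elementary consequences of `Pack`  (TASK)

`mixed`: extract it from the proof of `Pack.jac_symm` (`Chg.lean`): symmetry of the second derivative of `qq` on `E × E`, `grad`, `sym`, `chg_lin`, `chg_part`.
`fderiv_self`: with `A = fderiv (L y) y`: differentiating `L z z = 0` gives `fderiv (L · y) y = -A`; differentiate `grad` (at `x = y`) and the same identity written with
`qq z y = G y (L y z) (L y z)` (`sym`) once more: `G y (A k) h = G y (A k) (A h)`; `A` is onto (`det_ne`).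
`hs_ge` is `hess` rewritten with `koszul` / `LocMetric.fderiv_eq`; `hs_radial`: differentiate `qq z x = G z (L z x) (L z x)` in the direction `L y x` and compare with `grad`.
`triangle`, `outward`: `cos` and Cauchy-Schwarz (`PosB.sq_le`).
-/

namespace Vale.Agent.P219

open scoped ContDiff Topology RealInnerProductSpace ENNReal
open MeasureTheory Set Filter Vale.Agent.P255
open St (sn gmod)

variable {E : Type*} [NormedAddCommGroup E] [InnerProductSpace ℝ E] [FiniteDimensional ℝ E]
  {G : E → Bil E} {L : E → E → E} {m : ℕ} {b : ℝ}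

set_option linter.unusedSectionVars false

theorem packl_diff (hP : Pack G L) (x y : E) : DifferentiableAt ℝ (fun z => L z x) y :=
  (hP.smooth.comp (contDiff_id.prodMk contDiff_const)).differentiable (by simp) y

theorem packl_left (hP : Pack G L) (y k : E) :
    fderiv ℝ (fun z => L z y) y k = -fderiv ℝ (L y) y k := by
  have hF : DifferentiableAt ℝ (fun z : E × E => L z.1 z.2) (y, y) :=
    hP.smooth.differentiable (by simp) _
  obtain ⟨h1, h2⟩ := chg_part hF k
  have h3 : HasFDerivAt (fun z => L z z) _ y :=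
    HasFDerivAt.comp (f := fun z : E => (z, z)) y hF.hasFDerivAt
      ((hasFDerivAt_id y).prodMk (hasFDerivAt_id y))
  have h4 : (fun z => L z z) = fun _ => 0 := funext hP.self
  have h5 := h3.fderiv
  rw [h4, fderiv_fun_const] at h5
  have h6 : fderiv ℝ (fun z : E × E => L z.1 z.2) (y, y) (k, k) = 0 :=
    (congrArg (fun A : E →L[ℝ] E => A k) h5).symm
  have h7 : ((k, k) : E × E) = (k, 0) + (0, k) := by simp
  rw [h7, map_add, ← h1, ← h2] at h6
  exact eq_neg_of_add_eq_zero_left h6

theorem packl_hs (G : E → Bil E) (L : E → E → E) (x y h : E) :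
    hs G L x y h = -fderiv ℝ (fun z => L z x) y h - chr G y h (L y x) := by
  rw [hs, covD, fderiv_fun_neg, ← chrL_apply]
  simp [sub_eq_add_neg]

theorem packl_hs_eq (hP : Pack G L) (x y h : E) :
    G y (hs G L x y h) h =
      -G y (fderiv ℝ (fun z => L z x) y h) h - fderiv ℝ G y (L y x) h h / 2 := by
  have h1 := hP.loc.fderiv_eq (mem_univ y) (L y x) h h
  have h2 := (posB_of_loc hP.loc y).1 h (chr G y (L y x) h)
  rw [packl_hs, hP.loc.chr_symm (mem_univ y) h]
  simp only [map_sub, map_neg, sub_apply, neg_apply]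
  linarith

theorem Pack.rr_symm (hP : Pack G L) (y x : E) : rr G L y x = rr G L x y := by
  rw [rr, rr, hP.sym]

theorem Pack.rr_self (hP : Pack G L) (y : E) : rr G L y y = 0 := by
  simp [rr, qq, hP.self]

theorem rr_nonneg (G : E → Bil E) (L : E → E → E) (y x : E) : 0 ≤ rr G L y x :=
  Real.sqrt_nonneg _

theorem Pack.ne_of_rr_pos (hP : Pack G L) {y x : E} (h : 0 < rr G L y x) : y ≠ x := by
  rintro rfl
  rw [hP.rr_self] at h
  exact lt_irrefl _ h

theorem Pack.continuous_rr (hP : Pack G L) : Continuous fun z : E × E => rr G L z.1 z.2 :=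
  hP.contDiff_qq.continuous.sqrt

theorem Pack.contDiffAt_rr (hP : Pack G L) {x y : E} (h : x ≠ y) :
    ContDiffAt ℝ ∞ (fun z : E × E => rr G L z.1 z.2) (x, y) := by
  refine ContDiffAt.sqrt (f := fun z : E × E => qq G L z.1 z.2) hP.contDiff_qq.contDiffAt ?_
  have h1 := hP.rr_pos h.symm
  have h2 := hP.rr_sq x y
  show qq G L x y ≠ 0
  rw [← h2]
  positivity

theorem Pack.hasFDerivAt_rr (hP : Pack G L) {x y : E} (h : x ≠ y) :
    HasFDerivAt (rr G L x) (-(rr G L x y)⁻¹ • G y (L y x)) y := by
  have h1 := hP.rr_pos h.symm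
  have h2 := hP.rr_sq x y
  have hd : DifferentiableAt ℝ (fun z => qq G L z x) y :=
    (hP.contDiff_qq.comp (contDiff_id.prodMk contDiff_const)).differentiable (by simp) y
  have h0 : qq G L y x ≠ 0 := by
    rw [hP.sym, ← h2]
    positivity
  have h3 := hd.hasFDerivAt.sqrt h0
  have e1 : (fun z => √(qq G L z x)) = rr G L x := funext fun z => by rw [rr, hP.sym]
  have e2 : √(qq G L y x) = rr G L x y := by rw [rr, hP.sym]
  rw [e1, e2] at h3
  refine h3.congr_fderiv ?_
  ext k
  simp only [smul_apply, smul_eq_mul, hP.grad]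
  field_simp

theorem Pack.mixed (hP : Pack G L) (y x k h : E) :
    G y (fderiv ℝ (L y) x k) h = G x (fderiv ℝ (L x) y h) k := by
  set q : E × E → ℝ := fun z => qq G L z.1 z.2 with hq
  have hs : ContDiff ℝ ∞ q := hP.contDiff_qq
  have hd : ∀ z, DifferentiableAt ℝ q z := hs.differentiable (by simp)
  have hD : DifferentiableAt ℝ (fderiv ℝ q) (y, x) :=
    (hs.fderiv_right (m := 1) chg_two).differentiable one_ne_zero _
  have a1 : (fun w => fderiv ℝ q (y, w) (h, 0)) = fun w => -2 * G y (L y w) h := funext fun w =>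
    ((chg_part (hd (y, w)) h).1.symm.trans (hP.grad y w h))
  have a2 : (fun z => fderiv ℝ q (z, x) (0, k)) = fun z => -2 * G x (L x z) k := funext fun z => by
    rw [← (chg_part (hd (z, x)) k).2, ← hP.grad x z k]
    simp only [hq, hP.sym z]
  have b1 := (chg_part (F := fun p => fderiv ℝ q p (h, 0))
    (hD.clm_apply (differentiableAt_const _)) k).2
  have b2 := (chg_part (F := fun p => fderiv ℝ q p (0, k))
    (hD.clm_apply (differentiableAt_const _)) h).1
  rw [a1, chg_lin hP, loc_fderiv_app1c hD] at b1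
  rw [a2, chg_lin hP, loc_fderiv_app1c hD] at b2
  have b3 := (hs.contDiffAt (x := (y, x))).isSymmSndFDerivAt (by simpa using chg_two) (h, 0) (0, k)
  linarith

theorem Pack.fderiv_self (hP : Pack G L) (y : E) :
    fderiv ℝ (L y) y = ContinuousLinearMap.id ℝ E := by
  have hB := posB_of_loc hP.loc y
  have hL : Differentiable ℝ (L y) := (chg_smooth hP y).differentiable (by simp)
  have hL2 : DifferentiableAt ℝ (fderiv ℝ (L y)) y :=
    ((chg_smooth hP y).fderiv_right (m := 1) chg_two).differentiable one_ne_zero _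
  have key : ∀ h k, G y (fderiv ℝ (L y) y k) (fderiv ℝ (L y) y h) = G y (fderiv ℝ (L y) y k) h := by
    intro h k
    have e1 : (fun z => G y (fderiv ℝ (L y) z h) (L y z)) = fun z => -G z (L z y) h := by
      funext z
      have g1 := hP.grad z y h
      have g2 : (fun w => qq G L w y) = fun w => G y (L y w) (L y w) :=
        funext fun w => hP.sym w y
      rw [g2, loc_fderiv_app2 (F := fun _ => G y) (differentiableAt_const _) (hL z) (hL z)] at g1
      have g3 := hB.1 (L y z) (fderiv ℝ (L y) z h)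
      simp only [fderiv_fun_const, Pi.zero_apply, zero_apply, zero_add] at g1
      linarith
    have e2 := congrArg (fun f => fderiv ℝ f y k) e1
    beta_reduce at e2
    rw [loc_fderiv_app2 (F := fun _ => G y) (differentiableAt_const _)
      (hL2.clm_apply (differentiableAt_const h)) (hL y), fderiv_fun_neg,
      neg_apply,
      loc_fderiv_app2 (F := G) (a := fun z => L z y) (b := fun _ => h)
        (hP.loc.loc_diff (mem_univ y)) (packl_diff hP y y) (differentiableAt_const _),
      packl_left hP y k] at e2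
    simp only [hP.self, map_zero, map_neg, fderiv_fun_const, Pi.zero_apply,
      zero_apply, neg_apply, zero_add, add_zero,
      neg_neg] at e2
    rw [hB.1, e2]
  ext h
  obtain ⟨k, hk⟩ := (isInvertible_of_det (hP.det_ne y y)).surjective (fderiv ℝ (L y) y h - h)
  have h1 := key h k
  rw [hk] at h1
  by_contra hne
  have h2 := hB.2 (fderiv ℝ (L y) y h - h) (sub_ne_zero.2 hne)
  rw [map_sub (G y (fderiv ℝ (L y) y h - h))] at h2
  linarith

theorem Pack.hs_self (hP : Pack G L) (y : E) : hs G L y y = ContinuousLinearMap.id ℝ E := by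
  ext h
  rw [packl_hs, packl_left hP, hP.fderiv_self, hP.self, ← chrL_apply, map_zero]
  simp

theorem Pack.hs_ge (hP : Pack G L) (x y h : E) : G y h h ≤ G y (hs G L x y h) h := by
  have h1 := hP.hess y x h
  rw [packl_hs_eq hP]
  linarith

theorem Pack.hs_radial (hP : Pack G L) (x y : E) :
    G y (hs G L x y (L y x)) (L y x) = qq G L y x := by
  have h1 := hP.grad y x (L y x)
  have h2 := loc_fderiv_app2 (F := G) (a := fun z => L z x) (b := fun z => L z x)
    (hP.loc.loc_diff (mem_univ y)) (packl_diff hP x y) (packl_diff hP x y) (L y x)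
  have h3 := (posB_of_loc hP.loc y).1 (L y x) (fderiv ℝ (fun z => L z x) y (L y x))
  rw [packl_hs_eq hP]
  unfold qq at h1 ⊢
  linarith

theorem Pack.contDiff_hs (hP : Pack G L) : ContDiff ℝ 1 fun z : E × E => hs G L z.1 z.2 := by
  have h1 : ContDiff ℝ 1 fun z : E × E => fderiv ℝ (fun w => -L w z.1) z.2 :=
    ContDiff.fderiv (f := fun (z : E × E) w => -L w z.1) (m := ∞)
      (hP.smooth.comp (contDiff_snd.prodMk contDiff_fst.fst)).neg contDiff_snd chg_two
  have h2 : ContDiff ℝ ∞ fun z : E × E => chrL G z.2 :=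
    (contDiffOn_univ.1 hP.loc.contDiffOn_chrL).comp contDiff_snd
  have h3 : ContDiff ℝ ∞ fun z : E × E => -L z.2 z.1 :=
    (hP.smooth.comp (contDiff_snd.prodMk contDiff_fst)).neg
  have h4 : ContDiff ℝ ∞ fun z : E × E => (chrL G z.2).flip (-L z.2 z.1) := by
    refine contDiff_clm_apply_iff.2 fun v => ?_
    simp only [ContinuousLinearMap.flip_apply]
    exact (h2.clm_apply contDiff_const).clm_apply h3
  have h5 : ContDiff ℝ 1 fun z : E × E => (chrL G z.2).flip (-L z.2 z.1) := h4.of_le (by simp)
  simp only [hs, covD]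
  exact h1.add h5

theorem Pack.triangle (hP : Pack G L) (y x o : E) : rr G L y o ≤ rr G L y x + rr G L x o := by
  have hB := posB_of_loc hP.loc y
  have h1 := hP.cos y o x
  have h2 := hB.sq_le (L y x) (L y o - L y x)
  have h3 := hP.rr_sq y x
  have h4 := hP.rr_sq x o
  have h5 : qq G L y o = qq G L y x + 2 * G y (L y x) (L y o - L y x) +
      G y (L y o - L y x) (L y o - L y x) := by
    have := hB.1 (L y x) (L y o)
    simp only [qq, map_sub, sub_apply]
    linarith
  have h6 := rr_nonneg G L y x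
  have h7 := rr_nonneg G L x o
  rw [hP.sym o x, ← h4] at h1
  have h8 : G y (L y x) (L y o - L y x) ≤ rr G L y x * rr G L x o := by
    refine abs_le_of_sq_le_sq' ?_ (mul_nonneg h6 h7) |>.2
    refine h2.trans ?_
    rw [mul_pow, h3]
    exact mul_le_mul_of_nonneg_left h1 (hB.nonneg _)
  rw [rr]
  refine Real.sqrt_le_iff.2 ⟨add_nonneg h6 h7, ?_⟩
  nlinarith

theorem Pack.ca_sq_le (hP : Pack G L) (x y e : E) : ca G L x y e ^ 2 ≤ G x e e := by
  have hB := posB_of_loc hP.loc x
  have h1 := hB.sq_le e (L x y)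
  have h2 := hP.rr_sq x y
  rw [ca, div_pow, neg_sq]
  refine div_le_of_le_mul₀ (sq_nonneg _) (hB.nonneg _) ?_
  rw [h2]
  exact h1

theorem Pack.ca_log (hP : Pack G L) (x y : E) : ca G L x y (L x y) = -rr G L x y := by
  have _ := hP.self
  rw [ca, neg_div, rr]
  exact congrArg Neg.neg Real.div_sqrt

theorem Pack.outward (hP : Pack G L) {c : ℝ} {y x : E} (hy : qq G L y 0 = c) (hx : x ∈ KB G L c) :
    0 ≤ G y (L y 0) (L y x) := by
  have hB := posB_of_loc hP.loc y
  have h1 := hP.cos y 0 x
  have h2 : qq G L x 0 ≤ c := hx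
  have h3 := hB.1 (L y x) (L y 0)
  have h4 := hB.nonneg (L y x)
  rw [hP.sym 0 x] at h1
  simp only [map_sub, sub_apply] at h1
  unfold qq at hy
  linarith

theorem Pack.isCompact_KB (hP : Pack G L) (c : ℝ) : IsCompact (KB G L c) :=
  hP.proper c

theorem Pack.exists_KB (hP : Pack G L) {S : Set E} (hS : IsCompact S) :
    ∃ c : ℝ, 0 < c ∧ S ⊆ KB G L c := by
  have h1 : Continuous fun y => qq G L y 0 :=
    hP.contDiff_qq.continuous.comp (continuous_id.prodMk continuous_const)
  obtain ⟨J, hJ⟩ := hS.bddAbove_image h1.continuousOn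
  exact ⟨max J 1, lt_max_of_lt_right one_pos, fun y hy =>
    (hJ ⟨y, hy, rfl⟩).trans (le_max_left _ _)⟩


end Vale.Agent.P219
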