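import Vale.Agent.P219.G.Basic

/-!
# The functions `sn`, `cs`, `ww`; derivatives in two variables

Case split `b = 0` / `b ≠ 0`; `Real.cosh_sq`, `Real.sinh_pos_iff`, `Real.self_le_sinh_iff`, `Real.one_le_cosh`, `Real.cosh_add`.
`sn_le`: `r cs r - sn r` has derivative `b² r sn r ≥ 0`.  `exists_ww`: intermediate value theorem (`r² / 2 ≤ ww r`).
`Der2.hasFDerivAt`: `F` is differentiable at the point, compare the derivative on `(1,0)`, `(0,1)` with the two given derivatives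
(`HasDerivAt.unique`); the continuity of `Fu`, `Fp` follows from that of `fderiv` (`ContDiffOn.continuousOn_fderiv_of_isOpen`).
-/

namespace Vale.Agent.P219

open scoped ContDiff Topology RealInnerProductSpace ENNReal
open MeasureTheory Set Filter Vale.Agent.P255
open St (sn gmod)

variable {b r ρ : ℝ}

theorem snx_sn0 : sn 0 = fun r => r := funext fun _ => if_pos rfl
theorem snx_ww0 : ww 0 = fun r => r ^ 2 / 2 := funext fun _ => if_pos rfl
theorem snx_cs0 : cs 0 = fun _ => 1 := funext fun r => by simp [cs]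
theorem snx_sn (h : b ≠ 0) : sn b = fun r => Real.sinh (b * r) / b := funext fun _ => if_neg h
theorem snx_ww (h : b ≠ 0) : ww b = fun r => (Real.cosh (b * r) - 1) / b ^ 2 :=
  funext fun _ => if_neg h
theorem snx_mul (b r : ℝ) : b * sn b r = Real.sinh (b * r) := by
  rcases eq_or_ne b 0 with rfl | h
  · simp
  · rw [snx_sn h]
    field_simp

theorem sn_zero (b : ℝ) : sn b 0 = 0 := by
  simp [sn]
theorem ww_zero (b : ℝ) : ww b 0 = 0 := by
  simp [ww]
theorem cs_zero (b : ℝ) : cs b 0 = 1 := by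
  simp [cs]
theorem sn_neg (b r : ℝ) : sn b (-r) = -sn b r := by
  unfold sn
  split_ifs
  · rfl
  · rw [mul_neg, Real.sinh_neg, neg_div]
theorem ww_neg (b r : ℝ) : ww b (-r) = ww b r := by
  simp [ww]
theorem contDiff_sn (b : ℝ) : ContDiff ℝ ∞ (sn b) := by
  rcases eq_or_ne b 0 with rfl | h
  · rw [snx_sn0]
    exact contDiff_id
  · rw [snx_sn h]
    exact (contDiff_const.mul contDiff_id).sinh.div_const b
theorem contDiff_cs (b : ℝ) : ContDiff ℝ ∞ (cs b) := by
  exact (contDiff_const.mul contDiff_id).cosh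
theorem contDiff_ww (b : ℝ) : ContDiff ℝ ∞ (ww b) := by
  rcases eq_or_ne b 0 with rfl | h
  · rw [snx_ww0]
    exact (contDiff_id.pow 2).div_const 2
  · rw [snx_ww h]
    exact ((contDiff_const.mul contDiff_id).cosh.sub contDiff_const).div_const _
theorem hasDerivAt_sn (b r : ℝ) : HasDerivAt (sn b) (cs b r) r := by
  rcases eq_or_ne b 0 with rfl | h
  · rw [snx_sn0, snx_cs0]
    exact hasDerivAt_id' r
  · rw [snx_sn h]
    refine ((((hasDerivAt_id' r).const_mul b).sinh).div_const b).congr_deriv ?_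
    unfold cs
    field_simp
theorem hasDerivAt_cs (b r : ℝ) : HasDerivAt (cs b) (b ^ 2 * sn b r) r := by
  refine (((hasDerivAt_id' r).const_mul b).cosh).congr_deriv ?_
  rw [← snx_mul]
  ring
theorem hasDerivAt_ww (b r : ℝ) : HasDerivAt (ww b) (sn b r) r := by
  rcases eq_or_ne b 0 with rfl | h
  · rw [snx_ww0, snx_sn0]
    refine (((hasDerivAt_id' r).pow 2).div_const 2).congr_deriv ?_
    simp
  · rw [snx_ww h]
    refine (((((hasDerivAt_id' r).const_mul b).cosh).sub_const 1).div_const (b ^ 2)).congr_deriv ?_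
    rw [← snx_mul]
    field_simp
theorem cs_eq (b r : ℝ) : cs b r = 1 + b ^ 2 * ww b r := by
  rcases eq_or_ne b 0 with rfl | h
  · simp [cs]
  · rw [snx_ww h, cs]
    field_simp
    ring
theorem cs_sq (b r : ℝ) : cs b r ^ 2 = 1 + b ^ 2 * sn b r ^ 2 := by
  rw [← mul_pow, snx_mul, cs, Real.cosh_sq']
theorem sn_sq (b r : ℝ) : sn b r ^ 2 = ww b r * (2 + b ^ 2 * ww b r) := by
  rcases eq_or_ne b 0 with rfl | h
  · rw [snx_ww0, snx_sn0]
    ring
  · refine mul_left_cancel₀ (pow_ne_zero 2 h) ?_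
    have h1 := cs_sq b r
    rw [cs_eq] at h1
    linear_combination -h1
theorem sn_add (b r t : ℝ) : sn b (r + t) = sn b r * cs b t + cs b r * sn b t := by
  rcases eq_or_ne b 0 with rfl | h
  · simp [snx_sn0, snx_cs0]
  · refine mul_left_cancel₀ h ?_
    rw [snx_mul, mul_add, Real.sinh_add, ← snx_mul, ← snx_mul, cs, cs]
    ring
theorem ww_add (b r t : ℝ) : ww b (r + t) = ww b r + cs b r * ww b t + sn b r * sn b t := by
  rcases eq_or_ne b 0 with rfl | h
  · simp only [snx_sn0, snx_cs0, snx_ww0]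
    ring
  · refine mul_left_cancel₀ (pow_ne_zero 2 h) ?_
    have h1 : cs b (r + t) = cs b r * cs b t + b * sn b r * (b * sn b t) := by
      rw [snx_mul, snx_mul, cs, cs, cs, mul_add, Real.cosh_add]
    linear_combination h1 - cs_eq b (r + t) + cs_eq b r + cs b r * cs_eq b t
theorem one_le_cs (b r : ℝ) : 1 ≤ cs b r := by
  exact Real.one_le_cosh _
theorem le_sn (b : ℝ) (hr : 0 ≤ r) : r ≤ sn b r := by
  have h : Monotone fun r => sn b r - r :=
    monotone_of_hasDerivAt_nonneg (f' := fun r => cs b r - 1)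
      (fun r => (hasDerivAt_sn b r).sub (hasDerivAt_id' r)) fun r => sub_nonneg.2 (one_le_cs b r)
  have := h hr
  simp only [sn_zero] at this
  linarith
theorem sn_pos (b : ℝ) (hr : 0 < r) : 0 < sn b r := by
  exact hr.trans_le (le_sn b hr.le)
theorem sn_le (b : ℝ) (hr : 0 ≤ r) : sn b r ≤ r * cs b r := by
  have hd : ∀ r, HasDerivAt (fun r => r * cs b r - sn b r) (b ^ 2 * (r * sn b r)) r := fun r =>
    (((hasDerivAt_id' r).mul (hasDerivAt_cs b r)).sub (hasDerivAt_sn b r)).congr_deriv (by ring)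
  have h : Monotone fun r => r * cs b r - sn b r :=
    monotone_of_hasDerivAt_nonneg hd fun r => mul_nonneg (sq_nonneg b) (by
      rcases le_total 0 r with h | h
      · exact mul_nonneg h (h.trans (le_sn b h))
      · have := le_sn b (neg_nonneg.2 h)
        rw [sn_neg] at this
        exact mul_nonneg_of_nonpos_of_nonpos h (by linarith))
  have := h hr
  simp only [sn_zero] at this
  linarith
theorem le_ww (b r : ℝ) : r ^ 2 / 2 ≤ ww b r := by
  have key : ∀ r, 0 ≤ r → r ^ 2 / 2 ≤ ww b r := fun r hr => by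
    have hd : ∀ r, HasDerivAt (fun r => ww b r - r ^ 2 / 2) (sn b r - r) r := fun r =>
      ((hasDerivAt_ww b r).sub (((hasDerivAt_id' r).pow 2).div_const 2)).congr_deriv (by simp)
    have h : MonotoneOn (fun r => ww b r - r ^ 2 / 2) (Ici 0) :=
      monotoneOn_of_deriv_nonneg (convex_Ici 0)
        (fun r _ => (hd r).continuousAt.continuousWithinAt)
        (fun r _ => (hd r).differentiableAt.differentiableWithinAt) fun r hr => by
          rw [(hd r).deriv]
          exact sub_nonneg.2 (le_sn b (interior_subset hr))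
    have := h self_mem_Ici hr hr
    simp only [ww_zero] at this
    linarith
  rcases le_total 0 r with h | h
  · exact key r h
  · have := key (-r) (neg_nonneg.2 h)
    rwa [ww_neg, neg_sq] at this
theorem ww_pos (b : ℝ) (hr : 0 < r) : 0 < ww b r := by
  exact lt_of_lt_of_le (by positivity) (le_ww b r)
theorem strictMono_sn (b : ℝ) : StrictMono (sn b) := by
  exact strictMono_of_hasDerivAt_pos (hasDerivAt_sn b) fun r => one_pos.trans_le (one_le_cs b r)
theorem strictMonoOn_ww (b : ℝ) : StrictMonoOn (ww b) (Ici 0) := by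
  refine strictMonoOn_of_deriv_pos (convex_Ici 0) (contDiff_ww b).continuous.continuousOn
    fun r hr => ?_
  rw [(hasDerivAt_ww b r).deriv]
  exact sn_pos b (by simpa using hr)
theorem exists_ww (b : ℝ) {w : ℝ} (hw : 0 < w) : ∃ r, 0 < r ∧ ww b r = w := by
  have h1 : w ≤ ww b (w + 1) := le_trans (by nlinarith) (le_ww b (w + 1))
  obtain ⟨r, hr, e⟩ := intermediate_value_Icc (show (0 : ℝ) ≤ w + 1 by linarith)
    (contDiff_ww b).continuous.continuousOn ⟨(ww_zero b).trans_le hw.le, h1⟩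
  refine ⟨r, hr.1.lt_of_ne ?_, e⟩
  rintro rfl
  exact hw.ne ((ww_zero b).symm.trans e)
theorem tendsto_sn_div (b : ℝ) : Tendsto (fun r => sn b r / r) (𝓝[≠] 0) (𝓝 1) := by
  have h := hasDerivAt_iff_tendsto_slope.1 (hasDerivAt_sn b 0)
  rw [cs_zero] at h
  refine h.congr fun r => ?_
  rw [slope_def_field, sn_zero, sub_zero, sub_zero]
theorem hh_pos (b : ℝ) (hρ : 0 < ρ) : 0 < hh b ρ := by
  exact div_pos (one_pos.trans_le (one_le_cs b ρ)) (sn_pos b hρ)
theorem hh_sq (b : ℝ) (hρ : 0 < ρ) : hh b ρ ^ 2 = b ^ 2 + 1 / sn b ρ ^ 2 := by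
  have := (sn_pos b hρ).ne'
  rw [hh, div_pow, cs_sq]
  field_simp
  ring

/-- The chord of the model ball. -/
theorem exists_chord (b : ℝ) (hρ : 0 < ρ) : ∃ l₀ : ℝ, ∀ β, 0 < β → β ≤ 1 → ∃ l, 0 < l ∧ l ≤ l₀ ∧
    ww b l = wE b ρ β ∧ sn b l = hh b ρ * wE b ρ β / β ∧
      ∀ r, 0 < r → (hh b ρ * ww b r < sn b r * β ↔ r < l) := by
  have hh0 := hh_pos b hρ
  have hs := sn_pos b hρ
  have h1 : 0 < hh b ρ ^ 2 - b ^ 2 := by
    rw [hh_sq b hρ, add_sub_cancel_left]
    positivity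
  refine ⟨1 + 4 / (hh b ρ ^ 2 - b ^ 2), fun β h0 hβ => ?_⟩
  have h2 : β ^ 2 ≤ 1 := pow_le_one₀ h0.le hβ
  have h3 : hh b ρ ^ 2 - b ^ 2 ≤ hh b ρ ^ 2 - b ^ 2 * β ^ 2 := by
    linarith [mul_le_of_le_one_right (sq_nonneg b) h2]
  have h4 := h1.trans_le h3
  have hw : 0 < wE b ρ β := div_pos (by positivity) h4
  have hE : wE b ρ β * (hh b ρ ^ 2 - b ^ 2 * β ^ 2) = 2 * β ^ 2 := div_mul_cancel₀ _ h4.ne'
  obtain ⟨l, hl, e⟩ := exists_ww b hw
  refine ⟨l, hl, ?_, e, ?_, fun r hr => ?_⟩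
  · have a1 : wE b ρ β ≤ 2 / (hh b ρ ^ 2 - b ^ 2) :=
      div_le_div₀ (by norm_num) (by linarith) h1 h3
    have a2 := le_ww b l
    have a3 : 4 / (hh b ρ ^ 2 - b ^ 2) = 2 * (2 / (hh b ρ ^ 2 - b ^ 2)) := by ring
    nlinarith [sq_nonneg (l - 1)]
  · refine (sq_eq_sq₀ (sn_pos b hl).le (by positivity)).1 ?_
    rw [sn_sq, e, div_pow, eq_div_iff (by positivity)]
    linear_combination (-wE b ρ β) * hE
  · have a1 := ww_pos b hr
    have a2 := sn_pos b hr
    rw [← (strictMonoOn_ww b).lt_iff_lt hr.le hl.le, e, wE, lt_div_iff₀ h4,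
      ← sq_lt_sq₀ (by positivity) (by positivity), mul_pow, mul_pow, sn_sq, ← sub_pos,
      ← sub_pos (a := 2 * β ^ 2), ← mul_pos_iff_of_pos_left a1 (b := 2 * β ^ 2 - _)]
    exact iff_of_eq (congrArg _ (by ring))

theorem snx_open : IsOpen {z : ℝ × ℝ | 0 < z.1} := isOpen_lt continuous_const continuous_fst

theorem snx_fderiv {F Fu Fp : ℝ → ℝ → ℝ} (h : Der2 F Fu Fp) {u : ℝ} (hu : 0 < u) (p : ℝ) :
    DifferentiableAt ℝ (fun z : ℝ × ℝ => F z.1 z.2) (u, p) ∧
      Fu u p = fderiv ℝ (fun z : ℝ × ℝ => F z.1 z.2) (u, p) (1, 0) ∧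
      Fp u p = fderiv ℝ (fun z : ℝ × ℝ => F z.1 z.2) (u, p) (0, 1) := by
  have hd : DifferentiableAt ℝ (fun z : ℝ × ℝ => F z.1 z.2) (u, p) :=
    (h.1.contDiffAt (snx_open.mem_nhds hu)).differentiableAt (by norm_num)
  have h1 := HasFDerivAt.comp_hasDerivAt (f := fun t => (t, p)) u hd.hasFDerivAt
    ((hasDerivAt_id' u).prodMk (hasDerivAt_const u p))
  have h2 := HasFDerivAt.comp_hasDerivAt (f := fun t => (u, t)) p hd.hasFDerivAt
    ((hasDerivAt_const p u).prodMk (hasDerivAt_id' p))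
  exact ⟨hd, (h.2 u p hu).1.unique h1, (h.2 u p hu).2.unique h2⟩

theorem Der2.hasFDerivAt {F Fu Fp : ℝ → ℝ → ℝ} (h : Der2 F Fu Fp) {u : ℝ} (hu : 0 < u) (p : ℝ) :
    HasFDerivAt (fun z : ℝ × ℝ => F z.1 z.2)
      (Fu u p • ContinuousLinearMap.fst ℝ ℝ ℝ + Fp u p • ContinuousLinearMap.snd ℝ ℝ ℝ) (u, p) := by
  obtain ⟨h1, h2, h3⟩ := snx_fderiv h hu p
  refine h1.hasFDerivAt.congr_fderiv ?_
  ext <;> simp [h2, h3]

theorem Der2.continuousOn {F Fu Fp : ℝ → ℝ → ℝ} (h : Der2 F Fu Fp) :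
    ContinuousOn (fun z : ℝ × ℝ => F z.1 z.2) {z | 0 < z.1} ∧
      ContinuousOn (fun z : ℝ × ℝ => Fu z.1 z.2) {z | 0 < z.1} ∧
      ContinuousOn (fun z : ℝ × ℝ => Fp z.1 z.2) {z | 0 < z.1} := by
  have hc := h.1.continuousOn_fderiv_of_isOpen snx_open (by norm_num)
  exact ⟨h.1.continuousOn,
    (hc.clm_apply continuousOn_const).congr fun z hz => (snx_fderiv h hz z.2).2.1,
    (hc.clm_apply continuousOn_const).congr fun z hz => (snx_fderiv h hz z.2).2.2⟩

theorem Cut.nonneg {τ : ℝ → ℝ} {ε : ℝ} (h : Cut τ ε) (r : ℝ) :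
    0 ≤ τ r ∧ τ r ≤ 1 ∧ 0 ≤ deriv τ r ∧ (ε < r → deriv τ r = 0) := by
  obtain ⟨α, -, hα⟩ := h.zero
  refine ⟨(hα _ (min_le_right r α)).ge.trans (h.mono (min_le_left r α)),
    (h.mono (le_max_left r ε)).trans (h.one _ (le_max_right r ε)).le, h.mono.deriv_nonneg,
    fun hr => ?_⟩
  have : τ =ᶠ[𝓝 r] fun _ => 1 := (lt_mem_nhds hr).mono fun s hs => h.one s hs.le
  rw [this.deriv_eq, deriv_const]

theorem Cut.zero' {τ : ℝ → ℝ} {ε : ℝ} (h : Cut τ ε) :
    ∃ α : ℝ, 0 < α ∧ ∀ r, r ≤ α → τ r = 0 ∧ deriv τ r = 0 := by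
  obtain ⟨α, h0, hα⟩ := h.zero
  refine ⟨α / 2, half_pos h0, fun r hr => ⟨hα r (by linarith), ?_⟩⟩
  have : τ =ᶠ[𝓝 r] fun _ => 0 :=
    (gt_mem_nhds (show r < α by linarith)).mono fun s hs => hα s hs.le
  rw [this.deriv_eq, deriv_const]

theorem exists_cut {α ε : ℝ} (h0 : 0 < α) (h : α < ε) : ∃ τ, Cut τ ε ∧ ∀ r, r ≤ α → τ r = 0 := by
  have h1 : 0 < ε - α := sub_pos.2 h
  have hz : ∀ r, r ≤ α → Real.smoothTransition ((r - α) / (ε - α)) = 0 := fun r hr =>
    Real.smoothTransition.zero_of_nonpos (div_nonpos_of_nonpos_of_nonneg (by linarith) h1.le)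
  refine ⟨fun r => Real.smoothTransition ((r - α) / (ε - α)),
    ⟨Real.smoothTransition.contDiff.comp ((contDiff_id.sub contDiff_const).div_const _),
      fun r s hrs => Real.smoothTransition.monotone
        (div_le_div_of_nonneg_right (by linarith) h1.le), ⟨α, h0, hz⟩,
      fun r hr => Real.smoothTransition.one_of_one_le ((one_le_div h1).2 (by linarith))⟩, hz⟩

end Vale.Agent.P219
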