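import Vale.Agent.P219.G.GeoJ
import Vale.Agent.P219.G.Sn
import Vale.Agent.P219.G.PackL

/-!
# The Rauch comparison  (TASK)

`rauch_real`: for `δ > 0` the function `g = √(n + δ)` satisfies `g'' ≥ β² g - β² √δ`; or show that `n / sn² ` is monotone: `φ = n1 sn - 2 n cs`... A clean way:
compare with `real_expand` in `P255/Jac.lean` (the case `b = 0`).  For instance `g = √n` is smooth and `g'' ≥ β² g` on `t > 0` (`n > 0` there as `n'' ≥ 0`, `n''(0) > 0`), so
`g' sn - g cs` (functions of `b r`, argument `t`) is monotone with limit `0` at `0`, hence `g / sn` is monotone with limit `√(n2 0 / 2)` at `0`.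
`contrK`: split `l = l' + λ L y x` with `G y l' (L y x) = 0`; `Cm (L y x) = -L x y` (`radial`), `ξ = fderiv (L x) y l'` is orthogonal to `L x y` (`mixed`, `radial`).
`J` from `exists_jac_ends` with `k = 0` has `J 0 = 0`, `DJ 0 = ξ`, `J 1 = l'`; `G J V` has second derivative `0` (`riem_skew`), vanishes to first order at `0`;
`n = G J J`, `n1 = 2 G DJ J`, `n2 = 2 G DJ DJ - 2 G (R(J,V)V) J ≥ 2 |DJ|² + 2 b² r² n`; note `sn (b r) 1 = sn b r / r`.
-/

namespace Vale.Agent.P219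

open scoped ContDiff Topology RealInnerProductSpace ENNReal
open MeasureTheory Set Filter Vale.Agent.P255
open St (sn gmod)

variable {E : Type*} [NormedAddCommGroup E] [InnerProductSpace ℝ E] [FiniteDimensional ℝ E]
  {G : E → Bil E} {L : E → E → E} {m : ℕ} {b : ℝ} {Ex : E → E → E} {W : E → E → ℝ → E}

theorem geoContr_mono {f f' : ℝ → ℝ} {a c : ℝ} (hac : a ≤ c)
    (hd : ∀ t ∈ Icc a c, HasDerivAt f (f' t) t) (h0 : ∀ t ∈ Icc a c, 0 ≤ f' t) : f a ≤ f c :=
  monotoneOn_of_deriv_nonneg (convex_Icc a c)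
    (fun t ht => (hd t ht).continuousAt.continuousWithinAt)
    (fun t ht => (hd t (interior_subset ht)).differentiableAt.differentiableWithinAt)
    (fun t ht => by rw [(hd t (interior_subset ht)).deriv]; exact h0 t (interior_subset ht))
    (left_mem_Icc.2 hac) (right_mem_Icc.2 hac) hac

theorem geoContr_eps {n n1 n2 : ℝ → ℝ} {β : ℝ} (h1 : ∀ t, HasDerivAt n (n1 t) t)
    (h2 : ∀ t, HasDerivAt n1 (n2 t) t) (h0 : ∀ t, 0 ≤ n t) (hn : n 0 = 0)
    (hpos : ∀ t, 2 * β ^ 2 * n t ≤ n2 t) (hcs : ∀ t, n1 t ^ 2 ≤ 2 * n t * (n2 t - 2 * β ^ 2 * n t))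
    {ε : ℝ} (hε : 0 < ε) {t : ℝ} (t0 : 0 < t) (t1 : t ≤ 1) :
    (√(n t + ε) - √ε) * sn β 1 ≤ (√(n 1 + ε) - √ε) * sn β t := by
  have hp : ∀ t, 0 < n t + ε := fun t => by linarith [h0 t]
  have d1 : ∀ t, HasDerivAt (fun t => √(n t + ε) - √ε) (n1 t / (2 * √(n t + ε))) t :=
    fun t => (((h1 t).add_const ε).sqrt (hp t).ne').sub_const _
  have d2 : ∀ t, ∃ g2, HasDerivAt (fun t => n1 t / (2 * √(n t + ε))) g2 t ∧
      β ^ 2 * (√(n t + ε) - √ε) ≤ g2 := fun t => by
    have hr := Real.sqrt_pos.2 (hp t)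
    refine ⟨_, (h2 t).div ((((h1 t).add_const ε).sqrt (hp t).ne').const_mul 2)
      (mul_pos two_pos hr).ne', ?_⟩
    have hr2 := Real.mul_self_sqrt (hp t).le
    have he2 := Real.mul_self_sqrt hε.le
    have he := Real.sqrt_nonneg ε
    have hle : √ε ≤ √(n t + ε) := Real.sqrt_le_sqrt (by linarith [h0 t])
    generalize √(n t + ε) = g at *
    generalize √ε = e at *
    have e1 : (n2 t * (2 * g) - n1 t * (2 * (n1 t / (2 * g)))) / (2 * g) ^ 2 =
        (2 * (g * g) * n2 t - n1 t ^ 2) / (4 * (g * g) * g) := by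
      field_simp
      ring
    rw [e1, le_div_iff₀ (by positivity)]
    have a1 : (g - e) * g ≤ n t := by nlinarith
    have a2 : β ^ 2 * (4 * (g * g)) * ((g - e) * g) ≤ β ^ 2 * (4 * (g * g)) * n t :=
      mul_le_mul_of_nonneg_left a1 (by positivity)
    have a3 := mul_le_mul_of_nonneg_left (hpos t) hε.le
    rw [hr2] at a2 ⊢
    nlinarith [hcs t]
  choose g2 d2 d3 using d2
  have k1 : ∀ t, 0 ≤ t →
      0 ≤ n1 t / (2 * √(n t + ε)) * sn β t - (√(n t + ε) - √ε) * cs β t := fun t ht => by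
    have := geoContr_mono (f := fun t => n1 t / (2 * √(n t + ε)) * sn β t -
      (√(n t + ε) - √ε) * cs β t) ht
      (fun s _ => ((d2 s).mul (hasDerivAt_sn β s)).sub ((d1 s).mul (hasDerivAt_cs β s)))
      fun s hs => by
        have := mul_le_mul_of_nonneg_right (d3 s) (hs.1.trans (le_sn β hs.1))
        linarith
    simpa only [sn_zero, hn, zero_add, sub_self, mul_zero, zero_mul] using this
  have k2 := geoContr_mono (f := fun t => (√(n t + ε) - √ε) / sn β t) t1
    (fun s hs => (d1 s).div (hasDerivAt_sn β s) (sn_pos β (t0.trans_le hs.1)).ne')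
    fun s hs => div_nonneg (k1 s (t0.le.trans hs.1)) (sq_nonneg _)
  rwa [div_le_div_iff₀ (sn_pos β t0) (sn_pos β one_pos)] at k2

theorem rauch_real {n n1 n2 : ℝ → ℝ} {β : ℝ} (h1 : ∀ t, HasDerivAt n (n1 t) t)
    (h2 : ∀ t, HasDerivAt n1 (n2 t) t) (h0 : ∀ t, 0 ≤ n t) (hn : n 0 = 0) (hn1 : n1 0 = 0)
    (hpos : ∀ t, 2 * β ^ 2 * n t ≤ n2 t) (hcs : ∀ t, n1 t ^ 2 ≤ 2 * n t * (n2 t - 2 * β ^ 2 * n t)) :
    n2 0 / 2 * sn β 1 ^ 2 ≤ n 1 := by
  have s1 := sn_pos β one_pos
  have hle : ∀ t, 0 < t → t ≤ 1 → n t * sn β 1 ^ 2 ≤ n 1 * sn β t ^ 2 := by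
    intro t t0 t1
    have key : √(n t) * sn β 1 ≤ √(n 1) * sn β t := by
      have c1 : Tendsto (fun ε : ℝ => (√(n t + ε) - √ε) * sn β 1) (𝓝[>] 0)
          (𝓝 ((√(n t + 0) - √0) * sn β 1)) :=
        (Continuous.tendsto (by fun_prop) 0).mono_left nhdsWithin_le_nhds
      have c2 : Tendsto (fun ε : ℝ => (√(n 1 + ε) - √ε) * sn β t) (𝓝[>] 0)
          (𝓝 ((√(n 1 + 0) - √0) * sn β t)) :=
        (Continuous.tendsto (by fun_prop) 0).mono_left nhdsWithin_le_nhds
      have := le_of_tendsto_of_tendsto c1 c2 (eventually_mem_nhdsWithin.mono fun ε hε =>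
        geoContr_eps h1 h2 h0 hn hpos hcs hε t0 t1)
      simpa using this
    have := pow_le_pow_left₀ (by positivity) key 2
    rwa [mul_pow, mul_pow, Real.sq_sqrt (h0 t), Real.sq_sqrt (h0 1)] at this
  by_contra hc
  rw [not_le, ← div_lt_iff₀ (by positivity)] at hc
  obtain ⟨m, m1, m2⟩ := exists_between hc
  rw [div_lt_iff₀ (by positivity)] at m1
  have d1 : ∀ t, HasDerivAt (fun t => n t - m * (sn β t * sn β t))
      (n1 t - m * (2 * (sn β t * cs β t))) t := fun t =>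
    ((h1 t).sub (((hasDerivAt_sn β t).mul (hasDerivAt_sn β t)).const_mul m)).congr_deriv (by ring)
  have e1 : deriv (fun t => n t - m * (sn β t * sn β t)) =
      fun t => n1 t - m * (2 * (sn β t * cs β t)) := funext fun t => (d1 t).deriv
  have d2 : HasDerivAt (fun t => n1 t - m * (2 * (sn β t * cs β t))) (n2 0 - m * 2) 0 :=
    ((h2 0).sub ((((hasDerivAt_sn β 0).mul (hasDerivAt_cs β 0)).const_mul 2).const_mul
      m)).congr_deriv (by rw [sn_zero, cs_zero]; ring)
  have hmin := isLocalMin_of_deriv_deriv_pos (f := fun t => n t - m * (sn β t * sn β t)) (x₀ := 0)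
    (by rw [e1, d2.deriv]; linarith) (by simp [e1, hn1, sn_zero]) (d1 0).continuousAt
  obtain ⟨t, ht, t0, t1⟩ := ((hmin.filter_mono (nhdsWithin_le_nhds (s := Ioi 0))).and
    (Ioo_mem_nhdsGT (zero_lt_one' ℝ))).exists
  have a := hle t t0 t1.le
  simp only [hn, sn_zero] at ht
  have b1 := pow_pos (sn_pos β t0) 2
  have b2 := mul_lt_mul_of_pos_right m1 b1
  have b3 : m * sn β t ^ 2 ≤ n t := by linarith
  have b4 := mul_le_mul_of_nonneg_right b3 (sq_nonneg (sn β 1))
  linarith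

theorem geoContr_sn {b r : ℝ} (hr : 0 < r) : sn (b * r) 1 = sn b r / r := by
  unfold sn
  by_cases hb : b = 0
  · rw [if_pos hb, if_pos (by rw [hb, zero_mul]), div_self hr.ne']
  · rw [if_neg hb, if_neg (mul_ne_zero hb hr.ne'), mul_one, div_div]

theorem geoContr_perp (h : ExpPack G Ex W) (hL : IsLog Ex L) (hP : Pack G L) (hG : CHK b G)
    {x y : E} (hxy : x ≠ y) {l : E} (hl : G x (fderiv ℝ (L x) y l) (L x y) = 0) :
    (sn b (rr G L x y) / rr G L x y) ^ 2 * G x (fderiv ℝ (L x) y l) (fderiv ℝ (L x) y l) ≤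
      G y l l := by
  obtain ⟨J, DJ, hJ, j0, j1, j2, -⟩ := h.exists_jac_ends hL x y 0 l
  rw [map_zero, sub_zero] at j2
  have r0 := hP.rr_pos hxy.symm
  have r2 : rr G L x y ^ 2 = G x (L x y) (L x y) := hP.rr_sq x y
  obtain ⟨v, hv⟩ : ∃ v, v = L x y := ⟨_, rfl⟩
  rw [← hv] at hJ hl r2
  have g0 : Ex x ((0 : ℝ) • v) = x := by rw [zero_smul, h.zero]
  have g1 : Ex x ((1 : ℝ) • v) = y := by rw [one_smul, hv, hL.right]
  have sy := fun z => hG.loc.symm z (mem_univ z)
  have a1 : ∀ t, HasDerivAt (fun t => G (Ex x (t • v)) (DJ t) (W x v t)) 0 t := fun t => by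
    refine (hG.loc.hasDerivAt_inner (mem_univ _) (h.d1 x v t) (hJ t).2 (h.d2 x v t)).congr_deriv ?_
    rw [neg_add_cancel, map_zero, add_zero, neg_sub_comm, sub_add_cancel, map_neg, neg_apply,
      hG.loc.riem_skew (mem_univ _), neg_zero]
  have a2 : ∀ t, G (Ex x (t • v)) (DJ t) (W x v t) = 0 := fun t => by
    rw [is_const_of_deriv_eq_zero (fun t => (a1 t).differentiableAt) (fun t => (a1 t).deriv) t 0,
      g0, j2, h.vel0, hl]
  have a3 : ∀ t, HasDerivAt (fun t => G (Ex x (t • v)) (J t) (W x v t)) 0 t := fun t => by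
    refine (hG.loc.hasDerivAt_inner (mem_univ _) (h.d1 x v t) (hJ t).1 (h.d2 x v t)).congr_deriv ?_
    rw [neg_add_cancel, map_zero, add_zero, sub_add_cancel, a2]
  have a4 : ∀ t, G (Ex x (t • v)) (J t) (W x v t) = 0 := fun t => by
    rw [is_const_of_deriv_eq_zero (fun t => (a3 t).differentiableAt) (fun t => (a3 t).deriv) t 0,
      j0, map_zero, zero_apply]
  have sec : ∀ t, G (Ex x (t • v)) (riem G (Ex x (t • v)) (J t) (W x v t) (W x v t)) (J t) ≤
      -(b * rr G L x y) ^ 2 * G (Ex x (t • v)) (J t) (J t) := fun t => by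
    refine (hG.sec _ _ _).trans (le_of_eq ?_)
    rw [h.speed, a4, ← r2]
    ring
  have nn := fun z u => hG.loc.nonneg (mem_univ z) u
  have key := rauch_real (β := b * rr G L x y) (n := fun t => G (Ex x (t • v)) (J t) (J t))
    (n1 := fun t => 2 * G (Ex x (t • v)) (DJ t) (J t))
    (n2 := fun t => 2 * (G (Ex x (t • v)) (DJ t) (DJ t) -
      G (Ex x (t • v)) (riem G (Ex x (t • v)) (J t) (W x v t) (W x v t)) (J t)))
    (fun t => by
      refine (hG.loc.hasDerivAt_inner (mem_univ _) (h.d1 x v t) (hJ t).1 (hJ t).1).congr_deriv ?_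
      rw [sub_add_cancel, sy _ (J t) (DJ t), two_mul])
    (fun t => by
      refine ((hG.loc.hasDerivAt_inner (mem_univ _) (h.d1 x v t) (hJ t).2
        (hJ t).1).const_mul 2).congr_deriv ?_
      rw [sub_add_cancel, neg_sub_comm, sub_add_cancel, map_neg, neg_apply]
      ring)
    (fun t => nn _ _) (by simp only [j0, map_zero]) (by simp only [j0, map_zero, mul_zero])
    (fun t => by
      have := sec t
      have := nn (Ex x (t • v)) (DJ t)
      linarith)
    (fun t => by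
      have a := mul_le_mul_of_nonneg_left (sec t) (nn (Ex x (t • v)) (J t))
      have c := hG.loc.sq_le (mem_univ (Ex x (t • v))) (DJ t) (J t)
      nlinarith)
  simp only [g0, g1, j0, j1, j2, map_zero, sub_zero, geoContr_sn r0] at key
  linarith

theorem ExpPack.contrK (h : ExpPack G Ex W) (hL : IsLog Ex L) (hP : Pack G L) (hG : CHK b G)
    {x y : E} (hxy : x ≠ y) (l : E) : G x (Cm b G L x y l) (Cm b G L x y l) ≤ G y l l := by
  have r0 := hP.rr_pos hxy.symm
  have r2 : G x (L x y) (L x y) = rr G L x y ^ 2 := (hP.rr_sq x y).symm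
  have r3 : G y (L y x) (L y x) = rr G L x y ^ 2 := (hP.sym y x).trans (hP.rr_sq x y).symm
  have sy := fun z => hG.loc.symm z (mem_univ z)
  obtain ⟨c, hc⟩ : ∃ c, c = G y (L y x) l / rr G L x y ^ 2 := ⟨_, rfl⟩
  obtain ⟨l', hl'⟩ : ∃ l', l' = l - c • L y x := ⟨_, rfl⟩
  have e0 : l = l' + c • L y x := by rw [hl', sub_add_cancel]
  have e1 : G y (L y x) l' = 0 := by
    rw [hl', map_sub, map_smul, r3, hc, smul_eq_mul, div_mul_cancel₀ _ (by positivity), sub_self]
  have e2 : G x (fderiv ℝ (L x) y l') (L x y) = 0 := by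
    rw [← hP.mixed, hP.radial, map_neg, neg_apply, e1, neg_zero]
  have e3 : Cm b G L x y l =
      (sn b (rr G L x y) / rr G L x y) • fderiv ℝ (L x) y l' - c • L x y := by
    have e4 : fderiv ℝ (L x) y l = fderiv ℝ (L x) y l' - c • L x y := by
      rw [e0, map_add, map_smul, hP.radial, smul_neg, ← sub_eq_add_neg]
    have e5 : (1 - sn b (rr G L x y) / rr G L x y) / rr G L x y ^ 2 * G y (L y x) l =
        (1 - sn b (rr G L x y) / rr G L x y) * c := by rw [hc]; ring
    rw [Cm, sub_apply, smul_apply, smul_apply, ContinuousLinearMap.smulRight_apply, smul_smul, e4,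
      e5]
    module
  have k := geoContr_perp h hL hP hG hxy e2
  have e6 : G y l l = G y l' l' + c ^ 2 * rr G L x y ^ 2 := by
    rw [e0]
    simp only [map_add, map_smul, add_apply, smul_apply, smul_eq_mul, r3, e1, sy y l' (L y x)]
    ring
  rw [e3, e6]
  simp only [map_sub, map_smul, sub_apply, smul_apply, smul_eq_mul, r2, e2,
    sy x (L x y) (fderiv ℝ (L x) y l')]
  linarith

end Vale.Agent.P219
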