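import Vale.Agent.P219.G.GeoBlock
import Vale.Agent.P219.G.GeoContr

/-!
# The law of cosines; the package  (TASK)

`ode_cmp`: `(D' cosh (β t) - β D sinh (β t))' = (D'' - β² D) cosh (β t) ≥ 0`, then `(D / cosh (β t))' ≥ 0`.
`cosK`: `γ t = Ex y (t • v)`, `v = L y x`, `r = rr y x`, `f t = ww (rr o (γ t))`, `g t = ww r₁ + cs r₁ ww (r t) - (sn r₁ / r₁) (sn (r t) / r) G y (L y o) v`.  If `γ t ≠ o` for all
`t ∈ [0,1]`: `f' = -(sn/rr) G (γ t) (L (γ t) o) (W t)` (`hasFDerivAt_rr`), `f'' = exq o (γ t) (W t) + cs r² ≥ r² (1 + b² f)` (`block` with `k = 0`; `hasDerivAt_inner`, `d2`,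
`covD_apply`), `g'' = r² (1 + b² g)` (`cs_eq`), apply `ode_cmp` to `f - g`.  If `γ t₀ = o`, then `L y o = t₀ • v`, `t₀ ∈ (0, 1]`, and `rr o x ≥ (1 - t₀) r` (`triangle`), use
`ww_add`, `ww_neg`, `sn_neg`, `strictMonoOn_ww`.  `exists_packK`: as `CH.exists_pack`.
-/

namespace Vale.Agent.P219

open scoped ContDiff Topology RealInnerProductSpace ENNReal
open MeasureTheory Set Filter Vale.Agent.P255
open St (sn gmod)

variable {E : Type*} [NormedAddCommGroup E] [InnerProductSpace ℝ E] [FiniteDimensional ℝ E]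
  {G : E → Bil E} {L : E → E → E} {m : ℕ} {b : ℝ} {Ex : E → E → E} {W : E → E → ℝ → E}

theorem geocos_mono {u u' : ℝ → ℝ} (h1 : ∀ t ∈ Icc (0 : ℝ) 1, HasDerivAt u (u' t) t)
    (h2 : ∀ t ∈ Icc (0 : ℝ) 1, 0 ≤ u' t) : ∀ t ∈ Icc (0 : ℝ) 1, u 0 ≤ u t := by
  have hm : MonotoneOn u (Icc (0 : ℝ) 1) := by
    refine monotoneOn_of_deriv_nonneg (convex_Icc 0 1)
      (fun t ht => (h1 t ht).continuousAt.continuousWithinAt)
      (fun t ht => (h1 t (interior_subset ht)).differentiableAt.differentiableWithinAt)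
      (fun t ht => ?_)
    rw [(h1 t (interior_subset ht)).deriv]
    exact h2 t (interior_subset ht)
  exact fun t ht => hm ⟨le_rfl, zero_le_one⟩ ht ht.1

theorem ode_cmp {D D1 D2 : ℝ → ℝ} {β : ℝ} (h1 : ∀ t ∈ Icc (0 : ℝ) 1, HasDerivAt D (D1 t) t)
    (h2 : ∀ t ∈ Icc (0 : ℝ) 1, HasDerivAt D1 (D2 t) t) (h0 : D 0 = 0) (h0' : D1 0 = 0)
    (h : ∀ t ∈ Icc (0 : ℝ) 1, β ^ 2 * D t ≤ D2 t) : 0 ≤ D 1 := by
  have hc : ∀ t : ℝ, HasDerivAt (fun s => Real.cosh (β * s)) (Real.sinh (β * t) * β) t := fun t =>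
    (((hasDerivAt_id' t).const_mul β).cosh).congr_deriv (by ring)
  have hs : ∀ t : ℝ, HasDerivAt (fun s => Real.sinh (β * s)) (Real.cosh (β * t) * β) t := fun t =>
    (((hasDerivAt_id' t).const_mul β).sinh).congr_deriv (by ring)
  have hu := geocos_mono (u := fun s => D1 s * Real.cosh (β * s) - β * (D s * Real.sinh (β * s)))
    (u' := fun t => (D2 t - β ^ 2 * D t) * Real.cosh (β * t))
    (fun t ht => (((h2 t ht).fun_mul (hc t)).fun_sub
      (((h1 t ht).fun_mul (hs t)).const_mul β)).congr_deriv (by ring))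
    (fun t ht => mul_nonneg (sub_nonneg.2 (h t ht)) (Real.cosh_pos _).le)
  have hw := geocos_mono (u := fun s => D s / Real.cosh (β * s))
    (u' := fun t => (D1 t * Real.cosh (β * t) - D t * (Real.sinh (β * t) * β)) /
      Real.cosh (β * t) ^ 2)
    (fun t ht => (h1 t ht).fun_div (hc t) (Real.cosh_pos _).ne')
    (fun t ht => div_nonneg (by
      have := hu t ht
      simp only [h0, h0', zero_mul, mul_zero, sub_zero] at this
      linarith) (sq_nonneg _)) 1 ⟨zero_le_one, le_rfl⟩
  simp only [h0, zero_div] at hw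
  have h3 := mul_nonneg hw (Real.cosh_pos (β * 1)).le
  rwa [div_mul_cancel₀ _ (Real.cosh_pos _).ne'] at h3

theorem ExpPack.cosK (h : ExpPack G Ex W) (hL : IsLog Ex L) (hP : Pack G L) (hG : CHK b G)
    {y o x : E} (ho : o ≠ y) (hx : x ≠ y) :
    ww b (rr G L y o) + cs b (rr G L y o) * ww b (rr G L y x) -
      sn b (rr G L y o) / rr G L y o * (sn b (rr G L y x) / rr G L y x) * G y (L y o) (L y x) ≤
    ww b (rr G L o x) := by
  have hr : 0 < rr G L y x := hP.rr_pos hx
  have hr1 : 0 < rr G L y o := hP.rr_pos ho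
  have hsq : G y (L y x) (L y x) = rr G L y x ^ 2 := (hP.rr_sq y x).symm
  by_cases hc : ∃ t ∈ Icc (0 : ℝ) 1, Ex y (t • L y x) = o
  · obtain ⟨t, ht, he⟩ := hc
    have e1 : L y o = t • L y x := by rw [← he, hL.left]
    have e2 : rr G L y o = t * rr G L y x := by
      have e3 : rr G L y o ^ 2 = (t * rr G L y x) ^ 2 := by
        rw [hP.rr_sq, qq, e1]
        simp only [map_smul, smul_apply, smul_eq_mul, hsq]
        ring
      exact (pow_left_inj₀ hr1.le (mul_nonneg ht.1 hr.le) two_ne_zero).1 e3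
    have e4 : G y (L y o) (L y x) = rr G L y o * rr G L y x := by
      rw [e2, e1]
      simp only [map_smul, smul_apply, smul_eq_mul, hsq]
      ring
    have e5 : sn b (rr G L y o) / rr G L y o * (sn b (rr G L y x) / rr G L y x) *
        G y (L y o) (L y x) = sn b (rr G L y o) * sn b (rr G L y x) := by
      rw [e4]
      field_simp
    have e6 := ww_add b (rr G L y o) (-rr G L y x)
    rw [ww_neg, sn_neg, ← ww_neg] at e6
    have h1 := hP.triangle y o x
    have h2 : 0 ≤ -(rr G L y o + -rr G L y x) := by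
      rw [e2]
      nlinarith [ht.2]
    have h3 := (strictMonoOn_ww b).monotoneOn (a := -(rr G L y o + -rr G L y x))
      (b := rr G L o x) h2 (rr_nonneg G L o x) (by linarith)
    rw [e5]
    linarith
  · push Not at hc
    set v := L y x with hv
    set r := rr G L y x with hrr
    set r1 := rr G L y o with hrr1
    set c := G y (L y o) v with hcc
    have hd : Differentiable ℝ fun z => L z o :=
      (hL.smooth.comp (contDiff_prodMk_left o)).differentiable (by simp)
    have hρ : ∀ t ∈ Icc (0 : ℝ) 1, HasDerivAt (fun s : ℝ => rr G L o (Ex y (s • v)))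
        (-(rr G L o (Ex y (t • v)))⁻¹ * G (Ex y (t • v)) (L (Ex y (t • v)) o) (W y v t)) t := by
      intro t ht
      exact (hP.hasFDerivAt_rr (hc t ht).symm).comp_hasDerivAt t (h.d1 y v t)
    have hp : ∀ t : ℝ, HasDerivAt (fun s : ℝ => G (Ex y (s • v)) (L (Ex y (s • v)) o) (W y v s))
        (-G (Ex y (t • v)) (hs G L o (Ex y (t • v)) (W y v t)) (W y v t)) t := by
      intro t
      have f2 := h.loc.hasDerivAt_inner (x := fun s : ℝ => Ex y (s • v))
        (a := fun s : ℝ => L (Ex y (s • v)) o) (b := W y v) (t := t) (mem_univ _) (h.d1 y v t)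
        ((hd _).hasFDerivAt.comp_hasDerivAt t (h.d1 y v t)) (h.d2 y v t)
      refine f2.congr_deriv ?_
      rw [hs, covD_apply, fderiv_fun_neg, ← chrL_apply G _ _ (-_), map_neg, chrL_apply]
      simp only [neg_add_cancel, map_zero, add_zero, map_add, map_neg, add_apply, neg_apply]
      ring
    have hl : ∀ t : ℝ, HasDerivAt (fun s : ℝ => r * s) r t := fun t =>
      ((hasDerivAt_id' t).const_mul r).congr_deriv (mul_one r)
    have key := ode_cmp (β := b * r)
      (D := fun s => ww b (rr G L o (Ex y (s • v))) -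
        (ww b r1 + cs b r1 * ww b (r * s) - sn b r1 / r1 * (sn b (r * s) / r) * c))
      (D1 := fun s => -(sn b (rr G L o (Ex y (s • v))) / rr G L o (Ex y (s • v)) *
          G (Ex y (s • v)) (L (Ex y (s • v)) o) (W y v s)) -
        (cs b r1 * sn b (r * s) * r - sn b r1 / r1 * cs b (r * s) * c))
      (D2 := fun s => exq b G L o (Ex y (s • v)) (W y v s) +
          cs b (rr G L o (Ex y (s • v))) * r ^ 2 -
        (cs b r1 * cs b (r * s) * r ^ 2 - sn b r1 / r1 * (b ^ 2 * sn b (r * s) * r) * c))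
      (fun t ht => ?_) (fun t ht => ?_) ?_ ?_ (fun t ht => ?_)
    · simp only [one_smul, mul_one, hv, hL.right] at key
      linarith
    · have a1 := (hasDerivAt_ww b _).comp t (hρ t ht)
      have a2 := (hasDerivAt_ww b _).comp t (hl t)
      have a3 := (hasDerivAt_sn b _).comp t (hl t)
      refine (a1.fun_sub (((a2.const_mul (cs b r1)).const_add (ww b r1)).fun_sub
        (((a3.div_const r).const_mul (sn b r1 / r1)).mul_const c))).congr_deriv ?_
      field_simp
    · have hρ0 : 0 < rr G L o (Ex y (t • v)) := hP.rr_pos (hc t ht)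
      have a1 := (hasDerivAt_sn b _).comp t (hρ t ht)
      have a2 := (hasDerivAt_sn b _).comp t (hl t)
      have a3 := (hasDerivAt_cs b _).comp t (hl t)
      refine ((((a1.fun_div (hρ t ht) hρ0.ne').fun_mul (hp t)).fun_neg).fun_sub
        (((a2.const_mul (cs b r1)).mul_const r).fun_sub
          ((a3.const_mul (sn b r1 / r1)).mul_const c))).congr_deriv ?_
      rw [exq, ca, h.speed, hsq, hP.rr_symm (Ex y (t • v)) o,
        (posB_of_loc h.loc _).1 (W y v t) (L (Ex y (t • v)) o)]
      simp only [Function.comp]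
      field_simp
      ring
    · simp only [zero_smul, h.zero, mul_zero, ww_zero, sn_zero, hP.rr_symm o y]
      ring
    · simp only [zero_smul, h.zero, h.vel0, mul_zero, cs_zero, sn_zero, hP.rr_symm o y]
      ring
    · obtain ⟨P, -, hb⟩ := h.block hL hP hG (hc t ht).symm
      have h1 := hb 0 (W y v t)
      have h2 : exq b G L (Ex y (t • v)) o 0 = 0 := by simp [exq, ca]
      rw [h2] at h1
      simp only [map_zero, zero_apply, mul_zero, zero_add] at h1
      have e1 := cs_eq b (rr G L o (Ex y (t • v)))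
      have e2 := cs_eq b r1
      have e3 := cs_eq b (r * t)
      have e4 : (b * r) ^ 2 * (sn b r1 / r1 * (sn b (r * t) / r) * c) =
          sn b r1 / r1 * (b ^ 2 * sn b (r * t) * r) * c := by
        field_simp
      rw [e1, e2, e3, ← e4]
      nlinarith

theorem CHK.exists_packK (hG : CHK b G) : ∃ L, PackK b G L := by
  obtain ⟨Ex, W, hE⟩ := hG.toCH.exists_exp
  obtain ⟨L, hL⟩ := hE.exists_log
  have hP : Pack G L := by
    refine ⟨hG.loc, hL.smooth, fun y => ?_, fun y a b hab => ?_, hE.det_ne hL, hE.contr hL,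
      hE.radial hL, hE.sym hL, hE.grad hL, hE.cos hL, hE.hess hL, hE.proper hL⟩
    · simpa [hE.zero] using hL.left y 0
    · rw [← hL.right y a, hab, hL.right]
  exact ⟨L, hP, fun y v => ⟨Ex y v, hL.left y v⟩, fun x y hxy => hE.block hL hP hG hxy,
    fun x y hxy l => hE.contrK hL hP hG hxy l, fun y o x ho hx => hE.cosK hL hP hG ho hx⟩

end Vale.Agent.P219
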