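import Vale.Agent.P219.G.VarN
import Vale.Agent.P219.G.PackL
import Vale.Agent.P219.Field

/-!
# Minimisers are stationary  (TASK)

`confineN`: `f (τ, y) = qq (y - τ • Z y) 0` is `C¹` with `∂_τ f (0, y) = 2 G y (L y 0) (Z y)` (`grad`), negative on the compact set `qq = c`.  So `∂_τ f < 0` on `[0, τ₁] × N` for a
neighbourhood `N` of that set in `KB` (tube lemma / uniform continuity); on the compact rest of `KB` one has `qq ≤ c - δ` and `f (τ, y) ≤ c` for small `τ`.
`stat`: for `δ > 0` use `Z_δ = β • (Z - δ • L · 0)` with the bump `β` of `field_bump` (`= 1` near `KB`; `covD_congr`).  `exists_varN` and minimality give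
`A - I V ≤ A' - I V' ≤ A - τ T₁ + C τ² A - I (V - τ T₂ - C τ²)` for small `τ` (monotonicity of `I`); divide by `τ`, let `τ → 0` (`HasDerivAt` of
`τ ↦ I (V - τ T₂ - C τ²)`), then `δ → 0` (`covD_add`, `covD_smul`, `tdv_add`, `tdv_smul`, `NDom.integrable`).
-/

namespace Vale.Agent.P219

open scoped ContDiff Topology RealInnerProductSpace ENNReal
open MeasureTheory Set Filter Vale.Agent.P255
open St (sn gmod)

variable {E : Type*} [NormedAddCommGroup E] [InnerProductSpace ℝ E] [FiniteDimensional ℝ E]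
  [MeasurableSpace E] [BorelSpace E] {G : E → Bil E} {L : E → E → E} {K : Set E} {m : ℕ} {b : ℝ}

omit [MeasurableSpace E] [BorelSpace E] in
theorem Pack.confineN (hP : Pack G L) {c : ℝ} {Z : E → E} (hZ : Continuous Z)
    (h : ∀ y, qq G L y 0 = c → G y (L y 0) (Z y) < 0) :
    ∃ τ₀ : ℝ, 0 < τ₀ ∧ ∀ τ : ℝ, 0 < τ → τ ≤ τ₀ →
      MapsTo (fun y => y - τ • Z y) (KB G L c) (KB G L c) := by
  have hG : Continuous G := (contDiffOn_univ.1 hP.loc.smooth).continuous
  have hq : ContDiff ℝ ∞ fun z => qq G L z 0 :=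
    hP.contDiff_qq.comp (contDiff_id.prodMk (contDiff_const (c := (0 : E))))
  have hs : Continuous fun z : ℝ × E => z.2 - z.1 • Z z.2 := by fun_prop
  have hg : Continuous fun z : ℝ × E =>
      G (z.2 - z.1 • Z z.2) (L (z.2 - z.1 • Z z.2) 0) (Z z.2) :=
    ((hG.comp hs).clm_apply ((field_L hP 0).continuous.comp hs)).clm_apply (hZ.comp continuous_snd)
  have hd : ∀ (y : E) (s : ℝ), HasDerivAt (fun t : ℝ => qq G L (y - t • Z y) 0)
      (2 * G (y - s • Z y) (L (y - s • Z y) 0) (Z y)) s := fun y s => by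
    have h1 : HasDerivAt (fun t : ℝ => y - t • Z y) (-Z y) s := by
      simpa using ((hasDerivAt_id s).smul_const (Z y)).const_sub y
    have h2 := ((hq.differentiable (by simp)) (y - s • Z y)).hasFDerivAt.comp_hasDerivAt s h1
    rw [hP.grad] at h2
    exact h2.congr_deriv (by rw [map_neg]; ring)
  have key : ∀ᶠ τ in 𝓝 (0 : ℝ), ∀ y ∈ KB G L c,
      (y ∈ KB G L c → 0 < τ → qq G L (y - τ • Z y) 0 ≤ c) := by
    refine (hP.proper c).eventually_forall_of_forall_eventually fun y₀ hy₀ => ?_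
    rcases (show qq G L y₀ 0 ≤ c from hy₀).lt_or_eq with h0 | h0
    · have h1 : ∀ᶠ z : ℝ × E in 𝓝 (0, y₀), qq G L (z.2 - z.1 • Z z.2) 0 < c :=
        (hq.continuous.comp hs).continuousAt.eventually_lt continuousAt_const (by simpa using h0)
      filter_upwards [h1] with z hz _ _ using hz.le
    · have h1 : ∀ᶠ z : ℝ × E in 𝓝 (0, y₀),
          G (z.2 - z.1 • Z z.2) (L (z.2 - z.1 • Z z.2) 0) (Z z.2) < 0 :=
        hg.continuousAt.eventually_lt continuousAt_const (by simpa using h y₀ h0)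
      rw [nhds_prod_eq] at h1 ⊢
      obtain ⟨U, hU, V, hV, hUV⟩ := mem_prod_iff.1 h1
      obtain ⟨ε, hε, hεU⟩ := Metric.mem_nhds_iff.1 hU
      filter_upwards [prod_mem_prod (Metric.ball_mem_nhds (0 : ℝ) hε) hV] with z hz hzK hz0
      have h2 : z.1 < ε := by
        have := hz.1
        rw [Metric.mem_ball, Real.dist_eq, sub_zero] at this
        exact (le_abs_self _).trans_lt this
      have h3 : AntitoneOn (fun t : ℝ => qq G L (z.2 - t • Z z.2) 0) (Icc 0 z.1) := by
        refine antitoneOn_of_deriv_nonpos (convex_Icc _ _)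
          (fun t _ => (hd z.2 t).continuousAt.continuousWithinAt)
          (fun t _ => (hd z.2 t).differentiableAt.differentiableWithinAt) fun t ht => ?_
        rw [interior_Icc] at ht
        have h4 : (t, z.2) ∈ U ×ˢ V := ⟨hεU (by
          rw [Metric.mem_ball, Real.dist_eq, sub_zero, abs_of_pos ht.1]
          exact ht.2.trans h2), hz.2⟩
        have h5 : G (z.2 - t • Z z.2) (L (z.2 - t • Z z.2) 0) (Z z.2) < 0 := hUV h4
        rw [(hd z.2 t).deriv]
        linarith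
      have h4 := h3 ⟨le_rfl, hz0.le⟩ ⟨hz0.le, le_rfl⟩ hz0.le
      simp only [zero_smul, sub_zero] at h4
      exact h4.trans hzK
  obtain ⟨ε, hε, hεU⟩ := Metric.eventually_nhds_iff.1 key
  refine ⟨ε / 2, by positivity, fun τ h0 h1 y hy => hεU ?_ y hy hy h0⟩
  rw [Real.dist_eq, sub_zero, abs_of_pos h0]
  linarith

theorem stat_real {I : ℝ → ℝ} {V H A T₁ T₂ C τ₀ : ℝ} (hH : HasDerivAt I H V) (h0 : 0 < τ₀)
    (h : ∀ τ : ℝ, 0 < τ → τ ≤ τ₀ → 0 ≤ V - τ * T₂ - C * τ ^ 2 →
      A - I V ≤ A - τ * T₁ + C * τ ^ 2 * A - I (V - τ * T₂ - C * τ ^ 2)) (hV : 0 < V) :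
    T₁ ≤ H * T₂ := by
  have h1 : HasDerivAt (fun τ : ℝ => V - τ * T₂ - C * τ ^ 2) (-T₂) 0 := by
    have := (((hasDerivAt_id (0 : ℝ)).mul_const T₂).const_sub V).sub
      ((hasDerivAt_pow 2 (0 : ℝ)).const_mul C)
    exact this.congr_deriv (by simp)
  have h2 : HasDerivAt (fun τ : ℝ => I (V - τ * T₂ - C * τ ^ 2)) (H * -T₂) 0 := by
    have hH' : HasDerivAt I H ((fun τ : ℝ => V - τ * T₂ - C * τ ^ 2) 0) := by simpa using hH
    exact hH'.comp 0 h1
  have h3 : HasDerivAt (fun τ : ℝ => -(τ * T₁) + C * A * τ ^ 2 - I (V - τ * T₂ - C * τ ^ 2))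
      (H * T₂ - T₁) 0 := by
    have := (((hasDerivAt_id (0 : ℝ)).mul_const T₁).neg.add
      ((hasDerivAt_pow 2 (0 : ℝ)).const_mul (C * A))).sub h2
    exact this.congr_deriv (by simp; ring)
  have h4 := h3.tendsto_slope_zero_right
  have h5 : ∀ᶠ τ in 𝓝[>] (0 : ℝ), 0 < V - τ * T₂ - C * τ ^ 2 :=
    nhdsWithin_le_nhds (continuousAt_const.eventually_lt h1.continuousAt (by simpa using hV))
  have h6 : 0 ≤ H * T₂ - T₁ := by
    refine ge_of_tendsto h4 ?_
    filter_upwards [h5, Ioc_mem_nhdsGT h0] with τ h7 h8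
    have h9 := h τ h8.1 h8.2 h7.le
    refine smul_nonneg (inv_pos.2 h8.1).le ?_
    simp only [zero_add, zero_mul, neg_zero, sub_zero, ne_eq, OfNat.ofNat_ne_zero,
      not_false_eq_true, zero_pow, mul_zero]
    linarith
  linarith

theorem stat_strict (hE : Module.finrank ℝ E = m + 1) (hm : 1 ≤ m) (hP : Pack G L) {c H : ℝ}
    {D : NDom G (KB G L c)} {I : ℝ → ℝ} (h : D.IsMin I) (hI : MonotoneOn I (Ici 0))
    (hV : 0 < D.V) (hH : HasDerivAt I H D.V) {Z : E → E} (hZ : ContDiff ℝ 2 Z)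
    (hs : ∀ y, qq G L y 0 = c → G y (L y 0) (Z y) < 0) :
    ∫ z, tdv (G z.1) (covD G Z z.1) z.2 ∂D.μ ≤ H * ∫ z, G z.1 z.2 (Z z.1) ∂D.μ := by
  have hK : IsCompact (KB G L c) := hP.proper c
  obtain ⟨β, hβ, hβc, hβ1⟩ := field_bump hK
  have hW : ContDiff ℝ 2 fun y => β y • Z y := (hβ.of_le field_two).smul hZ
  have hWc : HasCompactSupport fun y => β y • Z y := hβc.mono fun y hy h => hy (by simp [h])
  have hloc : ∀ y ∈ KB G L c, (fun y => β y • Z y) =ᶠ[𝓝 y] Z := fun y hy => by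
    filter_upwards [hβ1 y hy] with x hx
    rw [hx, Pi.one_apply, one_smul]
  obtain ⟨C, τ₀, -, hτ₀, hvar⟩ := exists_varN hE hm hP.loc hK hW hWc
  obtain ⟨τ₁, hτ₁, hconf⟩ := hP.confineN (c := c) hW.continuous fun y hy => by
    rw [show β y • Z y = Z y from (hloc y hy.le).eq_of_nhds]
    exact hs y hy
  have e1 : ∫ z, tdv (G z.1) (covD G (fun y => β y • Z y) z.1) z.2 ∂D.μ =
      ∫ z, tdv (G z.1) (covD G Z z.1) z.2 ∂D.μ :=
    integral_congr_ae (by
      filter_upwards [D.supp] with z hz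
      rw [covD_congr (hloc z.1 hz.1)])
  have e2 : ∫ z, G z.1 z.2 (β z.1 • Z z.1) ∂D.μ = ∫ z, G z.1 z.2 (Z z.1) ∂D.μ :=
    integral_congr_ae (by
      filter_upwards [D.supp] with z hz
      rw [show β z.1 • Z z.1 = Z z.1 from (hloc z.1 hz.1).eq_of_nhds])
  refine stat_real (A := D.A) (C := C) hH (lt_min hτ₀ hτ₁) (fun τ h0 h1 h2 => ?_) hV
  obtain ⟨D', hv, ha⟩ := hvar τ h0 (h1.trans (min_le_left _ _))
    (hconf τ h0 (h1.trans (min_le_right _ _))) D
  rw [e2] at hv
  rw [e1] at ha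
  have h3 := hI h2 D'.V_nonneg hv
  have h4 := h D'
  linarith

theorem NDom.IsMin.stat (hE : Module.finrank ℝ E = m + 1) (hm : 1 ≤ m) (hP : Pack G L) {c H : ℝ}
    (hc : 0 < c) {D : NDom G (KB G L c)} {I : ℝ → ℝ} (h : D.IsMin I) (hI : MonotoneOn I (Ici 0))
    (hV : 0 < D.V) (hH : HasDerivAt I H D.V) : NDom.Stat L c D H := by
  intro Z hZ hs
  have hK : IsCompact (KB G L c) := hP.proper c
  have hG : Continuous G := (contDiffOn_univ.1 hP.loc.smooth).continuous
  have hL : ContDiff ℝ 2 fun y => L y 0 := (field_L hP 0).of_le field_two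
  have i1 : ∀ {W : E → E}, ContDiff ℝ 2 W →
      Integrable (fun z : E × E => tdv (G z.1) (covD G W z.1) z.2) D.μ := fun {W} hW => by
    have h1 := (continuous_covD hP.loc (hW.of_le (by norm_num))).comp
      (continuous_fst : Continuous fun z : E × E => z.1)
    exact D.integrable hP.loc hK ((continuous_trc.comp h1).sub
      (((hG.comp continuous_fst).clm_apply (h1.clm_apply continuous_snd)).clm_apply continuous_snd))
  have i2 : ∀ {W : E → E}, ContDiff ℝ 2 W →
      Integrable (fun z : E × E => G z.1 z.2 (W z.1)) D.μ := fun {W} hW =>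
    D.integrable hP.loc hK (((hG.comp continuous_fst).clm_apply continuous_snd).clm_apply
      (hW.continuous.comp continuous_fst))
  have key : ∀ δ : ℝ, 0 < δ →
      (∫ z, tdv (G z.1) (covD G Z z.1) z.2 ∂D.μ) +
          -δ * ∫ z, tdv (G z.1) (covD G (fun y => L y 0) z.1) z.2 ∂D.μ ≤
        H * ((∫ z, G z.1 z.2 (Z z.1) ∂D.μ) + -δ * ∫ z, G z.1 z.2 (L z.1 0) ∂D.μ) := fun δ hδ => by
    have h1 := stat_strict hE hm hP h hI hV hH (Z := fun y => Z y + (-δ) • L y 0)
      (hZ.add (hL.const_smul _)) fun y hy => by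
        have h2 := hs y hy
        have h3 : G y (L y 0) (L y 0) = c := hy
        rw [map_add, map_smul, h3, smul_eq_mul]
        nlinarith [mul_pos hδ hc]
    have h2 : ∀ y, covD G (fun y => Z y + (-δ) • L y 0) y =
        covD G Z y + (-δ) • covD G (fun y => L y 0) y := fun y => by
      rw [covD_add (hZ.differentiable (by simp) y) ((hL.const_smul (-δ)).differentiable (by simp) y),
        covD_smul (hasFDerivAt_const (-δ) y) (hL.differentiable (by simp) y)]
      congr 1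
      ext v
      simp
    simp only [h2, tdv_add, tdv_smul, map_add, map_smul, smul_eq_mul] at h1
    rw [integral_add (i1 hZ) ((i1 hL).const_mul _), integral_add (i2 hZ) ((i2 hL).const_mul _),
      integral_const_mul, integral_const_mul] at h1
    exact h1
  generalize (∫ z, tdv (G z.1) (covD G Z z.1) z.2 ∂D.μ) = a at key ⊢
  generalize (∫ z, tdv (G z.1) (covD G (fun y => L y 0) z.1) z.2 ∂D.μ) = a' at key
  generalize (∫ z, G z.1 z.2 (Z z.1) ∂D.μ) = t at key ⊢
  generalize (∫ z, G z.1 z.2 (L z.1 0) ∂D.μ) = t' at key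
  have h1 : Tendsto (fun δ : ℝ => a + -δ * a') (𝓝[>] 0) (𝓝 (a + -0 * a')) :=
    (Continuous.tendsto (by fun_prop) 0).mono_left nhdsWithin_le_nhds
  have h2 : Tendsto (fun δ : ℝ => H * (t + -δ * t')) (𝓝[>] 0) (𝓝 (H * (t + -0 * t'))) :=
    (Continuous.tendsto (by fun_prop) 0).mono_left nhdsWithin_le_nhds
  have h3 := le_of_tendsto_of_tendsto h1 h2 (eventually_mem_nhdsWithin.mono key)
  simpa using h3

end Vale.Agent.P219
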