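import Vale.Agent.P219.G.Core2
import Vale.Agent.P219.G.Stat
import Vale.Agent.P219.G.Exist
import Vale.Agent.P219.Rigid1

/-!
# The isoperimetric inequality and a good boundary point

`ineqK`: let `D₀` be a minimiser (`exists_min`, `continuousOn_Ipr`).  If `A₀ < I V₀` then `V₀ > 0` (`Ipr_zero`), `V₀ = Vm ρ` with `ρ = rad V₀ > 0` (`rad_spec`, `Vm_zero`), `stat` (`hasDerivAt_Ipr`), `tight`, `core` give
`0 ≤ η A₀ (A₀ - Am ρ) + l` for all `l > 0`, and `A₀ > 0` (`A_pos`): contradiction (`Ipr_Vm`).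
`rigid_ptK`: by `ineqK` the domain is a minimiser.  For fixed `k` and every `j`, `core` gives `f j` with `∫ f j ≤ 2⁻¹^j`; so `dfc (1 / (k + 1)) = 0` a.e. (as in `rigid1_ae`: apply it, or its proof, to
`d = (dfc ..).toReal` corrected on a null set, `dfc ≠ ⊤` a.e.; or `lintegral`-free: `liminf f j = 0` a.e.).  `ae_all_iff`, `μ ≠ 0` (`Am_pos`), `dfc_ae`.
-/

namespace Vale.Agent.P219

open scoped ContDiff Topology RealInnerProductSpace ENNReal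
open MeasureTheory Set Filter Vale.Agent.P255
open St (sn gmod)

variable {E : Type*} [NormedAddCommGroup E] [InnerProductSpace ℝ E] [FiniteDimensional ℝ E]
  [MeasurableSpace E] [BorelSpace E] {G : E → Bil E} {L : E → E → E} {K : Set E} {m : ℕ} {b : ℝ}
  {ρ ε c H : ℝ} {τ : ℝ → ℝ}

/-- The conclusion of the core argument for the radius `ρ`. -/
def CoreP (m : ℕ) (b : ℝ) (G : E → Bil E) (L : E → E → E) (c ρ : ℝ) : Prop :=
  ∃ (η : ℝ) (dfc : Set E → E × E → ℝ → ℝ≥0∞), 0 < η ∧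
    (∀ D : NDom G (KB G L c), NDom.Stat L c D (m * hh b ρ) → D.Tight → ∀ l ε₀ : ℝ, 0 < l → 0 < ε₀ →
      ∃ f : E × E → ℝ, Integrable f D.μ ∧
        (∀ᵐ z ∂D.μ, 0 ≤ f z ∧ dfc D.Ω z ε₀ ≤ ENNReal.ofReal (f z)) ∧
        ∫ z, f z ∂D.μ ≤ η * D.A * (D.A - Am (om E) m b ρ) + l) ∧
    ∀ S : Set E, MeasurableSet S → ∀ y ν : E, G y ν ν = 1 →
      (∀ k : ℕ, dfc S (y, ν) (1 / (k + 1)) = 0) →
        ∀ᵐ x, hh b ρ * ww b (rr G L y x) < sn b (rr G L y x) * ca G L y x ν → x ∈ S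

theorem ineq_gen (hE : Module.finrank ℝ E = m + 1) (hm : 2 ≤ m) (hP : Pack G L)
    (hC : ∀ ρ, 0 < ρ → CoreP m b G L c ρ) (hc : 0 < c) (D : NDom G (KB G L c)) :
    Ipr (om E) m b D.V ≤ D.A := by
  have hK := hP.isCompact_KB c
  have ho := om_pos (E := E)
  obtain ⟨D₀, h0⟩ := exists_min hP.loc hK (continuousOn_Ipr (m := m) (b := b) ho)
  suffices h : Ipr (om E) m b D₀.V ≤ D₀.A by linarith [h0 D]
  by_contra! hlt
  have hV : 0 < D₀.V := by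
    refine D₀.V_nonneg.lt_of_ne fun h => ?_
    rw [← h, Ipr_zero ho (by omega)] at hlt
    exact hlt.not_ge D₀.A_nonneg
  obtain ⟨r0, r1⟩ := rad_spec (m := m) (b := b) ho hV.le
  set ρ := rad (om E) m b D₀.V with hρ
  have hρ0 : 0 < ρ := by
    refine r0.lt_of_ne fun h => ?_
    rw [← h, Vm_zero] at r1
    exact hV.ne r1
  obtain ⟨η, dfc, hη, h1, -⟩ := hC ρ hρ0
  have hS := h0.stat hE (by omega) hP hc (monotoneOn_Ipr ho) hV (r1 ▸ hasDerivAt_Ipr ho hρ0)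
  have hA := D₀.A_pos hP.loc hK hE hV
  have hI : Ipr (om E) m b D₀.V = Am (om E) m b ρ := rfl
  have hneg : 0 < -(η * D₀.A * (D₀.A - Am (om E) m b ρ)) / 2 := by
    have : 0 < η * D₀.A * (Am (om E) m b ρ - D₀.A) := mul_pos (mul_pos hη hA) (by linarith)
    linarith
  obtain ⟨f, -, f1, f2⟩ := h1 D₀ hS h0.tight _ 1 hneg one_pos
  have := integral_nonneg_of_ae (f1.mono fun z hz => hz.1)
  linarith

theorem ineq_ae {X : Type*} [MeasurableSpace X] {μ : Measure X} {d : X → ℝ≥0∞}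
    (h : ∀ l : ℝ, 0 < l → ∃ f : X → ℝ, Integrable f μ ∧
      (∀ᵐ z ∂μ, 0 ≤ f z ∧ d z ≤ ENNReal.ofReal (f z)) ∧ ∫ z, f z ∂μ ≤ l) :
    ∀ᵐ z ∂μ, d z = 0 := by
  classical
  choose! f hf using h
  set N : Set X := {z | ∀ k : ℕ, 0 ≤ f (1 / (k + 1)) z ∧ d z ≤ ENNReal.ofReal (f (1 / (k + 1)) z)}
  have hN : ∀ᵐ z ∂μ, z ∈ N := ae_all_iff.2 fun k => (hf _ (by positivity)).2.1
  have key := rigid1_ae (μ := μ) (d := fun z => if z ∈ N then (d z).toReal else 0)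
    (fun z => by split_ifs <;> positivity) fun ε hε => by
      obtain ⟨k, hk⟩ := exists_nat_one_div_lt hε
      have h1 := hf (1 / (k + 1)) (by positivity)
      refine ⟨fun z => |f (1 / (k + 1)) z|, h1.1.abs, fun z => ?_, ?_⟩
      · split_ifs with hz
        · exact (ENNReal.toReal_le_of_le_ofReal (hz k).1 (hz k).2).trans (le_abs_self _)
        · exact abs_nonneg _
      · rw [integral_congr_ae (h1.2.1.mono fun z hz => abs_of_nonneg hz.1)]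
        exact h1.2.2.trans hk.le
  filter_upwards [hN, key] with z hz h2
  rw [if_pos hz] at h2
  have h3 : d z ≠ ⊤ := ne_top_of_le_ne_top ENNReal.ofReal_ne_top (hz 0).2
  exact ((ENNReal.toReal_eq_zero_iff _).1 (le_antisymm h2 ENNReal.toReal_nonneg)).resolve_right h3

theorem rigid_gen (hE : Module.finrank ℝ E = m + 1) (hm : 2 ≤ m) (hP : Pack G L)
    (hC : ∀ ρ, 0 < ρ → CoreP m b G L c ρ) (hc : 0 < c) (D : NDom G (KB G L c)) (hρ : 0 < ρ)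
    (hV : D.V = Vm (om E) m b ρ) (hA : D.A = Am (om E) m b ρ) :
    ∃ y ν, G y ν ν = 1 ∧
      ∀ᵐ x, hh b ρ * ww b (rr G L y x) < sn b (rr G L y x) * ca G L y x ν → x ∈ D.Ω := by
  have ho := om_pos (E := E)
  have h0 : D.IsMin (Ipr (om E) m b) := fun D' => by
    have := ineq_gen hE hm hP hC hc D'
    rw [hV, Ipr_Vm ho hρ.le, hA]
    linarith
  have hS := h0.stat hE (by omega) hP hc (monotoneOn_Ipr ho) (hV ▸ Vm_pos ho hρ)
    (hV ▸ hasDerivAt_Ipr ho hρ)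
  obtain ⟨η, dfc, -, h1, h2⟩ := hC ρ hρ
  have h3 : ∀ᵐ z ∂D.μ, ∀ k : ℕ, dfc D.Ω z (1 / (k + 1)) = 0 := ae_all_iff.2 fun k =>
    ineq_ae fun l hl => by
      obtain ⟨f, f1, f2, f3⟩ := h1 D hS h0.tight l (1 / (k + 1)) hl (by positivity)
      exact ⟨f, f1, f2, by rwa [hA, sub_self, mul_zero, zero_add] at f3⟩
  have hne : D.μ ≠ 0 := fun h => by
    have h4 := Am_pos (m := m) (b := b) ho hρ
    rw [← hA, NDom.A, h] at h4
    simp at h4
  have := ae_neBot.2 hne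
  obtain ⟨z, hz1, hz2⟩ := (D.supp.and h3).exists
  exact ⟨z.1, z.2, hz1.2, h2 D.Ω D.meas z.1 z.2 hz1.2 hz2⟩

theorem PackK.coreP (hE : Module.finrank ℝ E = m + 1) (hm : 2 ≤ m) (hP : PackK b G L) (hρ : 0 < ρ)
    (C : Cert m b ρ) (c : ℝ) : CoreP m b G L c ρ :=
  ⟨C.η, fun S z ε => C.dfc G L S z.1 z.2 ε, C.η_pos,
    fun _ hD hT _ _ hl hε => hP.core hE hm hρ C hD hT hl hε,
    fun _ hS _ _ hν h => hP.toPack.dfc_ae C hS hν h⟩

theorem PackK.ineqK (hE : Module.finrank ℝ E = m + 1) (hm : 2 ≤ m) (hP : PackK b G L)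
    (hC : ∀ ρ, 0 < ρ → Nonempty (Cert m b ρ)) (hc : 0 < c) (D : NDom G (KB G L c)) :
    Ipr (om E) m b D.V ≤ D.A :=
  ineq_gen hE hm hP.toPack (fun ρ hρ => (hC ρ hρ).elim fun C => hP.coreP hE hm hρ C c) hc D

theorem PackK.rigid_ptK (hE : Module.finrank ℝ E = m + 1) (hm : 2 ≤ m) (hP : PackK b G L)
    (hC : ∀ ρ, 0 < ρ → Nonempty (Cert m b ρ)) (hc : 0 < c) (D : NDom G (KB G L c)) (hρ : 0 < ρ)
    (hV : D.V = Vm (om E) m b ρ) (hA : D.A = Am (om E) m b ρ) :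
    ∃ y ν, G y ν ν = 1 ∧
      ∀ᵐ x, hh b ρ * ww b (rr G L y x) < sn b (rr G L y x) * ca G L y x ν → x ∈ D.Ω :=
  rigid_gen hE hm hP.toPack (fun ρ hρ => (hC ρ hρ).elim fun C => hP.coreP hE hm hρ C c) hc D hρ
    hV hA

end Vale.Agent.P219
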