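import Vale.Agent.P219.G.Sn

/-!
# The model profile  (TASK)

`Vm o m b` has derivative `Am o m b ρ > 0` for `ρ > 0` (`intervalIntegral.integral_hasDerivAt_right`), so it is strictly increasing on `Ici 0`,
and `Vm ρ ≥ (m+1) o (ρ - 1)` for `ρ ≥ 1` (`le_sn`), so it maps `Ici 0` onto `Ici 0` (`intermediate_value_Icc`).  `Function.invFunOn_mem`, `invFunOn_eq`.
Continuity of the monotone surjective `rad`: `continuousWithinAt_right_of_monotoneOn_of_image_mem_nhdsWithin` and friends, or the order isomorphism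
`StrictMonoOn.orderIso`.  Derivative: `HasDerivAt.of_local_left_inverse`.
-/

namespace Vale.Agent.P219

open scoped ContDiff Topology RealInnerProductSpace ENNReal
open MeasureTheory Set Filter Vale.Agent.P255
open St (sn gmod)

variable {o b V ρ : ℝ} {m : ℕ}

theorem Prof_der (o : ℝ) (m : ℕ) (b ρ : ℝ) : HasDerivAt (Vm o m b) (Am o m b ρ) ρ :=
  ((((contDiff_sn b).continuous.pow m).integral_hasStrictDerivAt 0 ρ).hasDerivAt).const_mul _

theorem Prof_cont (o : ℝ) (m : ℕ) (b : ℝ) : Continuous (Vm o m b) :=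
  continuous_iff_continuousAt.2 fun ρ => (Prof_der o m b ρ).continuousAt

theorem Vm_zero (o : ℝ) (m : ℕ) (b : ℝ) : Vm o m b 0 = 0 := by
  rw [Vm, intervalIntegral.integral_same, mul_zero]

theorem Prof_pos (ho : 0 < o) (hρ : 0 < ρ) : 0 < Am o m b ρ :=
  mul_pos (mul_pos (Nat.cast_add_one_pos m) ho) (pow_pos (sn_pos b hρ) m)

theorem Prof_mono (ho : 0 < o) : StrictMonoOn (Vm o m b) (Ici 0) :=
  strictMonoOn_of_deriv_pos (convex_Ici 0) (Prof_cont o m b).continuousOn fun x hx => by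
    rw [interior_Ici] at hx
    rw [(Prof_der o m b x).deriv]
    exact Prof_pos ho hx

theorem Vm_pos (ho : 0 < o) (hρ : 0 < ρ) : 0 < Vm o m b ρ := by
  have h := Prof_mono (m := m) (b := b) ho (mem_Ici.2 le_rfl) (mem_Ici.2 hρ.le) hρ
  rwa [Vm_zero] at h

theorem Am_pos (ho : 0 < o) (hρ : 0 < ρ) : 0 < Am o m b ρ := Prof_pos ho hρ

theorem Prof_nonneg (ho : 0 < o) (hρ : 0 ≤ ρ) : 0 ≤ Vm o m b ρ := by
  rcases hρ.eq_or_lt with h | h
  · rw [← h, Vm_zero]
  · exact (Vm_pos ho h).le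

theorem rad_spec (ho : 0 < o) (hV : 0 ≤ V) : 0 ≤ rad o m b V ∧ Vm o m b (rad o m b V) = V := by
  have h0 : 0 ≤ V / o := div_nonneg hV ho.le
  have h1 : 0 ≤ V / o + 1 := by linarith
  have h2 : V ≤ Vm o m b (V / o + 1) := by
    have h3 : ∫ t in (0 : ℝ)..V / o + 1, t ^ m ≤ ∫ t in (0 : ℝ)..V / o + 1, sn b t ^ m :=
      intervalIntegral.integral_mono_on h1 ((continuous_pow m).intervalIntegrable _ _)
        (((contDiff_sn b).continuous.pow m).intervalIntegrable _ _) fun t ht =>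
          pow_le_pow_left₀ ht.1 (le_sn b ht.1) m
    rw [integral_pow, zero_pow (Nat.succ_ne_zero m), sub_zero,
      div_le_iff₀ (Nat.cast_add_one_pos m)] at h3
    have h4 : V / o + 1 ≤ (V / o + 1) ^ (m + 1) := le_self_pow₀ (by linarith) (Nat.succ_ne_zero m)
    have h5 := mul_le_mul_of_nonneg_left (h4.trans h3) ho.le
    rw [mul_add, mul_div_cancel₀ _ ho.ne'] at h5
    rw [Vm]
    linarith
  obtain ⟨r, h3, h4⟩ := intermediate_value_Icc h1 (Prof_cont o m b).continuousOn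
    ⟨(Vm_zero o m b).trans_le hV, h2⟩
  have h5 : ∃ r ∈ Ici (0 : ℝ), Vm o m b r = V := ⟨r, h3.1, h4⟩
  exact ⟨Function.invFunOn_mem h5, Function.invFunOn_eq h5⟩

theorem rad_Vm (ho : 0 < o) (hρ : 0 ≤ ρ) : rad o m b (Vm o m b ρ) = ρ :=
  (Prof_mono ho).injOn (rad_spec ho (Prof_nonneg ho hρ)).1 hρ (rad_spec ho (Prof_nonneg ho hρ)).2

theorem Ipr_Vm (ho : 0 < o) (hρ : 0 ≤ ρ) : Ipr o m b (Vm o m b ρ) = Am o m b ρ := by
  rw [Ipr, rad_Vm ho hρ]

theorem Ipr_zero (ho : 0 < o) (hm : 1 ≤ m) : Ipr o m b 0 = 0 := by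
  have h := Ipr_Vm (m := m) (b := b) ho le_rfl
  rw [Vm_zero] at h
  rw [h, Am, sn_zero, zero_pow (by omega), mul_zero]

theorem Prof_rad_mono (ho : 0 < o) : MonotoneOn (rad o m b) (Ici 0) := fun V hV W hW h => by
  refine ((Prof_mono (m := m) (b := b) ho).le_iff_le (rad_spec ho hV).1 (rad_spec ho hW).1).1 ?_
  rw [(rad_spec ho hV).2, (rad_spec ho hW).2]
  exact h

theorem Prof_rad_image (ho : 0 < o) : Ici 0 ⊆ rad o m b '' Ici 0 := fun _ hρ =>
  ⟨_, Prof_nonneg ho hρ, rad_Vm ho hρ⟩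

theorem Prof_rad_at (ho : 0 < o) (hρ : 0 < ρ) : ContinuousAt (rad o m b) (Vm o m b ρ) := by
  refine continuousAt_of_monotoneOn_of_image_mem_nhds (Prof_rad_mono ho)
    (Ici_mem_nhds (Vm_pos ho hρ)) (mem_of_superset ?_ (Prof_rad_image ho))
  rw [rad_Vm ho hρ.le]
  exact Ici_mem_nhds hρ

theorem Prof_rad_cont (ho : 0 < o) : ContinuousOn (rad o m b) (Ici 0) := fun V hV => by
  obtain ⟨h1, h2⟩ := rad_spec (m := m) (b := b) ho hV
  rcases h1.eq_or_lt with h | h
  · have h3 : V = 0 := by rw [← h2, ← h, Vm_zero]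
    subst h3
    refine continuousWithinAt_right_of_monotoneOn_of_image_mem_nhdsWithin (Prof_rad_mono ho)
      self_mem_nhdsWithin (mem_of_superset ?_ (Prof_rad_image ho))
    rw [← h]
    exact self_mem_nhdsWithin
  · have h3 := Prof_rad_at (m := m) (b := b) ho h
    rw [h2] at h3
    exact h3.continuousWithinAt

theorem monotoneOn_Ipr (ho : 0 < o) : MonotoneOn (Ipr o m b) (Ici 0) := fun V hV W hW h =>
  mul_le_mul_of_nonneg_left (pow_le_pow_left₀
    ((rad_spec ho hV).1.trans (le_sn b (rad_spec ho hV).1))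
    ((strictMono_sn b).monotone (Prof_rad_mono ho hV hW h)) m)
    (mul_pos (Nat.cast_add_one_pos m) ho).le

theorem continuousOn_Ipr (ho : 0 < o) : ContinuousOn (Ipr o m b) (Ici 0) :=
  (continuous_const.mul ((contDiff_sn b).continuous.pow m)).comp_continuousOn (Prof_rad_cont ho)

theorem hasDerivAt_Ipr (ho : 0 < o) (hρ : 0 < ρ) :
    HasDerivAt (Ipr o m b) (m * hh b ρ) (Vm o m b ρ) := by
  have h1 : HasDerivAt (Vm o m b) (Am o m b ρ) (rad o m b (Vm o m b ρ)) := by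
    rw [rad_Vm ho hρ.le]
    exact Prof_der o m b ρ
  have h2 := h1.of_local_left_inverse (Prof_rad_at ho hρ) (Am_pos ho hρ).ne' (by
    filter_upwards [Ici_mem_nhds (Vm_pos (m := m) (b := b) ho hρ)] with V hV
    exact (rad_spec ho hV).2)
  have h3 : HasDerivAt (Am o m b) ((m + 1) * o * (m * sn b ρ ^ (m - 1) * cs b ρ))
      (rad o m b (Vm o m b ρ)) := by
    rw [rad_Vm ho hρ.le]
    exact ((hasDerivAt_sn b ρ).pow m).const_mul _
  refine (h3.comp _ h2).congr_deriv ?_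
  have h4 := sn_pos b hρ
  rw [Am, hh]
  rcases m with _ | k
  · simp
  · rw [Nat.add_sub_cancel, pow_succ]
    field_simp

theorem Sm_pos (m : ℕ) : 0 < Sm m := integral_sin_pow_pos _

end Vale.Agent.P219
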