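import Vale.Agent.P219.G.Cont
import Vale.Agent.P219.G.Prof
import Vale.Agent.P219.Rigid2

/-!
# Rigidity: the domain is a geodesic ball with model volume element  (TASK)

`int_ball`: `integral_fun_norm_addHaar` for the indicator-truncated radial function.  `rig_ball`: `o` with `L y o = -ρ • ν` (`surj`), `rr y o = ρ`.  For `x` in `B = {rr o x < ρ}`: `x ≠ y`, and `cosK`,
`strictMonoOn_ww` give `cs ρ ww r < sn ρ sn r ca`, so `B ⊆ Ω` a.e.  `Pack.chg` at `o`: `Φ '' B = ball 0 ρ` (`surj`), so `Vm ρ = ∫ x in B, iota o x * wt (G x) ≤ vol B ≤ vol Ω = Vm ρ` (`iota_le_one`).  Hence `Ω =ᵐ B`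
(`wt > 0`; `setIntegral_eq_zero_iff_of_nonneg_ae` on `Ω \ B`) and `iota o x = 1` a.e. on `B`, so everywhere on the open set `B \ {o}` (`continuousOn_iota`, `Measure.eqOn_open_of_ae_eq`).  `rigid2_image` for `Φ`
(stated for radius one: adapt its proof, or rescale `Φ`) gives `Φ '' Ω = ball 0 ρ`, so `Ω = B`.
-/

namespace Vale.Agent.P219

open scoped ContDiff Topology RealInnerProductSpace ENNReal
open MeasureTheory Set Filter Vale.Agent.P255
open St (sn gmod)

variable {E : Type*} [NormedAddCommGroup E] [InnerProductSpace ℝ E] [FiniteDimensional ℝ E]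
  [MeasurableSpace E] [BorelSpace E] {G : E → Bil E} {L : E → E → E} {K : Set E} {m : ℕ} {b : ℝ}
  {ρ ε c H : ℝ} {τ : ℝ → ℝ}

theorem int_ball (hE : Module.finrank ℝ E = m + 1) (b : ℝ) (hρ : 0 < ρ) :
    ∫ v in Metric.ball (0 : E) ρ, (sn b ‖v‖ / ‖v‖) ^ m = Vm (om E) m b ρ := by
  have : Nontrivial E := Module.nontrivial_of_finrank_eq_succ hE
  have e1 : ∫ v in Metric.ball (0 : E) ρ, (sn b ‖v‖ / ‖v‖) ^ m =
      ∫ v : E, (Iio ρ).indicator (fun r => (sn b r / r) ^ m) ‖v‖ := by
    rw [← integral_indicator Metric.isOpen_ball.measurableSet]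
    refine integral_congr_ae (Eventually.of_forall fun v => ?_)
    by_cases hv : ‖v‖ < ρ
    · rw [indicator_of_mem (mem_ball_zero_iff.2 hv)]
      exact (indicator_of_mem (mem_Iio.2 hv) fun r => (sn b r / r) ^ m).symm
    · rw [indicator_of_notMem fun h => hv (mem_ball_zero_iff.1 h)]
      exact (indicator_of_notMem (s := Iio ρ) hv fun r => (sn b r / r) ^ m).symm
  have e2 : ∫ r in Ioi (0 : ℝ), r ^ m • (Iio ρ).indicator (fun r => (sn b r / r) ^ m) r =
      ∫ t in (0 : ℝ)..ρ, sn b t ^ m := by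
    rw [intervalIntegral.integral_of_le hρ.le, integral_Ioc_eq_integral_Ioo, ← Ioi_inter_Iio,
      ← setIntegral_indicator measurableSet_Iio]
    refine setIntegral_congr_fun measurableSet_Ioi fun r hr => ?_
    by_cases hv : r < ρ
    · simp only [indicator_of_mem (mem_Iio.2 hv), smul_eq_mul]
      rw [← mul_pow, mul_div_cancel₀ _ (ne_of_gt hr)]
    · simp only [indicator_of_notMem (s := Iio ρ) hv, smul_zero]
  rw [e1, integral_fun_norm_addHaar, hE, Nat.add_sub_cancel, e2, Vm, nsmul_eq_mul, smul_eq_mul,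
    mul_assoc, Nat.cast_succ]
  rfl

theorem PackK.rig_ball (hE : Module.finrank ℝ E = m + 1) (hP : PackK b G L) (hρ : 0 < ρ)
    {Ω : Set E} (ho : IsOpen Ω) (hb : Bornology.IsBounded Ω) (hreg : interior (closure Ω) = Ω)
    (hV : vol G Ω = Vm (om E) m b ρ) {y ν : E} (hν : G y ν ν = 1)
    (h : ∀ᵐ x, hh b ρ * ww b (rr G L y x) < sn b (rr G L y x) * ca G L y x ν → x ∈ Ω) :
    ∃ o, Ω = {x | rr G L o x < ρ} ∧ ∀ x ∈ Ω, x ≠ o → iota m b G L o x = 1 := by
  have hQ := hP.toPack
  obtain ⟨o, hoy⟩ := hP.surj y (-ρ • ν)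
  have r1 : rr G L y o = ρ := by
    rw [rr, qq, hoy, map_smul, map_smul, smul_apply, hν, smul_eq_mul, smul_eq_mul, mul_one,
      neg_mul_neg, Real.sqrt_mul_self hρ.le]
  have n1 : o ≠ y := (hQ.ne_of_rr_pos (r1.symm ▸ hρ)).symm
  have cr : Continuous (rr G L o) := hQ.continuous_rr.comp (Continuous.prodMk_right o)
  have oB : IsOpen {x | rr G L o x < ρ} := isOpen_lt cr continuous_const
  have s1 : ∀ x, rr G L o x < ρ →
      hh b ρ * ww b (rr G L y x) < sn b (rr G L y x) * ca G L y x ν := by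
    intro x hx
    have n2 : x ≠ y := by
      rintro rfl
      rw [hQ.rr_symm, r1] at hx
      exact lt_irrefl _ hx
    have h1 := hP.cosK y o x n1 n2
    have h2 := strictMonoOn_ww b (rr_nonneg G L o x) hρ.le hx
    have h3 := sn_pos b hρ
    have h4 : sn b ρ / ρ * (sn b (rr G L y x) / rr G L y x) * G y (-ρ • ν) (L y x) =
        sn b (rr G L y x) * ca G L y x ν * sn b ρ := by
      rw [ca, map_smul, smul_apply, smul_eq_mul]
      field_simp
    rw [r1, hoy, h4] at h1
    rw [hh, div_mul_eq_mul_div, div_lt_iff₀ h3]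
    linarith
  have s2 : {x | rr G L o x < ρ} ⊆ Ω := by
    rw [← hreg]
    refine interior_maximal (sdiff_eq_empty.1
      ((oB.sdiff isClosed_closure).eq_empty_of_measure_zero (μ := volume) ?_)) oB
    refine measure_eq_zero_iff_ae_notMem.2 ?_
    filter_upwards [h] with x hx hx'
    exact hx'.2 (subset_closure (hx (s1 x hx'.1)))
  obtain ⟨P, h1, -, h3⟩ := hQ.chg o
  have hn : ∀ x, ‖P (L o x)‖ = rr G L o x := fun x => by
    rw [rr, qq, h1, real_inner_self_eq_norm_sq, Real.sqrt_sq (norm_nonneg _)]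
  have w0 : ∀ x, 0 < wt (G x) := fun x => wt_pos (posB_of_loc hQ.loc x)
  have im : (fun x => P (L o x)) '' {x | rr G L o x < ρ} = Metric.ball 0 ρ := by
    refine Subset.antisymm ?_ fun v hv => ?_
    · rintro _ ⟨x, hx, rfl⟩
      rw [mem_ball_zero_iff, hn]
      exact hx
    · obtain ⟨x, hx⟩ := hP.surj o (P.symm v)
      have e : P (L o x) = v := by rw [hx, P.apply_symm_apply]
      refine ⟨x, ?_, e⟩
      rw [mem_ball_zero_iff, ← e, hn] at hv
      exact hv
  have i1 := (h3 _ oB.measurableSet fun v => (sn b ‖v‖ / ‖v‖) ^ m).1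
  have e1 : ∀ x, wt (G o) * |(fderiv ℝ (L o) x).det| * (sn b ‖P (L o x)‖ / ‖P (L o x)‖) ^ m =
      iota m b G L o x * wt (G x) := fun x => by
    rw [hn, iota, div_mul_cancel₀ _ (w0 x).ne', jac, mul_comm]
  simp only [e1, im, int_ball hE b hρ] at i1
  have i2 : IntegrableOn (fun x => iota m b G L o x * wt (G x)) {x | rr G L o x < ρ} :=
    Integrable.of_integral_ne_zero (i1 ▸ (Vm_pos om_pos hρ).ne')
  have i3 := integrableOn_wt hQ.loc hb
  have i4 : 0 ≤ᵐ[volume.restrict {x | rr G L o x < ρ}]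
      fun x => wt (G x) - iota m b G L o x * wt (G x) := by
    have : Nontrivial E := Module.nontrivial_of_finrank_eq_succ hE
    filter_upwards [ae_restrict_of_ae (Measure.ae_ne volume o)] with x hx
    exact sub_nonneg.2 (mul_le_of_le_one_left (w0 x).le (hP.iota_le_one hE hx.symm))
  have i5 := integral_nonneg_of_ae i4
  have i6 := integral_sub (i3.mono_set s2) i2
  have oU : IsOpen (Ω ∩ {x | ρ < rr G L o x}) := ho.inter (isOpen_lt continuous_const cr)
  have i7 : vol G {x | rr G L o x < ρ} + vol G (Ω ∩ {x | ρ < rr G L o x}) ≤ vol G Ω := by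
    have dj : Disjoint {x | rr G L o x < ρ} (Ω ∩ {x | ρ < rr G L o x}) :=
      disjoint_left.2 fun x hx hx' => lt_asymm (show rr G L o x < ρ from hx) hx'.2
    rw [vol, vol, ← setIntegral_union dj oU.measurableSet
      (i3.mono_set s2) (i3.mono_set inter_subset_left)]
    exact setIntegral_mono_set i3 (Eventually.of_forall fun x => (w0 x).le)
      (union_subset s2 inter_subset_left).eventuallyLE
  rw [← i1, ← vol] at i6
  have s3 : Ω ⊆ {x | rr G L o x < ρ} := by
    have u1 : Ω ∩ {x | ρ < rr G L o x} = ∅ := by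
      by_contra hne
      have := vol_pos hQ.loc oU (hb.subset inter_subset_left) (nonempty_iff_ne_empty.2 hne)
      linarith
    have u2 : (fun x => P (L o x)) '' Ω ⊆ Metric.ball 0 ρ := by
      rw [← interior_closedBall 0 hρ.ne']
      refine interior_maximal ?_ ((hQ.diffeo o P).isOpenMap Ω ho)
      rintro _ ⟨x, hx, rfl⟩
      rw [mem_closedBall_zero_iff, hn]
      exact not_lt.1 fun h' => (eq_empty_iff_forall_notMem.1 u1 x) ⟨hx, h'⟩
    intro x hx
    have u3 := u2 (mem_image_of_mem _ hx)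
    rw [mem_ball_zero_iff, hn] at u3
    exact u3
  have hΩ := Subset.antisymm s3 s2
  refine ⟨o, hΩ, fun x hx hxo => ?_⟩
  have j1 := (integral_eq_zero_iff_of_nonneg_ae i4 ((i3.mono_set s2).sub i2)).1
    (by rw [i6, ← hΩ, hV, sub_self])
  refine Measure.eqOn_open_of_ae_eq (μ := volume) (f := iota m b G L o) (g := fun _ => 1)
    (U := {x | rr G L o x < ρ} \ {o}) ?_ (oB.sdiff isClosed_singleton) ?_ continuousOn_const
    ⟨s3 hx, hxo⟩
  · filter_upwards [ae_restrict_of_ae_restrict_of_subset sdiff_subset j1] with z hz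
    exact mul_right_cancel₀ (w0 z).ne' ((sub_eq_zero.1 hz).symm.trans (one_mul _).symm)
  · exact (hQ.continuousOn_iota (m := m) (b := b)).comp (f := fun z => (o, z))
      (Continuous.prodMk_right o).continuousOn fun z hz => Ne.symm hz.2

end Vale.Agent.P219
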