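import Vale.Agent.P219.G.Iota
import Vale.Agent.P219.Rigid2

/-!
# Rigidity: the isometry  (TASK)

`P` from `exists_sqrt` for `G o`, `Φ x = P (L o x)` is a smooth bijection of `E` (`Pack.diffeo`, `surj`), `ψ` its smooth inverse (`rigid2_inv`, `Diffeo.isOpenMap`), `‖Φ x‖ = rr o x`.  For `x ≠ o` in the ball
`eq_of_wt_eq` with `contrK`, `iota_eq` gives `G x u v = G o (Cm o x u) (Cm o x v)`.  With `z = Φ x`, `u' = fderiv Φ x u`: `G x (L x o) u = -⟪z, u'⟫` (`mixed`, `radial`), so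
`P (Cm o x u) = (s/r) • u' + ((1 - s/r) ⟪z, u'⟫ / r²) • z`; expand the inner product.  At `z = 0`: `fderiv_self`.  `fderiv Φ (ψ z) ∘ fderiv ψ z = id`.
-/

namespace Vale.Agent.P219

open scoped ContDiff Topology RealInnerProductSpace ENNReal
open MeasureTheory Set Filter Vale.Agent.P255
open St (sn gmod)

variable {E : Type*} [NormedAddCommGroup E] [InnerProductSpace ℝ E] [FiniteDimensional ℝ E]
  [MeasurableSpace E] [BorelSpace E] {G : E → Bil E} {L : E → E → E} {K : Set E} {m : ℕ} {b : ℝ}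
  {ρ ε c H : ℝ} {τ : ℝ → ℝ}

omit [FiniteDimensional ℝ E] [MeasurableSpace E] [BorelSpace E] in
theorem rig2_norm {o : E} {P : E ≃L[ℝ] E} (hG : ∀ u v, G o u v = ⟪P u, P v⟫)
    (x : E) : ‖P (L o x)‖ = rr G L o x := by
  rw [rr, qq, hG, real_inner_self_eq_norm_sq, Real.sqrt_sq (norm_nonneg _)]

omit [MeasurableSpace E] [BorelSpace E] in
theorem rig2_pt (hE : Module.finrank ℝ E = m + 1) (hP : PackK b G L) {o : E} {P : E ≃L[ℝ] E}
    (hG : ∀ u v, G o u v = ⟪P u, P v⟫) {x : E} (h : x ≠ o → iota m b G L o x = 1) (u v : E) :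
    G x u v = gmod b (P (L o x)) (P (fderiv ℝ (L o) x u)) (P (fderiv ℝ (L o) x v)) := by
  by_cases hx : x = o
  · rw [hx, hP.self, map_zero, gmod, if_pos rfl, hP.toPack.fderiv_self, hG]
    rfl
  have hr := hP.toPack.rr_pos hx
  have hn := rig2_norm (L := L) hG x
  have h1 := h hx
  rw [hP.toPack.iota_eq hE (Ne.symm hx), div_eq_one_iff_eq (wt_pos (posB_of_loc hP.loc x)).ne'] at h1
  have h2 : ∀ k, G x (L x o) k = -⟪P (fderiv ℝ (L o) x k), P (L o x)⟫ := fun k => by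
    rw [← hG, hP.toPack.mixed, hP.radial, map_neg, neg_apply, neg_neg]
  rw [← eq_of_wt_eq (posB_of_loc hP.loc o) (posB_of_loc hP.loc x) (hP.contrK o x (Ne.symm hx)) h1,
    hG, iota_Cm_apply, iota_Cm_apply, h2, h2, gmod,
    if_neg fun e => hr.ne' (by rw [← hn, e, norm_zero]), hn]
  simp only [map_sub, map_smul, inner_sub_left, inner_sub_right, real_inner_smul_left,
    real_inner_smul_right, real_inner_self_eq_norm_sq, hn,
    real_inner_comm (P (fderiv ℝ (L o) x v)) (P (L o x))]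
  field_simp
  ring

omit [MeasurableSpace E] [BorelSpace E] in
theorem PackK.rig_isom (hE : Module.finrank ℝ E = m + 1) (hP : PackK b G L) (o : E)
    (h : ∀ x, rr G L o x < ρ → x ≠ o → iota m b G L o x = 1) :
    ∃ ψ : E → E, BijOn ψ (Metric.ball 0 ρ) {x | rr G L o x < ρ} ∧ ContDiff ℝ ∞ ψ ∧
      ∀ z ∈ Metric.ball (0 : E) ρ, ∀ u v,
        G (ψ z) (fderiv ℝ ψ z u) (fderiv ℝ ψ z v) = gmod b z u v := by
  obtain ⟨P, hG, -⟩ := exists_sqrt (posB_of_loc hP.loc o)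
  have hΨ := hP.toPack.diffeo o P
  have hL : ContDiff ℝ ∞ (L o) := hP.smooth.comp (contDiff_const.prodMk contDiff_id)
  obtain ⟨φ, hφ, hφs⟩ := rigid2_inv hΨ hΨ.isOpenMap (P.contDiff.comp hL)
  have hs : Function.Surjective fun x => P (L o x) := P.surjective.comp (hP.surj o)
  have hr : ∀ z, P (L o (φ z)) = z := hs.forall.2 fun x => by rw [hφ]
  have hn : ∀ z, rr G L o (φ z) = ‖z‖ := fun z => by rw [← rig2_norm hG, hr]
  have hc : ContDiff ℝ ∞ φ := contDiff_iff_contDiffAt.2 (hs.forall.2 hφs)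
  refine ⟨φ, ⟨fun z hz => (hn z).trans_lt (mem_ball_zero_iff.1 hz),
    fun z _ z' _ e => by rw [← hr z, e, hr], fun x hx => ⟨P (L o x), mem_ball_zero_iff.2
      ((rig2_norm hG x).trans_lt hx), hφ x⟩⟩, hc, fun z hz u v => ?_⟩
  have d1 : HasFDerivAt (fun w => P (L o (φ w))) _ z := P.hasFDerivAt.comp z
    ((hL.differentiable (by simp) (φ z)).hasFDerivAt.comp z
      (hc.differentiable (by simp) z).hasFDerivAt)
  rw [funext hr] at d1
  have d2 : ∀ k, P (fderiv ℝ (L o) (φ z) (fderiv ℝ φ z k)) = k :=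
    fun k => DFunLike.congr_fun (d1.unique (hasFDerivAt_id z)) k
  rw [rig2_pt hE hP hG (h _ ((hn z).trans_lt (mem_ball_zero_iff.1 hz))), hr, d2, d2]

end Vale.Agent.P219
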