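import Vale.Agent.P219.G.PInit
import Vale.Agent.P219.G.Ineq
import Vale.Agent.P219.G.Conv
import Vale.Agent.P219.G.Rig1
import Vale.Agent.P219.G.Rig2
import Vale.Agent.P219.G.GeoCos
import Vale.Agent.P219.Red2

/-!
# Assembly
-/

namespace Vale.Agent.P219

open scoped ContDiff Topology RealInnerProductSpace ENNReal Manifold
open MeasureTheory Set Filter Vale.Agent.P255
open St (sn gmod)

variable {n : ℕ} {M : Type*} [TopologicalSpace M] [ChartedSpace (Euc n) M]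
  [IsManifold 𝓘(ℝ, Euc n) ∞ M] {g : Metric (Euc n) M} {φ : Euc n → M} {G : Euc n → Bil (Euc n)}

omit [IsManifold 𝓘(ℝ, Euc n) ∞ M] in
theorem secLe_npc {κ : ℝ} (hκ : κ ≤ 0) (hK : St.SecLe g κ) : g.NPC := fun e he y hy u v =>
  (hK e he y hy u v).trans
    (mul_nonpos_of_nonpos_of_nonneg hκ (sub_nonneg.2 ((g.loc he).sq_le hy u v)))

theorem GChart.chk (h : GChart g φ G) (hc : Complete g) {κ : ℝ} (hκ : κ ≤ 0)
    (hK : St.SecLe g κ) : CHK (√(-κ)) G := by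
  refine ⟨h.ch hc (secLe_npc hκ hK), fun y u v => ?_⟩
  have he := chart_mem_atlas (Euc n) (φ y)
  have hy := mem_chart_source (Euc n) (φ y)
  rw [Real.sq_sqrt (neg_nonneg.2 hκ), neg_neg, h.metric _ he y hy, h.metric _ he y hy u u,
    h.metric _ he y hy v v, h.metric _ he y hy u v,
    riem_transform h.loc (g.loc he) (mem_univ y) (mem_chart_target _ _)
      ((h.smooth _ he y hy).of_le (by norm_cast)) ?_]
  · exact hK _ he _ (mem_chart_target _ _) _ _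
  · filter_upwards [h.homeo.continuous.continuousAt.preimage_mem_nhds
      (chart_source_mem_nhds (Euc n) (φ y))] with z hz using h.metric _ he z hz

theorem mainG3 {m : ℕ} (hm : 2 ≤ m) {κ : ℝ} (hκ : κ ≤ 0)
    (hC : ∀ (G : Euc (m + 1) → Bil (Euc (m + 1))) (L : Euc (m + 1) → Euc (m + 1) → Euc (m + 1)),
      PackK (√(-κ)) G L → ∀ c, 0 < c → ∀ ρ, 0 < ρ → CoreP m (√(-κ)) G L c ρ) {M : Type*} [TopologicalSpace M] [ChartedSpace (Euc (m + 1)) M]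
    [IsManifold 𝓘(ℝ, Euc (m + 1)) ∞ M] [T2Space M] [SimplyConnectedSpace M]
    (g : Metric (Euc (m + 1)) M) (hc : Complete g) (hK : St.SecLe g κ) (Ω : Set M)
    (hΩ : IsDomain (m + 1) Ω) :
    ∃ r : ℝ, 0 ≤ r ∧ rmeas g (m + 1) Ω = ENNReal.ofReal (St.ballVol (m + 1) κ r) ∧
      ENNReal.ofReal (St.ballArea (m + 1) κ r) ≤ rmeas g m (frontier Ω) ∧
      (Ω.Nonempty → rmeas g m (frontier Ω) = ENNReal.ofReal (St.ballArea (m + 1) κ r) →
        ∃ ψ : Euc (m + 1) → M, BijOn ψ (Metric.ball 0 r) Ω ∧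
          ContMDiffOn 𝓘(ℝ, Euc (m + 1)) 𝓘(ℝ, Euc (m + 1)) ∞ ψ (Metric.ball 0 r) ∧
          ∀ z ∈ Metric.ball (0 : Euc (m + 1)) r, ∀ u v, pull g ψ z u v = gmod (√(-κ)) z u v) := by
  obtain ⟨φ, G, h⟩ := exists_gchart hc (secLe_npc hκ hK)
  set b := √(-κ) with hb
  obtain ⟨L, hP⟩ := (h.chk hc hκ hK).exists_packK
  have hD := h.edom hΩ
  have e1 : φ '' (φ ⁻¹' Ω) = Ω := image_preimage_eq _ h.homeo.surjective
  have e2 : φ '' frontier (φ ⁻¹' Ω) = frontier Ω := by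
    rw [← h.homeo.isOpenMap.preimage_frontier_eq_frontier_preimage h.homeo.continuous,
      image_preimage_eq _ h.homeo.surjective]
  have e3 : rmeas g (m + 1) Ω = ENNReal.ofReal (vol G (φ ⁻¹' Ω)) := by
    rw [← h.rmeas_eq hD.isOpen hD.bdd, e1]
  have eo : St.omega (m + 1) = om (Euc (m + 1)) := by
    rw [St.omega, om, ball_zero_eq]
  have eV : ∀ r, St.ballVol (m + 1) κ r = Vm (om (Euc (m + 1))) m b r := fun r => by
    rw [St.ballVol, Vm, eo, Nat.add_sub_cancel, Nat.cast_succ]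
  have eA : ∀ r, St.ballArea (m + 1) κ r = Am (om (Euc (m + 1))) m b r := fun r => by
    rw [St.ballArea, Am, eo, Nat.add_sub_cancel, Nat.cast_succ]
  have ho := om_pos (E := Euc (m + 1))
  have hv := vol_nonneg G (φ ⁻¹' Ω)
  obtain ⟨r0, r1⟩ := rad_spec (m := m) (b := b) ho hv
  set r := rad (om (Euc (m + 1))) m b (vol G (φ ⁻¹' Ω)) with hr
  have eI : Am (om (Euc (m + 1))) m b r = Ipr (om (Euc (m + 1))) m b (vol G (φ ⁻¹' Ω)) := rfl
  refine ⟨r, r0, by rw [e3, eV, r1], ?_⟩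
  rw [eA]
  rcases Ω.eq_empty_or_nonempty with rfl | hne
  · refine ⟨?_, fun h => absurd h not_nonempty_empty⟩
    have h0 : vol G (φ ⁻¹' (∅ : Set M)) = 0 := by simp [vol]
    rw [eI, h0, Ipr_zero ho (by omega), ENNReal.ofReal_zero]
    exact zero_le
  have hne' : (φ ⁻¹' Ω).Nonempty := hne.preimage h.homeo.surjective
  obtain ⟨k, Θ, Θ', U, χ₀, χ, hCo⟩ := hD.exists_coverG
  obtain ⟨D₀, hDΩ₀, hA⟩ := hCo.exists_dom hD hne'
  obtain ⟨S, h1, h2, h3⟩ := hCo.area_le h.loc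
  have hE : Module.finrank ℝ (Euc (m + 1)) = m + 1 := finrank_euclideanSpace_fin
  obtain ⟨c, hc0, hcK⟩ := hP.toPack.exists_KB D₀.isCompact_closure
  obtain ⟨D, hDΩ, hDA⟩ := D₀.exists_ndom h.loc (hP.toPack.isCompact_KB c) hcK
  rw [hDΩ₀] at hDΩ
  have hDV : D.V = vol G (φ ⁻¹' Ω) := by rw [NDom.V, hDΩ]
  have h4 : ENNReal.ofReal D.A ≤ rmeas g m (frontier Ω) := by
    rw [hDA, hA G h.loc, ← e2]
    exact h3.trans (h.le_rmeas h1 h2)
  have h5 := ineq_gen hE hm hP.toPack (hC G L hP c hc0) hc0 D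
  rw [hDV, ← eI] at h5
  refine ⟨(ENNReal.ofReal_le_ofReal h5).trans h4, fun _ heq => ?_⟩
  have hrp : 0 < r := by
    refine r0.lt_of_ne fun h0 => ?_
    rw [← h0, Vm_zero] at r1
    exact (vol_pos h.loc hD.isOpen hD.bdd hne').ne r1
  rw [heq, ENNReal.ofReal_le_ofReal_iff (Am_pos ho hrp).le] at h4
  obtain ⟨y, ν, hν, hae⟩ := rigid_gen hE hm hP.toPack (hC G L hP c hc0) hc0 D hrp (hDV.trans r1.symm)
    (le_antisymm h4 h5)
  rw [hDΩ] at hae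
  obtain ⟨o, hB, hι⟩ := hP.rig_ball hE hrp hD.isOpen hD.bdd hD.interior_closureG r1.symm hν hae
  obtain ⟨ψ, b1, b2, b3⟩ := hP.rig_isom (ρ := r) hE o fun x hx => hι x (by rw [hB]; exact hx)
  refine ⟨φ ∘ ψ, ?_, fun z _ =>
    (h.contMDiffAt_comp (m := ⊤) b2.contDiffAt).contMDiffWithinAt, fun z hz u v => ?_⟩
  · rw [← hB] at b1
    rw [← e1]
    exact h.homeo.injective.injOn.bijOn_image.comp b1
  · rw [h.pull_comp (b2.differentiable (by simp) z), b3 z hz]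

theorem mainG {m : ℕ} (hm : 2 ≤ m) {κ : ℝ} (hκ : κ ≤ 0)
    (hC : ∀ (G : Euc (m + 1) → Bil (Euc (m + 1))) (L : Euc (m + 1) → Euc (m + 1) → Euc (m + 1)),
      PackK (√(-κ)) G L → ∀ c ρ, 0 < ρ → CoreP m (√(-κ)) G L c ρ) {M : Type*} [TopologicalSpace M] [ChartedSpace (Euc (m + 1)) M]
    [IsManifold 𝓘(ℝ, Euc (m + 1)) ∞ M] [T2Space M] [SimplyConnectedSpace M]
    (g : Metric (Euc (m + 1)) M) (hc : Complete g) (hK : St.SecLe g κ) (Ω : Set M)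
    (hΩ : IsDomain (m + 1) Ω) :
    ∃ r : ℝ, 0 ≤ r ∧ rmeas g (m + 1) Ω = ENNReal.ofReal (St.ballVol (m + 1) κ r) ∧
      ENNReal.ofReal (St.ballArea (m + 1) κ r) ≤ rmeas g m (frontier Ω) ∧
      (Ω.Nonempty → rmeas g m (frontier Ω) = ENNReal.ofReal (St.ballArea (m + 1) κ r) →
        ∃ ψ : Euc (m + 1) → M, BijOn ψ (Metric.ball 0 r) Ω ∧
          ContMDiffOn 𝓘(ℝ, Euc (m + 1)) 𝓘(ℝ, Euc (m + 1)) ∞ ψ (Metric.ball 0 r) ∧
          ∀ z ∈ Metric.ball (0 : Euc (m + 1)) r, ∀ u v, pull g ψ z u v = gmod (√(-κ)) z u v) :=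
  mainG3 hm hκ (fun G L hP c _ => hC G L hP c) g hc hK Ω hΩ

theorem coreN {m : ℕ} (hm : 2 ≤ m) {b ρ : ℝ} (hρ : 0 < ρ) (hN : Nonempty (NCert m (gam b ρ)))
    {G : Euc (m + 1) → Bil (Euc (m + 1))} {L : Euc (m + 1) → Euc (m + 1) → Euc (m + 1)}
    (hP : PackK b G L) (c : ℝ) : CoreP m b G L c ρ :=
  hN.elim fun N => (N.exists_cert hm hρ).elim fun C =>
    hP.coreP finrank_euclideanSpace_fin hm hρ C c

end Vale.Agent.P219
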