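import Vale.Agent.P219.G.Cont
import Vale.Agent.P219.G.Dist

/-!
# Nonlocal perimeter: first divergence theorem

`Wf x e y = (G y).inverse ((G x e).comp (fderiv (L x) y))` is jointly smooth in `(x, e, y)` (`ContinuousLinearMap.IsInvertible.contDiffAt_map_inverse`, `LocMetric.loc_inv`), `G y ν (Wf) = G x e (fderiv (L x) y ν)` has
absolute value `≤ 1` for unit vectors (`contr`, `PosB.sq_le`).  Apply `div_wt` to `Z y = ψ (rr x y) • Wf x e y` (`C¹`: zero near `x`).  `covD_smul`, `trc_smulRight`, `hasFDerivAt_rr`: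
`trc (covD Z) = ψ trc (covD Wf) + ψ' * (-r⁻¹ G y (L y x) Wf)` and `G y (L y x) Wf = G x e (fderiv (L x) y (L y x)) = -G x e (L x y)` (`radial`).  `wt * trc (covD (Wf x e) y)` is continuous in `(x, e, y)`, so
bounded on `UB G K ×ˢ K`; `vol_ball`.
-/

namespace Vale.Agent.P219

open scoped ContDiff Topology RealInnerProductSpace ENNReal
open MeasureTheory Set Filter Vale.Agent.P255
open St (sn gmod)

variable {E : Type*} [NormedAddCommGroup E] [InnerProductSpace ℝ E] [FiniteDimensional ℝ E]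
  [MeasurableSpace E] [BorelSpace E] {G : E → Bil E} {L : E → E → E} {K : Set E} {m : ℕ} {b : ℝ}
  {ρ ε c H : ℝ} {τ : ℝ → ℝ}

/-- The radial profiles used for the nonlocal perimeter. -/
structure Bump (ψ : ℝ → ℝ) (M ε : ℝ) : Prop where
  smooth : ContDiff ℝ 2 ψ
  mem : ∀ r, 0 ≤ ψ r ∧ ψ r ≤ M
  zero : ∃ α : ℝ, 0 < α ∧ ∀ r, r ≤ α → ψ r = 0
  far : ∀ r, ε ≤ r → ψ r = 0

omit [MeasurableSpace E] [BorelSpace E] in
theorem fluxA_zero (hP : Pack G L) {ψ : ℝ → ℝ} {M : ℝ} (h : Bump ψ M ε) (x : E) :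
    (fun y => ψ (rr G L x y)) =ᶠ[𝓝 x] (fun _ => 0) ∧ deriv ψ (rr G L x x) = 0 := by
  obtain ⟨α, hα, h0⟩ := h.zero
  have h1 : ψ =ᶠ[𝓝 (rr G L x x)] fun _ => 0 := by
    rw [hP.rr_self]
    exact (eventually_le_nhds hα).mono h0
  exact ⟨(hP.continuous_rr.comp (continuous_const.prodMk continuous_id)).continuousAt.eventually h1,
    by rw [h1.deriv_eq, deriv_const]⟩

omit [MeasurableSpace E] [BorelSpace E] in
theorem fluxA_fderiv (hP : Pack G L) {ψ : ℝ → ℝ} {M : ℝ} (h : Bump ψ M ε) (x y : E) :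
    HasFDerivAt (fun y => ψ (rr G L x y))
      (deriv ψ (rr G L x y) • -(rr G L x y)⁻¹ • G y (L y x)) y := by
  rcases eq_or_ne x y with rfl | hy
  · rw [(fluxA_zero hP h x).2, zero_smul]
    exact (hasFDerivAt_const _ _).congr_of_eventuallyEq (fluxA_zero hP h x).1
  · exact (h.smooth.differentiable two_ne_zero _).hasDerivAt.comp_hasFDerivAt y
      (hP.hasFDerivAt_rr hy)

omit [MeasurableSpace E] [BorelSpace E] in
theorem fluxA_smooth (hP : Pack G L) {ψ : ℝ → ℝ} {M : ℝ} (h : Bump ψ M ε) (x : E) :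
    ContDiff ℝ 1 fun y => ψ (rr G L x y) := contDiff_iff_contDiffAt.2 fun y => by
  rcases eq_or_ne x y with rfl | hy
  · exact contDiffAt_const.congr_of_eventuallyEq (fluxA_zero hP h x).1
  · exact (h.smooth.of_le one_le_two).contDiffAt.comp y
      (((hP.contDiffAt_rr hy).of_le (by simp)).comp y (contDiffAt_const.prodMk contDiffAt_id))

omit [FiniteDimensional ℝ E] [MeasurableSpace E] [BorelSpace E] in
theorem fluxA_W (hP : Pack G L) :
    ContDiff ℝ 1 fun z : (E × E) × E => fderiv ℝ (L z.2) z.1.1 z.1.2 :=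
  (ContDiff.fderiv (f := fun (z : (E × E) × E) w => L z.2 w) (m := ∞)
    (hP.smooth.comp (contDiff_fst.snd.prodMk contDiff_snd)) contDiff_fst.fst chg_two).clm_apply
    contDiff_fst.snd

omit [MeasurableSpace E] [BorelSpace E] in
theorem fluxA_T (hP : Pack G L) : Continuous fun z : (E × E) × E =>
    wt (G z.2) * trc (covD G (fun y => fderiv ℝ (L y) z.1.1 z.1.2) z.2) := by
  have h1 : Continuous (chrL G) := (contDiffOn_univ.1 hP.loc.contDiffOn_chrL).continuous
  have h2 : Continuous fun y => (chrL G y).flip :=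
    (ContinuousLinearMap.flipₗᵢ ℝ E E E).continuous.comp h1
  refine ((contDiff_wt hP.loc).continuous.comp continuous_snd).mul (continuous_trc.comp
    (Continuous.add ?_ ((h2.comp continuous_snd).clm_apply (fluxA_W hP).continuous)))
  exact Continuous.fderiv (f := fun (z : (E × E) × E) y => fderiv ℝ (L y) z.1.1 z.1.2)
    ((fluxA_W hP).comp (contDiff_fst.fst.prodMk contDiff_snd)) continuous_snd le_rfl

theorem Pack.fluxA (hE : Module.finrank ℝ E = m + 1) (hP : Pack G L) (hK : IsCompact K) :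
    ∃ C : ℝ, 0 < C ∧ ∀ (D : NDom G K) (ψ : ℝ → ℝ) (M ε : ℝ), Bump ψ M ε → 0 < ε → ε ≤ 1 →
      ∀ x e, (x, e) ∈ UB G K →
        ∫ y in D.Ω, deriv ψ (rr G L x y) * -ca G L x y e * wt (G y) ≤
          ∫ z, ψ (rr G L x z.1) ∂D.μ + C * M * ε ^ (m + 1) := by
  obtain ⟨B, hB⟩ := ((isCompact_UB hP.loc hK).prod hK).exists_bound_of_continuousOn
    (fluxA_T hP).continuousOn
  obtain ⟨C, hC, hv⟩ := hP.vol_ball hE hK
  refine ⟨(|B| + 1) * C, by positivity, fun D ψ M ε hψ h0 h1 x e hx => ?_⟩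
  have hM : 0 ≤ M := (hψ.mem 0).1.trans (hψ.mem 0).2
  have hW : ContDiff ℝ 1 fun y => fderiv ℝ (L y) x e :=
    (fluxA_W hP).comp (contDiff_const.prodMk contDiff_id (f := fun _ => (x, e)))
  have hf := fluxA_smooth hP hψ x
  have hZ : ContDiff ℝ 1 fun y => ψ (rr G L x y) • fderiv ℝ (L y) x e := hf.smul hW
  have hT : Continuous fun y => ψ (rr G L x y) *
      (wt (G y) * trc (covD G (fun y => fderiv ℝ (L y) x e) y)) :=
    hf.continuous.mul ((fluxA_T hP).comp (continuous_const.prodMk continuous_id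
      (f := fun _ => (x, e))))
  have e1 : ∀ y, deriv ψ (rr G L x y) * -ca G L x y e * wt (G y) =
      wt (G y) * trc (covD G (fun y => ψ (rr G L x y) • fderiv ℝ (L y) x e) y) -
        ψ (rr G L x y) * (wt (G y) * trc (covD G (fun y => fderiv ℝ (L y) x e) y)) := fun y => by
    rw [covD_smul (fluxA_fderiv hP hψ x y) (hW.differentiable one_ne_zero y), trc_add, trc_smul,
      trc_smulRight, smul_apply, smul_apply, (posB_of_loc hP.loc y).1, hP.mixed, hP.radial,
      (posB_of_loc hP.loc x).1, map_neg, ca, smul_eq_mul, smul_eq_mul]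
    ring
  have hi : ∀ {f : E → ℝ}, Continuous f → IntegrableOn f D.Ω := fun h =>
    (h.continuousOn.integrableOn_compact hK).mono_set D.sub
  have hs := (measure_mono (inter_subset_right (s := D.Ω))).trans (hv x hx.1 ε h0 h1)
  have e2 := norm_setIntegral_le_of_norm_le_const (C := M * (|B| + 1))
    (hs.trans_lt ENNReal.ofReal_lt_top) (f := fun y => ψ (rr G L x y) *
      (wt (G y) * trc (covD G (fun y => fderiv ℝ (L y) x e) y))) fun y hy => by
      rw [norm_mul, Real.norm_of_nonneg (hψ.mem _).1]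
      exact mul_le_mul (hψ.mem _).2 ((hB (_, y) ⟨hx, D.sub hy.1⟩).trans
        ((le_abs_self B).trans (lt_add_one _).le)) (norm_nonneg _) hM
  rw [← setIntegral_eq_of_subset_of_forall_sdiff_eq_zero D.meas inter_subset_left fun y hy => by
    rw [hψ.far _ (not_le.1 fun h => hy.2 ⟨hy.1, h⟩).le, zero_mul]] at e2
  have e3 := mul_le_mul_of_nonneg_left (ENNReal.toReal_le_of_le_ofReal (by positivity) hs)
    (show 0 ≤ M * (|B| + 1) by positivity)
  have e4 : ∫ z, G z.1 z.2 (ψ (rr G L x z.1) • fderiv ℝ (L z.1) x e) ∂D.μ ≤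
      ∫ z, ψ (rr G L x z.1) ∂D.μ := by
    refine integral_mono_ae (D.integrable hP.loc hK ((((norm_contG hP.loc).comp
      continuous_fst).clm_apply continuous_snd).clm_apply (hZ.continuous.comp continuous_fst)))
      (D.integrable hP.loc hK (hf.continuous.comp continuous_fst)) (D.supp.mono fun z hz => ?_)
    have h2 := (posB_of_loc hP.loc z.1).sq_le z.2 (fderiv ℝ (L z.1) x e)
    have h3 := (hP.contr z.1 x e).trans_eq hx.2
    rw [hz.2, one_mul] at h2
    beta_reduce
    rw [map_smul, smul_eq_mul]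
    exact mul_le_of_le_one_right (hψ.mem _).1 (abs_le_one_iff_mul_self_le_one.2
      ((sq _).symm.trans_le (h2.trans h3)) |> (le_abs_self _).trans)
  simp only [e1]
  have hU : Continuous fun y =>
      wt (G y) * trc (covD G (fun y => ψ (rr G L x y) • fderiv ℝ (L y) x e) y) :=
    (contDiff_wt hP.loc).continuous.mul (continuous_trc.comp (continuous_covD hP.loc hZ))
  rw [integral_sub (hi hU) (hi hT), D.div_wt hP.loc hZ]
  have e5 := (neg_le_abs _).trans (e2.trans e3)
  linarith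

end Vale.Agent.P219
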