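import Vale.Agent.P219.G.FluxA

/-!
# Nonlocal perimeter: second divergence theorem  (TASK)

For fixed `y` let `Z x = (ψ' r / r) • (-L x y)`, `r = rr y x`; it is `C¹` with compact support (`nbhd`).  `div_wt`: the right side of the claim is `-∫ x in Ω, wt trc (covD Z)`, and
`∫ wt trc (covD Z) = 0` over `E` (`integral_dvg_zero`, `dvg_wt`, `integral_add_compl`), so it equals the integral over `Ωᶜ` of
`wt * ((ψ' / r) trc (hs y x) + ψ'' - ψ' / r)` (`covD_smul`, `trc_smulRight`, `hasFDerivAt_rr`).  `trc (hs y x)` is `C¹` in `(y, x)` (`contDiff_hs`), equal to `m + 1` on the diagonal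
(`hs_self`, `trc_id`), so `|trc (hs y x) - (m + 1)| ≤ C ‖x - y‖ ≤ C' r` on `K'` (mean value inequality on a ball containing `K'`, `dist_cmp`).  `setIntegral_mono` (continuous, compact support: `cont_cut`).
-/

namespace Vale.Agent.P219

open scoped ContDiff Topology RealInnerProductSpace ENNReal
open MeasureTheory Set Filter Vale.Agent.P255
open St (sn gmod)

variable {E : Type*} [NormedAddCommGroup E] [InnerProductSpace ℝ E] [FiniteDimensional ℝ E]
  [MeasurableSpace E] [BorelSpace E] {G : E → Bil E} {L : E → E → E} {K : Set E} {m : ℕ} {b : ℝ}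
  {ρ ε c H : ℝ} {τ : ℝ → ℝ}

theorem fluxB_zero {ψ : ℝ → ℝ} {r : ℝ} (h : ψ =ᶠ[𝓝 r] fun _ => 0) :
    (deriv ψ =ᶠ[𝓝 r] fun _ => 0) ∧ deriv ψ r = 0 ∧ deriv (deriv ψ) r = 0 := by
  have h1 : deriv ψ =ᶠ[𝓝 r] fun _ => 0 := h.deriv.trans (by simp)
  exact ⟨h1, h1.eq_of_nhds, by rw [h1.deriv_eq, deriv_const]⟩

theorem fluxB_near {ψ : ℝ → ℝ} {M : ℝ} (h : Bump ψ M ε) : ψ =ᶠ[𝓝 0] fun _ => 0 := by
  obtain ⟨α, hα, h0⟩ := h.zero
  exact (eventually_le_nhds hα).mono h0

theorem fluxB_far {ψ : ℝ → ℝ} {M r : ℝ} (h : Bump ψ M ε) (hr : ε < r) : ψ =ᶠ[𝓝 r] fun _ => 0 :=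
  (eventually_ge_nhds hr).mono h.far

theorem fluxB_d1 {ψ : ℝ → ℝ} {M : ℝ} (h : Bump ψ M ε) : ContDiff ℝ 1 (deriv ψ) :=
  ContDiff.deriv' (n := 1) h.smooth

theorem fluxB_quot {ψ : ℝ → ℝ} {M : ℝ} (h : Bump ψ M ε) :
    ContDiff ℝ 1 fun r => deriv ψ r / r := contDiff_iff_contDiffAt.2 fun r => by
  rcases eq_or_ne r 0 with rfl | hr
  · refine (contDiffAt_const (c := 0)).congr_of_eventuallyEq ?_
    filter_upwards [(fluxB_zero (fluxB_near h)).1] with s hs
    rw [hs, zero_div]
  · exact (fluxB_d1 h).contDiffAt.div contDiffAt_id hr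

omit [MeasurableSpace E] [BorelSpace E] in
theorem fluxB_f0 (hP : Pack G L) {ψ : ℝ → ℝ} {M : ℝ} (h : Bump ψ M ε) (y : E) :
    (fun x => deriv ψ (rr G L y x) / rr G L y x) =ᶠ[𝓝 y] fun _ => 0 := by
  have h1 : deriv ψ =ᶠ[𝓝 (rr G L y y)] fun _ => 0 := by
    rw [hP.rr_self]
    exact (fluxB_zero (fluxB_near h)).1
  filter_upwards [(cont_r hP continuous_const continuous_id).continuousAt.eventually h1] with x hx
  rw [show deriv ψ (rr G L y x) = 0 from hx, zero_div]

omit [MeasurableSpace E] [BorelSpace E] in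
theorem fluxB_smooth (hP : Pack G L) {ψ : ℝ → ℝ} {M : ℝ} (h : Bump ψ M ε) (y : E) :
    ContDiff ℝ 1 fun x => (deriv ψ (rr G L y x) / rr G L y x) • -L x y := by
  refine ContDiff.smul (contDiff_iff_contDiffAt.2 fun x => ?_)
    ((hP.smooth.of_le (by simp)).comp (contDiff_id.prodMk contDiff_const)).neg
  rcases eq_or_ne y x with rfl | hy
  · exact contDiffAt_const.congr_of_eventuallyEq (fluxB_f0 hP h y)
  · exact (fluxB_quot h).contDiffAt.comp x
      (((hP.contDiffAt_rr hy).of_le (by simp)).comp x (contDiffAt_const.prodMk contDiffAt_id))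

omit [MeasurableSpace E] [BorelSpace E] in
theorem fluxB_trc (hP : Pack G L) {ψ : ℝ → ℝ} {M : ℝ} (h : Bump ψ M ε) (y x : E) :
    trc (covD G (fun x => (deriv ψ (rr G L y x) / rr G L y x) • -L x y) x) =
      deriv ψ (rr G L y x) / rr G L y x * (trc (hs G L y x) - 1) +
        deriv (deriv ψ) (rr G L y x) := by
  rcases eq_or_ne y x with rfl | hy
  · rw [covD_smul ((hasFDerivAt_const _ _).congr_of_eventuallyEq (fluxB_f0 hP h y))
      (packl_diff hP y y).fun_neg, trc_add, trc_smul, trc_smulRight, hP.rr_self,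
      (fluxB_zero (fluxB_near h)).2.2]
    simp
  · have hr := (hP.rr_pos hy.symm).ne'
    have d1 := (((fluxB_d1 h).differentiable one_ne_zero _).hasDerivAt.fun_div
      (hasDerivAt_id' _) hr).comp_hasFDerivAt x (hP.hasFDerivAt_rr hy)
    have e : G x (L x y) (L x y) = rr G L y x ^ 2 := by
      rw [hP.rr_symm, hP.rr_sq]
      rfl
    rw [covD_smul (f := fun x => deriv ψ (rr G L y x) / rr G L y x) d1 (packl_diff hP y x).fun_neg,
      trc_add, trc_smul, trc_smulRight, smul_apply, smul_apply, map_neg, e, smul_eq_mul,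
      smul_eq_mul, hs]
    field_simp
    ring

omit [MeasurableSpace E] [BorelSpace E] in
theorem fluxB_lip (hE : Module.finrank ℝ E = m + 1) (hP : Pack G L) (hK : IsCompact K) :
    ∃ C : ℝ, 0 < C ∧ ∀ y ∈ K, ∀ x ∈ K, |trc (hs G L y x) - (m + 1)| ≤ C * rr G L y x := by
  obtain ⟨C, hC, h1⟩ := hP.dist_cmp hK
  obtain ⟨R, hR⟩ := (hK.prod hK).isBounded.subset_closedBall 0
  have hT : ContDiff ℝ 1 fun z : E × E => trc (hs G L z.1 z.2) :=
    (contDiff_trc.of_le (by simp)).comp hP.contDiff_hs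
  obtain ⟨B, hB⟩ := (isCompact_closedBall (0 : E × E) R).exists_bound_of_continuousOn
    (hT.continuous_fderiv one_ne_zero).continuousOn
  refine ⟨(|B| + 1) * C, by positivity, fun y hy x hx => ?_⟩
  have k := (convex_closedBall (0 : E × E) R).norm_image_sub_le_of_norm_fderiv_le
    (fun z _ => hT.differentiable one_ne_zero z)
    (fun z hz => (hB z hz).trans ((le_abs_self B).trans (lt_add_one _).le))
    (hR (mk_mem_prod hy hy)) (hR (mk_mem_prod hy hx))
  rw [hP.hs_self, trc_id hE, Prod.mk_sub_mk, sub_self, Prod.norm_mk, norm_zero,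
    max_eq_right (norm_nonneg _), norm_sub_rev] at k
  rw [abs_sub_comm, mul_assoc]
  exact k.trans (mul_le_mul_of_nonneg_left (by rw [norm_sub_rev]; exact (h1 y hy x hx).1)
    (by positivity))

theorem Pack.fluxB (hE : Module.finrank ℝ E = m + 1) (hP : Pack G L) (hK : IsCompact K) :
    ∃ C : ℝ, 0 < C ∧ ∀ (D : NDom G K) (ψ : ℝ → ℝ) (M ε : ℝ), Bump ψ M ε → ε ≤ 1 → ∀ y ∈ K,
      ∫ x in D.Ωᶜ, (deriv (deriv ψ) (rr G L x y) + m * deriv ψ (rr G L x y) / rr G L x y -
          C * |deriv ψ (rr G L x y)|) * wt (G x) ≤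
        ∫ z, deriv ψ (rr G L z.1 y) * -ca G L z.1 y z.2 ∂D.μ := by
  obtain ⟨K', hK', hKK, hn⟩ := hP.nbhd hK 1
  obtain ⟨C, hC, hl⟩ := fluxB_lip hE hP hK'
  refine ⟨C, hC, fun D ψ M ε hψ h1 y hy => ?_⟩
  have hZ := fluxB_smooth hP hψ y
  have hw := contDiff_wt hP.loc
  have far : ∀ x ∉ K', deriv ψ (rr G L y x) = 0 ∧ deriv (deriv ψ) (rr G L y x) = 0 := fun x hx =>
    (fluxB_zero (fluxB_far hψ (h1.trans_lt (not_le.1 fun h => hx
      (hn y hy x (hP.rr_symm y x ▸ h)))))).2
  have cr : Continuous fun x => rr G L y x := cont_r hP continuous_const continuous_id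
  have iU : Integrable fun x =>
      wt (G x) * trc (covD G (fun x => (deriv ψ (rr G L y x) / rr G L y x) • -L x y) x) :=
    (hw.continuous.mul (continuous_trc.comp (continuous_covD hP.loc hZ))).integrable_of_hasCompactSupport
      (HasCompactSupport.intro hK' fun x hx => by
        rw [Pi.mul_apply, Function.comp_apply, fluxB_trc hP hψ, (far x hx).1, (far x hx).2]
        simp)
  have iL : Integrable fun x => (deriv (deriv ψ) (rr G L y x) +
      m * (deriv ψ (rr G L y x) / rr G L y x) - C * |deriv ψ (rr G L y x)|) * wt (G x) :=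
    Continuous.integrable_of_hasCompactSupport ((((((fluxB_d1 hψ).continuous_deriv le_rfl).comp
      cr).add (continuous_const.mul ((fluxB_quot hψ).continuous.comp cr))).sub
      (continuous_const.mul ((fluxB_d1 hψ).continuous.comp cr).abs)).mul hw.continuous)
      (HasCompactSupport.intro hK' fun x hx => by
        rw [(far x hx).1, (far x hx).2]
        simp)
  have e0 := integral_dvg_zero
    (Z := fun x => wt (G x) • (deriv ψ (rr G L y x) / rr G L y x) • -L x y)
    ((hw.of_le (by simp)).smul hZ) (HasCompactSupport.intro hK'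
      fun x hx => by rw [(far x hx).1, zero_div, zero_smul, smul_zero])
  simp only [fun x => dvg_wt hP.loc (hZ.differentiable one_ne_zero x)] at e0
  rw [← integral_add_compl D.meas iU, D.div_wt hP.loc hZ] at e0
  have e1 : ∫ z, deriv ψ (rr G L z.1 y) * -ca G L z.1 y z.2 ∂D.μ =
      -∫ z, G z.1 z.2 ((deriv ψ (rr G L y z.1) / rr G L y z.1) • -L z.1 y) ∂D.μ := by
    rw [← integral_neg]
    refine integral_congr_ae (Eventually.of_forall fun z => ?_)
    simp only [ca, map_smul, map_neg, smul_eq_mul, hP.rr_symm z.1 y]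
    ring
  simp only [fun x => hP.rr_symm x y, mul_div_assoc]
  simp only [fun x => hP.rr_symm x y] at e1
  rw [e1, neg_eq_of_add_eq_zero_right e0]
  refine integral_mono iL.integrableOn iU.integrableOn fun x => ?_
  beta_reduce
  rw [fluxB_trc hP hψ, mul_comm]
  refine mul_le_mul_of_nonneg_left ?_ (wt_pos (posB_of_loc hP.loc x)).le
  by_cases hx : x ∈ K'
  swap
  · rw [(far x hx).1]
    simp
  have k := hl y (hKK hy) x hx
  have k2 : |deriv ψ (rr G L y x) / rr G L y x * (trc (hs G L y x) - (m + 1))| ≤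
      C * |deriv ψ (rr G L y x)| := by
    rcases (rr_nonneg G L y x).eq_or_lt with h0 | h0
    · rw [← h0, div_zero, zero_mul, abs_zero]
      positivity
    · rw [abs_mul, abs_div, abs_of_pos h0]
      refine (mul_le_mul_of_nonneg_left k (by positivity)).trans_eq ?_
      field_simp
  linarith [(abs_le.1 k2).1]

end Vale.Agent.P219
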