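import Vale.Agent.P219.G.Dist
import Vale.Agent.P219.G.L1Cpt

/-!
# Nonlocal perimeter: averaging over translations  (TASK)

Let `f = ind S`, `k d = K₀ (d / ε) / ε^(m+2)`, `F (x, y) = k (rr x y) wt x wt y` (symmetric: `rr_symm`).  `2 Q = ∬ F |f x - f y|` (Tonelli; `|f x - f y|` is the sum of the indicators of `S × Sᶜ` and
`Sᶜ × S`).  For `‖z‖ ≤ η₁` (`dist_fine` for `K₁`): substitute `x ↦ x - z`, `y = x + h - z` (translation invariance), restrict to `x ∈ K₁`; for `‖h‖ ≤ η₁`,
`F ≥ (1 - l)² wt x² k ((1 + l) √(G x h h))` since `K₀` is antitone; for `‖h‖ > η₁` the right side vanishes when `ε ≤ c η₁` (`exists_bounds`).  Average over `z` with the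
probability density `φ.normed` (supported in the ball of radius `rOut`): `|mol x - mol (x + h)| ≤ ∫ ρ z |f (x - z) - f (x + h - z)|` (`mol_apply`, Tonelli).  Finally `h = ε • v`
(`Measure.lintegral_comp_smul`-type lemma, `Measure.addHaar_smul`, `map_addHaar_smul`).
-/

namespace Vale.Agent.P219

open scoped ContDiff Topology RealInnerProductSpace ENNReal
open MeasureTheory Set Filter Vale.Agent.P255
open St (sn gmod)

variable {E : Type*} [NormedAddCommGroup E] [InnerProductSpace ℝ E] [FiniteDimensional ℝ E]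
  [MeasurableSpace E] [BorelSpace E] {G : E → Bil E} {L : E → E → E} {K : Set E} {m : ℕ} {b : ℝ}

/-- The kernels used for the nonlocal perimeter. -/
structure Ker (K₀ : ℝ → ℝ) : Prop where
  cont : Continuous K₀
  anti : AntitoneOn K₀ (Ici 0)
  nonneg : ∀ r, 0 ≤ K₀ r
  zero : ∀ r, 1 ≤ r → K₀ r = 0

/-- The nonlocal perimeter at scale `ε`. -/
noncomputable def Qp (m : ℕ) (G : E → Bil E) (L : E → E → E) (K₀ : ℝ → ℝ) (S : Set E) (ε : ℝ) :
    ℝ≥0∞ :=
  ∫⁻ y in S, ∫⁻ x in Sᶜ,
    ENNReal.ofReal (K₀ (rr G L x y / ε) / ε ^ (m + 2) * (wt (G x) * wt (G y)))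

theorem gam1_sym {Φ : E → E → ℝ≥0∞} (hΦ : Measurable (Function.uncurry Φ))
    (hs : ∀ x y, Φ x y = Φ y x) {S : Set E} (hS : MeasurableSet S) :
    ∫⁻ x, ∫⁻ y, Φ x y * ENNReal.ofReal |ind S x - ind S y| = 2 * ∫⁻ y in S, ∫⁻ x in Sᶜ, Φ x y := by
  rw [← lintegral_add_compl _ hS, two_mul]
  congr 1
  · refine setLIntegral_congr_fun hS fun x hx => ?_
    rw [← lintegral_indicator hS.compl]
    refine lintegral_congr fun y => ?_
    by_cases hy : y ∈ S <;> simp [ind, hx, hy, hs x y]
  · rw [← lintegral_lintegral_swap hΦ.aemeasurable]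
    refine setLIntegral_congr_fun hS.compl fun x hx => ?_
    rw [← lintegral_indicator hS]
    refine lintegral_congr fun y => ?_
    by_cases hy : y ∈ S <;> simp [ind, notMem_of_mem_compl hx, hy]

theorem gam1_shift (hE : Module.finrank ℝ E = m + 1) (F : E → E → ℝ≥0∞) {ε : ℝ} (hε : 0 < ε)
    (z : E) : ∫⁻ x, ∫⁻ y, F x y =
      ∫⁻ x, ∫⁻ v : E, ENNReal.ofReal (ε ^ (m + 1)) * F (x - z) (x + ε • v - z) := by
  rw [← lintegral_sub_right_eq_self _ z]
  refine lintegral_congr fun x => ?_
  have h1 := lintegral_map_equiv (μ := volume) (fun h : E => F (x - z) (x + h - z))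
    (MeasurableEquiv.smul₀ ε hε.ne')
  have h2 : (0 : ℝ) < ε ^ (m + 1) := by positivity
  rw [MeasurableEquiv.coe_smul₀, Measure.map_addHaar_smul _ hε.ne', lintegral_smul_measure,
    hE, abs_of_pos (inv_pos.2 h2)] at h1
  rw [lintegral_const_mul' _ _ ENNReal.ofReal_ne_top, ← h1, smul_eq_mul, ← mul_assoc,
    ← ENNReal.ofReal_mul h2.le, mul_inv_cancel₀ h2.ne', ENNReal.ofReal_one, one_mul,
    ← lintegral_add_left_eq_self _ (x - z)]
  simp only [sub_add_eq_add_sub]

theorem gam1_mol (φ : ContDiffBump (0 : E)) {S : Set E} (hS : MeasurableSet S) (x y : E) :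
    ENNReal.ofReal |mol φ S x - mol φ S y| ≤ ∫⁻ z, ENNReal.ofReal (φ.normed volume z) *
      ENNReal.ofReal |ind S (x - z) - ind S (y - z)| := by
  have h1 : ∀ x, Integrable fun z => φ.normed volume z * ind S (x - z) := fun x =>
    φ.integrable_normed.mul_bdd (c := 1) ((measurable_one.indicator hS).comp
      (measurable_const.sub measurable_id)).aestronglyMeasurable
      (Eventually.of_forall fun z => by by_cases h : x - z ∈ S <;> simp [ind, h])
  rw [mol_apply, mol_apply, ← integral_sub (h1 x) (h1 y), ← Real.norm_eq_abs, ofReal_norm]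
  refine (enorm_integral_le_lintegral_enorm _).trans_eq (lintegral_congr fun z => ?_)
  rw [← mul_sub, ← ofReal_norm, Real.norm_eq_abs, abs_mul,
    abs_of_nonneg (φ.nonneg_normed z), ENNReal.ofReal_mul (φ.nonneg_normed z)]

theorem gam1_avg (φ : ContDiffBump (0 : E)) {H : E → E → E → ℝ≥0∞} (K₁ : Set E)
    (hH : Measurable fun q : (E × E) × E => H q.1.1 q.2 q.1.2) {c T : ℝ≥0∞} (hc : c ≠ ⊤)
    (h : ∀ z, ‖z‖ ≤ φ.rOut → c * ∫⁻ x in K₁, ∫⁻ v, H x v z ≤ T) :
    c * ∫⁻ x in K₁, ∫⁻ v, ∫⁻ z, ENNReal.ofReal (φ.normed volume z) * H x v z ≤ T := by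
  have h0 : Measurable fun z => ENNReal.ofReal (φ.normed volume z) :=
    φ.continuous_normed.measurable.ennreal_ofReal
  have h1 : Measurable fun q : (E × E) × E =>
      ENNReal.ofReal (φ.normed volume q.1.2) * H q.1.1 q.2 q.1.2 :=
    (h0.comp measurable_fst.snd).mul hH
  have h2 : ∀ x, ∫⁻ v, ∫⁻ z, ENNReal.ofReal (φ.normed volume z) * H x v z =
      ∫⁻ z, ∫⁻ v, ENNReal.ofReal (φ.normed volume z) * H x v z := fun x =>
    lintegral_lintegral_swap (h1.comp
      ((measurable_const.prodMk measurable_snd).prodMk measurable_fst)).aemeasurable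
  simp only [h2]
  rw [lintegral_lintegral_swap h1.lintegral_prod_right'.aemeasurable,
    ← lintegral_const_mul' _ _ hc]
  simp only [lintegral_const_mul' _ _ ENNReal.ofReal_ne_top]
  calc _ ≤ ∫⁻ z, ENNReal.ofReal (φ.normed volume z) * T := lintegral_mono fun z => ?_
    _ = T := by
      rw [lintegral_mul_const _ h0, ← ofReal_integral_eq_lintegral_ofReal φ.integrable_normed
        (Eventually.of_forall φ.nonneg_normed), φ.integral_normed, ENNReal.ofReal_one, one_mul]
  by_cases hz : φ.normed volume z = 0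
  · simp [hz]
  · rw [mul_left_comm]
    refine mul_le_mul_right (h z ?_) _
    have : z ∈ Metric.ball (0 : E) φ.rOut := φ.support_normed_eq (μ := volume) ▸ hz
    exact (mem_ball_zero_iff.1 this).le

theorem Pack.gam_avg (hE : Module.finrank ℝ E = m + 1) (hP : Pack G L) {K₁ : Set E}
    (hK : IsCompact K₁) {K₀ : ℝ → ℝ} (h : Ker K₀) {l : ℝ} (hl : 0 < l) (hl1 : l < 1) :
    ∃ η : ℝ, 0 < η ∧ ∀ φ : ContDiffBump (0 : E), φ.rOut ≤ η → ∀ ε : ℝ, 0 < ε → ε ≤ η →
      ∀ S : Set E, MeasurableSet S →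
        ENNReal.ofReal ((1 - l) ^ 2 / 2) * ∫⁻ x in K₁, ∫⁻ v : E,
          ENNReal.ofReal (K₀ ((1 + l) * √(G x v v)) * (|mol φ S x - mol φ S (x + ε • v)| / ε) *
            wt (G x) ^ 2) ≤ Qp m G L K₀ S ε := by
  obtain ⟨η, hη, h1⟩ := hP.dist_fine hK hl
  obtain ⟨c, C, hc, -, h2⟩ := hP.loc.exists_bounds hK (subset_univ _)
  have hc' := Real.sqrt_pos.2 hc
  refine ⟨min η (η * √c), by positivity, fun φ hφ ε hε hε' S hS => ?_⟩
  have hG : Continuous G := (contDiffOn_univ.1 hP.loc.smooth).continuous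
  have hw : Continuous fun y => wt (G y) := (contDiff_wt hP.loc).continuous
  have hr := hP.continuous_rr
  have hk := h.cont
  have hf : Measurable (ind S) := measurable_one.indicator hS
  have h3 := gam1_sym (Φ := fun x y => ENNReal.ofReal
    (K₀ (rr G L x y / ε) / ε ^ (m + 2) * (wt (G x) * wt (G y))))
    (((hk.comp (hr.div_const ε)).div_const _).mul ((hw.comp continuous_fst).mul
      (hw.comp continuous_snd))).measurable.ennreal_ofReal
    (fun x y => by rw [hP.rr_symm, mul_comm (wt (G x))]) hS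
  have h4 : Continuous fun q : (E × E) × E =>
      K₀ ((1 + l) * √(G q.1.1 q.2 q.2)) / ε * wt (G q.1.1) ^ 2 :=
    ((hk.comp (continuous_const.mul (((hG.comp continuous_fst.fst).clm_apply
      continuous_snd).clm_apply continuous_snd).sqrt)).div_const ε).mul
      ((hw.comp continuous_fst.fst).pow 2)
  have h5 := gam1_avg φ (H := fun x v z =>
    ENNReal.ofReal (K₀ ((1 + l) * √(G x v v)) / ε * wt (G x) ^ 2) *
      ENNReal.ofReal |ind S (x - z) - ind S (x + ε • v - z)|) K₁
    (h4.measurable.ennreal_ofReal.mul (by fun_prop)) (c := ENNReal.ofReal ((1 - l) ^ 2))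
    (T := 2 * Qp m G L K₀ S ε) ENNReal.ofReal_ne_top fun z hz => by
      rw [Qp, ← h3, gam1_shift hE _ hε z, ← lintegral_const_mul' _ _ ENNReal.ofReal_ne_top]
      refine le_trans (setLIntegral_mono' hK.measurableSet fun x hx => ?_)
        (setLIntegral_le_lintegral K₁ _)
      rw [← lintegral_const_mul' _ _ ENNReal.ofReal_ne_top]
      refine lintegral_mono fun v => ?_
      beta_reduce
      rw [← mul_assoc, ← mul_assoc, ← ENNReal.ofReal_mul (sq_nonneg _),
        ← ENNReal.ofReal_mul (pow_pos hε (m + 1)).le]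
      refine mul_le_mul_left (ENNReal.ofReal_le_ofReal ?_) _
      have h6 := h.nonneg (rr G L (x - z) (x + ε • v - z) / ε)
      have h7 : ∀ y, 0 ≤ wt (G y) := fun y => Real.sqrt_nonneg _
      have h8 := h7 (x - z)
      have h9 := h7 (x + ε • v - z)
      by_cases hv : ‖ε • v‖ ≤ η
      · obtain ⟨k1, k2, k3⟩ := h1 x hx z _ (hz.trans (hφ.trans (min_le_left _ _))) hv
        have k4 : √(G x (ε • v) (ε • v)) = ε * √(G x v v) := by
          simp only [map_smul, smul_apply, smul_eq_mul, ← mul_assoc]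
          rw [Real.sqrt_mul (by positivity), Real.sqrt_mul_self hε.le]
        rw [k4, mul_left_comm, ← div_le_iff₀' hε] at k1
        have k5 := h.anti (div_nonneg (rr_nonneg _ _ _ _) hε.le)
          (show (0 : ℝ) ≤ _ by positivity) k1
        have k6 := mul_nonneg (sub_pos.2 hl1).le (h7 x)
        calc _ = K₀ ((1 + l) * √(G x v v)) / ε * ((1 - l) * wt (G x) * ((1 - l) * wt (G x))) := by
              ring
          _ ≤ K₀ (rr G L (x - z) (x + ε • v - z) / ε) / ε *
              (wt (G (x - z)) * wt (G (x + ε • v - z))) := by gcongr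
          _ = _ := by field_simp; ring
      · rw [h.zero, zero_div, zero_mul, mul_zero]
        · positivity
        have k1 : √c * ‖v‖ ≤ √(G x v v) := by
          refine Real.le_sqrt_of_sq_le ?_
          rw [mul_pow, Real.sq_sqrt hc.le]
          exact (h2 x hx v).1
        rw [norm_smul, Real.norm_of_nonneg hε.le, not_le] at hv
        have k2 : η * 1 ≤ η * (√c * ‖v‖) := by
          rw [← mul_assoc, mul_one]
          exact hv.le.trans (mul_le_mul_of_nonneg_right (hε'.trans (min_le_right _ _))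
            (norm_nonneg _))
        have k3 := (le_of_mul_le_mul_left k2 hη).trans k1
        nlinarith
  rw [← ENNReal.mul_le_mul_iff_right two_ne_zero ENNReal.ofNat_ne_top, ← mul_assoc,
    ← ENNReal.ofReal_ofNat 2, ← ENNReal.ofReal_mul zero_le_two, mul_div_cancel₀ _ two_ne_zero,
    ENNReal.ofReal_ofNat]
  refine le_trans (mul_le_mul_right (lintegral_mono fun x => lintegral_mono fun v => ?_) _) h5
  have h6 := h.nonneg ((1 + l) * √(G x v v))
  simp only [mul_left_comm (ENNReal.ofReal (φ.normed volume _))]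
  rw [lintegral_const_mul' _ _ ENNReal.ofReal_ne_top]
  refine le_trans (le_of_eq ?_) (mul_le_mul_right (gam1_mol φ hS x (x + ε • v)) _)
  rw [← ENNReal.ofReal_mul (by positivity)]
  congr 1
  ring

end Vale.Agent.P219
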