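import Vale.Agent.P219.G.FluxB
import Vale.Agent.P219.G.Crude
import Vale.Agent.P219.G.Gam1

/-!
# Nonlocal perimeter: comparison with the boundary double integral  (TASK)

Integrate `fluxA` over `(x, e)` and `fluxB` (times `wt (G y)`) over `y ∈ Ω`; Fubini between `D.μ` and `volume.restrict Ω` (`integral_integral_swap`; the integrand is continuous by `cont_cut`
with `f = deriv ψ`, bounded on `UB ×ˢ K`).  So `J = ∫ y in Ω, (∫ x in Ωᶜ, g (rr x y) wt x) wt y ≤ ∬ ψ + C M ε^(m+1) A` with `g = ψ'' + m ψ' / r - C |ψ'|`.  For `r > 0`,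
`K₀ (r / ε) / ε^(m+2) ≤ g r + c 1[r ≤ t] + C M' 1[r ≤ ε]` (`deriv ψ = 0` on `(ε, ∞)`).  One way: the function `h = g + c 1[..] + C M' 1[..] ≥ 0`; for each `y` the inner `lintegral` is `ofReal` of a real integral
(bounded, supported in `K'` of `nbhd`), which is `∫ g wt + (two nonnegative terms)`; control the integrals over `y` of the two terms by `crude`.
-/

namespace Vale.Agent.P219

open scoped ContDiff Topology RealInnerProductSpace ENNReal
open MeasureTheory Set Filter Vale.Agent.P255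
open St (sn gmod)

variable {E : Type*} [NormedAddCommGroup E] [InnerProductSpace ℝ E] [FiniteDimensional ℝ E]
  [MeasurableSpace E] [BorelSpace E] {G : E → Bil E} {L : E → E → E} {K : Set E} {m : ℕ} {b : ℝ}
  {ρ ε c H : ℝ} {τ : ℝ → ℝ}

theorem fluxC_d1 {ψ : ℝ → ℝ} {M ε : ℝ} (h : Bump ψ M ε) :
    Continuous (deriv ψ) ∧ Continuous (deriv (deriv ψ)) ∧
      (∃ α : ℝ, 0 < α ∧ ∀ r, r ≤ α → deriv ψ r = 0) ∧
      ∀ r, ε < r → deriv ψ r = 0 ∧ deriv (deriv ψ) r = 0 := by
  have h1 : ContDiff ℝ 1 (deriv ψ) := h.smooth.deriv'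
  refine ⟨h1.continuous, h1.continuous_deriv le_rfl, ?_, ?_⟩
  · obtain ⟨α, hα, h0⟩ := h.zero
    refine ⟨α / 2, half_pos hα, fun r hr => ?_⟩
    have e : ψ =ᶠ[𝓝 r] fun _ => 0 := (eventually_le_nhds (by linarith)).mono h0
    rw [e.deriv_eq, deriv_const]
  · have k : ∀ r, ε < r → deriv ψ r = 0 := fun r hr => by
      have e : ψ =ᶠ[𝓝 r] fun _ => 0 := (eventually_ge_nhds hr).mono h.far
      rw [e.deriv_eq, deriv_const]
    refine fun r hr => ⟨k r hr, ?_⟩
    have e : deriv ψ =ᶠ[𝓝 r] fun _ => 0 := (eventually_gt_nhds hr).mono k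
    rw [e.deriv_eq, deriv_const]

theorem fluxC_int (hP : Pack G L) (hK : IsCompact K) (D : NDom G K) {Φ : E × E → ℝ}
    (hΦ : Continuous Φ) (h0 : ∀ p : E × E, 1 < rr G L p.2 p.1 → Φ p = 0) :
    Integrable Φ ((volume.restrict D.Ω).prod (volume.restrict D.Ωᶜ)) := by
  obtain ⟨K', hK', -, near⟩ := hP.nbhd hK 1
  rw [Measure.prod_restrict]
  have h1 : IntegrableOn Φ (K ×ˢ K') (volume.prod volume) :=
    hΦ.continuousOn.integrableOn_compact (hK.prod hK')
  refine h1.of_forall_sdiff_eq_zero (D.meas.prod D.meas.compl) fun p hp => h0 p ?_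
  by_contra hc
  exact hp.2 ⟨D.sub hp.1.1, near _ (D.sub hp.1.1) _ (not_lt.1 hc)⟩

theorem fluxC_ind (hP : Pack G L) (D : NDom G K) {s B : ℝ} (hB : 0 ≤ B)
    (h : ∫⁻ y in D.Ω, ∫⁻ x in D.Ωᶜ ∩ {x | rr G L x y ≤ s}, ENNReal.ofReal (wt (G x) * wt (G y)) ≤
      ENNReal.ofReal B) :
    Integrable (fun p : E × E => if rr G L p.2 p.1 ≤ s then wt (G p.2) * wt (G p.1) else 0)
      ((volume.restrict D.Ω).prod (volume.restrict D.Ωᶜ)) ∧
    ∫ p : E × E, (if rr G L p.2 p.1 ≤ s then wt (G p.2) * wt (G p.1) else 0)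
      ∂(volume.restrict D.Ω).prod (volume.restrict D.Ωᶜ) ≤ B := by
  have hw := (contDiff_wt hP.loc).continuous
  have hr : Continuous fun p : E × E => rr G L p.2 p.1 := cont_r hP continuous_snd continuous_fst
  have hm : Measurable fun p : E × E =>
      if rr G L p.2 p.1 ≤ s then wt (G p.2) * wt (G p.1) else 0 :=
    Measurable.ite (measurableSet_le hr.measurable measurable_const)
      ((hw.comp continuous_snd).mul (hw.comp continuous_fst)).measurable measurable_const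
  have hn : ∀ p : E × E, 0 ≤ if rr G L p.2 p.1 ≤ s then wt (G p.2) * wt (G p.1) else 0 := by
    intro p
    split_ifs
    · exact mul_nonneg (Real.sqrt_nonneg _) (Real.sqrt_nonneg _)
    · exact le_rfl
  have h1 : ∫⁻ p : E × E, ENNReal.ofReal (if rr G L p.2 p.1 ≤ s then wt (G p.2) * wt (G p.1) else 0)
      ∂(volume.restrict D.Ω).prod (volume.restrict D.Ωᶜ) ≤ ENNReal.ofReal B := by
    rw [lintegral_prod _ hm.ennreal_ofReal.aemeasurable]
    refine le_trans (le_of_eq (lintegral_congr fun y => ?_)) h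
    have hs : MeasurableSet {x | rr G L x y ≤ s} :=
      measurableSet_le (cont_r hP continuous_id continuous_const).measurable measurable_const
    rw [inter_comm, ← Measure.restrict_restrict hs, ← lintegral_indicator hs]
    refine lintegral_congr fun x => ?_
    by_cases hx : rr G L x y ≤ s <;> simp [hx]
  have h2 := (lintegral_ofReal_ne_top_iff_integrable hm.aestronglyMeasurable
    (Eventually.of_forall hn)).1 (h1.trans_lt ENNReal.ofReal_lt_top).ne
  refine ⟨h2, ?_⟩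
  rw [← ofReal_integral_eq_lintegral_ofReal h2 (Eventually.of_forall hn)] at h1
  exact (ENNReal.ofReal_le_ofReal_iff hB).1 h1

theorem fluxC_J (hP : Pack G L) (hK : IsCompact K) (D : NDom G K) {ψ : ℝ → ℝ} {M ε B : ℝ}
    (hψ : Bump ψ M ε) {Γ : E × E → ℝ}
    (hΓ : Integrable (fun p : E × E => Γ p * wt (G p.1))
      ((volume.restrict D.Ω).prod (volume.restrict D.Ωᶜ)))
    (hA : ∀ x e, (x, e) ∈ UB G K →
      ∫ y in D.Ω, deriv ψ (rr G L x y) * -ca G L x y e * wt (G y) ≤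
        ∫ z, ψ (rr G L x z.1) ∂D.μ + B)
    (hB : ∀ y ∈ K, ∫ x in D.Ωᶜ, Γ (y, x) ≤ ∫ z, deriv ψ (rr G L z.1 y) * -ca G L z.1 y z.2 ∂D.μ) :
    ∫ p : E × E, Γ p * wt (G p.1) ∂(volume.restrict D.Ω).prod (volume.restrict D.Ωᶜ) ≤
      ∫ z, ψ (rr G L z.1.1 z.2.1) ∂D.μ.prod D.μ + B * D.A := by
  obtain ⟨c1, -, ⟨α, hα, h0⟩, -⟩ := fluxC_d1 hψ
  have hw := (contDiff_wt hP.loc).continuous
  have hF : Continuous fun q : E × (E × E) =>
      deriv ψ (rr G L q.2.1 q.1) * -ca G L q.2.1 q.1 q.2.2 * wt (G q.1) :=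
    (hP.cont_cut continuous_snd.fst continuous_fst
      (cont_ca hP continuous_snd.fst continuous_fst continuous_snd.snd).neg c1 hα h0).mul
      (hw.comp continuous_fst)
  have hfin : IsFiniteMeasure (volume.restrict D.Ω) :=
    isFiniteMeasure_restrict.2 ((measure_mono D.sub).trans_lt hK.measure_lt_top).ne
  have hFi : Integrable (fun q : E × (E × E) =>
      deriv ψ (rr G L q.2.1 q.1) * -ca G L q.2.1 q.1 q.2.2 * wt (G q.1))
      ((volume.restrict D.Ω).prod D.μ) := by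
    obtain ⟨C, hC⟩ := (hK.prod (isCompact_UB hP.loc hK)).exists_bound_of_continuousOn
      hF.continuousOn
    refine (integrable_const C).mono' hF.aestronglyMeasurable ?_
    filter_upwards [Measure.quasiMeasurePreserving_fst.ae (ae_restrict_mem D.meas),
      Measure.quasiMeasurePreserving_snd.ae D.supp] with q h1 h2
    exact hC q ⟨D.sub h1, h2⟩
  have hψi : Integrable (fun z : (E × E) × (E × E) => ψ (rr G L z.1.1 z.2.1)) (D.μ.prod D.μ) :=
    D.integrable_prod hP.loc hK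
      (hψ.smooth.continuous.comp (cont_r hP continuous_fst.fst continuous_snd.fst))
  rw [integral_prod _ hΓ, integral_prod _ hψi]
  calc _ ≤ ∫ y in D.Ω, ∫ z, deriv ψ (rr G L z.1 y) * -ca G L z.1 y z.2 * wt (G y) ∂D.μ := by
        refine setIntegral_mono_on hΓ.integral_prod_left hFi.integral_prod_left D.meas
          fun y hy => ?_
        simp only [integral_mul_const]
        exact mul_le_mul_of_nonneg_right (hB y (D.sub hy)) (Real.sqrt_nonneg _)
    _ = ∫ z, (∫ y in D.Ω, deriv ψ (rr G L z.1 y) * -ca G L z.1 y z.2 * wt (G y)) ∂D.μ :=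
        integral_integral_swap (f := fun (y : E) (z : E × E) =>
          deriv ψ (rr G L z.1 y) * -ca G L z.1 y z.2 * wt (G y)) hFi
    _ ≤ ∫ z, (∫ z', ψ (rr G L z.1 z'.1) ∂D.μ + B) ∂D.μ :=
        integral_mono_ae hFi.integral_prod_right
          (hψi.integral_prod_left.add (integrable_const B)) (D.supp.mono fun z hz => hA z.1 z.2 hz)
    _ = _ := by
        rw [integral_add hψi.integral_prod_left (integrable_const B), integral_const, smul_eq_mul,
          NDom.A, mul_comm]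

theorem Pack.fluxC (hE : Module.finrank ℝ E = m + 1) (hP : Pack G L) (hK : IsCompact K) :
    ∃ C : ℝ, 0 < C ∧ ∀ (D : NDom G K) (ψ K₀ : ℝ → ℝ) (M M' c' ε t : ℝ), Bump ψ M ε → Ker K₀ →
      0 < t → t ≤ ε → ε ≤ 1 → 0 ≤ c' → (∀ r, |deriv ψ r| ≤ M') →
      (∀ r, 0 < r → K₀ (r / ε) / ε ^ (m + 2) - (if r ≤ t then c' else 0) ≤
        deriv (deriv ψ) r + m * deriv ψ r / r) →
      Qp m G L K₀ D.Ω ε ≤ ENNReal.ofReal (∫ z, ψ (rr G L z.1.1 z.2.1) ∂D.μ.prod D.μ +
        C * (M * ε ^ (m + 1) + M' * ε ^ (m + 2) + c' * t ^ (m + 2)) * D.A) := by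
  obtain ⟨CA, cA, hA⟩ := hP.fluxA hE hK
  obtain ⟨CB, cB, hB⟩ := hP.fluxB hE hK
  obtain ⟨Cc, cc, hc⟩ := hP.crude hE hK
  refine ⟨CA + CB * Cc + Cc, by positivity,
    fun D ψ K₀ M M' c' ε t hψ hk ht htε hε1 hc' hM' hmain => ?_⟩
  have hε : 0 < ε := ht.trans_le htε
  have hM : 0 ≤ M := (hψ.mem 0).1.trans (hψ.mem 0).2
  have hM0 : 0 ≤ M' := (abs_nonneg _).trans (hM' 0)
  have hA0 := D.A_nonneg
  obtain ⟨c1, c2, ⟨α, hα, h0⟩, hfar⟩ := fluxC_d1 hψ
  have hw := (contDiff_wt hP.loc).continuous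
  have hr : Continuous fun p : E × E => rr G L p.2 p.1 := cont_r hP continuous_snd continuous_fst
  set Γ : E × E → ℝ := fun p => (deriv (deriv ψ) (rr G L p.2 p.1) +
    m * deriv ψ (rr G L p.2 p.1) / rr G L p.2 p.1 - CB * |deriv ψ (rr G L p.2 p.1)|) * wt (G p.2)
    with hΓ
  have hq : Continuous fun p : E × E => deriv ψ (rr G L p.2 p.1) * (rr G L p.2 p.1)⁻¹ :=
    hP.cont_cut continuous_snd continuous_fst (hr.continuousOn.inv₀ (cont_ne hP)) c1 hα h0
  have hΓc : Continuous Γ := by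
    have := (((c2.comp hr).add (hq.const_mul (m : ℝ))).sub
      ((c1.comp hr).abs.const_mul CB)).mul (hw.comp continuous_snd)
    refine this.congr fun p => ?_
    simp only [hΓ, Function.comp_apply, Pi.mul_apply, Pi.add_apply, Pi.sub_apply, div_eq_mul_inv,
      mul_assoc]
  have hΓi := fluxC_int hP hK D (hΓc.mul (hw.comp continuous_fst)) fun p hp => by
    obtain ⟨k1, k2⟩ := hfar _ (hε1.trans_lt hp)
    simp only [hΓ, Pi.mul_apply, k1, k2]
    simp
  have hJ := fluxC_J hP hK D hψ hΓi (hA D ψ M ε hψ hε hε1) (hB D ψ M ε hψ hε1)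
  obtain ⟨i1, j1⟩ := fluxC_ind hP D (by positivity) (hc D t ht (htε.trans hε1))
  obtain ⟨i2, j2⟩ := fluxC_ind hP D (by positivity) (hc D ε hε hε1)
  have hi := (hΓi.add (i1.const_mul c')).add (i2.const_mul (CB * M'))
  have hkn : ∀ p : E × E, 0 ≤ K₀ (rr G L p.2 p.1 / ε) / ε ^ (m + 2) * (wt (G p.2) * wt (G p.1)) :=
    fun p => mul_nonneg (div_nonneg (hk.nonneg _) (by positivity))
      (mul_nonneg (Real.sqrt_nonneg _) (Real.sqrt_nonneg _))
  have hle : ∀ᵐ p : E × E ∂(volume.restrict D.Ω).prod (volume.restrict D.Ωᶜ),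
      K₀ (rr G L p.2 p.1 / ε) / ε ^ (m + 2) * (wt (G p.2) * wt (G p.1)) ≤
        Γ p * wt (G p.1) + c' * (if rr G L p.2 p.1 ≤ t then wt (G p.2) * wt (G p.1) else 0) +
          CB * M' * (if rr G L p.2 p.1 ≤ ε then wt (G p.2) * wt (G p.1) else 0) := by
    filter_upwards [Measure.quasiMeasurePreserving_fst.ae (ae_restrict_mem D.meas),
      Measure.quasiMeasurePreserving_snd.ae (ae_restrict_mem D.meas.compl)] with p h1 h2
    have hne : p.1 ≠ p.2 := fun e => h2 (e ▸ h1)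
    have h3 := hmain _ (hP.rr_pos hne)
    have hW : 0 ≤ wt (G p.2) * wt (G p.1) := mul_nonneg (Real.sqrt_nonneg _) (Real.sqrt_nonneg _)
    have h4 : |deriv ψ (rr G L p.2 p.1)| ≤ if rr G L p.2 p.1 ≤ ε then M' else 0 := by
      split_ifs with h
      · exact hM' _
      · rw [(hfar _ (not_le.1 h)).1, abs_zero]
    have h5 := mul_le_mul_of_nonneg_right h3 hW
    have h6 := mul_le_mul_of_nonneg_right (mul_le_mul_of_nonneg_left h4 cB.le) hW
    simp only [hΓ]
    split_ifs at h5 h6 ⊢ <;> linarith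
  have hm : Measurable fun p : E × E => ENNReal.ofReal
      (K₀ (rr G L p.2 p.1 / ε) / ε ^ (m + 2) * (wt (G p.2) * wt (G p.1))) :=
    ((((hk.cont.comp (hr.div_const ε)).div_const _).mul
      ((hw.comp continuous_snd).mul (hw.comp continuous_fst))).measurable).ennreal_ofReal
  have e1 : Qp m G L K₀ D.Ω ε = ∫⁻ p : E × E, ENNReal.ofReal
      (K₀ (rr G L p.2 p.1 / ε) / ε ^ (m + 2) * (wt (G p.2) * wt (G p.1)))
        ∂(volume.restrict D.Ω).prod (volume.restrict D.Ωᶜ) :=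
    (lintegral_prod _ hm.aemeasurable).symm
  rw [e1]
  refine (lintegral_mono_ae (hle.mono fun p hp => ENNReal.ofReal_le_ofReal hp)).trans ?_
  have e2 := ofReal_integral_eq_lintegral_ofReal hi (hle.mono fun p hp => (hkn p).trans hp)
  refine le_trans (le_of_eq e2.symm) (ENNReal.ofReal_le_ofReal ?_)
  rw [integral_add' (hΓi.add (i1.const_mul c')) (i2.const_mul (CB * M')),
    integral_add' hΓi (i1.const_mul c'), integral_const_mul, integral_const_mul]
  have k1 := mul_le_mul_of_nonneg_left j1 hc'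
  have k2 := mul_le_mul_of_nonneg_left j2 (mul_nonneg cB.le hM0)
  have a1 : 0 ≤ M * ε ^ (m + 1) * D.A := by positivity
  have a2 : 0 ≤ M' * ε ^ (m + 2) * D.A := by positivity
  have a3 : 0 ≤ c' * t ^ (m + 2) * D.A := by positivity
  have b1 := mul_nonneg (add_pos (mul_pos cB cc) cc).le a1
  have b2 := mul_nonneg (add_pos cA cc).le a2
  have b3 := mul_nonneg (add_pos cA (mul_pos cB cc)).le a3
  refine le_trans (add_le_add (add_le_add hJ k1) k2) ?_
  linarith

end Vale.Agent.P219
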