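import Vale.Agent.P219.G.Basic

/-!
# Parallel transport along a curve  (TASK)

`exists_lin_ode`: on `[-1, 2]` the coefficient is bounded by `C`; Picard iteration as a series `f = ∑ fₙ`, `f₀ = v`, `fₙ₊₁ t = ∫₀ᵗ A fₙ`,
`‖fₙ t‖ ≤ ‖v‖ (C |t|)ⁿ / n!` (`hasDerivAt_tsum_of_isPreconnected`), or the Banach fixed point theorem / `IsPicardLindelof` on steps of fixed length, or
invert `1 - T` on `C(Icc (-1) 2, F)` since a power of `T` has norm `< 1`.
`exists_par`: apply it with `F = E →L[ℝ] E`, `A t T = -(chrL G (γ t) (W t)).comp T` (`LocMetric.contDiffOn_chrL`); `G (γ t) (T t k) (T t l)` has derivative zero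
(`LocMetric.hasDerivAt_inner`, `constant_of_has_deriv_right_zero` or the mean value theorem).
-/

namespace Vale.Agent.P219

open scoped ContDiff Topology RealInnerProductSpace ENNReal
open MeasureTheory Set Filter Vale.Agent.P255
open St (sn gmod)

variable {E : Type*} [NormedAddCommGroup E] [InnerProductSpace ℝ E] [FiniteDimensional ℝ E]
  {G : E → Bil E} {L : E → E → E} {m : ℕ} {b : ℝ}

/-- The terms of the Picard series. -/
noncomputable def parIt {F : Type*} [NormedAddCommGroup F] [NormedSpace ℝ F]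
    (A : ℝ → F →L[ℝ] F) (v : F) : ℕ → ℝ → F
  | 0 => fun _ => v
  | n + 1 => fun t => ∫ s in (0 : ℝ)..t, A s (parIt A v n s)

theorem parIt_cont {F : Type*} [NormedAddCommGroup F] [NormedSpace ℝ F]
    {A : ℝ → F →L[ℝ] F} (hA : Continuous A) (v : F) (n : ℕ) : Continuous (parIt A v n) := by
  induction n with
  | zero => exact continuous_const
  | succ n ih =>
    exact intervalIntegral.continuous_primitive
      (fun a b => (hA.clm_apply ih).intervalIntegrable a b) 0

theorem parIt_bound {F : Type*} [NormedAddCommGroup F] [NormedSpace ℝ F]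
    {A : ℝ → F →L[ℝ] F} {C : ℝ} (hC : ∀ t, |t| ≤ 2 → ‖A t‖ ≤ C) (v : F) (n : ℕ) :
    ∀ t, |t| ≤ 2 → ‖parIt A v n t‖ ≤ ‖v‖ * C ^ n / n.factorial * |t| ^ n := by
  have hC0 : 0 ≤ C := (norm_nonneg _).trans (hC 0 (by simp))
  induction n with
  | zero => intro t _; simp [parIt]
  | succ n ih =>
    intro t ht
    have h1 : ‖∫ s in (0 : ℝ)..t, A s (parIt A v n s)‖ ≤
        |∫ s in (0 : ℝ)..t, C * (‖v‖ * C ^ n / n.factorial) * |s - 0| ^ n| := by
      refine intervalIntegral.norm_integral_le_abs_of_norm_le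
        ((ae_restrict_mem measurableSet_uIoc).mono fun s hs => ?_)
        (Continuous.intervalIntegrable (by fun_prop) _ _)
      have h2 : |s| ≤ 2 := by
        have := abs_sub_left_of_mem_uIcc (uIoc_subset_uIcc hs)
        rw [sub_zero, sub_zero] at this
        exact this.trans ht
      rw [sub_zero, mul_assoc]
      exact ((A s).le_opNorm _).trans (mul_le_mul (hC s h2) (ih s h2) (norm_nonneg _) hC0)
    refine h1.trans (le_of_eq ?_)
    rw [intervalIntegral.integral_const_mul, abs_mul,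
      intervalIntegral.abs_integral_eq_abs_integral_uIoc, integral_pow_abs_sub_uIoc, sub_zero,
      abs_of_nonneg (by positivity), abs_of_nonneg (by positivity), Nat.factorial_succ]
    push_cast
    field_simp
    ring

theorem exists_lin_ode {F : Type*} [NormedAddCommGroup F] [NormedSpace ℝ F] [CompleteSpace F]
    {A : ℝ → F →L[ℝ] F} (hA : Continuous A) (v : F) :
    ∃ f : ℝ → F, f 0 = v ∧ ∀ t ∈ Icc (0 : ℝ) 1, HasDerivAt f (A t (f t)) t := by
  obtain ⟨C, hC⟩ := (isCompact_Icc (a := (-2 : ℝ)) (b := 2)).exists_bound_of_continuousOn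
    hA.continuousOn
  have hC' : ∀ t, |t| ≤ 2 → ‖A t‖ ≤ C := fun t ht => hC t (abs_le.1 ht)
  have hC0 : 0 ≤ C := (norm_nonneg _).trans (hC' 0 (by simp))
  have hb : ∀ n t, |t| ≤ 2 → ‖parIt A v n t‖ ≤ ‖v‖ * ((2 * C) ^ n / n.factorial) := by
    intro n t ht
    refine (parIt_bound hC' v n t ht).trans ?_
    calc ‖v‖ * C ^ n / n.factorial * |t| ^ n ≤ ‖v‖ * C ^ n / n.factorial * 2 ^ n := by gcongr
      _ = _ := by rw [mul_pow]; ring
  have hs : Summable fun n : ℕ => ‖v‖ * ((2 * C) ^ n / n.factorial) :=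
    (Real.summable_pow_div_factorial _).mul_left _
  have hs' : ∀ t, |t| ≤ 2 → Summable fun n => parIt A v n t := fun t ht =>
    hs.of_norm_bounded fun n => hb n t ht
  have h0 : ∀ n, parIt A v (n + 1) 0 = 0 := fun n => intervalIntegral.integral_same
  refine ⟨fun t => v + ∑' n, parIt A v (n + 1) t, by simp [h0], fun t ht => ?_⟩
  have ht' : |t| ≤ 2 := abs_le.2 ⟨by linarith [ht.1], by linarith [ht.2]⟩
  have h1 := hasDerivAt_tsum_of_isPreconnected (hs.mul_left C) isOpen_Ioo
    (isPreconnected_Ioo (a := (-2 : ℝ)) (b := 2)) (g := fun n => parIt A v (n + 1))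
    (g' := fun n s => A s (parIt A v n s)) (y₀ := 0) (y := t)
    (fun n s _ => ((hA.clm_apply (parIt_cont hA v n)).integral_hasStrictDerivAt 0 s).hasDerivAt)
    (fun n s hs => by
      have h2 : |s| ≤ 2 := abs_le.2 ⟨hs.1.le, hs.2.le⟩
      exact ((A s).le_opNorm _).trans (mul_le_mul (hC' s h2) (hb n s h2) (norm_nonneg _) hC0))
    (by constructor <;> norm_num) (by simp [h0])
    ⟨by linarith [ht.1], by linarith [ht.2]⟩
  have h3 : v + ∑' n, parIt A v (n + 1) t = ∑' n, parIt A v n t :=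
    (hs' t ht').tsum_eq_zero_add.symm
  beta_reduce
  rw [h3, (A t).map_tsum (hs' t ht')]
  exact h1.const_add v

theorem exists_par (hG : LocMetric G univ) {γ W : ℝ → E} (hγ : ∀ t, HasDerivAt γ (W t) t)
    (hW : Continuous W) :
    ∃ T : ℝ → E →L[ℝ] E, T 0 = ContinuousLinearMap.id ℝ E ∧ ∀ t ∈ Icc (0 : ℝ) 1,
      (∀ k, HasDerivAt (fun s => T s k) (-chr G (γ t) (W t) (T t k)) t) ∧
        ∀ k l, G (γ t) (T t k) (T t l) = G (γ 0) k l := by
  have hc : Continuous fun t => chrL G (γ t) (W t) :=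
    ((contDiffOn_univ.1 hG.contDiffOn_chrL).continuous.comp
      (continuous_iff_continuousAt.2 fun t => (hγ t).continuousAt)).clm_apply hW
  obtain ⟨T, h0, hT⟩ := exists_lin_ode (F := E →L[ℝ] E)
    (A := fun t => -ContinuousLinearMap.compL ℝ E E E (chrL G (γ t) (W t)))
    ((ContinuousLinearMap.compL ℝ E E E).continuous.comp hc).neg (ContinuousLinearMap.id ℝ E)
  have h1 : ∀ t ∈ Icc (0 : ℝ) 1, ∀ k,
      HasDerivAt (fun s => T s k) (-chr G (γ t) (W t) (T t k)) t := by
    intro t ht k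
    have h2 := (hT t ht).clm_apply (hasDerivAt_const t k)
    simpa [chrL_apply] using h2
  refine ⟨T, h0, fun t ht => ⟨h1 t ht, fun k l => ?_⟩⟩
  have h2 : ∀ s ∈ Icc (0 : ℝ) 1, HasDerivAt (fun s => G (γ s) (T s k) (T s l)) 0 s := by
    intro s hs
    have h3 := hG.hasDerivAt_inner (mem_univ _) (hγ s) (h1 s hs k) (h1 s hs l)
    simpa using h3
  have h3 := constant_of_has_deriv_right_zero
    (fun s hs => (h2 s hs).continuousAt.continuousWithinAt)
    (fun s hs => (h2 s (Ico_subset_Icc_self hs)).hasDerivWithinAt) t ht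
  simpa [h0] using h3

end Vale.Agent.P219
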