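import Vale.Agent.P219.G.GeoIdx
import Vale.Agent.P219.G.Par
import Vale.Agent.P219.G.PackL

/-!
# The two-point Hessian comparison  (TASK)

`γ t = Ex x (t • L x y)`, `V = W x (L x y)`, `r = rr x y`, `V 0 = L x y`, `V 1 = -L y x` (`log_rev`), `T` from `exists_par`, `P = (T 1)⁻¹` (`T 1` is an injective
endomorphism), so `G y (T 1 k) h = G x k (P h)`.  Apply `index_le` to the Jacobi field with ends `-k` and `h` (`exists_jac_ends`), multiply by `sn r / r`, use `mixed`, `rr_symm`
and unfold `exq`, `Cm`, `ca`.  With `kr = ca x y k`, `hr = ca y x h`: `G x k (V 0) / r = -kr`, `G y h (V 1) / r = hr`,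
`G x k (Cm h) = (s/r) G x k (DL h) - (1 - s/r) kr hr`.
-/

namespace Vale.Agent.P219

open scoped ContDiff Topology RealInnerProductSpace ENNReal
open MeasureTheory Set Filter Vale.Agent.P255
open St (sn gmod)

variable {E : Type*} [NormedAddCommGroup E] [InnerProductSpace ℝ E] [FiniteDimensional ℝ E]
  {G : E → Bil E} {L : E → E → E} {m : ℕ} {b : ℝ} {Ex : E → E → E} {W : E → E → ℝ → E}

theorem gblock_alg {r s c p a a' A A' H H' D : ℝ} (hr : 0 < r) (hs : 0 < s)
    (h : (a' / r - a / r) ^ 2 + r * c / s * (A - (a / r) ^ 2 + A' - (a' / r) ^ 2) -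
      2 * (r / s) * (-p - a / r * (a' / r)) ≤ H' + D + (D + H)) :
    2 * (p - (s / r * D - (1 - s / r) / r ^ 2 * (a' * a))) ≤
      s / r * H + (c - s / r) * (a / r) ^ 2 - c * A +
        (s / r * H' + (c - s / r) * (a' / r) ^ 2 - c * A') := by
  have h1 := mul_nonneg (div_pos hs hr).le (sub_nonneg.2 h)
  refine sub_nonneg.1 (h1.trans_eq ?_)
  field_simp
  ring

theorem ExpPack.block (h : ExpPack G Ex W) (hL : IsLog Ex L) (hP : Pack G L) (hG : CHK b G)
    {x y : E} (hxy : x ≠ y) : ∃ P : E →L[ℝ] E, (∀ l, G x (P l) (P l) = G y l l) ∧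
      ∀ k l, 2 * G x k (P l - Cm b G L x y l) ≤ exq b G L y x k + exq b G L x y l := by
  have hr : 0 < rr G L x y := hP.rr_pos hxy.symm
  have h0 : Ex x ((0 : ℝ) • L x y) = x := by rw [zero_smul, h.zero]
  have h1 : Ex x ((1 : ℝ) • L x y) = y := by rw [one_smul, hL.right]
  have hV0 : W x (L x y) 0 = L x y := h.vel0 _ _
  have hV1 : W x (L x y) 1 = -L y x := by rw [h.log_rev hL x y, neg_neg]
  obtain ⟨T, hT0, hT⟩ := exists_par hP.loc (h.d1 x (L x y))
    (continuous_iff_continuousAt.2 fun t => (h.d2 x (L x y) t).continuousAt)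
  have hT1 : ∀ k l, G y (T 1 k) (T 1 l) = G x k l := fun k l => by
    have h2 := (hT 1 ⟨zero_le_one, le_rfl⟩).2 k l
    simpa only [h0, h1] using h2
  have hinj : Function.Injective (T 1) := by
    refine (injective_iff_map_eq_zero _).2 fun k hk => ?_
    by_contra hne
    have h2 := (posB_of_loc hP.loc x).2 k hne
    rw [← hT1, hk] at h2
    simp at h2
  have hinv := isInvertible_of_det (det_ne_of_injective hinj)
  refine ⟨(T 1).inverse, fun l => by rw [← hT1, hinv.self_apply_inverse], fun k l => ?_⟩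
  obtain ⟨J, DJ, hJ, j0, j1, d0, d1⟩ := h.exists_jac_ends hL x y (-k) l
  have h3 := (index_le hG hr (h.d1 x (L x y)) (h.d2 x (L x y))
    (fun t => (h.speed x (L x y) t).trans (hP.rr_sq x y).symm) hT0 hT hJ).2
  have h4 : G y (T 1 k) l = G x k ((T 1).inverse l) := by
    rw [← hT1, hinv.self_apply_inverse]
  have h5 := (posB_of_loc hP.loc x).1
  have h6 := (posB_of_loc hP.loc y).1
  simp only [h0, h1, hV0, hV1, j0, j1, d0, d1, map_neg, neg_apply, map_sub, sub_apply,
    neg_neg, h4, hP.mixed y x k l] at h3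
  have h7 := gblock_alg (r := rr G L x y) (s := sn b (rr G L x y)) (c := cs b (rr G L x y))
    (p := G x k ((T 1).inverse l)) (a := -G x k (L x y)) (a' := -G y l (L y x)) (A := G x k k)
    (A' := G y l l) (H := G x (hs G L y x k) k) (H' := G y (hs G L x y l) l)
    (D := G x (fderiv ℝ (L x) y l) k) hr (sn_pos b hr) (by linarith)
  simp only [exq, Cm, ca, hP.rr_symm y x, map_sub, sub_apply, smul_apply, map_smul, smul_eq_mul,
    ContinuousLinearMap.smulRight_apply, h5 k (fderiv ℝ (L x) y l), h6 (L y x) l]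
  linarith

end Vale.Agent.P219
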