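import Vale.Agent.P219.G.GeoJ
import Vale.Agent.P219.G.Sn

/-!
# The index inequality  (TASK)

Write `k = J 0`, `V = T t (V 0)` on `[0,1]` (the difference is parallel, so has constant norm, zero at `0`).  `T 1` is injective, hence `J 1 = T 1 l` for some `l`.
Let `e = V 0 / r`, `k₀ = G k e`, `l₀ = G l e`, `k' = k - k₀ e`, `l' = l - l₀ e`, `α t = sn (r (1-t)) / sn r`, `β t = sn (r t) / sn r`,
`u t = α t k' + β t l' + ((1-t) k₀ + t l₀) e`, `U t = T t (u t)`, `DU t = T t (u' t)`, `u'' = b² r² (α k' + β l')`.  Then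
`f t = G DJ J - 2 G J DU + G U DU` has derivative `|DJ - DU|² - G(R(J,V)V, J) - 2 G J (T u'') + G U (T u'') ≥ b² Q(J - U) ≥ 0`, where
`Q(w) = r² |w|² - G(w, V)²` (`sec` with `u = J`, `v = V`; `hasDerivAt_inner`; `PosB.sq_le`).  `monotoneOn_of_deriv_nonneg` gives `f 0 ≤ f 1`; `U = J` at both ends.
It may be simpler to pull everything back by `T t`: work with `j t = (T t)⁻¹ (J t)`, or prove first an abstract version of the monotonicity with `U, DU, D2U` given.
-/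

namespace Vale.Agent.P219

open scoped ContDiff Topology RealInnerProductSpace ENNReal
open MeasureTheory Set Filter Vale.Agent.P255
open St (sn gmod)

variable {E : Type*} [NormedAddCommGroup E] [InnerProductSpace ℝ E] [FiniteDimensional ℝ E]
  {G : E → Bil E} {L : E → E → E} {m : ℕ} {b : ℝ}

/-- `a` has covariant derivative `a'` along `γ` at `t`. -/
def IdxCov (G : E → Bil E) (γ V a : ℝ → E) (a' : E) (t : ℝ) : Prop :=
  HasDerivAt a (a' - chr G (γ t) (V t) (a t)) t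

theorem idx_inner (hG : LocMetric G univ) {γ V a c : ℝ → E} {a' c' : E} {t : ℝ}
    (hγ : HasDerivAt γ (V t) t) (ha : IdxCov G γ V a a' t) (hc : IdxCov G γ V c c' t) :
    HasDerivAt (fun s => G (γ s) (a s) (c s)) (G (γ t) a' (c t) + G (γ t) (a t) c') t := by
  have := hG.hasDerivAt_inner (mem_univ _) hγ ha hc
  simpa only [sub_add_cancel] using this

omit [FiniteDimensional ℝ E] in
theorem idx_add {γ V a c : ℝ → E} {a' c' : E} {t : ℝ} (ha : IdxCov G γ V a a' t)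
    (hc : IdxCov G γ V c c' t) : IdxCov G γ V (fun s => a s + c s) (a' + c') t := by
  refine (HasDerivAt.fun_add ha hc).congr_deriv ?_
  simp only [← chrL_apply, map_add]
  abel

omit [FiniteDimensional ℝ E] in
theorem idx_smul {γ V a : ℝ → E} {φ : ℝ → ℝ} {φ' t : ℝ} (hφ : HasDerivAt φ φ' t)
    (ha : IdxCov G γ V a 0 t) : IdxCov G γ V (fun s => φ s • a s) (φ' • a t) t := by
  refine (HasDerivAt.fun_smul hφ ha).congr_deriv ?_
  simp only [← chrL_apply, map_smul, zero_sub, smul_neg]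
  abel

theorem idx_mono (hG : CHK b G) {γ V J DJ U DU P : ℝ → E} {r : ℝ} (hr : 0 < r)
    (hγ : ∀ t, HasDerivAt γ (V t) t) (hs : ∀ t, G (γ t) (V t) (V t) = r ^ 2)
    (hJ : IsJac G γ V J DJ) (hU : ∀ t ∈ Icc (0 : ℝ) 1, IdxCov G γ V U (DU t) t)
    (hDU : ∀ t ∈ Icc (0 : ℝ) 1, IdxCov G γ V DU ((b ^ 2 * r ^ 2) • P t) t)
    (hP : ∀ t ∈ Icc (0 : ℝ) 1, G (γ t) (P t) (V t) = 0)
    (hUP : ∀ t ∈ Icc (0 : ℝ) 1, G (γ t) (U t) (P t) = G (γ t) (P t) (P t)) :
    G (γ 0) (DJ 0) (J 0) - 2 * G (γ 0) (J 0) (DU 0) + G (γ 0) (U 0) (DU 0) ≤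
      G (γ 1) (DJ 1) (J 1) - 2 * G (γ 1) (J 1) (DU 1) + G (γ 1) (U 1) (DU 1) := by
  have hd : ∀ t ∈ Icc (0 : ℝ) 1, ∃ d, 0 ≤ d ∧ HasDerivAt
      (fun s => G (γ s) (DJ s) (J s) - 2 * G (γ s) (J s) (DU s) + G (γ s) (U s) (DU s)) d t := by
    intro t ht
    have j1 : IdxCov G γ V J (DJ t) t := (hJ t).1
    have j2 : IdxCov G γ V DJ (-riem G (γ t) (J t) (V t) (V t)) t :=
      (hJ t).2.congr_deriv (by abel)
    refine ⟨_, ?_, ((idx_inner hG.loc (hγ t) j2 j1).fun_sub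
      ((idx_inner hG.loc (hγ t) j1 (hDU t ht)).const_mul 2)).fun_add
        (idx_inner hG.loc (hγ t) (hU t ht) (hDU t ht))⟩
    have sy := hG.loc.symm (γ t) (mem_univ _)
    have h1 := hG.sec (γ t) (J t) (V t)
    have h2 := hG.loc.nonneg (mem_univ (γ t)) (DJ t - DU t)
    have h3 := hG.loc.nonneg (mem_univ (γ t))
      ((r ^ 2) • (J t - P t) - G (γ t) (J t) (V t) • V t)
    have h4 := hP t ht
    have h5 := hUP t ht
    simp only [map_sub, map_smul, map_neg, sub_apply,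
      smul_apply, neg_apply, smul_eq_mul] at h2 h3 ⊢
    rw [hs t] at h1
    rw [hs t, sy (V t) (J t), sy (V t) (P t), sy (P t) (J t), h4] at h3
    rw [sy (DU t) (DJ t)] at h2
    rw [h5]
    have h6 : 0 ≤ r ^ 2 * (G (γ t) (J t) (J t) - 2 * G (γ t) (J t) (P t) + G (γ t) (P t) (P t)) -
        G (γ t) (J t) (V t) ^ 2 := by
      have hr2 : 0 < r ^ 2 := by positivity
      refine nonneg_of_mul_nonneg_right (a := r ^ 2) ?_ hr2
      linarith
    nlinarith [mul_nonneg (sq_nonneg b) h6]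
  have := monotoneOn_of_deriv_nonneg (convex_Icc (0 : ℝ) 1)
    (f := fun s => G (γ s) (DJ s) (J s) - 2 * G (γ s) (J s) (DU s) + G (γ s) (U s) (DU s))
    (fun t ht => (hd t ht).choose_spec.2.continuousAt.continuousWithinAt)
    (fun t ht => (hd t (interior_subset ht)).choose_spec.2.differentiableAt.differentiableWithinAt)
    (fun t ht => by
      obtain ⟨d, h0, h⟩ := hd t (interior_subset ht)
      rw [h.deriv]
      exact h0)
  exact this (left_mem_Icc.2 zero_le_one) (right_mem_Icc.2 zero_le_one) zero_le_one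

theorem idx_par (hG : LocMetric G univ) {γ V : ℝ → E} {T : ℝ → E →L[ℝ] E}
    (hγ : ∀ t, HasDerivAt γ (V t) t) (hV : ∀ t, HasDerivAt V (-chr G (γ t) (V t) (V t)) t)
    (hT0 : T 0 = ContinuousLinearMap.id ℝ E)
    (hT : ∀ t ∈ Icc (0 : ℝ) 1, ∀ k, HasDerivAt (fun s => T s k) (-chr G (γ t) (V t) (T t k)) t) :
    ∀ t ∈ Icc (0 : ℝ) 1, T t (V 0) = V t := by
  have hw : ∀ t ∈ Icc (0 : ℝ) 1, IdxCov G γ V (fun s => T s (V 0) - V s) 0 t := fun t ht => by
    refine ((hT t ht (V 0)).fun_sub (hV t)).congr_deriv ?_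
    simp only [← chrL_apply, map_sub]
    abel
  have hd : ∀ t ∈ Icc (0 : ℝ) 1, HasDerivAt
      (fun s => G (γ s) (T s (V 0) - V s) (T s (V 0) - V s)) 0 t := fun t ht => by
    simpa only [map_zero, zero_apply, add_zero] using
      idx_inner hG (hγ t) (hw t ht) (hw t ht)
  intro t ht
  have := constant_of_has_deriv_right_zero
    (fun t ht => (hd t ht).continuousAt.continuousWithinAt)
    (fun t ht => (hd t (Ico_subset_Icc_self ht)).hasDerivWithinAt) t ht
  simp only [hT0, ContinuousLinearMap.id_apply, sub_self, map_zero] at this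
  by_contra hne
  exact (hG.pos _ (mem_univ _) _ (sub_ne_zero.2 hne)).ne' this

theorem index_le (hG : CHK b G) {γ V J DJ : ℝ → E} {T : ℝ → E →L[ℝ] E} {r : ℝ} (hr : 0 < r)
    (hγ : ∀ t, HasDerivAt γ (V t) t) (hV : ∀ t, HasDerivAt V (-chr G (γ t) (V t) (V t)) t)
    (hs : ∀ t, G (γ t) (V t) (V t) = r ^ 2) (hT0 : T 0 = ContinuousLinearMap.id ℝ E)
    (hT : ∀ t ∈ Icc (0 : ℝ) 1, (∀ k, HasDerivAt (fun s => T s k) (-chr G (γ t) (V t) (T t k)) t) ∧
      ∀ k l, G (γ t) (T t k) (T t l) = G (γ 0) k l)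
    (hJ : IsJac G γ V J DJ) :
    T 1 (V 0) = V 1 ∧
      (G (γ 1) (J 1) (V 1) / r - G (γ 0) (J 0) (V 0) / r) ^ 2 +
          r * cs b r / sn b r * (G (γ 0) (J 0) (J 0) - (G (γ 0) (J 0) (V 0) / r) ^ 2 +
            G (γ 1) (J 1) (J 1) - (G (γ 1) (J 1) (V 1) / r) ^ 2) -
          2 * (r / sn b r) * (G (γ 1) (T 1 (J 0)) (J 1) -
            G (γ 0) (J 0) (V 0) / r * (G (γ 1) (J 1) (V 1) / r)) ≤
        G (γ 1) (DJ 1) (J 1) - G (γ 0) (DJ 0) (J 0) := by
  have hpar := idx_par hG.loc hγ hV hT0 fun t ht => (hT t ht).1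
  have i1 : (1 : ℝ) ∈ Icc (0 : ℝ) 1 := right_mem_Icc.2 zero_le_one
  refine ⟨hpar 1 i1, ?_⟩
  have sy := hG.loc.symm (γ 0) (mem_univ _)
  have hinj : Function.Injective (T 1 : E →ₗ[ℝ] E) := (injective_iff_map_eq_zero _).2 fun u hu => by
    by_contra h0
    have h1 := hG.loc.pos (γ 0) (mem_univ _) u h0
    rw [← (hT 1 i1).2, show T 1 u = 0 from hu] at h1
    simp at h1
  obtain ⟨l, hl⟩ := LinearMap.injective_iff_surjective.1 hinj (J 1)
  replace hl : T 1 l = J 1 := hl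
  have hsn := sn_pos b hr
  have hr2 : r ^ 2 ≠ 0 := by positivity
  obtain ⟨κ, hκ⟩ : ∃ κ, κ = G (γ 0) (J 0) (V 0) / r ^ 2 := ⟨_, rfl⟩
  obtain ⟨μ, hμ⟩ : ∃ μ, μ = G (γ 0) l (V 0) / r ^ 2 := ⟨_, rfl⟩
  have hκ' : G (γ 0) (J 0) (V 0) = κ * r ^ 2 := by rw [hκ, div_mul_cancel₀ _ hr2]
  have hμ' : G (γ 0) l (V 0) = μ * r ^ 2 := by rw [hμ, div_mul_cancel₀ _ hr2]
  obtain ⟨k', hk'⟩ : ∃ k', k' = J 0 - κ • V 0 := ⟨_, rfl⟩
  obtain ⟨l', hl'⟩ : ∃ l', l' = l - μ • V 0 := ⟨_, rfl⟩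
  have ok : G (γ 0) k' (V 0) = 0 := by
    rw [hk']
    simp only [map_sub, map_smul, sub_apply, smul_apply,
      smul_eq_mul, hs, hκ', sub_self]
  have ol : G (γ 0) l' (V 0) = 0 := by
    rw [hl']
    simp only [map_sub, map_smul, sub_apply, smul_apply,
      smul_eq_mul, hs, hμ', sub_self]
  have par : ∀ t ∈ Icc (0 : ℝ) 1, ∀ k, IdxCov G γ V (fun s => T s k) 0 t := fun t ht k =>
    ((hT t ht).1 k).congr_deriv (zero_sub _).symm
  have p1 : ∀ t : ℝ, HasDerivAt (fun s : ℝ => r * (1 - s)) (-r) t := fun t => by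
    simpa using ((hasDerivAt_id t).const_sub 1).const_mul r
  have p2 : ∀ t : ℝ, HasDerivAt (fun s : ℝ => r * s) r t := fun t => by
    simpa using (hasDerivAt_id t).const_mul r
  have a1 : ∀ t : ℝ, HasDerivAt (fun s => sn b (r * (1 - s)) / sn b r)
      (cs b (r * (1 - t)) * -r / sn b r) t := fun t =>
    ((hasDerivAt_sn b _).comp t (p1 t)).div_const _
  have a2 : ∀ t : ℝ, HasDerivAt (fun s => cs b (r * (1 - s)) * -r / sn b r)
      (b ^ 2 * r ^ 2 * (sn b (r * (1 - t)) / sn b r)) t := fun t =>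
    ((((hasDerivAt_cs b _).comp t (p1 t)).mul_const (-r)).div_const _).congr_deriv (by ring)
  have b1 : ∀ t : ℝ, HasDerivAt (fun s => sn b (r * s) / sn b r)
      (cs b (r * t) * r / sn b r) t := fun t =>
    ((hasDerivAt_sn b _).comp t (p2 t)).div_const _
  have b2 : ∀ t : ℝ, HasDerivAt (fun s => cs b (r * s) * r / sn b r)
      (b ^ 2 * r ^ 2 * (sn b (r * t) / sn b r)) t := fun t =>
    ((((hasDerivAt_cs b _).comp t (p2 t)).mul_const r).div_const _).congr_deriv (by ring)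
  have c1 : ∀ t : ℝ, HasDerivAt (fun s : ℝ => κ + s * (μ - κ)) (μ - κ) t := fun t => by
    simpa using ((hasDerivAt_id t).mul_const (μ - κ)).const_add κ
  have key := idx_mono hG hr hγ hs hJ
    (U := fun s => (sn b (r * (1 - s)) / sn b r) • T s k' + (sn b (r * s) / sn b r) • T s l' +
      (κ + s * (μ - κ)) • T s (V 0))
    (DU := fun s => (cs b (r * (1 - s)) * -r / sn b r) • T s k' +
      (cs b (r * s) * r / sn b r) • T s l' + (μ - κ) • T s (V 0))
    (P := fun s => (sn b (r * (1 - s)) / sn b r) • T s k' + (sn b (r * s) / sn b r) • T s l')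
    (fun t ht => idx_add (idx_add (idx_smul (a1 t) (par t ht k')) (idx_smul (b1 t) (par t ht l')))
      (idx_smul (c1 t) (par t ht (V 0))))
    (fun t ht => by
      have := idx_add (idx_add (idx_smul (a2 t) (par t ht k')) (idx_smul (b2 t) (par t ht l')))
        (idx_smul (hasDerivAt_const t (μ - κ)) (par t ht (V 0)))
      simpa only [zero_smul, add_zero, smul_add, smul_smul] using this)
    (fun t ht => by
      rw [← hpar t ht]
      simp only [map_add, map_smul, add_apply, smul_apply,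
        (hT t ht).2, ok, ol, smul_zero, add_zero])
    (fun t ht => by
      simp only [map_add, map_smul, add_apply, smul_apply,
        (hT t ht).2, sy (V 0) k', sy (V 0) l', ok, ol, smul_zero, add_zero])
  have u0 : (sn b (r * (1 - 0)) / sn b r) • T 0 k' + (sn b (r * 0) / sn b r) • T 0 l' +
      (κ + 0 * (μ - κ)) • T 0 (V 0) = J 0 := by
    simp [hT0, sn_zero, div_self hsn.ne', hk']
  have u1 : (sn b (r * (1 - 1)) / sn b r) • T 1 k' + (sn b (r * 1) / sn b r) • T 1 l' +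
      (κ + 1 * (μ - κ)) • T 1 (V 0) = J 1 := by
    simp [sn_zero, div_self hsn.ne', hl', hl]
  simp only [u0, u1] at key
  have e1 : G (γ 1) (J 1) (T 1 k') = G (γ 0) (J 0) l - κ * μ * r ^ 2 := by
    rw [← hl, (hT 1 i1).2, hk', map_sub, map_smul, hμ', sy l, smul_eq_mul]
    ring
  have e2 : G (γ 1) (J 1) (T 1 l') = G (γ 0) l l - μ * μ * r ^ 2 := by
    rw [← hl, (hT 1 i1).2, hl', map_sub, map_smul, hμ', smul_eq_mul]
    ring
  have e3 : G (γ 1) (J 1) (T 1 (V 0)) = μ * r ^ 2 := by rw [← hl, (hT 1 i1).2, hμ']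
  have e4 : G (γ 0) (J 0) k' = G (γ 0) (J 0) (J 0) - κ * κ * r ^ 2 := by
    rw [hk', map_sub, map_smul, hκ', smul_eq_mul]
    ring
  have e5 : G (γ 0) (J 0) l' = G (γ 0) (J 0) l - κ * μ * r ^ 2 := by
    rw [hl', map_sub, map_smul, hκ', smul_eq_mul]
    ring
  have e6 : G (γ 1) (J 1) (J 1) = G (γ 0) l l := by rw [← hl, (hT 1 i1).2]
  have e7 : G (γ 1) (T 1 (J 0)) (J 1) = G (γ 0) (J 0) l := by rw [← hl, (hT 1 i1).2]
  simp only [map_add, map_smul, smul_eq_mul, hT0, ContinuousLinearMap.id_apply, e1, e2, e3, e4, e5,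
    hκ', sub_self, sub_zero, mul_zero, mul_one, cs_zero] at key
  rw [← hpar 1 i1, e3, e6, e7, hκ', show μ * r ^ 2 / r = μ * r by field_simp,
    show κ * r ^ 2 / r = κ * r by field_simp]
  rw [show cs b r * -r / sn b r = -(r * cs b r / sn b r) by ring,
    show cs b r * r / sn b r = r * cs b r / sn b r by ring,
    show 1 * -r / sn b r = -(r / sn b r) by ring, show 1 * r / sn b r = r / sn b r by ring] at key
  generalize r * cs b r / sn b r = x at key ⊢
  generalize r / sn b r = y at key ⊢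
  linarith

end Vale.Agent.P219
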