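import Vale.Agent.P219.G.Basic

/-!
# Jacobi fields with prescribed end points  (TASK)

`exists_jac`: `F (q, t) = Ex q.1 (t • q.2)` is smooth, `W q.1 q.2 t = ∂_t F` (`d1`, uniqueness of derivatives; so `W y v t = fderiv (Ex y) (t • v) v` is smooth in
`(y, v, t)`).  Put `J t = fderiv (F (·, t)) (x, v) (k, ξ)`, `K t = fderiv (fun q => W q.1 q.2 t) (x, v) (k, ξ)`.  By the symmetry of second derivatives
(`ContDiffAt.isSymmSndFDerivAt`) `J' = K` and `K' = lin G (γ t) (W t) (J t) (K t)` (differentiate `d2`, `LocMetric.fderiv_spray`); `LocMetric.jacobi_iff`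
turns this into the equation for `DJ = K + chr γ W J`.  Compare `dn_var`, `dn_hasDerivAt`, `varE_isJacobi` in `PortN.lean`.
`exists_jac_ends`: take `v = L x y`, `ξ = fderiv (fun z : E × E => L z.1 z.2) (x, y) (k, h) = fderiv (L · y) x k + fderiv (L x) y h` (`chg_part`), differentiate
`Ex x' (L x' y') = y'` and `W x' (L x' y') 1 = -L y' x'` (`log_rev`) along `(x', y')`; `chr_symm`, `chrL_apply`.
-/

namespace Vale.Agent.P219

open scoped ContDiff Topology RealInnerProductSpace ENNReal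
open MeasureTheory Set Filter Vale.Agent.P255
open St (sn gmod)

variable {E : Type*} [NormedAddCommGroup E] [InnerProductSpace ℝ E] [FiniteDimensional ℝ E]
  {G : E → Bil E} {L : E → E → E} {m : ℕ} {b : ℝ} {Ex : E → E → E} {W : E → E → ℝ → E}

/-- `J` is a Jacobi field along `γ` (velocity `V`) with covariant derivative `DJ`. -/
def IsJac (G : E → Bil E) (γ V J DJ : ℝ → E) : Prop :=
  ∀ t, HasDerivAt J (DJ t - chr G (γ t) (V t) (J t)) t ∧
    HasDerivAt DJ (-chr G (γ t) (V t) (DJ t) - riem G (γ t) (J t) (V t) (V t)) t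

theorem geoj_part {X Y : Type*} [NormedAddCommGroup X] [NormedSpace ℝ X] [NormedAddCommGroup Y]
    [NormedSpace ℝ Y] {F : X × ℝ → Y} {p : X} {t : ℝ} (hF : DifferentiableAt ℝ F (p, t)) (δ : X) :
    fderiv ℝ (fun q => F (q, t)) p δ = fderiv ℝ F (p, t) (δ, 0) ∧
      HasDerivAt (fun s => F (p, s)) (fderiv ℝ F (p, t) (0, 1)) t := by
  have h1 : HasFDerivAt (fun q => F (q, t)) _ p :=
    hF.hasFDerivAt.comp p (hasFDerivAt_prodMk_left p t)
  refine ⟨by rw [h1.fderiv]; rfl, ?_⟩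
  exact hF.hasFDerivAt.comp_hasDerivAt t ((hasDerivAt_const t p).prodMk (hasDerivAt_id t))

theorem geoj_swap {X Y : Type*} [NormedAddCommGroup X] [NormedSpace ℝ X] [NormedAddCommGroup Y]
    [NormedSpace ℝ Y] {F F' : X × ℝ → Y} (hF : ContDiff ℝ ∞ F)
    (h : ∀ q t, HasDerivAt (fun s => F (q, s)) (F' (q, t)) t) :
    ContDiff ℝ ∞ F' ∧ ∀ p δ t, HasDerivAt (fun s => fderiv ℝ (fun q => F (q, s)) p δ)
      (fderiv ℝ (fun q => F' (q, t)) p δ) t := by
  have hd : Differentiable ℝ F := hF.differentiable (by simp)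
  have hD : ContDiff ℝ ∞ (fderiv ℝ F) := hF.fderiv_right (m := ∞) (by simp)
  have hD' : Differentiable ℝ (fderiv ℝ F) := hD.differentiable (by simp)
  have e : F' = fun z => fderiv ℝ F z (0, 1) := funext fun z =>
    (h z.1 z.2).unique (geoj_part (hd z) z.1).2
  subst e
  refine ⟨hD.clm_apply contDiff_const, fun p δ t => ?_⟩
  have e1 : (fun s => fderiv ℝ (fun q => F (q, s)) p δ) = fun s => fderiv ℝ F (p, s) (δ, 0) :=
    funext fun s => (geoj_part (hd _) δ).1
  have h1 := (geoj_part (F := fun z => fderiv ℝ F z (δ, 0)) (p := p) (t := t)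
    ((hD' _).clm_apply (differentiableAt_const _)) δ).2
  have h2 := (geoj_part (F := fun z => fderiv ℝ F z (0, 1)) (p := p) (t := t)
    ((hD' _).clm_apply (differentiableAt_const _)) δ).1
  rw [loc_fderiv_app1c (hD' _)] at h1 h2
  rw [e1, h2, (hF.contDiffAt (x := (p, t))).isSymmSndFDerivAt (by simpa using chg_two) (δ, 0) (0, 1)]
  exact h1

omit [FiniteDimensional ℝ E] in
theorem geoj_smooth (h : ExpPack G Ex W) :
    ContDiff ℝ ∞ (fun z : (E × E) × ℝ => Ex z.1.1 (z.2 • z.1.2)) ∧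
      ContDiff ℝ ∞ fun z : (E × E) × ℝ => W z.1.1 z.1.2 z.2 := by
  have h1 : ContDiff ℝ ∞ (fun z : (E × E) × ℝ => Ex z.1.1 (z.2 • z.1.2)) :=
    h.smooth.comp (f := fun z : (E × E) × ℝ => (z.1.1, z.2 • z.1.2)) (by fun_prop)
  exact ⟨h1, (geoj_swap h1 fun q t => h.d1 q.1 q.2 t).1⟩

omit [FiniteDimensional ℝ E] in
theorem geoj_diff (h : ExpPack G Ex W) (t : ℝ) :
    Differentiable ℝ (fun q : E × E => Ex q.1 (t • q.2)) ∧
      Differentiable ℝ fun q : E × E => W q.1 q.2 t :=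
  ⟨((geoj_smooth h).1.differentiable (by simp)).comp (f := fun q : E × E => (q, t)) (by fun_prop),
    ((geoj_smooth h).2.differentiable (by simp)).comp (f := fun q : E × E => (q, t)) (by fun_prop)⟩

theorem ExpPack.exists_jac (h : ExpPack G Ex W) (x v k ξ : E) :
    ∃ J DJ : ℝ → E, IsJac G (fun t => Ex x (t • v)) (W x v) J DJ ∧ J 0 = k ∧
      DJ 0 = ξ + chr G x v k ∧ ∀ t,
        J t = fderiv ℝ (fun q : E × E => Ex q.1 (t • q.2)) (x, v) (k, ξ) ∧
        DJ t = fderiv ℝ (fun q : E × E => W q.1 q.2 t) (x, v) (k, ξ) +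
          chr G (Ex x (t • v)) (W x v t) (J t) := by
  obtain ⟨s1, s2⟩ := geoj_smooth h
  have hsw := (geoj_swap (F := fun z : (E × E) × ℝ => (Ex z.1.1 (z.2 • z.1.2), W z.1.1 z.1.2 z.2))
    (F' := fun z => spray G (Ex z.1.1 (z.2 • z.1.2), W z.1.1 z.1.2 z.2)) (s1.prodMk s2)
    fun q t => (h.d1 q.1 q.2 t).prodMk (h.d2 q.1 q.2 t)).2 (x, v) (k, ξ)
  have e1 : ∀ t : ℝ, fderiv ℝ (fun q : E × E => (Ex q.1 (t • q.2), W q.1 q.2 t)) (x, v) (k, ξ) =
      (fderiv ℝ (fun q : E × E => Ex q.1 (t • q.2)) (x, v) (k, ξ),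
        fderiv ℝ (fun q : E × E => W q.1 q.2 t) (x, v) (k, ξ)) := fun t => by
    rw [DifferentiableAt.fderiv_prodMk ((geoj_diff h t).1 _) ((geoj_diff h t).2 _)]
    rfl
  have hsp : Differentiable ℝ (spray G) := by
    have := h.loc.contDiffOn_spray
    rw [univ_prod_univ, contDiffOn_univ] at this
    exact this.differentiable (by simp)
  obtain ⟨J, hJ⟩ : ∃ J : ℝ → E,
      ∀ t, J t = fderiv ℝ (fun q : E × E => Ex q.1 (t • q.2)) (x, v) (k, ξ) := ⟨_, fun _ => rfl⟩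
  obtain ⟨K, hK⟩ : ∃ K : ℝ → E,
      ∀ t, K t = fderiv ℝ (fun q : E × E => W q.1 q.2 t) (x, v) (k, ξ) := ⟨_, fun _ => rfl⟩
  have key : ∀ t, HasDerivAt (fun s => (J s, K s))
      (K t, lin G (Ex x (t • v)) (W x v t) (J t) (K t)) t := by
    intro t
    have h1 := hsw t
    have h2 := fderiv_comp (𝕜 := ℝ) (x, v) (hsp (Ex x (t • v), W x v t))
      (f := fun q : E × E => (Ex q.1 (t • q.2), W q.1 q.2 t))
      (((geoj_diff h t).1 _).prodMk ((geoj_diff h t).2 _))
    have h3 : fderiv ℝ (fun q : E × E => spray G (Ex q.1 (t • q.2), W q.1 q.2 t)) (x, v) (k, ξ) =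
        (K t, lin G (Ex x (t • v)) (W x v t) (J t) (K t)) := by
      refine (congrArg (fun A : (E × E) →L[ℝ] E × E => A (k, ξ)) h2).trans ?_
      simp only [ContinuousLinearMap.comp_apply]
      rw [e1, h.loc.fderiv_spray (mem_univ _), ← hJ, ← hK]
    simp only [e1, ← hJ, ← hK] at h1
    rwa [h3] at h1
  have k1 : ∀ t, HasDerivAt J (K t) t := fun t =>
    (ContinuousLinearMap.fst ℝ E E).hasFDerivAt.comp_hasDerivAt t (key t)
  have k2 : ∀ t, HasDerivAt K (lin G (Ex x (t • v)) (W x v t) (J t) (K t)) t := fun t =>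
    (ContinuousLinearMap.snd ℝ E E).hasFDerivAt.comp_hasDerivAt t (key t)
  have j0 : J 0 = k := by
    rw [hJ]
    simp only [zero_smul, h.zero]
    rw [show (fun q : E × E => q.1) = Prod.fst from rfl, fderiv_fst]
    rfl
  have k0 : K 0 = ξ := by
    rw [hK]
    simp only [h.vel0]
    rw [show (fun q : E × E => q.2) = Prod.snd from rfl, fderiv_snd]
    rfl
  refine ⟨J, fun t => K t + chr G (Ex x (t • v)) (W x v t) (J t), fun t => ⟨?_, ?_⟩, j0, ?_,
    fun t => ⟨hJ t, by rw [← hK]⟩⟩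
  · simpa using k1 t
  · exact (h.loc.jacobi_iff (x := fun t => Ex x (t • v)) (mem_univ _) (h.d1 x v t) (h.d2 x v t)
      (k1 t)).2 (k2 t)
  · simp only [j0, k0, zero_smul, h.zero, h.vel0]

theorem ExpPack.exists_jac_ends (h : ExpPack G Ex W) (hL : IsLog Ex L) (x y k l : E) :
    ∃ J DJ : ℝ → E, IsJac G (fun t => Ex x (t • L x y)) (W x (L x y)) J DJ ∧ J 0 = k ∧ J 1 = l ∧
      DJ 0 = fderiv ℝ (L x) y l - hs G L y x k ∧ DJ 1 = hs G L x y l - fderiv ℝ (L y) x k := by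
  have hd : Differentiable ℝ fun z : E × E => L z.1 z.2 := hL.smooth.differentiable (by simp)
  have hsplit : ∀ a c u w : E, fderiv ℝ (fun z : E × E => L z.1 z.2) (a, c) (u, w) =
      fderiv ℝ (fun z => L z c) a u + fderiv ℝ (L a) c w := by
    intro a c u w
    rw [(chg_part (hd (a, c)) u).1, (chg_part (hd (a, c)) w).2, ← map_add]
    simp
  have hhs : ∀ a c u : E, hs G L a c u = -fderiv ℝ (fun z => L z a) c u - chr G c (L c a) u := by
    intro a c u
    simp only [hs, covD, fderiv_fun_neg, add_apply, neg_apply, ContinuousLinearMap.flip_apply,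
      map_neg, chrL_apply, h.loc.chr_symm (mem_univ c) u, sub_eq_add_neg]
  obtain ⟨J, DJ, h1, h2, h3, h4⟩ := h.exists_jac x (L x y) k
    (fderiv ℝ (fun z : E × E => L z.1 z.2) (x, y) (k, l))
  have hΨ : HasFDerivAt (fun z : E × E => (z.1, L z.1 z.2))
      ((ContinuousLinearMap.fst ℝ E E).prod (fderiv ℝ (fun z : E × E => L z.1 z.2) (x, y)))
      (x, y) := hasFDerivAt_fst.prodMk (hd _).hasFDerivAt
  have c1 := (((geoj_diff h 1).1 (x, L x y)).hasFDerivAt.comp (x, y) hΨ).fderiv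
  have c2 := (((geoj_diff h 1).2 (x, L x y)).hasFDerivAt.comp (x, y) hΨ).fderiv
  have e1 : ((fun q : E × E => Ex q.1 ((1 : ℝ) • q.2)) ∘ fun z : E × E => (z.1, L z.1 z.2)) =
      Prod.snd := funext fun z => by simp [hL.right]
  have e2 : ((fun q : E × E => W q.1 q.2 1) ∘ fun z : E × E => (z.1, L z.1 z.2)) =
      fun z => -L z.2 z.1 := funext fun z => by simp [h.log_rev hL z.1 z.2]
  have c3 : HasFDerivAt (fun z : E × E => -L z.2 z.1)
      (-((fderiv ℝ (fun z : E × E => L z.1 z.2) (y, x)).comp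
        ((ContinuousLinearMap.snd ℝ E E).prod (ContinuousLinearMap.fst ℝ E E)))) (x, y) :=
    (HasFDerivAt.comp (g := fun z : E × E => L z.1 z.2) (f := fun z : E × E => (z.2, z.1)) (x, y)
      (hd (y, x)).hasFDerivAt (hasFDerivAt_snd.prodMk hasFDerivAt_fst)).neg
  rw [e1, fderiv_snd] at c1
  rw [e2, c3.fderiv] at c2
  have j1 : J 1 = l := (h4 1).1.trans (congrArg (fun A : (E × E) →L[ℝ] E => A (k, l)) c1).symm
  have k1 : fderiv ℝ (fun q : E × E => W q.1 q.2 1) (x, L x y)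
      (k, fderiv ℝ (fun z : E × E => L z.1 z.2) (x, y) (k, l)) =
      -fderiv ℝ (fun z : E × E => L z.1 z.2) (y, x) (l, k) :=
    (congrArg (fun A : (E × E) →L[ℝ] E => A (k, l)) c2).symm
  refine ⟨J, DJ, h1, h2, j1, ?_, ?_⟩
  · rw [h3, hsplit, hhs]
    abel
  · rw [(h4 1).2, k1, hsplit, hhs, j1, one_smul, hL.right, h.log_rev hL x y, ← chrL_apply,
      ← chrL_apply, map_neg, neg_apply]
    abel

end Vale.Agent.P219
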