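import Vale.Agent.P219.G.PackL
import Vale.Agent.P219.G.Sn
import Vale.Agent.P219.G.Lin2

/-!
# The normalised differential of the logarithm; the gain  (TASK)

`Cm = (fderiv (L x) y) ∘ S` with `S = (s/r) • 1 + ((1 - s/r) / r²) • (G y (L y x)).smulRight (L y x)` (`radial`), `det S = (s/r)^m` (`exists_onb` with `ν = r⁻¹ • L y x`, or the
matrix determinant lemma `Matrix.det_one_add_replicateCol_mul_replicateRow`, or `LinearMap.det` in an eigenbasis).  `iota_symm`: `jac_symm`.  `iota_le_one`: `wt_le_of_le`.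
`Mx_bound`: `e = a e₁ + e'`, `ν = a' e₂ + ν'` with `e₁ = -r⁻¹ L x y`, `e₂ = -r⁻¹ L y x`; `Cm e₂ = -e₁`, `G x e₁ (Cm ν') = 0` (`Cm_adj`), so
`Mx - cs a a' = -G x e' (Cm ν')`; Cauchy-Schwarz and `contrK`.
`gain_spec`: the operator `A = (s/r) • hs + ((c - s/r) / r²) • (G y (L y x)).smulRight (L y x) - c • 1` has `G y (A h) h = exq h ≥ 0` (`block` with `k = 0`), `exq (L y x) = 0`
(`hs_radial`, `ca_log`), `tdv A ν = gain`; `tdv_ge`, `penalty`, `iota_eq`.
-/

namespace Vale.Agent.P219

open scoped ContDiff Topology RealInnerProductSpace ENNReal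
open MeasureTheory Set Filter Vale.Agent.P255
open St (sn gmod)

variable {E : Type*} [NormedAddCommGroup E] [InnerProductSpace ℝ E] [FiniteDimensional ℝ E]
  {G : E → Bil E} {L : E → E → E} {m : ℕ} {b : ℝ}

omit [FiniteDimensional ℝ E] in
theorem iota_Cm_apply (b : ℝ) (G : E → Bil E) (L : E → E → E) (x y h : E) :
    Cm b G L x y h = (sn b (rr G L x y) / rr G L x y) • fderiv ℝ (L x) y h -
      ((1 - sn b (rr G L x y) / rr G L x y) / rr G L x y ^ 2 * G y (L y x) h) • L x y := by
  simp only [Cm, sub_apply, smul_apply, ContinuousLinearMap.smulRight_apply,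
    smul_smul]

theorem iota_sq (hP : Pack G L) (x y : E) : G y (L y x) (L y x) = rr G L x y ^ 2 := by
  rw [hP.rr_sq, hP.sym]; rfl

theorem iota_sq' (hP : Pack G L) (x y : E) : G x (L x y) (L x y) = rr G L x y ^ 2 := by
  rw [hP.rr_sq]; rfl

theorem Pack.Cm_radial (hP : Pack G L) {x y : E} (h : x ≠ y) : Cm b G L x y (L y x) = -L x y := by
  have hr := (hP.rr_pos h.symm).ne'
  rw [iota_Cm_apply, hP.radial, iota_sq hP, div_mul_cancel₀ _ (pow_ne_zero 2 hr)]
  module

theorem Pack.Cm_adj (hP : Pack G L) (x y k h : E) :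
    G x k (Cm b G L x y h) = G y h (Cm b G L y x k) := by
  have hx := (posB_of_loc hP.loc x).1
  have hy := (posB_of_loc hP.loc y).1
  rw [iota_Cm_apply, iota_Cm_apply, hP.rr_symm y x]
  simp only [map_sub, map_smul, smul_eq_mul]
  rw [hx k (fderiv ℝ (L x) y h), hy h (fderiv ℝ (L y) x k), hP.mixed y x k h, hx k (L x y),
    hy h (L y x)]
  ring

theorem Pack.Mx_symm (hP : Pack G L) (x y e ν : E) : Mx b G L x y e ν = Mx b G L y x ν e := by
  rw [Mx, Mx, hP.Cm_adj x y e ν, hP.rr_symm y x]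
  ring

theorem Pack.jac_pos (hP : Pack G L) (y x : E) : 0 < jac G L y x :=
  mul_pos (wt_pos (posB_of_loc hP.loc y)) (abs_pos.2 (hP.det_ne y x))

theorem iota_det (hE : Module.finrank ℝ E = m + 1) (hP : Pack G L) {x y : E} (h : x ≠ y) :
    (Cm b G L x y).det = (fderiv ℝ (L x) y).det * (sn b (rr G L x y) / rr G L x y) ^ m := by
  have hr := hP.rr_pos h.symm
  have hs := sn_pos b hr
  have hq := iota_sq hP x y
  have e1 := iota_Cm_apply b G L x y
  generalize sn b (rr G L x y) = s at hs e1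
  generalize rr G L x y = r at hr hq e1
  have e : (Cm b G L x y : E →ₗ[ℝ] E) = (fderiv ℝ (L x) y : E →ₗ[ℝ] E) ∘ₗ ((s / r) •
      LinearMap.transvection (G y (L y x) : E →ₗ[ℝ] ℝ)
        (((1 - s / r) / r ^ 2 / (s / r)) • L y x)) := by
    ext k
    simp only [ContinuousLinearMap.coe_coe, e1, LinearMap.comp_apply, LinearMap.smul_apply,
      LinearMap.transvection.apply, map_smul, map_add, hP.radial, smul_add, smul_neg, smul_smul,
      sub_eq_add_neg]
    congr 3
    field_simp
  rw [ContinuousLinearMap.det, ContinuousLinearMap.det, e, LinearMap.det_comp, LinearMap.det_smul,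
    LinearMap.transvection.det, hE]
  simp only [ContinuousLinearMap.coe_coe, map_smul, smul_eq_mul, hq]
  rw [pow_succ (s / r) m, mul_assoc]
  congr 1
  refine mul_right_eq_self₀.2 (Or.inl ?_)
  field_simp
  ring

theorem iota_ratio (b : ℝ) (G : E → Bil E) (L : E → E → E) (x y : E) :
    0 ≤ sn b (rr G L x y) / rr G L x y :=
  div_nonneg ((rr_nonneg G L x y).trans (le_sn b (rr_nonneg G L x y))) (rr_nonneg G L x y)

theorem Pack.iota_eq (hE : Module.finrank ℝ E = m + 1) (hP : Pack G L) {x y : E} (h : x ≠ y) :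
    iota m b G L x y = wt (G x) * |(Cm b G L x y).det| / wt (G y) := by
  rw [iota_det hE hP h, abs_mul, abs_of_nonneg (pow_nonneg (iota_ratio b G L x y) m), iota, jac]
  ring

theorem Pack.iota_symm (hP : Pack G L) (x y : E) : iota m b G L x y = iota m b G L y x := by
  have hx := wt_pos (posB_of_loc hP.loc x)
  have hy := wt_pos (posB_of_loc hP.loc y)
  have h := congrArg abs (hP.jac_symm y x)
  rw [abs_mul, abs_mul, abs_of_pos (pow_pos hx 2), abs_of_pos (pow_pos hy 2)] at h
  rw [iota, iota, jac, jac, hP.rr_symm y x, div_eq_div_iff hy.ne' hx.ne']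
  linear_combination (sn b (rr G L x y) / rr G L x y) ^ m * h

theorem Pack.iota_nonneg (hP : Pack G L) (x y : E) : 0 ≤ iota m b G L x y :=
  div_nonneg (mul_nonneg (pow_nonneg (iota_ratio b G L x y) m) (hP.jac_pos x y).le)
    (wt_pos (posB_of_loc hP.loc y)).le

theorem PackK.iota_le_one (hE : Module.finrank ℝ E = m + 1) (hP : PackK b G L) {x y : E}
    (h : x ≠ y) : iota m b G L x y ≤ 1 := by
  rw [hP.toPack.iota_eq hE h, div_le_one (wt_pos (posB_of_loc hP.loc y))]
  exact wt_le_of_le (posB_of_loc hP.loc x) (posB_of_loc hP.loc y) (hP.contrK x y h)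

omit [FiniteDimensional ℝ E] in
theorem iota_perp {B : Bil E} (hB : PosB B) {u e : E} {r : ℝ} (hr : r ≠ 0) (hu : B u u = r ^ 2)
    (he : B e e = 1) :
    B (e + (-B e u / r / r) • u) u = 0 ∧
      B (e + (-B e u / r / r) • u) (e + (-B e u / r / r) • u) = 1 - (-B e u / r) ^ 2 := by
  simp only [map_add, map_smul, add_apply, smul_apply, smul_eq_mul, hu, he, hB.1 u e]
  constructor
  · field_simp
    ring
  · field_simp
    ring

theorem PackK.Mx_bound (hP : PackK b G L) {x y e ν : E} (h : x ≠ y) (he : G x e e = 1)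
    (hν : G y ν ν = 1) :
    (Mx b G L x y e ν - cs b (rr G L x y) * ca G L x y e * ca G L y x ν) ^ 2 ≤
      (1 - ca G L x y e ^ 2) * (1 - ca G L y x ν ^ 2) := by
  have hx := posB_of_loc hP.loc x
  have hy := posB_of_loc hP.loc y
  have hr := (hP.toPack.rr_pos h.symm).ne'
  have hr' := (hP.toPack.rr_pos h).ne'
  obtain ⟨a1, a2⟩ := iota_perp hx hr (iota_sq' hP.toPack x y) he
  obtain ⟨b1, b2⟩ := iota_perp hy hr' (iota_sq' hP.toPack y x) hν
  change G x (e + (ca G L x y e / _) • _) _ = 0 at a1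
  change G x (e + (ca G L x y e / _) • _) (e + (ca G L x y e / _) • _) = 1 - ca G L x y e ^ 2 at a2
  change G y (ν + (ca G L y x ν / _) • _) _ = 0 at b1
  change G y (ν + (ca G L y x ν / _) • _) (ν + (ca G L y x ν / _) • _) = 1 - ca G L y x ν ^ 2 at b2
  generalize hν' : ν + (ca G L y x ν / rr G L y x) • L y x = ν' at b1 b2
  have c1 : G x (L x y) (Cm b G L x y ν') = 0 := by
    rw [hP.toPack.Cm_adj, hP.toPack.Cm_radial h.symm, map_neg, b1, neg_zero]
  have c2 : G x (e + (ca G L x y e / rr G L x y) • L x y) (Cm b G L x y ν') =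
      G x e (Cm b G L x y ν) + ca G L x y e * ca G L y x ν := by
    rw [map_add, map_smul, add_apply, smul_apply, c1, smul_zero, add_zero, ← hν', map_add, map_smul,
      hP.toPack.Cm_radial h, map_add, map_smul, map_neg, smul_eq_mul, hP.toPack.rr_symm y x]
    congr 1
    rw [ca.eq_def G L x y e]
    ring
  have c3 := hx.sq_le (e + (ca G L x y e / rr G L x y) • L x y) (Cm b G L x y ν')
  have c4 := hP.contrK x y h ν'
  have c5 := hx.nonneg (e + (ca G L x y e / rr G L x y) • L x y)
  rw [c2, a2] at c3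
  rw [b2] at c4
  rw [a2] at c5
  calc _ = (G x e (Cm b G L x y ν) + ca G L x y e * ca G L y x ν) ^ 2 := by rw [Mx]; ring
    _ ≤ _ := c3.trans (mul_le_mul_of_nonneg_left c4 c5)

/-- The operator of the excess. -/
noncomputable def iotaA (b : ℝ) (G : E → Bil E) (L : E → E → E) (x y : E) : E →L[ℝ] E :=
  (sn b (rr G L x y) / rr G L x y) • hs G L x y +
    ((cs b (rr G L x y) - sn b (rr G L x y) / rr G L x y) / rr G L x y ^ 2) •
      (G y (L y x)).smulRight (L y x) + (-cs b (rr G L x y)) • ContinuousLinearMap.id ℝ E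

theorem iotaA_form (hP : Pack G L) (x y h : E) :
    G y (iotaA b G L x y h) h = exq b G L x y h := by
  have hy := (posB_of_loc hP.loc y).1
  simp only [iotaA, exq, ca, add_apply, smul_apply, ContinuousLinearMap.smulRight_apply,
    ContinuousLinearMap.id_apply, map_add, map_smul, smul_eq_mul, hP.rr_symm y x, hy h (L y x)]
  ring

theorem iotaA_tdv (hE : Module.finrank ℝ E = m + 1) (hP : Pack G L) {x y ν : E} (h : x ≠ y)
    (hν : G y ν ν = 1) : tdv (G y) (iotaA b G L x y) ν = gain m b G L x y ν := by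
  have hy := (posB_of_loc hP.loc y).1
  have hr := (hP.rr_pos h.symm).ne'
  rw [iotaA, tdv_add, tdv_add, tdv_smul, tdv_smul, tdv_smul, tdv_smulRight, tdv_id hE hν, gain,
    iota_sq hP, ca, hP.rr_symm y x, hy ν (L y x)]
  field_simp
  ring

theorem iotaA_nonneg (hP : PackK b G L) {x y : E} (h : x ≠ y) (k : E) :
    0 ≤ G y (iotaA b G L x y k) k := by
  obtain ⟨P, -, h2⟩ := hP.block x y h
  have := h2 0 k
  rw [← iotaA_form hP.toPack, ← iotaA_form hP.toPack] at this
  simpa using this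

theorem iotaA_radial (hP : Pack G L) (x y : E) :
    G y (iotaA b G L x y (L y x)) (L y x) = 0 := by
  rw [iotaA_form hP, exq, hP.hs_radial, hP.ca_log, ← hP.rr_sq, iota_sq' hP y x]
  ring

theorem PackK.gain_nonneg (hE : Module.finrank ℝ E = m + 1) (hP : PackK b G L) {x y ν : E}
    (h : x ≠ y) (hν : G y ν ν = 1) : 0 ≤ gain m b G L x y ν := by
  rw [← iotaA_tdv hE hP.toPack h hν]
  exact tdv_nonneg (posB_of_loc hP.loc y) (iotaA_nonneg hP h) hν

theorem iota_gain_ge (hE : Module.finrank ℝ E = m + 1) (hP : PackK b G L) {x y ν : E}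
    (h : x ≠ y) (hν : G y ν ν = 1) :
    ca G L y x ν ^ 2 * trc (iotaA b G L x y) ≤ gain m b G L x y ν := by
  have hy := posB_of_loc hP.loc y
  have hr := (hP.toPack.rr_pos h).ne'
  have h1 := tdv_ge hy (iotaA_nonneg hP h) (e := (rr G L y x)⁻¹ • L y x)
    (by
      simp only [map_smul, smul_apply, smul_eq_mul, iota_sq' hP.toPack y x]
      field_simp) hν
    (by simp only [map_smul, smul_apply, smul_eq_mul, iotaA_radial hP.toPack, mul_zero])
  rw [iotaA_tdv hE hP.toPack h hν] at h1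
  refine le_trans (le_of_eq ?_) h1
  congr 1
  rw [ca, map_smul, smul_apply, smul_eq_mul, hy.1 ν]
  ring

theorem PackK.gain_mul (hE : Module.finrank ℝ E = m + 1) (hP : PackK b G L) {x y e ν : E}
    (h : x ≠ y) (he : G x e e = 1) (hν : G y ν ν = 1) :
    (ca G L x y e * ca G L y x ν * (1 - iota m b G L x y)) ^ 2 ≤
      gain m b G L y x e * gain m b G L x y ν := by
  have hx := posB_of_loc hP.loc x
  have hy := posB_of_loc hP.loc y
  obtain ⟨P, h1, h2⟩ := hP.block x y h
  have a1 := penalty hx hy h1 (hP.contrK x y h) (A₁ := iotaA b G L y x) (A₂ := iotaA b G L x y)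
    fun k l => by rw [iotaA_form hP.toPack, iotaA_form hP.toPack]; exact h2 k l
  rw [← hP.toPack.iota_eq hE h] at a1
  have a2 := iota_gain_ge hE hP h hν
  have a3 := iota_gain_ge hE hP h.symm he
  have a4 := trc_nonneg hy (iotaA_nonneg hP h)
  calc _ = ca G L x y e ^ 2 * ca G L y x ν ^ 2 * (1 - iota m b G L x y) ^ 2 := by ring
    _ ≤ ca G L x y e ^ 2 * ca G L y x ν ^ 2 * (trc (iotaA b G L y x) * trc (iotaA b G L x y)) :=
        mul_le_mul_of_nonneg_left a1 (by positivity)
    _ = ca G L x y e ^ 2 * trc (iotaA b G L y x) * (ca G L y x ν ^ 2 * trc (iotaA b G L x y)) := by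
        ring
    _ ≤ _ := mul_le_mul a3 a2 (mul_nonneg (sq_nonneg _) a4) (hP.gain_nonneg hE h.symm he)

end Vale.Agent.P219
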