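import Vale.Agent.P219.G.Basic

/-!
# Covariant derivative and tangential trace  (TASK)

`dvg_wt`: `dvg_smul` and `fderiv wt y ξ = wt * trc ((chrL G y).flip ξ)`: `wt = √det (hat (G y))`, `fderiv_det`, and
`trace ((hat G)⁻¹ hat (DG ξ)) = 2 trace (h ↦ chr h ξ)` because `DG ξ u v = G (chr ξ u) v + G u (chr ξ v)` (`LocMetric.fderiv_eq`, `chr_symm`); compute traces in a
`G y`-orthonormal basis (`trc_eq_sum`, from `exists_sqrt` and `LinearMap.trace_eq_sum_inner`, `LinearMap.trace_conj'`).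
-/

namespace Vale.Agent.P219

open scoped ContDiff Topology RealInnerProductSpace ENNReal
open MeasureTheory Set Filter Vale.Agent.P255
open St (sn gmod)

variable {E : Type*} [NormedAddCommGroup E] [InnerProductSpace ℝ E] [FiniteDimensional ℝ E]
  {G : E → Bil E} {L : E → E → E} {m : ℕ} {b : ℝ} {B : Bil E} {Z : E → E} {y : E}

theorem covD_apply (G : E → Bil E) (Z : E → E) (y h : E) :
    covD G Z y h = fderiv ℝ Z y h + chr G y h (Z y) := by
  simp [covD, chrL_apply]

theorem covD_smul {f : E → ℝ} {f' : E →L[ℝ] ℝ} (hf : HasFDerivAt f f' y)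
    (hZ : DifferentiableAt ℝ Z y) :
    covD G (fun x => f x • Z x) y = f y • covD G Z y + f'.smulRight (Z y) := by
  ext h
  rw [covD_apply, (hf.fun_smul hZ.hasFDerivAt).fderiv]
  simp only [add_apply, smul_apply, ContinuousLinearMap.smulRight_apply, covD_apply, ← chrL_apply,
    map_smul, smul_add]
  abel

theorem covD_add {Z' : E → E} (hZ : DifferentiableAt ℝ Z y) (hZ' : DifferentiableAt ℝ Z' y) :
    covD G (fun x => Z x + Z' x) y = covD G Z y + covD G Z' y := by
  ext h
  rw [covD_apply, fderiv_fun_add hZ hZ']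
  simp only [add_apply, covD_apply, ← chrL_apply, map_add]
  abel

theorem covD_congr {Z' : E → E} (h : Z =ᶠ[𝓝 y] Z') : covD G Z y = covD G Z' y := by
  rw [covD, covD, h.fderiv_eq, h.eq_of_nhds]

theorem continuous_covD (hG : LocMetric G univ) (hZ : ContDiff ℝ 1 Z) :
    Continuous (covD G Z) := by
  have h1 : Continuous (chrL G) := (contDiffOn_univ.1 hG.contDiffOn_chrL).continuous
  have h2 : Continuous fun y => (chrL G y).flip :=
    (ContinuousLinearMap.flipₗᵢ ℝ E E E).continuous.comp h1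
  exact (hZ.continuous_fderiv one_ne_zero).add (h2.clm_apply hZ.continuous)

theorem lie_covD (hG : LocMetric G univ) (Z : E → E) (y u v : E) :
    fderiv ℝ G y (Z y) u v + G y (fderiv ℝ Z y u) v + G y u (fderiv ℝ Z y v) =
      G y (covD G Z y u) v + G y u (covD G Z y v) := by
  rw [hG.fderiv_eq (mem_univ y), covD_apply, covD_apply, hG.chr_symm (mem_univ y) (Z y) u,
    hG.chr_symm (mem_univ y) (Z y) v]
  simp only [map_add, add_apply]
  ring

theorem lin1_tr {ι : Type*} [Fintype ι] (P : E ≃L[ℝ] E) (hP : ∀ u v, B u v = ⟪P u, P v⟫)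
    (e : OrthonormalBasis ι ℝ E) (A : E →L[ℝ] E) :
    trc A = ∑ i, B (A (P.symm (e i))) (P.symm (e i)) := by
  rw [trc, ← LinearMap.trace_conj' _ P.toLinearEquiv, LinearMap.trace_eq_sum_inner _ e]
  refine Finset.sum_congr rfl fun i _ => ?_
  rw [hP, P.apply_symm_apply, real_inner_comm]
  rfl

theorem lin1_wt (hG : LocMetric G univ) (y ξ : E) :
    fderiv ℝ (fun x => wt (G x)) y ξ = wt (G y) * trc ((chrL G y).flip ξ) := by
  have hp := posB_of_loc hG y
  have h0 := wt_pos hp
  have hd : (hat (G y)).det ≠ 0 := by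
    rw [← wt_sq hp]
    positivity
  have h1 : HasFDerivAt (fun x => hat (G x))
      ((ContinuousLinearMap.compL ℝ E (E →L[ℝ] ℝ) E (riesz E)).comp (fderiv ℝ G y)) y :=
    HasFDerivAt.comp (F := Bil E) (G := E →L[ℝ] E) y
      (ContinuousLinearMap.hasFDerivAt (E := Bil E) (F := E →L[ℝ] E)
        (ContinuousLinearMap.compL ℝ E (E →L[ℝ] ℝ) E (riesz E)))
      (hG.loc_diff (mem_univ y)).hasFDerivAt
  have h2 := ((contDiff_det (E := E)).differentiable (by simp) (hat (G y))).hasFDerivAt.comp y h1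
  have h3 : HasFDerivAt (fun x => wt (G x)) _ y := h2.sqrt hd
  obtain ⟨P, hP, -⟩ := exists_sqrt hp
  have h4 : trc ((hat (G y)).inverse.comp (hat (fderiv ℝ G y ξ))) =
      2 * trc ((chrL G y).flip ξ) := by
    rw [lin1_tr P hP (stdOrthonormalBasis ℝ E), lin1_tr P hP (stdOrthonormalBasis ℝ E),
      Finset.mul_sum]
    refine Finset.sum_congr rfl fun i _ => ?_
    rw [← inner_hat, ContinuousLinearMap.comp_apply, (isInvertible_of_det hd).self_apply_inverse,
      inner_hat, hG.fderiv_eq (mem_univ y), ContinuousLinearMap.flip_apply, chrL_apply,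
      hG.chr_symm (mem_univ y) ξ, hp.1 (P.symm _) (chr G y _ _)]
    ring
  have h5 := fderiv_det hd (hat (fderiv ℝ G y ξ))
  rw [h3.fderiv]
  change 1 / (2 * wt (G y)) *
    fderiv ℝ (fun A : E →L[ℝ] E => A.det) (hat (G y)) (hat (fderiv ℝ G y ξ)) = _
  rw [h5, ← wt_sq hp]
  change _ * (_ * trc _) = _
  rw [h4]
  field_simp

theorem dvg_wt (hG : LocMetric G univ) (hZ : DifferentiableAt ℝ Z y) :
    dvg (fun x => wt (G x) • Z x) y = wt (G y) * trc (covD G Z y) := by
  rw [dvg_smul ((contDiff_wt hG).differentiable (by simp) y) hZ, lin1_wt hG, covD]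
  have h : trc (fderiv ℝ Z y + (chrL G y).flip (Z y)) = dvg Z y + trc ((chrL G y).flip (Z y)) :=
    map_add (detTr E) _ _
  rw [h]
  ring

theorem continuous_trc : Continuous (trc : (E →L[ℝ] E) → ℝ) := continuous_trace

theorem contDiff_trc : ContDiff ℝ ∞ (trc : (E →L[ℝ] E) → ℝ) :=
  (LinearMap.toContinuousLinearMap (detTr E)).contDiff

theorem trc_add (A A' : E →L[ℝ] E) : trc (A + A') = trc A + trc A' :=
  map_add (detTr E) _ _

theorem trc_smul (c : ℝ) (A : E →L[ℝ] E) : trc (c • A) = c * trc A :=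
  map_smul (detTr E) _ _

theorem trc_smulRight (l : E →L[ℝ] ℝ) (v : E) : trc (l.smulRight v) = l v :=
  LinearMap.trace_smulRight (l : E →ₗ[ℝ] ℝ) v

theorem trc_id (hE : Module.finrank ℝ E = m + 1) : trc (ContinuousLinearMap.id ℝ E) = m + 1 := by
  rw [trc, ContinuousLinearMap.coe_id, LinearMap.trace_id, hE]
  simp

theorem tdv_add (B : Bil E) (A A' : E →L[ℝ] E) (ν : E) :
    tdv B (A + A') ν = tdv B A ν + tdv B A' ν := by
  simp only [tdv, trc_add, add_apply, map_add]
  ring

theorem tdv_smul (B : Bil E) (c : ℝ) (A : E →L[ℝ] E) (ν : E) :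
    tdv B (c • A) ν = c * tdv B A ν := by
  simp only [tdv, trc_smul, smul_apply, map_smul, smul_eq_mul]
  ring

theorem tdv_zero (B : Bil E) (ν : E) : tdv B 0 ν = 0 := by
  simp [tdv, trc]

theorem tdv_smulRight (B : Bil E) (l : E →L[ℝ] ℝ) (v ν : E) :
    tdv B (l.smulRight v) ν = l v - l ν * B v ν := by
  simp [tdv, trc_smulRight]

theorem tdv_id (hE : Module.finrank ℝ E = m + 1) {ν : E} (hν : B ν ν = 1) :
    tdv B (ContinuousLinearMap.id ℝ E) ν = m := by
  simp [tdv, trc_id hE, hν]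

/-- A `B`-orthonormal basis starting with a given unit vector. -/
theorem exists_onb (hE : Module.finrank ℝ E = m + 1) (hB : PosB B) {ν : E} (hν : B ν ν = 1) :
    ∃ e : Fin (m + 1) → E, e 0 = ν ∧ (∀ i j, B (e i) (e j) = if i = j then 1 else 0) ∧
      (∀ v, ∑ i, B (e i) v • e i = v) ∧ ∀ A : E →L[ℝ] E, trc A = ∑ i, B (A (e i)) (e i) := by
  obtain ⟨P, hP, -⟩ := exists_sqrt hB
  have h1 : Orthonormal ℝ (({0} : Set (Fin (m + 1))).domRestrict fun _ => P ν) := by
    refine ⟨fun _ => ?_, fun i j h => absurd (Subsingleton.elim i j) h⟩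
    have h2 : ‖P ν‖ ^ 2 = 1 := by rw [← real_inner_self_eq_norm_sq, ← hP, hν]
    exact (pow_eq_one_iff_of_nonneg (norm_nonneg _) two_ne_zero).1 h2
  obtain ⟨e, he⟩ := h1.exists_orthonormalBasis_extension_of_card_eq (by simpa using hE)
  refine ⟨fun i => P.symm (e i), by simp [he 0 rfl], fun i j => ?_, fun v => ?_,
    lin1_tr P hP e⟩
  · rw [hP, P.apply_symm_apply, P.apply_symm_apply]
    exact orthonormal_iff_ite.1 e.orthonormal i j
  · apply P.injective
    simp only [hP, map_sum, map_smul, P.apply_symm_apply]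
    exact e.sum_repr' (P v)

end Vale.Agent.P219
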