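import Vale.Agent.P219.G.Norm

/-!
# Weak limits of boundary measures  (TASK)

Let `𝒰` be an ultrafilter finer than `atTop` containing all sets `{k | mass ≤ a + δ}` (these sets are decreasing in `δ`: `Filter.iInf_neBot_of_directed`, or extract a subsequence with
`Filter.extraction_forall_of_frequently`).  The finite measures of mass `≤ a + 1` carried by the compact set `UB G K'` form a compact set
(`isCompact_setOf_finiteMeasure_le_of_isCompact`, `Mathlib/MeasureTheory/Measure/Prokhorov.lean`), so there is a limit `ν₀` (`IsCompact.ultrafilter_le_nhds`).  Mass: `FiniteMeasure.continuous_mass`.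
Support: for `δ > 0` the open set `{z | z.1 ∉ cthickening δ K}` has measure `0` in the limit (portmanteau `FiniteMeasure.limsup_measure_closed_le_of_tendsto` or test against a bounded
continuous function such as `min 1 (infDist z.1 (cthickening δ K))`); `closure_eq_iInter_cthickening`.  Divergence identity: multiply the continuous integrand by a compactly supported cut-off
equal to `1` on `UB G K'` to get a bounded continuous function (`FiniteMeasure.tendsto_iff_forall_integral_tendsto`); `dvg Z` is bounded on `K'`.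
-/

namespace Vale.Agent.P219

open scoped ContDiff Topology RealInnerProductSpace ENNReal
open MeasureTheory Set Filter Vale.Agent.P255
open St (sn gmod)

variable {E : Type*} [NormedAddCommGroup E] [InnerProductSpace ℝ E] [FiniteDimensional ℝ E]
  [MeasurableSpace E] [BorelSpace E] {G : E → Bil E} {L : E → E → E} {K : Set E} {m : ℕ} {b : ℝ}

theorem mcpt_bd {K' : Set E} (hK' : IsCompact K') {f : E → ℝ} (hf : Continuous f) :
    ∃ B : ℝ, ∀ v : E → ℝ, Integrable v → (∀ x ∉ K', v x = 0) →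
      Integrable (fun y => v y * f y) ∧ ‖∫ y, v y * f y‖ ≤ B * ∫ y, |v y| := by
  obtain ⟨B, hB⟩ := hK'.exists_bound_of_continuousOn hf.continuousOn
  refine ⟨B, fun v hv h0 => ?_⟩
  have hb : ∀ᵐ y, ‖v y * f y‖ ≤ B * |v y| := ae_of_all _ fun y => by
    by_cases hy : y ∈ K'
    · rw [norm_mul, mul_comm]
      exact mul_le_mul_of_nonneg_right (hB y hy) (norm_nonneg _)
    · simp [h0 y hy]
  exact ⟨(hv.abs.const_mul B).mono' (hv.1.mul hf.aestronglyMeasurable) hb,
    (norm_integral_le_of_norm_le (hv.abs.const_mul B) hb).trans_eq (integral_const_mul _ _)⟩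

theorem mcpt_int {X : Type*} [TopologicalSpace X] [MeasurableSpace X] [OpensMeasurableSpace X]
    {T : Set X} (hT : IsCompact T) {f : X → ℝ} (hf : Continuous f) {l : Filter ℕ}
    {F : ℕ → FiniteMeasure X} {μ : FiniteMeasure X} (h : Tendsto F l (𝓝 μ))
    (h1 : ∀ n, ∀ᵐ z ∂(F n : Measure X), z ∈ T) (h2 : ∀ᵐ z ∂(μ : Measure X), z ∈ T) :
    Tendsto (fun n => ∫ z, f z ∂(F n : Measure X)) l (𝓝 (∫ z, f z ∂(μ : Measure X))) := by
  obtain ⟨B, hB⟩ := hT.exists_bound_of_continuousOn hf.continuousOn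
  let g := BoundedContinuousFunction.ofNormedAddCommGroup (fun z => max (-|B|) (min |B| (f z)))
    (by fun_prop) |B| fun z => abs_le.2 ⟨le_max_left _ _,
      max_le (neg_le_self (abs_nonneg B)) (min_le_left _ _)⟩
  have e : ∀ ν : Measure X, (∀ᵐ z ∂ν, z ∈ T) → ∫ z, g z ∂ν = ∫ z, f z ∂ν := fun ν hν =>
    integral_congr_ae (hν.mono fun z hz => by
      have := abs_le.1 ((hB z hz).trans (le_abs_self B))
      exact (congrArg _ (min_eq_right this.2)).trans (max_eq_right this.1))
  exact e _ h2 ▸ (FiniteMeasure.tendsto_iff_forall_integral_tendsto.1 h g).congr fun n => e _ (h1 n)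

theorem exists_limit (hG : LocMetric G univ) (hK : IsCompact K) {K' : Set E} (hK' : IsCompact K')
    (hKK : K ⊆ K') {u : ℕ → E → ℝ} {ν : ℕ → Measure (E × E)} (hfin : ∀ k, IsFiniteMeasure (ν k))
    (hu : ∀ k, Integrable (u k)) (hu0 : ∀ k, ∀ x ∉ K', u k x = 0)
    (hs : ∀ k, ∀ᵐ z ∂ν k, z ∈ UB G K')
    (hd : ∀ k, ∀ Z : E → E, ContDiff ℝ 1 Z →
      ∫ y, u k y * dvg Z y = ∫ z, G z.1 z.2 (Z z.1) / wt (G z.1) ∂ν k)
    {S : Set E} (hS : MeasurableSet S) (hSK : S ⊆ K)
    (hl : Tendsto (fun k => ∫ x, |u k x - ind S x|) atTop (𝓝 0))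
    (ht : ∀ δ : ℝ, 0 < δ → ∀ᶠ k in atTop, ∀ᵐ z ∂ν k, z.1 ∈ Metric.cthickening δ K)
    {a : ℝ} (ha : ∀ δ : ℝ, 0 < δ → ∃ᶠ k in atTop, (ν k).real univ ≤ a + δ) :
    ∃ D : NDom G K, D.Ω = S ∧ D.A ≤ a := by
  obtain ⟨φ, hφ, hm⟩ := extraction_forall_of_frequently
    fun n : ℕ => ha _ (Nat.one_div_pos_of_nat (n := n))
  let F : ℕ → FiniteMeasure (E × E) := fun n => ⟨ν (φ n), hfin _⟩
  have hle : (hyperfilter ℕ : Filter ℕ) ≤ atTop := Nat.hyperfilter_le_atTop
  have hC := fun (δ : ℝ) => isCompact_setOfPred_finiteMeasure_le_of_isCompact (a + δ).toNNReal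
    (isCompact_UB hG (hK'.inter_right (Metric.isClosed_cthickening (δ := δ) (E := K))))
  have hF : ∀ δ : ℝ, 0 < δ → ∀ᶠ n in (hyperfilter ℕ : Filter ℕ),
      F n ∈ {μ : FiniteMeasure (E × E) | μ.mass ≤ (a + δ).toNNReal ∧
        μ (UB G (K' ∩ Metric.cthickening δ K))ᶜ = 0} := fun δ hδ => by
    refine Eventually.filter_mono hle ?_
    filter_upwards [hφ.tendsto_atTop.eventually (ht δ hδ),
      tendsto_one_div_add_atTop_nhds_zero_nat.eventually_le_const hδ] with n h1 h2
    refine ⟨NNReal.coe_le_coe.1 (le_trans ?_ (Real.le_coe_toNNReal _)),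
      (FiniteMeasure.null_iff_toMeasure_null _ _).2 ?_⟩
    · exact (hm n).trans (by linarith)
    · exact ((hs (φ n)).and h1).mono fun z hz => ⟨⟨hz.1.1, hz.2⟩, hz.1.2⟩
  obtain ⟨μ, -, hμ⟩ := (hC 1).ultrafilter_le_nhds ((hyperfilter ℕ).map F)
    (le_principal_iff.2 (hF 1 one_pos))
  have hlim : Tendsto F (hyperfilter ℕ) (𝓝 μ) := hμ
  have hμ' := fun δ hδ => (hC δ).isClosed.mem_of_tendsto hlim (hF δ hδ)
  have hsupp : ∀ᵐ z ∂(μ : Measure (E × E)), z ∈ UB G K := by
    filter_upwards [ae_all_iff.2 fun n : ℕ => show ∀ᵐ z ∂(μ : Measure (E × E)), z ∈ UB G _ from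
      (FiniteMeasure.null_iff_toMeasure_null _ _).1
        (hμ' _ (Nat.one_div_pos_of_nat (n := n))).2] with z hz
    refine ⟨?_, (hz 0).2⟩
    rw [← hK.isClosed.closure_eq, Metric.closure_eq_iInter_cthickening]
    refine mem_iInter₂.2 fun δ hδ => ?_
    obtain ⟨n, hn⟩ := exists_nat_one_div_lt hδ
    exact Metric.cthickening_mono hn.le _ (hz n).1.2
  refine ⟨⟨S, μ, inferInstance, hS, hSK, hsupp, fun Z hZ => ?_⟩, rfl,
    le_of_forall_pos_le_add fun δ hδ => ?_⟩
  · have hG' : Continuous G := (contDiffOn_univ.1 hG.smooth).continuous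
    have t1 := mcpt_int (isCompact_UB hG hK') (f := fun z => G z.1 z.2 (Z z.1) / wt (G z.1))
      ((((hG'.comp continuous_fst).clm_apply continuous_snd).clm_apply
        (hZ.continuous.comp continuous_fst)).div ((contDiff_wt hG).continuous.comp continuous_fst)
          fun z => (wt_pos (posB_of_loc hG z.1)).ne') hlim (fun n => hs (φ n))
      (hsupp.mono fun z hz => ⟨hKK hz.1, hz.2⟩)
    obtain ⟨B, hB⟩ := mcpt_bd hK' (continuous_dvg hZ)
    have i1 : Integrable (ind S) := (integrable_indicator_iff hS).2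
      (integrableOn_const ((measure_mono hSK).trans_lt hK.measure_lt_top).ne)
    have z1 : ∀ x ∉ K', ind S x = 0 := fun x hx => indicator_of_notMem (fun h => hx (hKK (hSK h))) _
    have t2 : Tendsto (fun k => ∫ y, u k y * dvg Z y) atTop (𝓝 (∫ y, ind S y * dvg Z y)) := by
      refine tendsto_iff_norm_sub_tendsto_zero.2 (squeeze_zero (fun _ => norm_nonneg _)
        (fun k => ?_) (by simpa using hl.const_mul B))
      rw [← integral_sub (hB _ (hu k) (hu0 k)).1 (hB _ i1 z1).1]
      simp only [← sub_mul]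
      exact (hB _ ((hu k).sub i1) fun x hx => by simp [hu0 k x hx, z1 x hx]).2
    refine Eq.trans ?_ (tendsto_nhds_unique ((t2.comp hφ.tendsto_atTop).mono_left hle)
      (t1.congr fun n => (hd (φ n) Z hZ).symm))
    rw [← integral_indicator hS]
    refine integral_congr_ae (ae_of_all _ fun y => ?_)
    simp only [ind, ← indicator_mul_left, Pi.one_apply, one_mul]
  · obtain ⟨k, hk⟩ := (ha δ hδ).exists
    exact (NNReal.coe_le_coe.2 (hμ' δ hδ).1).trans_eq
      (Real.coe_toNNReal _ (measureReal_nonneg.trans hk))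

end Vale.Agent.P219
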