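import Vale.Agent.P219.Half

/-!
# Half spaces in dimension `m + 1` (port of `EDefs`, `Half`)
-/

namespace Vale.Agent.P219.Gm

open scoped ContDiff Topology RealInnerProductSpace ENNReal
open MeasureTheory Set Vale.Agent.P255

variable {m : ℕ}

/-- The inclusion of the hyperplane `y 0 = 0`. -/
noncomputable def emb {m : ℕ} : Euc m →L[ℝ] Euc (m + 1) :=
  ∑ i : Fin m, (EuclideanSpace.proj i : Euc m →L[ℝ] ℝ).smulRight (EuclideanSpace.single i.succ 1)

/-- The projection onto the hyperplane `y 0 = 0`. -/
noncomputable def prj {m : ℕ} : Euc (m + 1) →L[ℝ] Euc m :=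
  ∑ i : Fin m, (EuclideanSpace.proj i.succ : Euc (m + 1) →L[ℝ] ℝ).smulRight (EuclideanSpace.single i 1)

theorem emb_zero (z : Euc m) : emb z 0 = 0 := by
  simp [emb]

theorem emb_succ (z : Euc m) (i : Fin m) : emb z i.succ = z i := by
  simp [emb, Pi.single_apply]

theorem prj_apply (y : Euc (m + 1)) (i : Fin m) : prj y i = y i.succ := by
  simp [prj, Pi.single_apply]

theorem prj_emb (z : Euc m) : prj (emb z) = z := by
  ext i
  rw [prj_apply, emb_succ]

theorem emb_prj {y : Euc (m + 1)} (h : y 0 = 0) : emb (prj y) = y := by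
  ext i
  refine Fin.cases ?_ (fun j => ?_) i
  · rw [emb_zero, h]
  · rw [emb_succ, prj_apply]

theorem emb_single (i : Fin m) :
    emb (EuclideanSpace.single i 1) = EuclideanSpace.single i.succ 1 := by
  ext j
  refine Fin.cases ?_ (fun j => ?_) j
  · rw [emb_zero]
    simp [(Fin.succ_ne_zero i).symm]
  · rw [emb_succ]
    simp

/-- A global diffeomorphism that straightens the boundary of `Ω` inside `U`. -/
structure Patch (Ω : Set (Euc (m + 1))) (Θ Θ' : Euc (m + 1) → Euc (m + 1)) (U : Set (Euc (m + 1))) : Prop where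
  smooth : ContDiff ℝ ∞ Θ
  smooth' : ContDiff ℝ ∞ Θ'
  left : ∀ y, Θ' (Θ y) = y
  right : ∀ y, Θ (Θ' y) = y
  isOpen : IsOpen U
  bdd : Bornology.IsBounded U
  mem : ∀ y ∈ U, y ∈ Ω ↔ Θ' y 0 < 0
  fr : ∀ y ∈ U, y ∈ frontier Ω ↔ Θ' y 0 = 0

/-- The vector area element of a patch. -/
noncomputable def pN (Θ : Euc (m + 1) → Euc (m + 1)) (z : Euc m) : Euc (m + 1) →L[ℝ] ℝ :=
  cof (fderiv ℝ Θ (emb z)) (EuclideanSpace.proj 0)

/-- The splitting of the space. -/
noncomputable def halfE {m : ℕ} : ℝ × Euc m ≃ᵐ Euc (m + 1) :=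
  (MeasurableEquiv.prodCongr (MeasurableEquiv.refl ℝ)
    (MeasurableEquiv.toLp 2 (Fin m → ℝ)).symm).trans
    ((MeasurableEquiv.piFinSuccAbove (fun _ : Fin (m + 1) => ℝ) 0).symm.trans
      (MeasurableEquiv.toLp 2 (Fin (m + 1) → ℝ)))

theorem halfE_zero (p : ℝ × Euc m) : halfE p 0 = p.1 := rfl

theorem halfE_apply (p : ℝ × Euc m) :
    halfE p = p.1 • EuclideanSpace.single (0 : Fin (m + 1)) (1 : ℝ) + emb p.2 := by
  ext i
  refine Fin.cases ?_ (fun j => ?_) i
  · rw [halfE_zero]
    simp [emb_zero]
  · have : halfE p j.succ = p.2 j := rfl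
    rw [this]
    simp [emb_succ, Fin.succ_ne_zero]

theorem halfE_mp : MeasurePreserving (halfE (m := m)) volume volume := by
  have h1 : MeasurePreserving (MeasurableEquiv.prodCongr (MeasurableEquiv.refl ℝ)
      (MeasurableEquiv.toLp 2 (Fin m → ℝ)).symm) volume volume :=
    (MeasurePreserving.id (volume : Measure ℝ)).prod (PiLp.volume_preserving_ofLp (Fin m))
  have h2 := (volume_preserving_piFinSuccAbove (fun _ : Fin (m + 1) => ℝ) 0).symm _
  exact (PiLp.volume_preserving_toLp (Fin (m + 1))).comp (h2.comp h1)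

theorem half_setIntegral (f : Euc (m + 1) → ℝ) :
    ∫ y in {y : Euc (m + 1) | y 0 < 0}, f y =
      ∫ p, f (halfE p) ∂((volume.restrict (Iio (0 : ℝ))).prod (volume : Measure (Euc m))) := by
  rw [← halfE_mp.setIntegral_preimage_emb halfE.measurableEmbedding,
    Measure.restrict_prod_eq_prod_univ]
  congr 2
  ext p
  simp [halfE_zero]

theorem half_integrable_comp {f : Euc (m + 1) → ℝ} (hf : Integrable f) :
    Integrable (fun p => f (halfE p))
      ((volume.restrict (Iio (0 : ℝ))).prod (volume : Measure (Euc m))) := by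
  rw [Measure.restrict_prod_eq_prod_univ]
  exact ((halfE_mp.integrable_comp_emb halfE.measurableEmbedding).2 hf).integrableOn

theorem half_tangential {g : Euc (m + 1) → ℝ} (hg : ContDiff ℝ 1 g) (hc : HasCompactSupport g)
    (w : Euc m) : ∫ y in {y : Euc (m + 1) | y 0 < 0}, fderiv ℝ g y (emb w) = 0 := by
  rw [half_setIntegral, integral_prod _ (half_integrable_comp (half_integrable_fderiv hg hc _))]
  have key : ∀ t : ℝ, ∫ z : Euc m, fderiv ℝ g (halfE (t, z)) (emb w) = 0 := by
    intro t
    set c : Euc (m + 1) := t • EuclideanSpace.single (0 : Fin (m + 1)) (1 : ℝ) with hcdef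
    have hemb : Topology.IsClosedEmbedding fun z : Euc m => c + emb z :=
      (Homeomorph.addLeft c).isClosedEmbedding.comp
        (LinearMap.isClosedEmbedding_of_injective (f := (emb (m := m)).toLinearMap)
          (LinearMap.ker_eq_bot.2 (Function.LeftInverse.injective (g := prj) (f := emb) prj_emb)))
    have h1 : ContDiff ℝ 1 fun z : Euc m => g (c + emb z) :=
      hg.comp (contDiff_const.add emb.contDiff)
    have h2 : HasCompactSupport fun z : Euc m => g (c + emb z) := hc.comp_isClosedEmbedding hemb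
    rw [← half_int_fderiv_zero h1 h2 w]
    refine integral_congr_ae (Filter.Eventually.of_forall fun z => ?_)
    have h3 := (hg.differentiable one_ne_zero (c + emb z)).hasFDerivAt.comp z
      (emb.hasFDerivAt.const_add c)
    have h4 : fderiv ℝ (fun z : Euc m => g (c + emb z)) z = _ := h3.fderiv
    simp only [h4, halfE_apply, ContinuousLinearMap.comp_apply]
    rfl
  simp only [key, integral_zero]

theorem half_normal {g : Euc (m + 1) → ℝ} (hg : ContDiff ℝ 1 g) (hc : HasCompactSupport g) :
    ∫ y in {y : Euc (m + 1) | y 0 < 0}, fderiv ℝ g y (EuclideanSpace.single (0 : Fin (m + 1)) (1 : ℝ)) =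
      ∫ z : Euc m, g (emb z) := by
  rw [half_setIntegral,
    integral_prod_symm _ (half_integrable_comp (half_integrable_fderiv hg hc _))]
  refine integral_congr_ae (Filter.Eventually.of_forall fun z => ?_)
  set e : Euc (m + 1) := EuclideanSpace.single (0 : Fin (m + 1)) (1 : ℝ) with he
  have hne : e ≠ 0 := by
    intro h
    have := congrArg (fun v : Euc (m + 1) => v 0) h
    simp [he] at this
  have hemb : Topology.IsClosedEmbedding fun t : ℝ => t • e + emb z :=
    (Homeomorph.addRight (emb z)).isClosedEmbedding.comp (isClosedEmbedding_smul_left hne)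
  have h1 : ContDiff ℝ 1 fun t : ℝ => g (t • e + emb z) :=
    hg.comp ((contDiff_id.smul contDiff_const).add contDiff_const)
  have h2 : HasCompactSupport fun t : ℝ => g (t • e + emb z) := hc.comp_isClosedEmbedding hemb
  have h3 := h2.integral_Iic_deriv_eq h1 0
  rw [integral_Iic_eq_integral_Iio, zero_smul, zero_add] at h3
  simp only
  rw [← h3]
  refine integral_congr_ae (Filter.Eventually.of_forall fun t => ?_)
  have h4 := (hg.differentiable one_ne_zero (t • e + emb z)).hasFDerivAt.comp_hasDerivAt t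
    (((hasDerivAt_id t).smul_const e).add_const (emb z))
  have h5 : deriv (fun t : ℝ => g (t • e + emb z)) t = _ := h4.deriv
  simp only [h5, halfE_apply, one_smul]
  rfl

theorem half_div {Z : Euc (m + 1) → Euc (m + 1)} (hZ : ContDiff ℝ 1 Z) (hc : HasCompactSupport Z) :
    ∫ y in {y : Euc (m + 1) | y 0 < 0}, dvg Z y = ∫ z : Euc m, Z (emb z) 0 := by
  simp only [half_dvg_eq (EuclideanSpace.basisFun (Fin (m + 1)) ℝ) hZ]
  rw [integral_finsetSum _ fun i _ =>
    (half_integrable_fderiv (half_inner_smooth hZ _) (half_inner_supp hc _) _).integrableOn,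
    Fin.sum_univ_succ]
  simp only [EuclideanSpace.basisFun_apply]
  rw [half_normal (half_inner_smooth hZ _) (half_inner_supp hc _),
    Finset.sum_eq_zero fun i _ => ?_]
  · simp [EuclideanSpace.inner_single_left]
  · have h := half_tangential (half_inner_smooth hZ (EuclideanSpace.single i.succ (1 : ℝ)))
      (half_inner_supp hc _) (EuclideanSpace.single i 1)
    rwa [emb_single] at h

end Vale.Agent.P219.Gm
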