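import Vale.Agent.P219.G.PPatch
import Vale.Agent.P219.Init

/-!
# Boundary data in dimension `m + 1` (port of `Init`, `Final`)
-/

namespace Vale.Agent.P219.Gm

open scoped ContDiff Topology RealInnerProductSpace ENNReal
open MeasureTheory Set Vale.Agent.P255

variable {m : ℕ}

variable {Ω : Set (Euc (m + 1))} {G : Euc (m + 1) → Bil (Euc (m + 1))}

/-- Patches covering the boundary with a subordinate partition of unity. -/
structure Cover (Ω : Set (Euc (m + 1))) {k : ℕ} (Θ Θ' : Fin k → Euc (m + 1) → Euc (m + 1))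
    (U : Fin k → Set (Euc (m + 1))) (χ₀ : Euc (m + 1) → ℝ) (χ : Fin k → Euc (m + 1) → ℝ) : Prop where
  patch : ∀ i, Patch Ω (Θ i) (Θ' i) (U i)
  smooth₀ : ContDiff ℝ ∞ χ₀
  smooth : ∀ i, ContDiff ℝ ∞ (χ i)
  supp₀ : tsupport χ₀ ⊆ Ω
  supp : ∀ i, tsupport (χ i) ⊆ U i
  nonneg₀ : ∀ y, 0 ≤ χ₀ y
  nonneg : ∀ i y, 0 ≤ χ i y
  sum : ∀ y ∈ closure Ω, χ₀ y + ∑ i, χ i y = 1

theorem _root_.Vale.Agent.P219.EDom.exists_coverG (h : EDom Ω) :
    ∃ (k : ℕ) (Θ Θ' : Fin k → Euc (m + 1) → Euc (m + 1)) (U : Fin k → Set (Euc (m + 1))) (χ₀ : Euc (m + 1) → ℝ)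
      (χ : Fin k → Euc (m + 1) → ℝ), Cover Ω Θ Θ' U χ₀ χ := by
  classical
  have hc : IsCompact (frontier Ω) :=
    h.bdd.isCompact_closure.of_isClosed_subset isClosed_frontier frontier_subset_closure
  choose Θ Θ' U hP hU using fun (p : Euc (m + 1)) (hp : p ∈ frontier Ω) => h.exists_patchG hp
  obtain ⟨t, ht⟩ := hc.elim_nhds_subcover' U fun p hp => (hP p hp).isOpen.mem_nhds (hU p hp)
  let e : Fin t.card → frontier Ω := fun i => (t.equivFin.symm i : frontier Ω)
  let V : Option (Fin t.card) → Set (Euc (m + 1)) := fun o => o.elim Ω fun i => U (e i) (e i).2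
  obtain ⟨f, hf⟩ := SmoothPartitionOfUnity.exists_isSubordinate (modelWithCornersSelf ℝ (Euc (m + 1)))
    (isClosed_closure (s := Ω)) V (by
      rintro (_ | i)
      · exact h.isOpen
      · exact (hP _ _).isOpen) (by
      intro y hy
      rw [closure_eq_self_union_frontier] at hy
      rcases hy with hy | hy
      · exact mem_iUnion.2 ⟨none, hy⟩
      · obtain ⟨x, hx, hy'⟩ := mem_iUnion₂.1 (ht hy)
        refine mem_iUnion.2 ⟨some (t.equivFin ⟨x, hx⟩), ?_⟩
        have he : e (t.equivFin ⟨x, hx⟩) = x := by simp [e]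
        change y ∈ (fun x : frontier Ω => U x x.2) (e (t.equivFin ⟨x, hx⟩))
        rw [he]
        exact hy')
  refine ⟨t.card, fun i => Θ (e i) (e i).2, fun i => Θ' (e i) (e i).2, fun i => U (e i) (e i).2,
    f none, fun i => f (some i), fun i => hP _ _, (f none).contMDiff.contDiff,
    fun i => (f (some i)).contMDiff.contDiff, hf none, fun i => hf (some i),
    fun y => f.nonneg _ _, fun i y => f.nonneg _ _, fun y hy => ?_⟩
  have h1 := f.sum_eq_one hy
  rwa [finsum_eq_sum_of_fintype, Fintype.sum_option] at h1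

theorem init_int {k : ℕ} {V : Type*} [NormedAddCommGroup V] [NormedSpace ℝ V] [CompleteSpace V]
    [SecondCountableTopology V] {F : Fin k → Euc m → V} (hF : ∀ i, Continuous (F i))
    (hc : ∀ i, HasCompactSupport (F i)) :
    Integrable (fun ξ : Fin k × Euc m => F ξ.1 ξ.2)
      ((Measure.count : Measure (Fin k)).prod volume) ∧
    ∫ ξ : Fin k × Euc m, F ξ.1 ξ.2 ∂((Measure.count : Measure (Fin k)).prod volume) =
      ∑ i, ∫ z, F i z := by
  have h1 : Continuous fun ξ : Fin k × Euc m => F ξ.1 ξ.2 :=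
    continuous_prod_of_discrete_left.2 hF
  have h2 : Integrable (fun ξ : Fin k × Euc m => F ξ.1 ξ.2)
      ((Measure.count : Measure (Fin k)).prod volume) :=
    (integrable_prod_iff h1.aestronglyMeasurable).2
      ⟨Filter.Eventually.of_forall fun i => (hF i).integrable_of_hasCompactSupport (hc i),
        Integrable.of_finite⟩
  exact ⟨h2, by rw [integral_prod _ h2, integral_count]⟩

theorem init_supp {Θ Θ' : Euc (m + 1) → Euc (m + 1)} {U : Set (Euc (m + 1))} (h : Patch Ω Θ Θ' U)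
    {χ : Euc (m + 1) → ℝ} (hs : tsupport χ ⊆ U) {V : Type*} [Zero V] {F : Euc m → V}
    (hF : ∀ z, χ (Θ (emb z)) = 0 → F z = 0) : HasCompactSupport F := by
  have h1 : IsCompact (tsupport χ) :=
    Metric.isCompact_of_isClosed_isBounded (isClosed_tsupport χ) (h.bdd.subset hs)
  refine HasCompactSupport.intro
    ((h1.image h.smooth'.continuous).image prj.continuous) fun z hz => hF z ?_
  by_contra hne
  exact hz ⟨emb z, ⟨Θ (emb z), subset_tsupport χ hne, h.left _⟩, prj_emb z⟩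

theorem init_div {k : ℕ} {Θ Θ' : Fin k → Euc (m + 1) → Euc (m + 1)} {U : Fin k → Set (Euc (m + 1))}
    {χ₀ : Euc (m + 1) → ℝ} {χ : Fin k → Euc (m + 1) → ℝ} (hC : Cover Ω Θ Θ' U χ₀ χ) (h : EDom Ω)
    {Z : Euc (m + 1) → Euc (m + 1)} (hZ : ContDiff ℝ 1 Z) : ∫ y in Ω, dvg Z y =
      ∑ i, ∫ z : Euc m, pN (Θ i) z (χ i (Θ i (emb z)) • Z (Θ i (emb z))) := by
  let W : Option (Fin k) → Euc (m + 1) → Euc (m + 1) := fun o y => (o.elim χ₀ χ) y • Z y
  have hW : ∀ o, ContDiff ℝ 1 (W o) := by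
    rintro (_ | i)
    · exact (hC.smooth₀.of_le (by simp)).smul hZ
    · exact ((hC.smooth i).of_le (by simp)).smul hZ
  have h1 : ∀ y ∈ Ω, dvg Z y = ∑ o, dvg (W o) y := fun y hy => by
    rw [← dvg_sum _ fun o _ => ((hW o).differentiable one_ne_zero).differentiableAt]
    have h2 : Z =ᶠ[𝓝 y] fun x => ∑ o, W o x := by
      filter_upwards [h.isOpen.mem_nhds hy] with x hx
      simp only [W, ← Finset.sum_smul, Fintype.sum_option, Option.elim_none, Option.elim_some,
        hC.sum x (subset_closure hx), one_smul]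
    rw [dvg, dvg, h2.fderiv_eq]
  have h2 : ∀ o, IntegrableOn (dvg (W o)) Ω := fun o =>
    ((continuous_dvg (hW o)).continuousOn.integrableOn_compact
      h.bdd.isCompact_closure).mono_set subset_closure
  have h3 : tsupport (W none) ⊆ Ω := (tsupport_smul_subset_left χ₀ Z).trans hC.supp₀
  have h4 : ∫ y in Ω, dvg (W none) y = 0 := by
    rw [setIntegral_eq_integral_of_forall_compl_eq_zero fun y hy => by
      rw [dvg, fderiv_of_notMem_tsupport ℝ fun hy' => hy (h3 hy')]
      simp]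
    exact integral_dvg_zero (hW none)
      (Metric.isCompact_of_isClosed_isBounded (isClosed_tsupport _) (h.bdd.subset h3))
  rw [setIntegral_congr_fun h.isOpen.measurableSet h1, integral_finsetSum _ fun o _ => h2 o,
    Fintype.sum_option, h4, zero_add]
  exact Finset.sum_congr rfl fun i _ => (hC.patch i).div h.isOpen (hW (some i))
    ((tsupport_smul_subset_left (χ i) Z).trans (hC.supp i))

theorem Cover.exists_dom {k : ℕ} {Θ Θ' : Fin k → Euc (m + 1) → Euc (m + 1)} {U : Fin k → Set (Euc (m + 1))}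
    {χ₀ : Euc (m + 1) → ℝ} {χ : Fin k → Euc (m + 1) → ℝ} (hC : Cover Ω Θ Θ' U χ₀ χ) (h : EDom Ω)
    (hne : Ω.Nonempty) :
    ∃ D : Dom (Euc (m + 1)) ((Measure.count : Measure (Fin k)).prod (volume : Measure (Euc m))),
      D.Ω = Ω ∧ ∀ G : Euc (m + 1) → Bil (Euc (m + 1)), LocMetric G univ → ENNReal.ofReal (D.area G) =
        ∑ i, ∫⁻ z, ENNReal.ofReal (χ i (Θ i (emb z))) *
          ENNReal.ofReal (gram G (fun z => Θ i (emb z)) z) := by
  classical
  obtain ⟨p₀, hp₀⟩ : (frontier Ω).Nonempty := nonempty_frontier_iff.2 ⟨hne, fun e =>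
    NormedSpace.unbounded_univ ℝ (Euc (m + 1)) (e ▸ h.bdd)⟩
  have hq : ∀ i, Continuous fun z => Θ i (emb z) := fun i =>
    (hC.patch i).smooth.continuous.comp emb.continuous
  have hχ : ∀ i, Continuous fun z => χ i (Θ i (emb z)) := fun i =>
    (hC.smooth i).continuous.comp (hq i)
  have h0 : ∀ i y, y ∉ U i → χ i y = 0 := fun i y hy =>
    image_eq_zero_of_notMem_tsupport fun hy' => hy (hC.supp i hy')
  let p : Fin k × Euc m → Euc (m + 1) := fun ξ =>
    if Θ ξ.1 (emb ξ.2) ∈ U ξ.1 then Θ ξ.1 (emb ξ.2) else p₀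
  let N : Fin k × Euc m → Euc (m + 1) →L[ℝ] ℝ := fun ξ => χ ξ.1 (Θ ξ.1 (emb ξ.2)) • pN (Θ ξ.1) ξ.2
  have hp : Measurable p := measurable_from_prod_countable_right fun i =>
    Measurable.ite ((hq i).measurable (hC.patch i).isOpen.measurableSet) (hq i).measurable
      measurable_const
  have hm : ∀ ξ, p ξ ∈ frontier Ω := fun ξ => by
    simp only [p]
    split_ifs with hξ
    · rw [(hC.patch _).fr _ hξ, (hC.patch _).left, emb_zero]
    · exact hp₀
  have hN : Integrable N ((Measure.count : Measure (Fin k)).prod volume) :=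
    (init_int (F := fun i z => χ i (Θ i (emb z)) • pN (Θ i) z)
      (fun i => (hχ i).smul (hC.patch i).continuous_pN)
      fun i => init_supp (hC.patch i) (hC.supp i) fun z hz => by rw [hz, zero_smul]).1
  have hd : ∀ Z : Euc (m + 1) → Euc (m + 1), ContDiff ℝ 1 Z → ∫ y in Ω, dvg Z y =
      ∫ ξ, N ξ (Z (p ξ)) ∂((Measure.count : Measure (Fin k)).prod volume) := fun Z hZ => by
    rw [init_div hC h hZ, ← (init_int
      (F := fun i z => pN (Θ i) z (χ i (Θ i (emb z)) • Z (Θ i (emb z))))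
      (fun i => (hC.patch i).continuous_pN.clm_apply ((hχ i).smul (hZ.continuous.comp (hq i))))
      fun i => init_supp (hC.patch i) (hC.supp i) fun z hz => by
        rw [hz, zero_smul, map_zero]).2]
    refine integral_congr_ae (Filter.Eventually.of_forall fun ξ => ?_)
    simp only [N, p]
    split_ifs with hξ
    · rw [map_smul, smul_apply]
    · rw [h0 _ _ hξ, zero_smul, zero_smul, map_zero, zero_apply]
  refine ⟨⟨Ω, p, N, h.isOpen, h.bdd, hp, hm, hN, hd⟩, rfl, fun G hG => ?_⟩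
  have hF : ∀ i, Continuous fun z => χ i (Θ i (emb z)) * ad (G (Θ i (emb z))) (pN (Θ i) z) :=
    fun i => (hχ i).mul ((continuous_ad hG).comp ((hq i).prodMk (hC.patch i).continuous_pN))
  have hS : ∀ i, HasCompactSupport
      fun z => χ i (Θ i (emb z)) * ad (G (Θ i (emb z))) (pN (Θ i) z) :=
    fun i => init_supp (hC.patch i) (hC.supp i) fun z hz => by rw [hz, zero_mul]
  have hnn : ∀ i z, 0 ≤ χ i (Θ i (emb z)) * ad (G (Θ i (emb z))) (pN (Θ i) z) :=
    fun i z => mul_nonneg (hC.nonneg _ _) (ad_nonneg _ _)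
  have h1 : ∫ ξ, ad (G (p ξ)) (N ξ) ∂((Measure.count : Measure (Fin k)).prod volume) =
      ∑ i, ∫ z, χ i (Θ i (emb z)) * ad (G (Θ i (emb z))) (pN (Θ i) z) := by
    rw [← (init_int hF hS).2]
    refine integral_congr_ae (Filter.Eventually.of_forall fun ξ => ?_)
    simp only [N, p]
    rw [ad_smul (posB_of_loc hG _), abs_of_nonneg (hC.nonneg _ _)]
    split_ifs with hξ
    · rfl
    · rw [h0 _ _ hξ, zero_mul, zero_mul]
  change ENNReal.ofReal (∫ ξ, ad (G (p ξ)) (N ξ) ∂_) = _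
  rw [h1, ENNReal.ofReal_sum_of_nonneg fun i _ => integral_nonneg (hnn i)]
  refine Finset.sum_congr rfl fun i _ => ?_
  rw [ofReal_integral_eq_lintegral_ofReal ((hF i).integrable_of_hasCompactSupport (hS i))
    (Filter.Eventually.of_forall (hnn i))]
  refine lintegral_congr fun z => ?_
  rw [ENNReal.ofReal_mul (hC.nonneg _ _), (hC.patch i).ad_pN hG]

theorem Cover.area_le {k : ℕ} {Θ Θ' : Fin k → Euc (m + 1) → Euc (m + 1)} {U : Fin k → Set (Euc (m + 1))}
    {χ₀ : Euc (m + 1) → ℝ} {χ : Fin k → Euc (m + 1) → ℝ} (hC : Cover Ω Θ Θ' U χ₀ χ) (hG : LocMetric G univ) :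
    ∃ S : Fin k → Set (Euc m),
      (∀ i, MeasurableSet (S i) ∧ ContDiff ℝ 1 (fun z => Θ i (emb z)) ∧
        InjOn (fun z => Θ i (emb z)) (S i) ∧ MapsTo (fun z => Θ i (emb z)) (S i) (frontier Ω)) ∧
      (∀ i j, i ≠ j → Disjoint ((fun z => Θ i (emb z)) '' S i) ((fun z => Θ j (emb z)) '' S j)) ∧
      ∑ i, ∫⁻ z, ENNReal.ofReal (χ i (Θ i (emb z))) *
          ENNReal.ofReal (gram G (fun z => Θ i (emb z)) z) ≤
        ∑ i, ∫⁻ z in S i, ENNReal.ofReal (gram G (fun z => Θ i (emb z)) z) := by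
  classical
  let T : Fin k → Set (Euc (m + 1)) := fun j => U j \ ⋃ l, ⋃ _ : l < j, U l
  have hT : ∀ j, MeasurableSet (T j) := fun j => (hC.patch j).isOpen.measurableSet.diff
    (isOpen_iUnion fun l => isOpen_iUnion fun _ => (hC.patch l).isOpen).measurableSet
  have hTU : ∀ j, T j ⊆ U j := fun j => sdiff_subset
  have hcov : ∀ i y, y ∈ U i → ∃ j, y ∈ T j := fun i y hy => by
    obtain ⟨j, hj, hm⟩ := (wellFounded_lt (α := Fin k)).has_min {j | y ∈ U j} ⟨i, hy⟩
    refine ⟨j, hj, fun h => ?_⟩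
    obtain ⟨l, hl, hy'⟩ := mem_iUnion₂.1 h
    exact hm l hy' hl
  have hdis : ∀ i j, i < j → Disjoint (T i) (T j) := fun i j hij =>
    disjoint_left.2 fun y h1 h2 => h2.2 (mem_iUnion₂.2 ⟨i, hij, h1.1⟩)
  have hq : ∀ i, ContDiff ℝ 1 fun z => Θ i (emb z) := fun i =>
    ((hC.patch i).smooth.of_le (by simp)).comp emb.contDiff
  have hfr : ∀ i z, Θ i (emb z) ∈ T i → Θ i (emb z) ∈ frontier Ω := fun i z hz => by
    rw [(hC.patch i).fr _ (hTU i hz), (hC.patch i).left, emb_zero]
  have hS : ∀ j, MeasurableSet ((fun z => Θ j (emb z)) ⁻¹' T j) := fun j =>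
    (hq j).continuous.measurable (hT j)
  have hg : ∀ j, Measurable fun z => ENNReal.ofReal (gram G (fun z => Θ j (emb z)) z) := fun j => by
    have h1 : Continuous fun z => ad (G (Θ j (emb z))) (pN (Θ j) z) :=
      (continuous_ad hG).comp ((hq j).continuous.prodMk (hC.patch j).continuous_pN)
    simp only [(hC.patch j).ad_pN hG] at h1
    exact h1.measurable.ennreal_ofReal
  refine ⟨fun j => (fun z => Θ j (emb z)) ⁻¹' T j, fun i => ⟨hS i, hq i, fun a _ b _ hab => ?_,
    fun z hz => hfr i z hz⟩, fun i j hij => ?_, ?_⟩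
  · have h1 := congrArg (fun y => prj (Θ' i y)) hab
    simpa only [(hC.patch i).left, prj_emb] using h1
  · refine Disjoint.mono (image_preimage_subset _ _) (image_preimage_subset _ _) ?_
    rcases lt_or_gt_of_ne hij with h | h
    · exact hdis i j h
    · exact (hdis j i h).symm
  have hA : ∀ i, ∫⁻ z, ENNReal.ofReal (χ i (Θ i (emb z))) *
      ENNReal.ofReal (gram G (fun z => Θ i (emb z)) z) ≤
      ∑ j, ∫⁻ z in (fun z => Θ j (emb z)) ⁻¹' T j, ENNReal.ofReal (χ i (Θ j (emb z))) *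
        ENNReal.ofReal (gram G (fun z => Θ j (emb z)) z) := fun i => by
    rw [← setLIntegral_eq_of_support_subset
      (s := ⋃ j, (fun z => Θ i (emb z)) ⁻¹' (T j ∩ U i)) fun z hz => ?_]
    · refine (lintegral_iUnion_le _ _).trans ?_
      rw [tsum_fintype]
      refine Finset.sum_le_sum fun j _ => ?_
      rw [Patch.trans (hC.patch i) (hC.patch j) ((hT j).inter (hC.patch i).isOpen.measurableSet)
        (fun y hy => ⟨hy.2, hTU j hy.1⟩) fun y => ENNReal.ofReal (χ i y)]
      exact lintegral_mono_set (preimage_mono inter_subset_left)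
    · have h1 : Θ i (emb z) ∈ U i := by
        by_contra h
        refine hz ?_
        simp only [image_eq_zero_of_notMem_tsupport fun hy' => h (hC.supp i hy'),
          ENNReal.ofReal_zero, zero_mul]
      obtain ⟨j, hj⟩ := hcov i _ h1
      exact mem_iUnion.2 ⟨j, hj, h1⟩
  refine (Finset.sum_le_sum fun i _ => hA i).trans ?_
  rw [Finset.sum_comm]
  refine Finset.sum_le_sum fun j _ => ?_
  have hm : ∀ i, Measurable fun z => ENNReal.ofReal (χ i (Θ j (emb z))) *
      ENNReal.ofReal (gram G (fun z => Θ j (emb z)) z) := fun i =>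
    (((hC.smooth i).continuous.comp (hq j).continuous).measurable.ennreal_ofReal).mul (hg j)
  rw [← lintegral_finsetSum _ fun i _ => hm i]
  refine setLIntegral_mono' (hS j) fun z hz => ?_
  rw [← Finset.sum_mul, ← ENNReal.ofReal_sum_of_nonneg fun i _ => hC.nonneg i _]
  refine mul_le_of_le_one_left' (ENNReal.ofReal_le_one.2 ?_)
  have h1 := hC.sum _ (frontier_subset_closure (hfr j z hz))
  have h2 := hC.nonneg₀ (Θ j (emb z))
  linarith

end Vale.Agent.P219.Gm
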