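import Vale.Agent.P219.G.PHalf
import Vale.Agent.P219.Patch
import Vale.Agent.P219.PatchDiv

/-!
# Patches in dimension `m + 1` (port of `Patch`, `PatchDiv`)
-/

namespace Vale.Agent.P219.Gm

open scoped ContDiff Topology RealInnerProductSpace ENNReal
open MeasureTheory Set Vale.Agent.P255

variable {m : ℕ}

variable {Ω : Set (Euc (m + 1))}

theorem patch_refl {l : Euc (m + 1) →L[ℝ] ℝ} (hl : l ≠ 0) : ∃ (R : Euc (m + 1) ≃ₗᵢ[ℝ] Euc (m + 1)) (c : ℝ), 0 < c ∧
    (∀ y, R (R y) = y) ∧ ∀ y, c * R y 0 = l y := by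
  have hu : riesz (Euc (m + 1)) l ≠ 0 := fun h => hl (by
    ext v
    rw [← inner_riesz, h]
    simp)
  have hn : ‖‖riesz (Euc (m + 1)) l‖ • (EuclideanSpace.single 0 1 : Euc (m + 1))‖ = ‖riesz (Euc (m + 1)) l‖ := by
    simp [norm_smul]
  refine ⟨_, _, norm_pos_iff.2 hu, Submodule.reflection_reflection
    (ℝ ∙ (‖riesz (Euc (m + 1)) l‖ • EuclideanSpace.single 0 1 - riesz (Euc (m + 1)) l))ᗮ, fun y => ?_⟩
  rw [← inner_riesz l y]
  conv_rhs => rw [← Submodule.reflection_sub hn, ← LinearIsometryEquiv.inner_map_map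
    (Submodule.reflection
      (ℝ ∙ (‖riesz (Euc (m + 1)) l‖ • EuclideanSpace.single 0 1 - riesz (Euc (m + 1)) l))ᗮ),
    Submodule.reflection_reflection]
  simp [inner_smul_left, EuclideanSpace.inner_single_left]

theorem patch_open {Θ Θ' : Euc (m + 1) → Euc (m + 1)} (h : Continuous Θ) (h' : Continuous Θ')
    (hl : ∀ y, Θ' (Θ y) = y) (hr : ∀ y, Θ (Θ' y) = y) : IsOpenMap fun y => Θ' y 0 := by
  let H : Euc (m + 1) ≃ₜ Euc (m + 1) := ⟨⟨Θ', Θ, hr, hl⟩, h', h⟩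
  have h0 : IsOpenMap (EuclideanSpace.proj 0 : Euc (m + 1) →L[ℝ] ℝ) :=
    ContinuousLinearMap.isOpenMap _ fun t => ⟨EuclideanSpace.single 0 t, by simp⟩
  exact h0.comp H.isOpenMap

theorem _root_.Vale.Agent.P219.EDom.exists_patchG (h : EDom Ω) {p : Euc (m + 1)} (hp : p ∈ frontier Ω) :
    ∃ Θ Θ' U, Patch Ω Θ Θ' U ∧ p ∈ U := by
  obtain ⟨U, f, hU, hpU, hf, hl, hΩ⟩ := h.bdry p hp
  obtain ⟨R, c, hc, hR, hRl⟩ := patch_refl hl
  have hR0 : ContDiff ℝ ∞ fun y => R y 0 :=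
    (EuclideanSpace.proj 0 : Euc (m + 1) →L[ℝ] ℝ).contDiff.comp R.contDiff
  obtain ⟨r, δ, hδ, hr, hd, hb, hrg⟩ := patch_cut
    (g := fun y => (c⁻¹ * f y - R y 0) • R (EuclideanSpace.single 0 1)) hU hpU
    (((contDiffOn_const.mul hf).sub hR0.contDiffOn).smul contDiffOn_const) (by
      have h1 : HasFDerivAt f (fderiv ℝ f p) p :=
        ((hf.contDiffAt (hU.mem_nhds hpU)).differentiableAt (by simp)).hasFDerivAt
      have h2 : HasFDerivAt (fun y => R y 0) ((EuclideanSpace.proj 0 : Euc (m + 1) →L[ℝ] ℝ).comp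
          (R.toContinuousLinearEquiv : Euc (m + 1) →L[ℝ] Euc (m + 1))) p :=
        ((EuclideanSpace.proj 0 : Euc (m + 1) →L[ℝ] ℝ).comp
          (R.toContinuousLinearEquiv : Euc (m + 1) →L[ℝ] Euc (m + 1))).hasFDerivAt
      rw [(((h1.const_mul c⁻¹).fun_sub h2).smul_const (R (EuclideanSpace.single 0 1))).fderiv]
      refine ContinuousLinearMap.ext fun v => ?_
      simp [← hRl v, hc.ne'])
  obtain ⟨Θ, hΘ, hΘ1, hΘ2⟩ := patch_near_id hr hd
  have hs : ContDiff ℝ ∞ fun y => Θ (R y) := hΘ.comp R.contDiff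
  have hs' : ContDiff ℝ ∞ fun y => R (y + r y) := R.contDiff.comp (contDiff_id.add hr)
  have hl' : ∀ y, R (Θ (R y) + r (Θ (R y))) = y := fun y => by rw [hΘ1, hR]
  have hr' : ∀ y, Θ (R (R (y + r y))) = y := fun y => by rw [hR, hΘ2]
  have hmem : ∀ y ∈ Metric.ball p δ, y ∈ Ω ↔ R (y + r y) 0 < 0 := fun y hy => by
    have e : R (y + r y) 0 = c⁻¹ * f y := by
      rw [hrg y hy, map_add, map_smul, hR]
      simp
    have e' : y ∈ Ω ↔ f y < 0 := by
      have := Set.ext_iff.1 hΩ y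
      simpa [hb hy] using this
    rw [e, e', inv_mul_lt_iff₀ hc, mul_zero]
  refine ⟨fun y => Θ (R y), fun y => R (y + r y), Metric.ball p δ,
    ⟨hs, hs', hl', hr', Metric.isOpen_ball, Metric.isBounded_ball, hmem, fun y hy => ?_⟩,
    Metric.mem_ball_self hδ⟩
  have ho := patch_open hs.continuous hs'.continuous hl' hr'
  have hco : Continuous fun y => R (y + r y) 0 :=
    (EuclideanSpace.proj 0 : Euc (m + 1) →L[ℝ] ℝ).continuous.comp hs'.continuous
  have e1 : Ω ∩ Metric.ball p δ = (fun y => R (y + r y) 0) ⁻¹' Iio 0 ∩ Metric.ball p δ := by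
    ext z
    exact and_congr_left fun hz => hmem z hz
  have e2 : frontier Ω ∩ Metric.ball p δ =
      (fun y => R (y + r y) 0) ⁻¹' {0} ∩ Metric.ball p δ := by
    rw [← frontier_inter_open_inter Metric.isOpen_ball, e1,
      frontier_inter_open_inter Metric.isOpen_ball,
      ← ho.preimage_frontier_eq_frontier_preimage hco, frontier_Iio]
  simpa [hy] using Set.ext_iff.1 e2 y

theorem _root_.Vale.Agent.P219.EDom.interior_closureG (h : EDom Ω) : interior (closure Ω) = Ω := by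
  refine Subset.antisymm (fun p hp => ?_) (h.isOpen.subset_interior_iff.2 subset_closure)
  by_contra hn
  have hf : ∀ y ∈ closure Ω, y ∉ Ω → y ∈ frontier Ω := fun y hy hy' => by
    rw [h.isOpen.frontier_eq]
    exact ⟨hy, hy'⟩
  have hp' := hf p (interior_subset hp) hn
  obtain ⟨Θ, Θ', U, hP, hpU⟩ := h.exists_patchG hp'
  have ho := patch_open hP.smooth.continuous hP.smooth'.continuous hP.left hP.right _
    (isOpen_interior.inter hP.isOpen : IsOpen (interior (closure Ω) ∩ U))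
  have hs : (fun y => Θ' y 0) '' (interior (closure Ω) ∩ U) ⊆ Iic 0 := by
    rintro _ ⟨y, ⟨hy, hyU⟩, rfl⟩
    by_cases hy' : y ∈ Ω
    · exact ((hP.mem y hyU).1 hy').le
    · exact ((hP.fr y hyU).1 (hf y (interior_subset hy) hy')).le
  have h0 := ho.subset_interior_iff.2 hs ⟨p, ⟨hp, hpU⟩, (hP.fr p hpU).1 hp'⟩
  simp at h0

section

variable {Ω : Set (Euc (m + 1))} {G : Euc (m + 1) → Bil (Euc (m + 1))}
  {Θ Θ' : Euc (m + 1) → Euc (m + 1)} {U : Set (Euc (m + 1))}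

theorem patchdiv_chain {F F' : Euc (m + 1) → Euc (m + 1)} (hF : ContDiff ℝ ∞ F) (hF' : ContDiff ℝ ∞ F')
    (hl : ∀ y, F' (F y) = y) (y : Euc (m + 1)) :
    (fderiv ℝ F' (F y)).comp (fderiv ℝ F y) = ContinuousLinearMap.id ℝ (Euc (m + 1)) := by
  have h1 : DifferentiableAt ℝ F y := (hF.differentiable (by simp)).differentiableAt
  have h2 : DifferentiableAt ℝ F' (F y) := (hF'.differentiable (by simp)).differentiableAt
  rw [← fderiv_comp y h2 h1]
  have : F' ∘ F = id := funext hl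
  rw [this, fderiv_id]

theorem patchdiv_inverse (h : Patch Ω Θ Θ' U) (y : Euc (m + 1)) :
    (fderiv ℝ Θ y).inverse = fderiv ℝ Θ' (Θ y) := by
  refine ContinuousLinearMap.inverse_eq ?_ (patchdiv_chain h.smooth h.smooth' h.left y)
  have := patchdiv_chain h.smooth' h.smooth h.right (Θ y)
  rwa [h.left] at this

theorem patchdiv_fderiv (h : Patch Ω Θ Θ' U) (z : Euc m) :
    fderiv ℝ (fun z => Θ (emb z)) z = (fderiv ℝ Θ (emb z)).comp emb := by
  have h1 : DifferentiableAt ℝ Θ (emb z) := (h.smooth.differentiable (by simp)).differentiableAt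
  exact (h1.hasFDerivAt.comp z emb.hasFDerivAt).fderiv

theorem patchdiv_gram (G : Euc (m + 1) → Bil (Euc (m + 1))) (ψ : Euc m → Euc (m + 1)) (z : Euc m) :
    gram G ψ z = wt ((G (ψ z)).bilinearComp (fderiv ℝ ψ z) (fderiv ℝ ψ z)) := by
  rw [wt_basis (EuclideanSpace.basisFun (Fin m) ℝ), gram]
  simp only [ContinuousLinearMap.bilinearComp_apply, EuclideanSpace.basisFun_apply]

theorem patchdiv_tr {Θ₁ Θ₁' Θ₂ Θ₂' : Euc (m + 1) → Euc (m + 1)} {U₁ U₂ : Set (Euc (m + 1))}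
    (h₁ : Patch Ω Θ₁ Θ₁' U₁) (h₂ : Patch Ω Θ₂ Θ₂' U₂) {z : Euc m} (hz : Θ₁ (emb z) ∈ U₁ ∩ U₂) :
    Θ₂ (emb (prj (Θ₂' (Θ₁ (emb z))))) = Θ₁ (emb z) := by
  have h0 : Θ₁ (emb z) ∈ frontier Ω := by
    rw [h₁.fr _ hz.1, h₁.left, emb_zero]
  rw [emb_prj ((h₂.fr _ hz.2).1 h0), h₂.right]

theorem Patch.diffeo (h : Patch Ω Θ Θ' U) : Diffeo Θ := by
  refine ⟨h.smooth.of_le (by decide), Function.LeftInverse.injective h.left,
    fun y => det_ne_of_injective ?_⟩
  have hc := patchdiv_chain h.smooth h.smooth' h.left y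
  refine Function.LeftInverse.injective (g := fderiv ℝ Θ' (Θ y)) fun v => ?_
  exact congrArg (fun A : Euc (m + 1) →L[ℝ] Euc (m + 1) => A v) hc

theorem Patch.continuous_pN (h : Patch Ω Θ Θ' U) : Continuous (pN Θ) := by
  have e : pN Θ = fun z => |(fderiv ℝ Θ (emb z)).det| •
      (EuclideanSpace.proj 0 : Euc (m + 1) →L[ℝ] ℝ).comp (fderiv ℝ Θ' (Θ (emb z))) := by
    funext z
    rw [pN, cof, patchdiv_inverse h]
  rw [e]
  have c1 : Continuous fun z : Euc m => fderiv ℝ Θ (emb z) :=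
    (h.smooth.continuous_fderiv (by simp)).comp emb.continuous
  have c2 : Continuous fun z : Euc m => fderiv ℝ Θ' (Θ (emb z)) :=
    (h.smooth'.continuous_fderiv (by simp)).comp (h.smooth.continuous.comp emb.continuous)
  exact (ContinuousLinearMap.continuous_det.comp c1).abs.smul (continuous_const.clm_comp c2)

theorem Patch.div (h : Patch Ω Θ Θ' U) (hΩ : IsOpen Ω) {Z : Euc (m + 1) → Euc (m + 1)} (hZ : ContDiff ℝ 1 Z)
    (hs : tsupport Z ⊆ U) : ∫ y in Ω, dvg Z y = ∫ z : Euc m, pN Θ z (Z (Θ (emb z))) := by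
  have hH : MeasurableSet {y : Euc (m + 1) | y 0 < 0} :=
    (isOpen_lt (EuclideanSpace.proj (0 : Fin (m + 1)) : Euc (m + 1) →L[ℝ] ℝ).continuous
      continuous_const).measurableSet
  have him : ∀ y, y ∈ Θ '' {y : Euc (m + 1) | y 0 < 0} ↔ Θ' y 0 < 0 := by
    intro y
    constructor
    · rintro ⟨x, hx, rfl⟩
      rw [h.left]
      exact hx
    · intro hy
      exact ⟨Θ' y, hy, h.right y⟩
  have e1 : ∫ y in Ω, dvg Z y = ∫ y in Θ '' {y : Euc (m + 1) | y 0 < 0}, dvg Z y := by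
    rw [← integral_indicator hΩ.measurableSet,
      ← integral_indicator (h.diffeo.measurableSet_image hH)]
    congr 1
    funext y
    by_cases hy : y ∈ U
    · by_cases hy' : y ∈ Ω
      · rw [indicator_of_mem hy', indicator_of_mem ((him y).2 ((h.mem y hy).1 hy'))]
      · rw [indicator_of_notMem hy',
          indicator_of_notMem fun h' => hy' ((h.mem y hy).2 ((him y).1 h'))]
    · have h0 : dvg Z y = 0 := by
        have hn : y ∉ tsupport Z := fun h' => hy (hs h')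
        have : fderiv ℝ Z y = 0 := by
          rw [(notMem_tsupport_iff_eventuallyEq.1 hn).fderiv_eq]
          simp
        rw [dvg, this]
        simp
      rw [indicator_apply_eq_zero.2 fun _ => h0, indicator_apply_eq_zero.2 fun _ => h0]
  have hK : IsCompact (tsupport Z) :=
    Metric.isCompact_of_isClosed_isBounded (isClosed_tsupport Z) (h.bdd.subset hs)
  have hc : HasCompactSupport (pio Θ Z) := by
    refine HasCompactSupport.intro (hK.image h.smooth'.continuous) fun y hy => ?_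
    have : Z (Θ y) = 0 := by
      by_contra hne
      exact hy ⟨Θ y, subset_tsupport Z hne, h.left y⟩
    rw [pio, this, map_zero, smul_zero]
  rw [e1, h.diffeo.integral_dvg hH hZ, half_div (contDiff_pio h.diffeo hZ) hc]
  congr 1

theorem Patch.ad_pN (h : Patch Ω Θ Θ' U) (hG : LocMetric G univ) (z : Euc m) :
    ad (G (Θ (emb z))) (pN Θ z) = gram G (fun z => Θ (emb z)) z := by
  have hB := posB_of_loc hG (Θ (emb z))
  have hd := h.diffeo.det_ne (emb z)
  rw [pN, ad_cof hB hd, ad_basis (EuclideanSpace.basisFun (Fin (m + 1)) ℝ) (hB.comp hd), gram,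
    patchdiv_fderiv h]
  · simp only [ContinuousLinearMap.bilinearComp_apply, EuclideanSpace.basisFun_apply,
      ContinuousLinearMap.comp_apply, emb_single]
  · intro v
    rw [EuclideanSpace.basisFun_inner]
    rfl

theorem Patch.trans {Θ₁ Θ₁' Θ₂ Θ₂' : Euc (m + 1) → Euc (m + 1)} {U₁ U₂ : Set (Euc (m + 1))} (h₁ : Patch Ω Θ₁ Θ₁' U₁)
    (h₂ : Patch Ω Θ₂ Θ₂' U₂) {T : Set (Euc (m + 1))} (hT : MeasurableSet T) (hU : T ⊆ U₁ ∩ U₂)
    (f : Euc (m + 1) → ℝ≥0∞) :
    ∫⁻ z in (fun z => Θ₁ (emb z)) ⁻¹' T,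
        f (Θ₁ (emb z)) * ENNReal.ofReal (gram G (fun z => Θ₁ (emb z)) z) =
      ∫⁻ z in (fun z => Θ₂ (emb z)) ⁻¹' T,
        f (Θ₂ (emb z)) * ENNReal.ofReal (gram G (fun z => Θ₂ (emb z)) z) := by
  set τ : Euc m → Euc m := fun z => prj (Θ₂' (Θ₁ (emb z))) with hτ
  have hψ₁ : Differentiable ℝ fun z : Euc m => Θ₁ (emb z) :=
    (h₁.smooth.differentiable (by simp)).comp emb.differentiable
  have hψ₂ : Differentiable ℝ fun z : Euc m => Θ₂ (emb z) :=
    (h₂.smooth.differentiable (by simp)).comp emb.differentiable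
  have hτd : Differentiable ℝ τ :=
    prj.differentiable.comp ((h₂.smooth'.differentiable (by simp)).comp hψ₁)
  have hS : MeasurableSet ((fun z : Euc m => Θ₁ (emb z)) ⁻¹' T) :=
    hψ₁.continuous.measurable hT
  have him : (fun z : Euc m => Θ₂ (emb z)) ⁻¹' T = τ '' ((fun z : Euc m => Θ₁ (emb z)) ⁻¹' T) := by
    ext w
    constructor
    · intro hw
      have hw' : Θ₂ (emb w) ∈ U₂ ∩ U₁ := ⟨(hU hw).2, (hU hw).1⟩
      have e := patchdiv_tr h₂ h₁ hw'
      refine ⟨prj (Θ₁' (Θ₂ (emb w))), ?_, ?_⟩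
      · show Θ₁ (emb (prj (Θ₁' (Θ₂ (emb w))))) ∈ T
        rw [e]
        exact hw
      · show prj (Θ₂' (Θ₁ (emb (prj (Θ₁' (Θ₂ (emb w))))))) = w
        rw [e, h₂.left, prj_emb]
    · rintro ⟨z, hz, rfl⟩
      show Θ₂ (emb (prj (Θ₂' (Θ₁ (emb z))))) ∈ T
      rw [patchdiv_tr h₁ h₂ (hU hz)]
      exact hz
  have hinj : InjOn τ ((fun z : Euc m => Θ₁ (emb z)) ⁻¹' T) := by
    intro z hz z' hz' e
    have e1 := patchdiv_tr h₁ h₂ (hU hz)
    have e2 := patchdiv_tr h₁ h₂ (hU hz')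
    have e3 : Θ₁ (emb z) = Θ₁ (emb z') := by
      rw [← e1, ← e2]
      exact congrArg (fun w => Θ₂ (emb w)) e
    have e4 := h₁.diffeo.inj e3
    rw [← prj_emb z, e4, prj_emb]
  rw [him, lintegral_image_eq_lintegral_abs_det_fderiv_mul volume hS
    (fun x _ => (hτd x).hasFDerivAt.hasFDerivWithinAt) hinj]
  refine setLIntegral_congr_fun hS fun z hz => ?_
  have e1 : Θ₂ (emb (τ z)) = Θ₁ (emb z) := patchdiv_tr h₁ h₂ (hU hz)
  have hev : (fun z : Euc m => Θ₁ (emb z)) =ᶠ[𝓝 z] (fun z : Euc m => Θ₂ (emb z)) ∘ τ := by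
    have ho : IsOpen ((fun z : Euc m => Θ₁ (emb z)) ⁻¹' (U₁ ∩ U₂)) :=
      (h₁.isOpen.inter h₂.isOpen).preimage hψ₁.continuous
    filter_upwards [ho.mem_nhds (hU hz)] with x hx
    exact (patchdiv_tr h₁ h₂ hx).symm
  have hfd : fderiv ℝ (fun z : Euc m => Θ₁ (emb z)) z =
      (fderiv ℝ (fun z : Euc m => Θ₂ (emb z)) (τ z)).comp (fderiv ℝ τ z) := by
    rw [hev.fderiv_eq, fderiv_comp z (hψ₂ _) (hτd _)]
  have hg : gram G (fun z : Euc m => Θ₁ (emb z)) z =
      |(fderiv ℝ τ z).det| * gram G (fun z : Euc m => Θ₂ (emb z)) (τ z) := by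
    rw [patchdiv_gram, patchdiv_gram, ← wt_comp, hfd, e1]
    congr 1
  show _ = _ * (_ * _)
  rw [hg, e1, ENNReal.ofReal_mul (abs_nonneg _)]
  ring

end

end Vale.Agent.P219.Gm
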