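import Vale.Agent.P219.G.Norm
import Vale.Agent.P219.Push

/-!
# Push-forward of a generalised domain  (TASK)

As `Dom.exists_push` (`Push.lean`): parameter space `E × E` with measure `D.μ`, `p z = Φ z.1`, `N z = cof (fderiv Φ z.1) ((wt (G z.1))⁻¹ • G z.1 z.2)`; `N` is continuous (`push_cont`), so
integrable; `Diffeo.integral_dvg`, `D.div` for `pio Φ Z` (`contDiff_pio`), `cof`; then `exists_norm`, `ad_cof`.
-/

namespace Vale.Agent.P219

open scoped ContDiff Topology RealInnerProductSpace ENNReal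
open MeasureTheory Set Filter Vale.Agent.P255
open St (sn gmod)

variable {E : Type*} [NormedAddCommGroup E] [InnerProductSpace ℝ E] [FiniteDimensional ℝ E]
  [MeasurableSpace E] [BorelSpace E] {G : E → Bil E} {L : E → E → E} {K : Set E} {m : ℕ} {b : ℝ}

theorem NDom.div_pio (hG : LocMetric G univ) (D : NDom G K) {Φ Z : E → E} (hΦ : Diffeo Φ)
    (hZ : ContDiff ℝ 1 Z) :
    ∫ v in Φ '' D.Ω, dvg Z v = ∫ z, |(fderiv ℝ Φ z.1).det| *
      G z.1 z.2 ((fderiv ℝ Φ z.1).inverse (Z (Φ z.1))) / wt (G z.1) ∂D.μ := by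
  have _ := hG
  rw [hΦ.integral_dvg D.meas hZ, D.div _ (contDiff_pio hΦ hZ)]
  simp only [pio, map_smul, smul_eq_mul]

theorem NDom.exists_push (hG : LocMetric G univ) (hK : IsCompact K) (D : NDom G K) {Φ : E → E}
    (hΦ : Diffeo Φ) (hm : MapsTo Φ K K) :
    ∃ D' : NDom G K, D'.Ω = Φ '' D.Ω ∧ D'.A = ∫ z, ad ((G (Φ z.1)).bilinearComp (fderiv ℝ Φ z.1)
      (fderiv ℝ Φ z.1)) ((wt (G z.1))⁻¹ • G z.1 z.2) ∂D.μ := by
  have hc := hΦ.smooth.continuous
  have hGc : Continuous G := (contDiffOn_univ.1 hG.smooth).continuous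
  have hw : Continuous fun y => wt (G y) := (contDiff_wt hG).continuous
  have hw0 : ∀ y, 0 < wt (G y) := fun y => wt_pos (posB_of_loc hG y)
  set N : E × E → E →L[ℝ] ℝ :=
    fun z => cof (fderiv ℝ Φ z.1) ((wt (G z.1))⁻¹ • G z.1 z.2) with hN
  have e : N = fun z : E × E => ((wt (G z.1))⁻¹ • G z.1 z.2).comp
      (|(fderiv ℝ Φ z.1).det| • (fderiv ℝ Φ z.1).inverse) := by
    funext z
    rw [hN, ContinuousLinearMap.comp_smul]
    rfl
  have hNc : Continuous N := by
    rw [e]
    exact (((hw.comp continuous_fst).inv₀ fun z => (hw0 _).ne').smul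
      ((hGc.comp continuous_fst).clm_apply continuous_snd)).clm_comp
        ((push_cont hΦ).comp continuous_fst)
  have hNi : Integrable N D.μ :=
    (integrable_norm_iff hNc.aestronglyMeasurable).1 (D.integrable hG hK hNc.norm)
  obtain ⟨ν, h1, h2, h3, h4⟩ := exists_norm (μ := D.μ) hG hK (p := fun z : E × E => Φ z.1)
    (hc.comp continuous_fst).measurable hNi (D.supp.mono fun z hz _ => hm hz.1)
  refine ⟨⟨Φ '' D.Ω, ν, h1, hΦ.measurableSet_image D.meas,
    (image_mono D.sub).trans hm.image_subset, h3, fun Z hZ => ?_⟩, rfl, ?_⟩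
  · rw [D.div_pio hG hΦ hZ, ← h4 Z hZ.continuous]
    refine integral_congr_ae (ae_of_all _ fun z => ?_)
    simp only [hN, cof, smul_apply, ContinuousLinearMap.comp_apply, smul_eq_mul]
    ring
  · refine h2.trans (integral_congr_ae (ae_of_all _ fun z => ?_))
    exact ad_cof (posB_of_loc hG _) (hΦ.det_ne _) _

end Vale.Agent.P219
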