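import Vale.Agent.P219.G.Axial

/-!
# The ray bound in Euclidean space  (TASK)

Let `h (r, β) = τ' φ + τ φr` and `g (r, β) = h` on `Dd`, `τ' r * Φ β` off `Dd` when `β > 0`, `0` otherwise (for `r > 0`; measurable: `ContinuousOn.measurable_piecewise` or extend by `0`).  Then `0 ≤ g`, `h ≤ g`
(for `r ≥ l`, `φ r ≤ φ l = Φ` by `antitoneOn_of_deriv_nonpos`), and `φr ≤ g` on `Dd ∩ {ε ≤ r}`.  For fixed `β ∈ (0, 1]`: `∫⁻ r > 0, g = τ l Φ + Φ (1 - τ l) = Φ` (fundamental theorem of calculus on `[α', l]` and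
`[l, l + ε]`).  `axial` with `f = ofReal (g / r^m)` gives `∫⁻ f ≤ ofReal (cm R)` (`cos α ≤ 0` on `[π/2, π)`).  `h / ‖v‖^m` is bounded on the bounded set `S` and measurable, so integrable on `S`;
`∫_S h/.. ≤ (∫⁻_S f).toReal`, `∫⁻_S f + ∫⁻_Sᶜ f = ∫⁻ f`.
-/

namespace Vale.Agent.P219

open scoped ContDiff Topology RealInnerProductSpace ENNReal
open MeasureTheory Set Filter Vale.Agent.P255
open St (sn gmod)

variable {E : Type*} [NormedAddCommGroup E] [InnerProductSpace ℝ E] [FiniteDimensional ℝ E]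
  [MeasurableSpace E] [BorelSpace E] {G : E → Bil E} {L : E → E → E} {K : Set E} {m : ℕ} {b : ℝ}
  {ρ ε c H : ℝ} {τ : ℝ → ℝ}

theorem ray1_cut (hτ : Cut τ ε) : ∃ α : ℝ, 0 < α ∧ α < ε ∧ (∀ r, r < α → τ r = 0 ∧ deriv τ r = 0) ∧
    (∀ r, 0 ≤ τ r) ∧ ∀ r, 0 ≤ deriv τ r := by
  obtain ⟨α, h0, hz⟩ := hτ.zero
  refine ⟨α, h0, ?_, fun r hr => ⟨hz r hr.le, ?_⟩, fun r => ?_, fun r => hτ.mono.deriv_nonneg⟩
  · by_contra h
    have h1 := hz ε (not_lt.1 h)
    rw [hτ.one ε le_rfl] at h1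
    exact one_ne_zero h1
  · have : τ =ᶠ[𝓝 r] fun _ => 0 := mem_of_superset (Iio_mem_nhds hr) fun t ht => hz t (le_of_lt ht)
    rw [this.deriv_eq, deriv_const]
  · have := hτ.mono (min_le_left r α)
    rwa [hz _ (min_le_right _ _)] at this

theorem ray1_cont {X : Type*} [TopologicalSpace X] {p : X → ℝ} (hp : Continuous p) {k : X → ℝ}
    {α : ℝ} (h0 : 0 < α) (hk : ContinuousOn k {z | 0 < p z}) (hz : ∀ z, p z < α → k z = 0) :
    Continuous k := by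
  refine continuous_iff_continuousAt.2 fun z => ?_
  by_cases h : 0 < p z
  · exact hk.continuousAt ((isOpen_lt continuous_const hp).mem_nhds h)
  · have : k =ᶠ[𝓝 z] fun _ => 0 :=
      mem_of_superset ((isOpen_lt hp continuous_const).mem_nhds (show p z < α by linarith))
        fun t ht => hz t ht
    exact continuousAt_const.congr this.symm

theorem ray1_line (hτ : Cut τ ε) {φ φr g : ℝ → ℝ} {l : ℝ} (hl : 0 < l)
    (hc' : ContinuousOn φr (Ioi 0)) (hd : ∀ r, 0 < r → HasDerivAt φ (φr r) r)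
    (h1 : ∀ r, 0 < r → r ≤ l → 0 ≤ φ r) (h2 : ∀ r, 0 < r → r < l → 0 ≤ φr r)
    (g1 : ∀ r, 0 < r → r < l → g r = deriv τ r * φ r + τ r * φr r)
    (g2 : ∀ r, l ≤ r → g r = deriv τ r * φ l) :
    ∫⁻ r in Ioi (0 : ℝ), ENNReal.ofReal (g r) ≤ ENNReal.ofReal (φ l) := by
  obtain ⟨α, a0, aε, az, t0, t1⟩ := ray1_cut hτ
  have hτd : ∀ r, HasDerivAt τ (deriv τ r) r := fun r =>
    (hτ.smooth.differentiable (by norm_num) r).hasDerivAt
  have hτc : Continuous (deriv τ) := hτ.smooth.continuous_deriv (by norm_num)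
  have hφc : ContinuousOn φ (Ioi 0) := fun r hr => (hd r hr).continuousAt.continuousWithinAt
  have hh : Continuous fun r => deriv τ r * φ r + τ r * φr r :=
    ray1_cont continuous_id a0 ((hτc.continuousOn.mul hφc).add
      (hτ.smooth.continuous.continuousOn.mul hc')) fun r hr => by
        rw [(az r hr).1, (az r hr).2]; ring
  have hF : ∀ r, HasDerivAt (fun t => τ t * φ t) (deriv τ r * φ r + τ r * φr r) r := by
    intro r
    by_cases h : 0 < r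
    · exact (hτd r).mul (hd r h)
    · have hr : r < α := by linarith
      have : (fun t => τ t * φ t) =ᶠ[𝓝 r] fun _ => 0 :=
        mem_of_superset (Iio_mem_nhds hr) fun t ht => by simp [(az t ht).1]
      rw [(az r hr).1, (az r hr).2, zero_mul, zero_mul, add_zero]
      exact (hasDerivAt_const r (0 : ℝ)).congr_of_eventuallyEq this
  have p0 : 0 ≤ φ l := h1 l hl le_rfl
  have i1 : ∫⁻ r in Ioo 0 l, ENNReal.ofReal (g r) = ENNReal.ofReal (τ l * φ l) := by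
    rw [setLIntegral_congr_fun measurableSet_Ioo (fun r hr => by rw [g1 r hr.1 hr.2]),
      axial_lin hl.le hh fun r hr => add_nonneg (mul_nonneg (t1 r) (h1 r hr.1 hr.2.le))
        (mul_nonneg (t0 r) (h2 r hr.1 hr.2)),
      intervalIntegral.integral_eq_sub_of_hasDerivAt (fun r _ => hF r) (hh.intervalIntegrable _ _),
      (az 0 a0).1, zero_mul, sub_zero]
  have hlim : Tendsto (fun t => τ t * φ l) atTop (𝓝 (φ l)) :=
    tendsto_const_nhds.congr' ((eventually_ge_atTop ε).mono fun t ht => by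
      simp only [hτ.one t ht, one_mul])
  have hD : ∀ r ∈ Ici l, HasDerivAt (fun t => τ t * φ l) (deriv τ r * φ l) r :=
    fun r _ => (hτd r).mul_const _
  have hP : ∀ r ∈ Ioi l, 0 ≤ deriv τ r * φ l := fun r _ => mul_nonneg (t1 r) p0
  have i2 : ∫⁻ r in Ici l, ENNReal.ofReal (g r) = ENNReal.ofReal (φ l - τ l * φ l) := by
    rw [setLIntegral_congr_fun measurableSet_Ici (fun r hr => by rw [g2 r hr]),
      ← setLIntegral_congr Ioi_ae_eq_Ici,
      ← ofReal_integral_eq_lintegral_ofReal (integrableOn_Ioi_deriv_of_nonneg' hD hP hlim)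
        ((ae_restrict_iff' measurableSet_Ioi).2 (Eventually.of_forall hP)),
      integral_Ioi_of_hasDerivAt_of_nonneg' hD hP hlim]
  have hτ1 : τ l ≤ 1 := by
    have := hτ.mono (le_max_left l ε)
    rwa [hτ.one _ (le_max_right _ _)] at this
  calc ∫⁻ r in Ioi (0 : ℝ), ENNReal.ofReal (g r)
      ≤ ∫⁻ r in Ioo 0 l ∪ Ici l, ENNReal.ofReal (g r) :=
        lintegral_mono_set fun r hr => (lt_or_ge r l).imp (fun h => ⟨hr, h⟩) id
    _ ≤ _ := lintegral_union_le _ _ _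
    _ = _ := by
        rw [i1, i2, ← ENNReal.ofReal_add (mul_nonneg (t0 l) p0) (by nlinarith)]
        congr 1; ring

theorem ray1_fin {X : Type*} [MeasurableSpace X] {μ : Measure X} {S T : Set X}
    (hS : MeasurableSet S) {f q : X → ℝ≥0∞} (hf : Measurable f) {k : X → ℝ} (hk : IntegrableOn k S μ)
    (h1 : ∀ v, ENNReal.ofReal (k v) ≤ f v) (hT : T ⊆ Sᶜ) (h2 : ∀ v ∈ T, q v ≤ f v) {C : ℝ}
    (hC : 0 ≤ C) (h3 : ∫⁻ v, f v ∂μ ≤ ENNReal.ofReal C) :
    ∫ v in S, k v ∂μ ≤ C ∧ ∫⁻ v in T, q v ∂μ ≤ ENNReal.ofReal (C - ∫ v in S, k v ∂μ) := by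
  rw [← lintegral_add_compl f hS] at h3
  have hA : ∫⁻ v in S, f v ∂μ ≠ ⊤ := ne_top_of_le_ne_top ENNReal.ofReal_ne_top (le_self_add.trans h3)
  have hB : ∫⁻ v in Sᶜ, f v ∂μ ≠ ⊤ := ne_top_of_le_ne_top ENNReal.ofReal_ne_top (le_add_self.trans h3)
  have h4 := ENNReal.toReal_mono ENNReal.ofReal_ne_top h3
  rw [ENNReal.toReal_add hA hB, ENNReal.toReal_ofReal hC] at h4
  have h5 : ∫ v in S, k v ∂μ ≤ (∫⁻ v in S, f v ∂μ).toReal := by
    rw [integral_eq_lintegral_pos_part_sub_lintegral_neg_part hk]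
    have := ENNReal.toReal_mono hA (lintegral_mono (μ := μ.restrict S) h1)
    have h6 := ENNReal.toReal_nonneg (a := ∫⁻ v in S, ENNReal.ofReal (-k v) ∂μ)
    linarith
  have h7 := ENNReal.toReal_nonneg (a := ∫⁻ v in Sᶜ, f v ∂μ)
  refine ⟨by linarith, ?_⟩
  calc ∫⁻ v in T, q v ∂μ ≤ ∫⁻ v in T, f v ∂μ := setLIntegral_mono hf h2
    _ ≤ ∫⁻ v in Sᶜ, f v ∂μ := lintegral_mono_set hT
    _ = ENNReal.ofReal (∫⁻ v in Sᶜ, f v ∂μ).toReal := (ENNReal.ofReal_toReal hB).symm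
    _ ≤ _ := ENNReal.ofReal_le_ofReal (by linarith)

theorem ray_euc (hE : Module.finrank ℝ E = m + 1) (hm : 1 ≤ m) {e : E} (he : ‖e‖ = 1)
    {φ φr : ℝ → ℝ → ℝ} {Φ : ℝ → ℝ} {Dd : Set (ℝ × ℝ)} (hτ : Cut τ ε) (hD : MeasurableSet Dd)
    (hΦ : ContinuousOn Φ (Ioc 0 1)) (hc : ContinuousOn (fun z : ℝ × ℝ => φ z.1 z.2) {z | 0 < z.1})
    (hc' : ContinuousOn (fun z : ℝ × ℝ => φr z.1 z.2) {z | 0 < z.1})
    (hd : ∀ r β, 0 < r → HasDerivAt (fun t => φ t β) (φr r β) r)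
    (hpos : ∀ β, 0 < β → β ≤ 1 → ∃ l, 0 < l ∧ φ l β = Φ β ∧ ∀ r, 0 < r →
      ((r, β) ∈ Dd ↔ r < l) ∧ (r ≤ l → 0 ≤ φ r β) ∧ (r < l → 0 ≤ φr r β) ∧ (l ≤ r → φr r β ≤ 0))
    (hneg : ∀ β, -1 ≤ β → β ≤ 0 → ∀ r, 0 < r → (r, β) ∉ Dd ∧ φ r β ≤ 0 ∧ φr r β ≤ 0)
    {R : ℝ} (hR : 0 ≤ R)
    (hI : ∫⁻ α in Ioo 0 (Real.pi / 2), ENNReal.ofReal (Φ (Real.cos α) * Real.sin α ^ (m - 1)) ≤
      ENNReal.ofReal R) {S : Set E} (hS : MeasurableSet S) (hb : Bornology.IsBounded S) :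
    ∫ v in S, (deriv τ ‖v‖ * φ ‖v‖ (⟪e, v⟫ / ‖v‖) + τ ‖v‖ * φr ‖v‖ (⟪e, v⟫ / ‖v‖)) / ‖v‖ ^ m ≤
        cm E m * R ∧
      ∫⁻ v in {v : E | v ∉ S ∧ (‖v‖, ⟪e, v⟫ / ‖v‖) ∈ Dd ∧ ε ≤ ‖v‖},
          ENNReal.ofReal (φr ‖v‖ (⟪e, v⟫ / ‖v‖) / ‖v‖ ^ m) ≤
        ENNReal.ofReal (cm E m * R - ∫ v in S,
          (deriv τ ‖v‖ * φ ‖v‖ (⟪e, v⟫ / ‖v‖) + τ ‖v‖ * φr ‖v‖ (⟪e, v⟫ / ‖v‖)) / ‖v‖ ^ m) := by
  classical
  obtain ⟨α, a0, aε, az, t0, t1⟩ := ray1_cut hτ
  have hτc : Continuous (deriv τ) := hτ.smooth.continuous_deriv (by norm_num)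
  set h : ℝ × ℝ → ℝ := fun z => deriv τ z.1 * φ z.1 z.2 + τ z.1 * φr z.1 z.2 with hh
  have hz : ∀ z : ℝ × ℝ, z.1 < α → h z = 0 := fun z hz => by
    simp only [hh, (az _ hz).1, (az _ hz).2, zero_mul, add_zero]
  have hco : ContinuousOn h {z | 0 < z.1} :=
    ((hτc.comp continuous_fst).continuousOn.mul hc).add
      ((hτ.smooth.continuous.comp continuous_fst).continuousOn.mul hc')
  have hhc : Continuous h := ray1_cont continuous_fst a0 hco hz
  have hkc : Continuous fun z : ℝ × ℝ => h z / z.1 ^ m :=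
    ray1_cont continuous_fst a0 (hco.div (continuous_fst.pow m).continuousOn
      fun z hz => pow_ne_zero _ (ne_of_gt hz)) fun z hz' => by rw [hz z hz', zero_div]
  set Φ' : ℝ → ℝ := (Ioc (0 : ℝ) 1).piecewise Φ 0 with hΦ'
  have hΦm : Measurable Φ' := hΦ.measurable_piecewise continuousOn_const measurableSet_Ioc
  set g : ℝ × ℝ → ℝ := Dd.piecewise h fun z => deriv τ z.1 * Φ' z.2 with hg
  have hgm : Measurable g := Measurable.piecewise hD hhc.measurable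
    ((hτc.measurable.comp measurable_fst).mul (hΦm.comp measurable_snd))
  have gin : ∀ z ∈ Dd, g z = h z := fun z hz => piecewise_eq_of_mem _ _ _ hz
  have gout : ∀ z ∉ Dd, g z = deriv τ z.1 * Φ' z.2 := fun z hz => piecewise_eq_of_notMem _ _ _ hz
  have Pin : ∀ β, 0 < β → β ≤ 1 → Φ' β = Φ β := fun β b0 b1 =>
    piecewise_eq_of_mem _ _ _ (show β ∈ Ioc (0 : ℝ) 1 from ⟨b0, b1⟩)
  have Pout : ∀ β, β ≤ 0 → Φ' β = 0 := fun β b0 =>
    piecewise_eq_of_notMem _ _ _ (show β ∉ Ioc (0 : ℝ) 1 from fun hb => not_lt.2 b0 hb.1)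
  have gneg : ∀ β, -1 ≤ β → β ≤ 0 → ∀ r, 0 < r → g (r, β) = 0 := fun β b0 b1 r hr => by
    rw [gout _ (hneg β b0 b1 r hr).1, Pout β b1, mul_zero]
  have hle : ∀ β, -1 ≤ β → β ≤ 1 → ∀ r, 0 < r → h (r, β) ≤ g (r, β) := by
    intro β b0 b1 r hr
    by_cases hm : (r, β) ∈ Dd
    · exact (gin _ hm).ge
    rcases le_or_gt β 0 with hβ | hβ
    · rw [gneg β b0 hβ r hr]
      obtain ⟨-, n1, n2⟩ := hneg β b0 hβ r hr
      exact add_nonpos (mul_nonpos_of_nonneg_of_nonpos (t1 r) n1)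
        (mul_nonpos_of_nonneg_of_nonpos (t0 r) n2)
    · obtain ⟨l, l0, l1, l2⟩ := hpos β hβ b1
      have hlr : l ≤ r := not_lt.1 fun h' => hm ((l2 r hr).1.2 h')
      have hanti : AntitoneOn (fun t => φ t β) (Ici l) :=
        antitoneOn_of_deriv_nonpos (convex_Ici l)
          (fun t ht => (hd t β (l0.trans_le ht)).continuousAt.continuousWithinAt)
          (fun t ht => (hd t β (l0.trans_le (interior_subset ht))).differentiableAt.differentiableWithinAt)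
          fun t ht => by
            have ht' : l ≤ t := interior_subset ht
            rw [(hd t β (l0.trans_le ht')).deriv]
            exact (l2 t (l0.trans_le ht')).2.2.2 ht'
      have h1 : φ r β ≤ φ l β := hanti (le_refl l) hlr hlr
      rw [gout _ hm, Pin β hβ b1, ← l1]
      have h2 := mul_le_mul_of_nonneg_left h1 (t1 r)
      have h3 := mul_nonpos_of_nonneg_of_nonpos (t0 r) ((l2 r hr).2.2.2 hlr)
      simp only [hh]
      linarith
  have hle' : ∀ β, -1 ≤ β → β ≤ 1 → ∀ r, ε ≤ r → (r, β) ∈ Dd → φr r β ≤ g (r, β) := by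
    intro β b0 b1 r hr hm
    have r0 : 0 < r := by linarith
    have hβ : 0 < β := not_le.1 fun hβ => (hneg β b0 hβ r r0).1 hm
    obtain ⟨l, l0, l1, l2⟩ := hpos β hβ b1
    have h1 := mul_nonneg (t1 r) ((l2 r r0).2.1 ((l2 r r0).1.1 hm).le)
    rw [gin _ hm]
    simp only [hh, hτ.one r hr]
    linarith
  have hline : ∀ β, 0 < β → β ≤ 1 →
      ∫⁻ r in Ioi (0 : ℝ), ENNReal.ofReal (g (r, β)) ≤ ENNReal.ofReal (Φ β) := by
    intro β b0 b1
    obtain ⟨l, l0, l1, l2⟩ := hpos β b0 b1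
    rw [← l1]
    refine ray1_line hτ (φ := fun t => φ t β) (φr := fun t => φr t β) l0
      (hc'.comp (continuous_id.prodMk continuous_const).continuousOn fun t ht => ht)
      (fun r hr => hd r β hr) (fun r hr => (l2 r hr).2.1) (fun r hr => (l2 r hr).2.2.1)
      (fun r hr hrl => gin _ ((l2 r hr).1.2 hrl)) fun r hr => ?_
    rw [gout _ fun hm => not_lt.2 hr ((l2 r (l0.trans_le hr)).1.1 hm), Pin β b0 b1, l1]
  have hfm : Measurable fun z : ℝ × ℝ => ENNReal.ofReal (g z / z.1 ^ m) :=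
    (hgm.div (measurable_fst.pow_const m)).ennreal_ofReal
  have hin : ∀ β, ∫⁻ r in Ioi (0 : ℝ), ENNReal.ofReal (r ^ m) * ENNReal.ofReal (g (r, β) / r ^ m) =
      ∫⁻ r in Ioi (0 : ℝ), ENNReal.ofReal (g (r, β)) := fun β =>
    setLIntegral_congr_fun measurableSet_Ioi fun r hr => by
      have : (0 : ℝ) < r ^ m := pow_pos hr m
      rw [← ENNReal.ofReal_mul this.le, mul_div_cancel₀ _ this.ne']
  have htot : ∫⁻ v : E, ENNReal.ofReal (g (‖v‖, ⟪e, v⟫ / ‖v‖) / ‖v‖ ^ m) ≤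
      ENNReal.ofReal (cm E m * R) := by
    have ha := axial hE hm he hfm
    simp only [hin] at ha
    rw [ha, ENNReal.ofReal_mul (cm_pos E m).le]
    refine mul_le_mul_right (le_trans ?_ hI) _
    have pi0 := Real.pi_pos
    refine (lintegral_mono_set (t := Ioo 0 (Real.pi / 2) ∪ Ico (Real.pi / 2) Real.pi)
      fun x hx => (lt_or_ge x (Real.pi / 2)).imp (fun h => ⟨hx.1, h⟩) fun h => ⟨h, hx.2⟩).trans
      ((lintegral_union_le _ _ _).trans ?_)
    rw [setLIntegral_eq_zero measurableSet_Ico, add_zero]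
    · refine setLIntegral_mono' measurableSet_Ioo fun x hx => ?_
      have s0 : 0 ≤ Real.sin x ^ (m - 1) :=
        pow_nonneg (Real.sin_nonneg_of_nonneg_of_le_pi hx.1.le (by linarith [hx.2])) _
      rw [mul_comm (Φ _), ENNReal.ofReal_mul s0]
      exact mul_le_mul_right (hline _ (Real.cos_pos_of_mem_Ioo ⟨by linarith [hx.1], hx.2⟩)
        (Real.cos_le_one x)) _
    · intro x hx
      simp only [Pi.zero_apply]
      rw [setLIntegral_eq_zero measurableSet_Ioi, mul_zero]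
      intro r hr
      simp only [Pi.zero_apply]
      rw [gneg _ (Real.neg_one_le_cos x)
        (Real.cos_nonpos_of_pi_div_two_le_of_le hx.1 (by linarith [hx.2])) r hr, ENNReal.ofReal_zero]
  have hβ : ∀ v : E, -1 ≤ ⟪e, v⟫ / ‖v‖ ∧ ⟪e, v⟫ / ‖v‖ ≤ 1 := fun v => by
    have := abs_real_inner_div_norm_mul_norm_le_one e v
    rw [he, one_mul] at this
    exact abs_le.1 this
  have hpm : Measurable fun v : E => (‖v‖, ⟪e, v⟫ / ‖v‖) :=
    measurable_norm.prodMk ((measurable_const.inner measurable_id).div measurable_norm)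
  have hint : IntegrableOn (fun v : E => h (‖v‖, ⟪e, v⟫ / ‖v‖) / ‖v‖ ^ m) S := by
    obtain ⟨M, hM⟩ := hb.exists_norm_le
    obtain ⟨B, hB⟩ := ((isCompact_Icc (a := (0 : ℝ)) (b := M)).prod
      (isCompact_Icc (a := (-1 : ℝ)) (b := 1))).exists_bound_of_continuousOn hkc.continuousOn
    refine Measure.integrableOn_of_bounded (M := B) hb.measure_lt_top.ne
      (hkc.measurable.comp hpm).aestronglyMeasurable
      ((ae_restrict_iff' hS).2 (Eventually.of_forall fun v hv => ?_))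
    exact hB (‖v‖, ⟪e, v⟫ / ‖v‖) ⟨⟨norm_nonneg v, hM v hv⟩, hβ v⟩
  refine ray1_fin hS (hfm.comp hpm) hint (fun v => ?_) (fun v hv => hv.1) (fun v hv => ?_)
    (mul_nonneg (cm_pos E m).le hR) htot
  · rcases (norm_nonneg v).eq_or_lt with h0 | h0
    · rw [hz _ (show ‖v‖ < α by linarith), zero_div, ENNReal.ofReal_zero]
      exact zero_le
    · exact ENNReal.ofReal_le_ofReal (div_le_div_of_nonneg_right
        (hle _ (hβ v).1 (hβ v).2 _ h0) (pow_nonneg h0.le _))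
  · exact ENNReal.ofReal_le_ofReal (div_le_div_of_nonneg_right
      (hle' _ (hβ v).1 (hβ v).2 _ hv.2.2 hv.2.1) (pow_nonneg (norm_nonneg v) _))

end Vale.Agent.P219
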