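import Vale.Agent.P219.G.Axial

/-!
# Axial integrals in the cosine variable; the divergence theorem in the plane  (TASK)

`axial_beta`: `axial`, Tonelli and the substitution `β = cos α` (`lintegral_image_eq_lintegral_abs_deriv_mul`, `cyl_cos`; `sin α = √(1 - cos² α)` on `(0, π)`).  `axial_int`: apply `axial_beta` to the positive and negative parts
(`integral_eq_lintegral_pos_part_sub_lintegral_neg_part`), or identify the push-forward measure (`Measure.ext_of_lintegral`) and use `integral_map`, `integral_withDensity_eq_integral_smul`, `integral_prod`.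
`plane_id`: angular part: for fixed `r`, `(θ r β * √(1-β²)^m)' = √(1-β²)^(m-2) ((1-β²) θβ - m β θ)` on `(β₀ r, 1)` (`integral_eq_sub_of_hasDerivAt_of_le`).  Radial part: extend everything continuously by zero for `r ≤ α`;
either differentiate `Hf r = ∫ β in β₀ r..1, √(1-β²)^(m-2) F r β` (it vanishes at `r = α` and `r = Lm`; `Hf r = K (r, β₀ r)` with `K (r, t) = ∫ β in t..1, ..` continuously differentiable), or use Fubini:
`F r (β₀ r)`-free form: for fixed `β`, `∫ r in {β₀ r < β}, Fr r β = F (l β) β` with `l` the inverse of `β₀`, then substitute `β = β₀ r` (`intervalIntegral.integral_comp_mul_deriv'''`).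
-/

namespace Vale.Agent.P219

open scoped ContDiff Topology RealInnerProductSpace ENNReal
open MeasureTheory Set Filter Vale.Agent.P255
open St (sn gmod)

variable {E : Type*} [NormedAddCommGroup E] [InnerProductSpace ℝ E] [FiniteDimensional ℝ E]
  [MeasurableSpace E] [BorelSpace E] {G : E → Bil E} {L : E → E → E} {K : Set E} {m : ℕ} {b : ℝ}
  {ρ ε c H : ℝ} {τ : ℝ → ℝ}

theorem axial_beta (hE : Module.finrank ℝ E = m + 1) (hm : 2 ≤ m) {e : E} (he : ‖e‖ = 1)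
    {f : ℝ × ℝ → ℝ≥0∞} (hf : Measurable f) :
    ∫⁻ v : E, f (‖v‖, ⟪e, v⟫ / ‖v‖) = ENNReal.ofReal (cm E m) *
      ∫⁻ r in Ioi (0 : ℝ), ∫⁻ β in Ioo (-1 : ℝ) 1,
        ENNReal.ofReal (r ^ m * √(1 - β ^ 2) ^ (m - 2)) * f (r, β) := by
  rw [axial hE (by omega) he hf]
  congr 1
  obtain ⟨n, rfl⟩ : ∃ n, m = n + 2 := ⟨m - 2, by omega⟩
  have hF : Measurable fun p : ℝ × ℝ =>
      ENNReal.ofReal (p.1 ^ (n + 2) * √(1 - p.2 ^ 2) ^ (n + 2 - 2)) * f (p.1, p.2) := by fun_prop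
  rw [lintegral_lintegral_swap hF.aemeasurable, ← cyl_cos,
    lintegral_image_eq_lintegral_abs_deriv_mul measurableSet_Ioo
      (fun x _ => (Real.hasDerivAt_cos x).hasDerivWithinAt)
      (Real.injOn_cos.mono Ioo_subset_Icc_self)]
  refine setLIntegral_congr_fun measurableSet_Ioo fun x hx => ?_
  have hs := Real.sin_pos_of_pos_of_lt_pi hx.1 hx.2
  rw [← lintegral_const_mul' _ _ ENNReal.ofReal_ne_top,
    ← lintegral_const_mul' _ _ ENNReal.ofReal_ne_top]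
  refine setLIntegral_congr_fun measurableSet_Ioi fun r hr => ?_
  have hr0 : (0 : ℝ) < r := hr
  rw [← mul_assoc, ← mul_assoc, ← ENNReal.ofReal_mul (pow_nonneg hs.le _),
    ← ENNReal.ofReal_mul (abs_nonneg _), abs_neg, abs_of_pos hs, ← Real.sin_sq,
    Real.sqrt_sq hs.le]
  congr 2
  rw [show n + 2 - 1 = n + 1 from rfl, Nat.add_sub_cancel]
  ring

theorem axial_int (hE : Module.finrank ℝ E = m + 1) (hm : 2 ≤ m) {e : E} (he : ‖e‖ = 1)
    {g : ℝ × ℝ → ℝ} (hg : Measurable g) {B α R : ℝ} (hα : 0 < α) (hαR : α ≤ R)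
    (hB : ∀ r β, β ^ 2 ≤ 1 → |g (r, β)| ≤ B) (h0 : ∀ r β, r ≤ α ∨ R ≤ r → g (r, β) = 0) :
    Integrable (fun v : E => g (‖v‖, ⟪e, v⟫ / ‖v‖) / ‖v‖ ^ m) ∧
      ∫ v : E, g (‖v‖, ⟪e, v⟫ / ‖v‖) / ‖v‖ ^ m =
        cm E m * ∫ r in (0 : ℝ)..R, ∫ β in (-1 : ℝ)..1, √(1 - β ^ 2) ^ (m - 2) * g (r, β) := by
  have hΦ : Measurable fun v : E => (‖v‖, ⟪e, v⟫ / ‖v‖) := by fun_prop
  have hρ : Measurable fun p : ℝ × ℝ =>
      ENNReal.ofReal (p.1 ^ m * √(1 - p.2 ^ 2) ^ (m - 2)) := by fun_prop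
  have hS : MeasurableSet (Ioi (0 : ℝ) ×ˢ Ioo (-1 : ℝ) 1) := measurableSet_Ioi.prod measurableSet_Ioo
  set ν : Measure (ℝ × ℝ) :=
    ((volume : Measure ℝ).prod (volume : Measure ℝ)).restrict (Ioi (0 : ℝ) ×ˢ Ioo (-1 : ℝ) 1) with hν
  have hmap : Measure.map (fun v : E => (‖v‖, ⟪e, v⟫ / ‖v‖)) volume = ENNReal.ofReal (cm E m) •
      ν.withDensity fun p => ENNReal.ofReal (p.1 ^ m * √(1 - p.2 ^ 2) ^ (m - 2)) := by
    refine Measure.ext_of_lintegral _ fun f hf => ?_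
    rw [lintegral_map hf hΦ, axial_beta hE hm he hf, lintegral_smul_measure,
      lintegral_withDensity_eq_lintegral_mul _ hρ hf, hν, ← Measure.prod_restrict,
      lintegral_prod _ (hρ.mul hf).aemeasurable]
    rfl
  have hh : Measurable fun p : ℝ × ℝ => g p / p.1 ^ m := by fun_prop
  have hk : Measurable fun p : ℝ × ℝ => √(1 - p.2 ^ 2) ^ (m - 2) * g p := by fun_prop
  have hae : ∀ p ∈ Ioi (0 : ℝ) ×ˢ Ioo (-1 : ℝ) 1,
      (ENNReal.ofReal (p.1 ^ m * √(1 - p.2 ^ 2) ^ (m - 2))).toReal • (g p / p.1 ^ m) =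
        √(1 - p.2 ^ 2) ^ (m - 2) * g p := by
    intro p hp
    have h1 : (0 : ℝ) < p.1 := hp.1
    rw [ENNReal.toReal_ofReal (by positivity), smul_eq_mul]
    field_simp
  have hki : IntegrableOn (fun p : ℝ × ℝ => √(1 - p.2 ^ 2) ^ (m - 2) * g p)
      (Ioi (0 : ℝ) ×ˢ Ioo (-1 : ℝ) 1) ((volume : Measure ℝ).prod (volume : Measure ℝ)) := by
    refine IntegrableOn.of_forall_sdiff_eq_zero (s := Ioc (0 : ℝ) R ×ˢ Ioo (-1 : ℝ) 1) ?_ hS ?_
    · refine Measure.integrableOn_of_bounded (M := B) ?_ hk.aestronglyMeasurable ?_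
      · rw [Measure.prod_prod]
        exact ENNReal.mul_ne_top measure_Ioc_lt_top.ne measure_Ioo_lt_top.ne
      · refine (ae_restrict_iff' (measurableSet_Ioc.prod measurableSet_Ioo)).2
          (ae_of_all _ fun p hp => ?_)
        have h1 : p.2 ^ 2 ≤ 1 := by nlinarith [hp.2.1, hp.2.2]
        have h2 : √(1 - p.2 ^ 2) ^ (m - 2) ≤ 1 :=
          pow_le_one₀ (Real.sqrt_nonneg _) (Real.sqrt_le_one.2 (by nlinarith))
        rw [Real.norm_eq_abs, abs_mul, abs_of_nonneg (by positivity)]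
        exact (mul_le_of_le_one_left (abs_nonneg _) h2).trans (hB p.1 p.2 h1)
    · intro p hp
      have h1 : R ≤ p.1 := by
        by_contra h
        exact hp.2 ⟨⟨hp.1.1, (not_le.1 h).le⟩, hp.1.2⟩
      rw [show g p = 0 from h0 p.1 p.2 (Or.inr h1), mul_zero]
  have hlt : ∀ᵐ p ∂ν, ENNReal.ofReal (p.1 ^ m * √(1 - p.2 ^ 2) ^ (m - 2)) < ⊤ :=
    ae_of_all _ fun p => ENNReal.ofReal_lt_top
  refine ⟨?_, ?_⟩
  · refine (integrable_map_measure hh.aestronglyMeasurable hΦ.aemeasurable).1 ?_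
    rw [hmap]
    refine Integrable.smul_measure ?_ ENNReal.ofReal_ne_top
    rw [integrable_withDensity_iff_integrable_smul' hρ hlt]
    exact (integrableOn_congr_fun hae hS).2 hki
  · rw [← integral_map hΦ.aemeasurable hh.aestronglyMeasurable, hmap, integral_smul_measure,
      integral_withDensity_eq_integral_toReal_smul hρ hlt, hν, setIntegral_congr_fun hS hae,
      setIntegral_prod _ hki, ENNReal.toReal_ofReal (cm_pos E m).le, smul_eq_mul,
      intervalIntegral.integral_of_le (hα.le.trans hαR),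
      setIntegral_eq_of_subset_of_forall_sdiff_eq_zero measurableSet_Ioi
        (Ioc_subset_Ioi_self : Ioc (0 : ℝ) R ⊆ Ioi 0)]
    · congr 1
      refine setIntegral_congr_fun measurableSet_Ioc fun r _ => ?_
      simp only []
      rw [intervalIntegral.integral_of_le (by norm_num), integral_Ioc_eq_integral_Ioo]
    · intro r hr
      have h1 : R ≤ r := by
        by_contra h
        exact hr.2 ⟨hr.1, (not_le.1 h).le⟩
      simp [h0 r _ (Or.inr h1)]

theorem ray3_cut {f : ℝ → ℝ} {α b : ℝ} (hα : 0 < α) (hb : α ≤ b) (h0 : ∀ r, r ≤ α → f r = 0) :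
    ∫ r in (0 : ℝ)..b, f r = ∫ r in α..b, f r := by
  rw [intervalIntegral.integral_of_le (hα.le.trans hb), intervalIntegral.integral_of_le hb]
  refine setIntegral_eq_of_subset_of_forall_sdiff_eq_zero measurableSet_Ioc
    (Ioc_subset_Ioc_left hα.le) fun r hr => h0 r ?_
  by_contra h
  exact hr.2 ⟨not_le.1 h, hr.1.2⟩

theorem ray3_tri {Φ : ℝ → ℝ → ℝ} {a b : ℝ} (hab : a ≤ b)
    (hΦ : ContinuousOn (fun z : ℝ × ℝ => Φ z.1 z.2) (Icc a b ×ˢ Icc a b)) :
    IntervalIntegrable (fun r => ∫ t in r..b, Φ r t) volume a b ∧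
      ∫ r in a..b, ∫ t in r..b, Φ r t = ∫ t in a..b, ∫ r in a..t, Φ r t := by
  have hT : MeasurableSet {z : ℝ × ℝ | z.1 ≤ z.2} := measurableSet_le measurable_fst measurable_snd
  have h1 : Integrable ({z : ℝ × ℝ | z.1 ≤ z.2}.indicator fun z : ℝ × ℝ => Φ z.1 z.2)
      (((volume : Measure ℝ).restrict (Ioc a b)).prod ((volume : Measure ℝ).restrict (Ioc a b))) := by
    refine Integrable.indicator ?_ hT
    rw [Measure.prod_restrict]
    exact (hΦ.integrableOn_compact (isCompact_Icc.prod isCompact_Icc)).mono_set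
      (prod_mono Ioc_subset_Icc_self Ioc_subset_Icc_self)
  have h2 : ∀ r ∈ Ioc a b, ∫ t in Ioc a b,
      {z : ℝ × ℝ | z.1 ≤ z.2}.indicator (fun z : ℝ × ℝ => Φ z.1 z.2) (r, t) = ∫ t in r..b, Φ r t := by
    intro r hr
    have h3 : Ioc a b ∩ Ici r = Icc r b := by
      ext t
      exact ⟨fun h => ⟨h.2, h.1.2⟩, fun h => ⟨⟨hr.1.trans_le h.1, h.2⟩, h.1⟩⟩
    rw [intervalIntegral.integral_of_le hr.2, ← integral_Icc_eq_integral_Ioc (x := r), ← h3,
      ← setIntegral_indicator measurableSet_Ici]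
    rfl
  have h4 : ∀ t ∈ Ioc a b, ∫ r in Ioc a b,
      {z : ℝ × ℝ | z.1 ≤ z.2}.indicator (fun z : ℝ × ℝ => Φ z.1 z.2) (r, t) = ∫ r in a..t, Φ r t := by
    intro t ht
    have h3 : Ioc a b ∩ Iic t = Ioc a t := by
      ext r
      exact ⟨fun h => ⟨h.1.1, h.2⟩, fun h => ⟨⟨h.1, h.2.trans ht.2⟩, h.2⟩⟩
    rw [intervalIntegral.integral_of_le ht.1.le, ← h3, ← setIntegral_indicator measurableSet_Iic]
    rfl
  refine ⟨?_, ?_⟩
  · rw [intervalIntegrable_iff_integrableOn_Ioc_of_le hab]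
    exact (integrableOn_congr_fun h2 measurableSet_Ioc).1 h1.integral_prod_left
  · rw [intervalIntegral.integral_of_le hab, intervalIntegral.integral_of_le hab,
      ← setIntegral_congr_fun measurableSet_Ioc h2, ← setIntegral_congr_fun measurableSet_Ioc h4]
    exact integral_integral_swap (f := fun r t =>
      {z : ℝ × ℝ | z.1 ≤ z.2}.indicator (fun z : ℝ × ℝ => Φ z.1 z.2) (r, t)) h1

theorem ray3_ang (n : ℕ) {θ θ' : ℝ → ℝ} (hθ : ∀ β, HasDerivAt θ (θ' β) β) (hc : Continuous θ')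
    {a : ℝ} (ha0 : 0 < a) (ha : a ≤ 1) :
    ∫ β in a..1, √(1 - β ^ 2) ^ n * ((1 - β ^ 2) * θ' β - ((n + 2 : ℕ) : ℝ) * β * θ β) =
      -(θ a * √(1 - a ^ 2) ^ (n + 2)) := by
  have hθc : Continuous θ := continuous_iff_continuousAt.2 fun β => (hθ β).continuousAt
  rw [intervalIntegral.integral_eq_sub_of_hasDerivAt_of_le ha
    (f := fun β => θ β * √(1 - β ^ 2) ^ (n + 2)) (by fun_prop) ?_
    (Continuous.intervalIntegrable (by fun_prop) _ _)]
  · simp
  · intro x hx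
    have h1 : 0 < 1 - x ^ 2 := by nlinarith [hx.1, hx.2]
    have h2 : HasDerivAt (fun β : ℝ => 1 - β ^ 2) (-(2 * x)) x := by
      simpa using (hasDerivAt_pow 2 x).const_sub 1
    have h3 := (hθ x).mul ((h2.sqrt h1.ne').pow (n + 2))
    have h4 : 0 < √(1 - x ^ 2) := Real.sqrt_pos.2 h1
    have h5 : √(1 - x ^ 2) ^ 2 = 1 - x ^ 2 := Real.sq_sqrt h1.le
    refine h3.congr_deriv ?_
    simp only [Pi.pow_apply]
    rw [show n + 2 - 1 = n + 1 from rfl]
    generalize √(1 - x ^ 2) = s at h4 h5 ⊢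
    rw [← h5]
    field_simp
    ring

theorem plane_id (hm : 2 ≤ m) {F Fr θ θβ : ℝ → ℝ → ℝ} {β₀ β₁ : ℝ → ℝ} {Lm α : ℝ} (hα : 0 < α)
    (hL : α ≤ Lm) (cF : ContinuousOn (fun z : ℝ × ℝ => F z.1 z.2) {z | 0 < z.1})
    (cFr : ContinuousOn (fun z : ℝ × ℝ => Fr z.1 z.2) {z | 0 < z.1})
    (cθ : ContinuousOn (fun z : ℝ × ℝ => θ z.1 z.2) {z | 0 < z.1})
    (cθβ : ContinuousOn (fun z : ℝ × ℝ => θβ z.1 z.2) {z | 0 < z.1})
    (dF : ∀ r β, 0 < r → HasDerivAt (fun t => F t β) (Fr r β) r)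
    (dθ : ∀ r β, 0 < r → HasDerivAt (θ r) (θβ r β) β)
    (h0 : ∀ r β, r ≤ α → F r β = 0 ∧ Fr r β = 0 ∧ θ r β = 0 ∧ θβ r β = 0)
    (dβ : ∀ r, 0 < r → HasDerivAt β₀ (β₁ r) r ∧ 0 < β₁ r ∧ 0 < β₀ r) (cβ₁ : ContinuousOn β₁ (Ioi 0))
    (h1 : β₀ Lm = 1) :
    ∫ r in (0 : ℝ)..Lm, ∫ β in β₀ r..1, √(1 - β ^ 2) ^ (m - 2) *
        (Fr r β + ((1 - β ^ 2) * θβ r β - m * β * θ r β)) =
      ∫ r in (0 : ℝ)..Lm, (F r (β₀ r) * β₁ r * √(1 - β₀ r ^ 2) ^ (m - 2) -
        θ r (β₀ r) * √(1 - β₀ r ^ 2) ^ m) := by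
  obtain ⟨n, rfl⟩ : ∃ n, m = n + 2 := ⟨m - 2, by omega⟩
  simp only [Nat.add_sub_cancel]
  have sl : ∀ {H : ℝ → ℝ → ℝ}, ContinuousOn (fun z : ℝ × ℝ => H z.1 z.2) {z | 0 < z.1} →
      ∀ r, 0 < r → Continuous (H r) := fun hH r hr =>
    hH.comp_continuous (f := fun β : ℝ => (r, β)) (by fun_prop) fun _ => hr
  have cβ₀ : ContinuousOn β₀ (Ioi 0) := fun r hr => (dβ r hr).1.continuousAt.continuousWithinAt
  have mono : StrictMonoOn β₀ (Ioi 0) := strictMonoOn_of_deriv_pos (convex_Ioi 0) cβ₀ fun r hr => by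
    rw [interior_Ioi] at hr
    rw [(dβ r hr).1.deriv]
    exact (dβ r hr).2.1
  have sub : Icc α Lm ⊆ Ioi 0 := fun r hr => hα.trans_le hr.1
  have gr : ∀ {H : ℝ → ℝ → ℝ}, ContinuousOn (fun z : ℝ × ℝ => H z.1 z.2) {z | 0 < z.1} →
      ContinuousOn (fun r => H r (β₀ r)) (Icc α Lm) := fun hH =>
    hH.comp (f := fun r : ℝ => (r, β₀ r)) (continuousOn_id.prodMk (cβ₀.mono sub)) sub
  have cs : ∀ k : ℕ, ContinuousOn (fun r => √(1 - β₀ r ^ 2) ^ k) (Icc α Lm) := fun k =>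
    (by fun_prop : Continuous fun β : ℝ => √(1 - β ^ 2) ^ k).comp_continuousOn (cβ₀.mono sub)
  obtain ⟨t1, t2⟩ := ray3_tri (Φ := fun r t => √(1 - β₀ t ^ 2) ^ n * Fr r (β₀ t) * β₁ t) hL (by
    refine ContinuousOn.mul (ContinuousOn.mul ?_ ?_) ?_
    · exact (cs n).comp continuousOn_snd fun z hz => hz.2
    · exact cFr.comp (f := fun z : ℝ × ℝ => (z.1, β₀ z.2)) (continuousOn_fst.prodMk
        (cβ₀.comp continuousOn_snd fun z hz => sub hz.2)) fun z hz => sub hz.1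
    · exact cβ₁.comp continuousOn_snd fun z hz => sub hz.2)
  have i1 : IntervalIntegrable (fun r => θ r (β₀ r) * √(1 - β₀ r ^ 2) ^ (n + 2)) volume α Lm :=
    ((gr cθ).mul (cs _)).intervalIntegrable_of_Icc hL
  have i2 : IntervalIntegrable (fun r => F r (β₀ r) * β₁ r * √(1 - β₀ r ^ 2) ^ n) volume α Lm :=
    (((gr cF).mul (cβ₁.mono sub)).mul (cs _)).intervalIntegrable_of_Icc hL
  rw [ray3_cut hα hL, ray3_cut hα hL, intervalIntegral.integral_sub i2 i1]
  · have e1 : ∀ r ∈ uIcc α Lm, ∫ β in β₀ r..1, √(1 - β ^ 2) ^ n *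
        (Fr r β + ((1 - β ^ 2) * θβ r β - ((n + 2 : ℕ) : ℝ) * β * θ r β)) =
        (∫ t in r..Lm, √(1 - β₀ t ^ 2) ^ n * Fr r (β₀ t) * β₁ t) -
          θ r (β₀ r) * √(1 - β₀ r ^ 2) ^ (n + 2) := by
      intro r hr
      rw [uIcc_of_le hL] at hr
      have hr0 : 0 < r := sub hr
      have c1 := sl cFr r hr0
      have c2 := sl cθ r hr0
      have c3 := sl cθβ r hr0
      have hle : β₀ r ≤ 1 := h1 ▸ mono.monotoneOn hr0 (hα.trans_le hL) hr.2
      have s2 : uIcc r Lm ⊆ Ioi 0 := by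
        rw [uIcc_of_le hr.2]
        exact fun t ht => hr0.trans_le ht.1
      have e2 := intervalIntegral.integral_comp_mul_deriv' (a := r) (b := Lm) (f := β₀) (f' := β₁)
        (g := fun β => √(1 - β ^ 2) ^ n * Fr r β) (fun t ht => (dβ t (s2 ht)).1) (cβ₁.mono s2)
        (Continuous.continuousOn (by fun_prop))
      rw [h1] at e2
      simp only [mul_add]
      rw [intervalIntegral.integral_add (Continuous.intervalIntegrable (by fun_prop) _ _)
        (Continuous.intervalIntegrable (by fun_prop) _ _),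
        ray3_ang n (fun β => dθ r β hr0) c3 (dβ r hr0).2.2 hle, ← e2, sub_eq_add_neg]
      rfl
    have e3 : ∀ t ∈ uIcc α Lm, ∫ r in α..t, √(1 - β₀ t ^ 2) ^ n * Fr r (β₀ t) * β₁ t =
        F t (β₀ t) * β₁ t * √(1 - β₀ t ^ 2) ^ n := by
      intro t ht
      rw [uIcc_of_le hL] at ht
      have s2 : uIcc α t ⊆ Ioi 0 := by
        rw [uIcc_of_le ht.1]
        exact fun r hr => hα.trans_le hr.1
      rw [intervalIntegral.integral_mul_const, intervalIntegral.integral_const_mul,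
        intervalIntegral.integral_eq_sub_of_hasDerivAt (f := fun r => F r (β₀ t))
          (fun r hr => dF r _ (s2 hr))
          (ContinuousOn.intervalIntegrable (cFr.comp (f := fun r : ℝ => (r, β₀ t))
            (Continuous.continuousOn (by fun_prop)) s2)), (h0 α _ le_rfl).1]
      ring
    rw [intervalIntegral.integral_congr e1, intervalIntegral.integral_sub t1 i1, t2,
      intervalIntegral.integral_congr e3]
  · intro r hr
    simp [(h0 r _ hr).1, (h0 r _ hr).2.2.1]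
  · intro r hr
    simp [(h0 r _ hr).2.1, (h0 r _ hr).2.2.1, (h0 r _ hr).2.2.2]

end Vale.Agent.P219
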