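import Vale.Agent.P219.G.Ray3
import Vale.Agent.P219.G.Ray1

/-!
# The flux bound in Euclidean space  (TASK)

Let `dv = φr + (1-β²) θβ - m β θ`, `h = τ' φ + τ dv`, `D = {β₀ r < β}` (contained in `r < Lm` when `β ≤ 1`, as `β₀` is increasing).  Choose `ε₁ ≤ Lm` with the bounds of `near` for `l'` and `β₀ ≤ l'` on `(0, ε₁]`.
Put `g = 1_D h + τ' (l' + B 1[0 < β ≤ l'])` for `r > 0` (extended by `0`; measurable, bounded, supported in `α ≤ r ≤ Lm`).  Then `h ≤ g` and `0 ≤ g` for `β² ≤ 1`, and `g = dv` on `D ∩ {ε < r}`.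
So `∫_S h / ‖v‖^m ≤ ∫_S g / ‖v‖^m = ∫ g/.. - ∫_Sᶜ g/..`.  `axial_int`, `plane_id` with `F = τ φ`, `θ` replaced by `τ θ`, and `∫ τ' = 1`, `√(1-β²)^(m-2) ≤ 1` bound `∫ g/..` by `cm (.. + 2 l' + B l')`.
The sphere `‖v‖ = ε` is null, or use that `τ' ε = 0` (continuity of `deriv τ`).
-/

namespace Vale.Agent.P219

open scoped ContDiff Topology RealInnerProductSpace ENNReal
open MeasureTheory Set Filter Vale.Agent.P255
open St (sn gmod)

variable {E : Type*} [NormedAddCommGroup E] [InnerProductSpace ℝ E] [FiniteDimensional ℝ E]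
  [MeasurableSpace E] [BorelSpace E] {G : E → Bil E} {L : E → E → E} {K : Set E} {m : ℕ} {b : ℝ}
  {ρ ε c H : ℝ} {τ : ℝ → ℝ}

theorem ray4_w (m : ℕ) (β : ℝ) : 0 ≤ √(1 - β ^ 2) ^ (m - 2) ∧ √(1 - β ^ 2) ^ (m - 2) ≤ 1 :=
  ⟨pow_nonneg (Real.sqrt_nonneg _) _, pow_le_one₀ (Real.sqrt_nonneg _)
    (Real.sqrt_le_one.2 (by nlinarith [sq_nonneg β]))⟩

theorem ray4_ind (l' β : ℝ) : 0 ≤ (Ioc (0 : ℝ) l').indicator (fun _ => (1 : ℝ)) β ∧
    (Ioc (0 : ℝ) l').indicator (fun _ => (1 : ℝ)) β ≤ 1 := by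
  by_cases h : β ∈ Ioc (0 : ℝ) l'
  · simp [indicator_of_mem h]
  · simp [indicator_of_notMem h]

theorem ray4_meas (m : ℕ) (l' B : ℝ) : Measurable fun β : ℝ =>
    √(1 - β ^ 2) ^ (m - 2) * (l' + B * (Ioc (0 : ℝ) l').indicator (fun _ => (1 : ℝ)) β) :=
  (by fun_prop : Measurable fun β : ℝ => √(1 - β ^ 2) ^ (m - 2)).mul
    (measurable_const.add (measurable_const.mul
      (measurable_const.indicator measurableSet_Ioc)))

theorem ray4_ii (m : ℕ) {l' B : ℝ} (hl : 0 ≤ l') (hB : 0 ≤ B) : IntervalIntegrable (fun β : ℝ =>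
    √(1 - β ^ 2) ^ (m - 2) * (l' + B * (Ioc (0 : ℝ) l').indicator (fun _ => (1 : ℝ)) β))
    volume (-1) 1 := by
  rw [intervalIntegrable_iff_integrableOn_Ioc_of_le (by norm_num)]
  refine Measure.integrableOn_of_bounded (M := l' + B) measure_Ioc_lt_top.ne
    (ray4_meas m l' B).aestronglyMeasurable (Eventually.of_forall fun β => ?_)
  obtain ⟨w0, w1⟩ := ray4_w m β
  obtain ⟨i0, i1⟩ := ray4_ind l' β
  have h1 : 0 ≤ l' + B * (Ioc (0 : ℝ) l').indicator (fun _ => (1 : ℝ)) β := by positivity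
  have h2 : B * (Ioc (0 : ℝ) l').indicator (fun _ => (1 : ℝ)) β ≤ B := by nlinarith
  rw [Real.norm_eq_abs, abs_of_nonneg (mul_nonneg w0 h1)]
  nlinarith

theorem ray4_c0 (m : ℕ) {l' B : ℝ} (hl : 0 ≤ l') (hB : 0 ≤ B) :
    ∫ β in (-1 : ℝ)..1, √(1 - β ^ 2) ^ (m - 2) *
      (l' + B * (Ioc (0 : ℝ) l').indicator (fun _ => (1 : ℝ)) β) ≤ 2 * l' + B * l' := by
  have hi : IntervalIntegrable (fun β : ℝ => (Ioc (0 : ℝ) l').indicator (fun _ => (1 : ℝ)) β)
      volume (-1) 1 := by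
    rw [intervalIntegrable_iff_integrableOn_Ioc_of_le (by norm_num)]
    refine Measure.integrableOn_of_bounded (M := 1) measure_Ioc_lt_top.ne
      (measurable_const.indicator measurableSet_Ioc).aestronglyMeasurable
      (Eventually.of_forall fun β => ?_)
    rw [Real.norm_eq_abs, abs_of_nonneg (ray4_ind l' β).1]
    exact (ray4_ind l' β).2
  have h1 : ∫ β in (-1 : ℝ)..1, (Ioc (0 : ℝ) l').indicator (fun _ => (1 : ℝ)) β ≤ l' := by
    rw [intervalIntegral.integral_of_le (by norm_num), setIntegral_indicator measurableSet_Ioc]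
    simp only [integral_const, MeasurableSet.univ, measureReal_restrict_apply, univ_inter,
      smul_eq_mul, mul_one]
    have := measureReal_mono (μ := volume)
      (inter_subset_right : Ioc (-1 : ℝ) 1 ∩ Ioc 0 l' ⊆ Ioc 0 l') measure_Ioc_lt_top.ne
    rwa [Real.volume_real_Ioc_of_le hl, sub_zero] at this
  calc _ ≤ ∫ β in (-1 : ℝ)..1, (l' + B * (Ioc (0 : ℝ) l').indicator (fun _ => (1 : ℝ)) β) := by
        refine intervalIntegral.integral_mono_on (by norm_num) (ray4_ii m hl hB)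
          (intervalIntegrable_const.add (hi.const_mul B)) fun β _ => ?_
        obtain ⟨w0, w1⟩ := ray4_w m β
        obtain ⟨i0, i1⟩ := ray4_ind l' β
        have h1 : 0 ≤ l' + B * (Ioc (0 : ℝ) l').indicator (fun _ => (1 : ℝ)) β := by positivity
        nlinarith
    _ = 2 * l' + B * ∫ β in (-1 : ℝ)..1, (Ioc (0 : ℝ) l').indicator (fun _ => (1 : ℝ)) β := by
        rw [intervalIntegral.integral_add intervalIntegrable_const (hi.const_mul B),
          intervalIntegral.integral_const_mul, intervalIntegral.integral_const]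
        norm_num
    _ ≤ _ := by nlinarith

theorem ray4_cut {k : ℝ → ℝ} {t : ℝ} (h0 : -1 ≤ t) (h1 : t ≤ 1) :
    ∫ β in (-1 : ℝ)..1, (Ioi t).indicator k β = ∫ β in t..1, k β := by
  rw [intervalIntegral.integral_of_le (by norm_num), intervalIntegral.integral_of_le h1,
    setIntegral_indicator measurableSet_Ioi]
  congr 2
  ext x
  simp only [mem_inter_iff, mem_Ioc, mem_Ioi]
  constructor
  · rintro ⟨⟨_, b⟩, c⟩
    exact ⟨c, b⟩
  · rintro ⟨a, b⟩
    exact ⟨⟨by linarith, b⟩, a⟩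

theorem ray_euc2 (hE : Module.finrank ℝ E = m + 1) (hm : 2 ≤ m) {φ φr θ θβ dv : ℝ → ℝ → ℝ}
    {β₀ β₁ : ℝ → ℝ} {Lm : ℝ} (hL : 0 < Lm)
    (cφ : ContinuousOn (fun z : ℝ × ℝ => φ z.1 z.2) {z | 0 < z.1})
    (cφr : ContinuousOn (fun z : ℝ × ℝ => φr z.1 z.2) {z | 0 < z.1})
    (cθ : ContinuousOn (fun z : ℝ × ℝ => θ z.1 z.2) {z | 0 < z.1})
    (cθβ : ContinuousOn (fun z : ℝ × ℝ => θβ z.1 z.2) {z | 0 < z.1})
    (dφ : ∀ r β, 0 < r → HasDerivAt (fun t => φ t β) (φr r β) r)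
    (dθ : ∀ r β, 0 < r → HasDerivAt (θ r) (θβ r β) β)
    (hdv : ∀ r β, 0 < r → dv r β = φr r β + ((1 - β ^ 2) * θβ r β - m * β * θ r β))
    (dβ : ∀ r, 0 < r → HasDerivAt β₀ (β₁ r) r ∧ 0 < β₁ r ∧ 0 < β₀ r) (cβ₁ : ContinuousOn β₁ (Ioi 0))
    (h0 : Tendsto β₀ (𝓝[>] 0) (𝓝 0)) (h1 : β₀ Lm = 1)
    (hpos : ∀ r β, 0 < r → β ^ 2 ≤ 1 → β₀ r < β → 0 ≤ dv r β)
    (hneg : ∀ r β, 0 < r → β ^ 2 ≤ 1 → β ≤ β₀ r → dv r β ≤ 0) {B : ℝ}
    (near : ∀ l : ℝ, 0 < l → ∃ ε : ℝ, 0 < ε ∧ ∀ r β, 0 < r → r ≤ ε → β ^ 2 ≤ 1 →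
      |φ r β| ≤ B ∧ (0 ≤ β → -l ≤ φ r β) ∧ (β ≤ 0 → φ r β ≤ l)) {l : ℝ} (hl : 0 < l) :
    ∃ ε₁ : ℝ, 0 < ε₁ ∧ ∀ (τ : ℝ → ℝ) (ε : ℝ), Cut τ ε → ε ≤ ε₁ → ∀ e : E, ‖e‖ = 1 →
      ∀ S : Set E, MeasurableSet S → Bornology.IsBounded S → ∀ I J : ℝ,
        I = ∫ v in S, (deriv τ ‖v‖ * φ ‖v‖ (⟪e, v⟫ / ‖v‖) + τ ‖v‖ * dv ‖v‖ (⟪e, v⟫ / ‖v‖)) / ‖v‖ ^ m →
        J = cm E m * ((∫ r in (0 : ℝ)..Lm, τ r * (φ r (β₀ r) * β₁ r * √(1 - β₀ r ^ 2) ^ (m - 2) -
          θ r (β₀ r) * √(1 - β₀ r ^ 2) ^ m)) + l) →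
        I ≤ J ∧ ∫⁻ v in {v : E | v ∉ S ∧ β₀ ‖v‖ < ⟪e, v⟫ / ‖v‖ ∧ ε ≤ ‖v‖},
          ENNReal.ofReal (dv ‖v‖ (⟪e, v⟫ / ‖v‖) / ‖v‖ ^ m) ≤ ENNReal.ofReal (J - I) := by
  classical
  have hB : 0 ≤ B := by
    obtain ⟨ε0, e0, h⟩ := near 1 one_pos
    exact (abs_nonneg _).trans (h ε0 0 e0 le_rfl (by norm_num)).1
  set l' := l / (2 + B) with hl'
  have l0 : 0 < l' := by positivity
  have lsum : 2 * l' + B * l' = l := by rw [hl']; field_simp
  obtain ⟨εn, en0, hn⟩ := near l' l0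
  obtain ⟨εb, eb0, hb0⟩ : ∃ εb : ℝ, 0 < εb ∧ ∀ r, 0 < r → r ≤ εb → β₀ r ≤ l' := by
    have h := h0.eventually (Iic_mem_nhds l0)
    obtain ⟨u, hu, hsub⟩ := mem_nhdsGT_iff_exists_Ioc_subset.1 h
    exact ⟨u, hu, fun r hr hru => hsub ⟨hr, hru⟩⟩
  refine ⟨min εn (min εb Lm), lt_min en0 (lt_min eb0 hL), ?_⟩
  intro τ ε hτ hε e he S hS hb I J hI hJ
  have εn' : ε ≤ εn := hε.trans (min_le_left _ _)
  have εb' : ε ≤ εb := hε.trans ((min_le_right _ _).trans (min_le_left _ _))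
  have εL : ε ≤ Lm := hε.trans ((min_le_right _ _).trans (min_le_right _ _))
  obtain ⟨α, a0, aε, az, t0, t1⟩ := ray1_cut hτ
  have hτc : Continuous (deriv τ) := hτ.smooth.continuous_deriv (by norm_num)
  have hτc0 : Continuous τ := hτ.smooth.continuous
  have hτd : ∀ r, HasDerivAt τ (deriv τ r) r := fun r =>
    (hτ.smooth.differentiable (by norm_num) r).hasDerivAt
  have t2 : ∀ r, ε ≤ r → deriv τ r = 0 := fun r hr => by
    apply IsLocalMax.deriv_eq_zero
    refine Eventually.of_forall fun t => ?_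
    have := hτ.mono (le_max_left t r)
    rwa [hτ.one _ (hr.trans (le_max_right _ _)), ← hτ.one r hr] at this
  have cβ₀ : ContinuousOn β₀ (Ioi 0) := fun r hr =>
    (dβ r hr).1.continuousAt.continuousWithinAt
  have mβ : MonotoneOn β₀ (Ioi 0) :=
    monotoneOn_of_deriv_nonneg (convex_Ioi 0) cβ₀
      (fun t ht => (dβ t (interior_subset ht)).1.differentiableAt.differentiableWithinAt)
      fun t ht => by
        rw [(dβ t (interior_subset ht)).1.deriv]
        exact (dβ t (interior_subset ht)).2.1.le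
  set h : ℝ × ℝ → ℝ := fun z => deriv τ z.1 * φ z.1 z.2 + τ z.1 *
    (φr z.1 z.2 + ((1 - z.2 ^ 2) * θβ z.1 z.2 - m * z.2 * θ z.1 z.2)) with hh
  have hz : ∀ z : ℝ × ℝ, z.1 < α → h z = 0 := fun z hz => by
    simp only [hh, (az _ hz).1, (az _ hz).2, zero_mul, add_zero]
  have hco : ContinuousOn h {z | 0 < z.1} :=
    ((hτc.comp continuous_fst).continuousOn.mul cφ).add
      ((hτc0.comp continuous_fst).continuousOn.mul (cφr.add
        (((by fun_prop : Continuous fun z : ℝ × ℝ => 1 - z.2 ^ 2).continuousOn.mul cθβ).sub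
          ((by fun_prop : Continuous fun z : ℝ × ℝ => (m : ℝ) * z.2).continuousOn.mul cθ))))
  have hhc : Continuous h := ray1_cont continuous_fst a0 hco hz
  have hkc : Continuous fun z : ℝ × ℝ => h z / z.1 ^ m :=
    ray1_cont continuous_fst a0 (hco.div (continuous_fst.pow m).continuousOn
      fun z hz => pow_ne_zero _ (ne_of_gt hz)) fun z hz' => by rw [hz z hz', zero_div]
  have hdv' : ∀ r β, 0 < r → h (r, β) = deriv τ r * φ r β + τ r * dv r β := fun r β hr => by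
    simp only [hh, hdv r β hr]
  set D : Set (ℝ × ℝ) := {z | (0 < z.1 ∧ z.1 < Lm) ∧ β₀ z.1 < z.2} with hD
  have hDo : IsOpen D := by
    have h1 : IsOpen {z : ℝ × ℝ | 0 < z.1 ∧ z.1 < Lm} :=
      (isOpen_lt continuous_const continuous_fst).inter (isOpen_lt continuous_fst continuous_const)
    have h2 : ContinuousOn (fun z : ℝ × ℝ => z.2 - β₀ z.1) {z : ℝ × ℝ | 0 < z.1 ∧ z.1 < Lm} :=
      continuous_snd.continuousOn.sub (cβ₀.comp continuous_fst.continuousOn fun z hz => hz.1)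
    have h3 := h2.isOpen_inter_preimage h1 (isOpen_Ioi (a := (0 : ℝ)))
    convert h3 using 1
    ext z
    simp [hD, sub_pos]
  set u : ℝ → ℝ := fun β => l' + B * (Ioc (0 : ℝ) l').indicator (fun _ => (1 : ℝ)) β with hu
  have um : Measurable u := measurable_const.add (measurable_const.mul
    (measurable_const.indicator measurableSet_Ioc))
  have ul : ∀ β, l' ≤ u β ∧ u β ≤ l' + B := fun β => by
    obtain ⟨i0, i1⟩ := ray4_ind l' β
    simp only [hu]
    constructor <;> nlinarith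
  set g : ℝ × ℝ → ℝ := fun z => D.indicator h z + deriv τ z.1 * u z.2 with hg
  have hgm : Measurable g := (hhc.measurable.indicator hDo.measurableSet).add
    ((hτc.measurable.comp measurable_fst).mul (um.comp measurable_snd))
  have hDmem : ∀ r β, 0 < r → β ^ 2 ≤ 1 → β₀ r < β → (r, β) ∈ D := fun r β hr hβ hlt => by
    refine ⟨⟨hr, ?_⟩, hlt⟩
    by_contra hge
    have := mβ (show Lm ∈ Ioi (0 : ℝ) from hL) (show r ∈ Ioi (0 : ℝ) from hr) (not_lt.1 hge)
    rw [h1] at this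
    nlinarith
  have g0 : ∀ r β, r ≤ α / 2 ∨ Lm ≤ r → g (r, β) = 0 := by
    rintro r β (hr | hr)
    · have hr' : r < α := by linarith
      have : D.indicator h (r, β) = 0 := by
        by_cases hm : (r, β) ∈ D
        · rw [indicator_of_mem hm, hz _ hr']
        · exact indicator_of_notMem hm _
      simp only [hg, this, (az r hr').2, zero_mul, add_zero]
    · have hm : (r, β) ∉ D := fun hm => not_lt.2 hr hm.1.2
      simp only [hg, indicator_of_notMem hm, t2 r (εL.trans hr), zero_mul, add_zero]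
  obtain ⟨C1, hC1⟩ := ((isCompact_Icc (a := (0 : ℝ)) (b := Lm)).prod
    (isCompact_Icc (a := (-1 : ℝ)) (b := 1))).exists_bound_of_continuousOn hhc.continuousOn
  obtain ⟨C2, hC2⟩ := (isCompact_Icc (a := (0 : ℝ)) (b := Lm)).exists_bound_of_continuousOn
    hτc.continuousOn
  have gb : ∀ r β, β ^ 2 ≤ 1 → |g (r, β)| ≤ |C1| + |C2| * (l' + B) := by
    intro r β hβ
    by_cases hr : r ≤ α / 2 ∨ Lm ≤ r
    · rw [g0 r β hr, abs_zero]; positivity
    push_neg at hr
    have hr' : r ∈ Icc (0 : ℝ) Lm := ⟨by linarith [hr.1], hr.2.le⟩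
    have hβ' : β ∈ Icc (-1 : ℝ) 1 := abs_le.1 (by rwa [← sq_le_one_iff_abs_le_one])
    have b1 : |D.indicator h (r, β)| ≤ |C1| :=
      (norm_indicator_le_norm_self h (r, β)).trans ((hC1 (r, β) ⟨hr', hβ'⟩).trans (le_abs_self _))
    have b2 : |deriv τ r| ≤ |C2| := (hC2 r hr').trans (le_abs_self _)
    have b3 : |u β| ≤ l' + B := by
      rw [abs_of_nonneg (l0.le.trans (ul β).1)]; exact (ul β).2
    calc |g (r, β)| ≤ |D.indicator h (r, β)| + |deriv τ r * u β| := abs_add_le _ _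
      _ ≤ _ := by
        rw [abs_mul]
        exact add_le_add b1 (mul_le_mul b2 b3 (abs_nonneg _) (abs_nonneg _))
  have hle : ∀ r β, 0 < r → β ^ 2 ≤ 1 → h (r, β) ≤ g (r, β) ∧ 0 ≤ g (r, β) := by
    intro r β hr hβ
    have p1 : 0 ≤ deriv τ r * u β := mul_nonneg (t1 r) (l0.le.trans (ul β).1)
    by_cases hm : (r, β) ∈ D
    · simp only [hg, indicator_of_mem hm]
      refine ⟨by linarith, ?_⟩
      rw [hdv' r β hr]
      have q1 := mul_nonneg (t0 r) (hpos r β hr hβ hm.2)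
      rcases le_or_gt ε r with hεr | hεr
      · rw [t2 r hεr]; linarith
      · have b0 : 0 ≤ β := ((dβ r hr).2.2.trans hm.2).le
        have q2 := (hn r β hr (hεr.le.trans εn') hβ).2.1 b0
        have q3 : 0 ≤ deriv τ r * (φ r β + u β) := mul_nonneg (t1 r) (by linarith [(ul β).1])
        nlinarith
    · simp only [hg, indicator_of_notMem hm, zero_add]
      refine ⟨?_, p1⟩
      rw [hdv' r β hr]
      have hβ0 : β ≤ β₀ r := not_lt.1 fun hlt => hm (hDmem r β hr hβ hlt)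
      have q1 := mul_nonpos_of_nonneg_of_nonpos (t0 r) (hneg r β hr hβ hβ0)
      rcases le_or_gt ε r with hεr | hεr
      · rw [t2 r hεr]; linarith
      · have q2 := hn r β hr (hεr.le.trans εn') hβ
        have q3 : φ r β ≤ u β := by
          rcases le_or_gt β 0 with b0 | b0
          · exact (q2.2.2 b0).trans (ul β).1
          · have hmem : β ∈ Ioc (0 : ℝ) l' := ⟨b0, hβ0.trans (hb0 r hr (hεr.le.trans εb'))⟩
            simp only [hu, indicator_of_mem hmem]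
            linarith [(abs_le.1 q2.1).2]
        have := mul_le_mul_of_nonneg_left q3 (t1 r)
        linarith
  obtain ⟨gi, gI⟩ := axial_int hE hm he hgm (half_pos a0) (by linarith) gb g0
  -- the iterated integral
  set A : ℝ → ℝ := fun r => ∫ β in β₀ (max r (α / 2))..1, √(1 - β ^ 2) ^ (m - 2) * h (r, β) with hA
  have Ac : Continuous A := by
    have c1 : Continuous fun r => β₀ (max r (α / 2)) :=
      cβ₀.comp_continuous (continuous_id.max continuous_const) fun r =>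
        lt_of_lt_of_le (half_pos a0) (le_max_right _ _)
    have c2 : Continuous (Function.uncurry fun r β : ℝ => √(1 - β ^ 2) ^ (m - 2) * h (r, β)) :=
      (by fun_prop : Continuous fun z : ℝ × ℝ => √(1 - z.2 ^ 2) ^ (m - 2)).mul hhc
    have c3 := (intervalIntegral.continuous_parametric_intervalIntegral_of_continuous
      (μ := volume) (a₀ := 1) c2 c1).neg
    refine c3.congr fun r => ?_
    simp only [hA]
    rw [intervalIntegral.integral_symm]
    simp
  have Aeq : ∀ r, A r = ∫ β in β₀ r..1, √(1 - β ^ 2) ^ (m - 2) * h (r, β) := fun r => by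
    rcases le_total r (α / 2) with hr | hr
    · have : ∀ β, h (r, β) = 0 := fun β => hz _ (show r < α by linarith)
      simp only [hA, this, mul_zero, intervalIntegral.integral_zero]
    · simp only [hA, max_eq_left hr]
  set c0 := ∫ β in (-1 : ℝ)..1, √(1 - β ^ 2) ^ (m - 2) * u β with hc0
  have c0le : c0 ≤ l := lsum ▸ ray4_c0 m l0.le hB
  have inner : ∀ r ∈ Ioo (0 : ℝ) Lm,
      ∫ β in (-1 : ℝ)..1, √(1 - β ^ 2) ^ (m - 2) * g (r, β) = A r + deriv τ r * c0 := by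
    intro r hr
    have b0 : 0 < β₀ r := (dβ r hr.1).2.2
    have b1 : β₀ r ≤ 1 := h1 ▸ mβ (show r ∈ Ioi (0 : ℝ) from hr.1) (show Lm ∈ Ioi (0 : ℝ) from hL)
      hr.2.le
    have kc : Continuous fun β : ℝ => √(1 - β ^ 2) ^ (m - 2) * h (r, β) :=
      (by fun_prop : Continuous fun β : ℝ => √(1 - β ^ 2) ^ (m - 2)).mul
        (hhc.comp (continuous_const.prodMk continuous_id))
    have e1 : ∀ β, √(1 - β ^ 2) ^ (m - 2) * g (r, β) =
        (Ioi (β₀ r)).indicator (fun β => √(1 - β ^ 2) ^ (m - 2) * h (r, β)) β +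
          deriv τ r * (√(1 - β ^ 2) ^ (m - 2) * u β) := fun β => by
      by_cases hβ : β₀ r < β
      · have hm : (r, β) ∈ D := ⟨hr, hβ⟩
        simp only [hg, indicator_of_mem hm, indicator_of_mem (show β ∈ Ioi (β₀ r) from hβ)]
        ring
      · have hm : (r, β) ∉ D := fun hm => hβ hm.2
        simp only [hg, indicator_of_notMem hm, indicator_of_notMem (show β ∉ Ioi (β₀ r) from hβ)]
        ring
    simp only [e1]
    have i1 : IntervalIntegrable ((Ioi (β₀ r)).indicator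
        (fun β => √(1 - β ^ 2) ^ (m - 2) * h (r, β))) volume (-1) 1 := by
      rw [intervalIntegrable_iff_integrableOn_Ioc_of_le (by norm_num)]
      exact ((intervalIntegrable_iff_integrableOn_Ioc_of_le (by norm_num)).1
        (kc.intervalIntegrable (-1) 1)).indicator measurableSet_Ioi
    rw [intervalIntegral.integral_add i1 ((ray4_ii m l0.le hB).const_mul _),
      intervalIntegral.integral_const_mul, ray4_cut (by linarith) b1, Aeq]
  have outer : ∫ r in (0 : ℝ)..Lm, ∫ β in (-1 : ℝ)..1, √(1 - β ^ 2) ^ (m - 2) * g (r, β) =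
      (∫ r in (0 : ℝ)..Lm, A r) + c0 := by
    have e1 : ∫ r in (0 : ℝ)..Lm, ∫ β in (-1 : ℝ)..1, √(1 - β ^ 2) ^ (m - 2) * g (r, β) =
        ∫ r in (0 : ℝ)..Lm, (A r + deriv τ r * c0) := by
      rw [intervalIntegral.integral_of_le hL.le, intervalIntegral.integral_of_le hL.le,
        integral_Ioc_eq_integral_Ioo, integral_Ioc_eq_integral_Ioo]
      exact setIntegral_congr_fun measurableSet_Ioo inner
    rw [e1, intervalIntegral.integral_add (Ac.intervalIntegrable _ _)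
      ((hτc.intervalIntegrable _ _).mul_const c0), intervalIntegral.integral_mul_const,
      intervalIntegral.integral_eq_sub_of_hasDerivAt (fun r _ => hτd r) (hτc.intervalIntegrable _ _),
      hτ.one Lm εL, (az 0 a0).1]
    ring
  have plane := plane_id (m := m) hm (F := fun r β => τ r * φ r β)
    (Fr := fun r β => deriv τ r * φ r β + τ r * φr r β) (θ := fun r β => τ r * θ r β)
    (θβ := fun r β => τ r * θβ r β) (β₀ := β₀) (β₁ := β₁) (Lm := Lm) (half_pos a0) (by linarith)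
    ((hτc0.comp continuous_fst).continuousOn.mul cφ)
    (((hτc.comp continuous_fst).continuousOn.mul cφ).add
      ((hτc0.comp continuous_fst).continuousOn.mul cφr))
    ((hτc0.comp continuous_fst).continuousOn.mul cθ)
    ((hτc0.comp continuous_fst).continuousOn.mul cθβ)
    (fun r β hr => (hτd r).mul (dφ r β hr)) (fun r β hr => (dθ r β hr).const_mul (τ r))
    (fun r β hr => by
      have hr' : r < α := by linarith
      simp only [(az r hr').1, (az r hr').2, zero_mul, add_zero, and_self]) dβ cβ₁ h1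
  have hAI : ∫ r in (0 : ℝ)..Lm, A r = ∫ r in (0 : ℝ)..Lm, τ r *
      (φ r (β₀ r) * β₁ r * √(1 - β₀ r ^ 2) ^ (m - 2) - θ r (β₀ r) * √(1 - β₀ r ^ 2) ^ m) := by
    have e1 : ∀ r, A r = ∫ β in β₀ r..1, √(1 - β ^ 2) ^ (m - 2) *
        (deriv τ r * φ r β + τ r * φr r β +
          ((1 - β ^ 2) * (τ r * θβ r β) - m * β * (τ r * θ r β))) := fun r => by
      rw [Aeq]
      congr 1
      funext β
      simp only [hh]
      ring
    simp only [e1]
    rw [plane]
    congr 1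
    funext r
    ring
  have hβ : ∀ v : E, -1 ≤ ⟪e, v⟫ / ‖v‖ ∧ ⟪e, v⟫ / ‖v‖ ≤ 1 := fun v => by
    have := abs_real_inner_div_norm_mul_norm_le_one e v
    rw [he, one_mul] at this
    exact abs_le.1 this
  have hβ2 : ∀ v : E, (⟪e, v⟫ / ‖v‖) ^ 2 ≤ 1 := fun v => by
    rw [sq_le_one_iff_abs_le_one]; exact abs_le.2 (hβ v)
  have gnn : ∀ v : E, 0 ≤ g (‖v‖, ⟪e, v⟫ / ‖v‖) / ‖v‖ ^ m := fun v => by
    rcases (norm_nonneg v).eq_or_lt with h0 | h0
    · rw [g0 _ _ (Or.inl (by linarith)), zero_div]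
    · exact div_nonneg (hle _ _ h0 (hβ2 v)).2 (pow_nonneg h0.le _)
  have gJ : ∫ v : E, g (‖v‖, ⟪e, v⟫ / ‖v‖) / ‖v‖ ^ m ≤ J := by
    rw [gI, outer, hAI, hJ]
    exact mul_le_mul_of_nonneg_left (by linarith) (cm_pos E m).le
  have J0 : 0 ≤ J := (integral_nonneg gnn).trans gJ
  have htot : ∫⁻ v : E, ENNReal.ofReal (g (‖v‖, ⟪e, v⟫ / ‖v‖) / ‖v‖ ^ m) ≤ ENNReal.ofReal J := by
    rw [← ofReal_integral_eq_lintegral_ofReal gi (Eventually.of_forall gnn)]
    exact ENNReal.ofReal_le_ofReal gJ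
  have hpm : Measurable fun v : E => (‖v‖, ⟪e, v⟫ / ‖v‖) :=
    measurable_norm.prodMk ((measurable_const.inner measurable_id).div measurable_norm)
  have hfm : Measurable fun z : ℝ × ℝ => ENNReal.ofReal (g z / z.1 ^ m) :=
    (hgm.div (measurable_fst.pow_const m)).ennreal_ofReal
  have hint : IntegrableOn (fun v : E => h (‖v‖, ⟪e, v⟫ / ‖v‖) / ‖v‖ ^ m) S := by
    obtain ⟨M, hM⟩ := hb.exists_norm_le
    obtain ⟨B', hB'⟩ := ((isCompact_Icc (a := (0 : ℝ)) (b := M)).prod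
      (isCompact_Icc (a := (-1 : ℝ)) (b := 1))).exists_bound_of_continuousOn hkc.continuousOn
    refine Measure.integrableOn_of_bounded (M := B') hb.measure_lt_top.ne
      (hkc.measurable.comp hpm).aestronglyMeasurable
      ((ae_restrict_iff' hS).2 (Eventually.of_forall fun v hv => ?_))
    exact hB' (‖v‖, ⟪e, v⟫ / ‖v‖) ⟨⟨norm_nonneg v, hM v hv⟩, hβ v⟩
  have hI' : I = ∫ v in S, h (‖v‖, ⟪e, v⟫ / ‖v‖) / ‖v‖ ^ m := by
    rw [hI]
    congr 1
    funext v
    rcases (norm_nonneg v).eq_or_lt with h0 | h0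
    · have hv : ‖v‖ < α := by linarith
      rw [hz _ hv, (az _ hv).1, (az _ hv).2, zero_mul, zero_mul, add_zero]
    · rw [hdv' _ _ h0]
  rw [hI']
  refine ray1_fin hS (hfm.comp hpm) hint (fun v => ?_) (fun v hv => hv.1) (fun v hv => ?_) J0 htot
  · rcases (norm_nonneg v).eq_or_lt with h0 | h0
    · rw [hz _ (show ‖v‖ < α by linarith), zero_div, ENNReal.ofReal_zero]
      exact zero_le
    · exact ENNReal.ofReal_le_ofReal (div_le_div_of_nonneg_right
        (hle _ _ h0 (hβ2 v)).1 (pow_nonneg h0.le _))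
  · have h0 : 0 < ‖v‖ := by linarith [hv.2.2]
    have hm' := hDmem _ _ h0 (hβ2 v) hv.2.1
    refine ENNReal.ofReal_le_ofReal (le_of_eq ?_)
    simp only [hg, indicator_of_mem hm', t2 _ hv.2.2, zero_mul, add_zero]
    rw [hdv' _ _ h0, t2 _ hv.2.2, hτ.one _ hv.2.2, zero_mul, one_mul, zero_add]

end Vale.Agent.P219
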