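import Vale.Agent.P219.G.PushN
import Vale.Agent.P219.Var

/-!
# The first variation  (TASK)

Port of `exists_frame` (`LinAlg2.lean`) and `exists_var` (`Var.lean`) to dimension `m + 1`.  `ad_le_frame`: with `e` from `exists_onb`, in these coordinates
`ad B' N = ad B N * √det (B' (eᵢ, eⱼ))` over `i, j ≥ 1` (`ad_basis`, `exists_sqrt`, `ad_cof`), and the arithmetic-geometric mean inequality for the eigenvalues
(`linalg2_amgm` is the case `m = 4`; `Real.inner_le_nnorm_mul_nnorm`-free: `Real.geom_mean_le_arith_mean_weighted` / `inner_le`).  Note `ad B ((wt B)⁻¹ • B ν) = 1`.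
`exists_varN`: `taylor_metric` gives `B' (eᵢ, eᵢ) ≤ 1 - τ lie eᵢ + C τ²`, `lie G y (Z y) (fderiv Z y) h = 2 G y (covD G Z y h) h` (`lie_covD`), so the mean is
`s ≤ 1 - 2 τ tdv / m + C τ²`, and `√(s^m) ≤ 1 - τ tdv + C' τ²` (use `√x ≤ (1 + x) / 2`-type bounds or `taylor_unif` for `(t, τ) ↦ (1 - 2 τ t / m + C τ²)^m`).
Volume: as `var_vol` (`taylor_vol`, `Diffeo.integral_image`, `div_wt`, `dvg_smul`).  `diffeo_sub`.
-/

namespace Vale.Agent.P219

open scoped ContDiff Topology RealInnerProductSpace ENNReal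
open MeasureTheory Set Filter Vale.Agent.P255
open St (sn gmod)

variable {E : Type*} [NormedAddCommGroup E] [InnerProductSpace ℝ E] [FiniteDimensional ℝ E]
  [MeasurableSpace E] [BorelSpace E] {G : E → Bil E} {L : E → E → E} {K : Set E} {m : ℕ} {b : ℝ}

theorem varn_amgm (hm : 1 ≤ m) {M : Matrix (Fin m) (Fin m) ℝ} (hM : M.PosSemidef) :
    M.det ≤ ((∑ i, M i i) / m) ^ m := by
  have h1 : M.det = ∏ i, hM.1.eigenvalues i := hM.1.det_eq_prod_eigenvalues
  have h2 : ∑ i, M i i = ∑ i, hM.1.eigenvalues i := hM.1.trace_eq_sum_eigenvalues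
  have h3 := Real.geom_mean_le_arith_mean Finset.univ (fun _ => 1) hM.1.eigenvalues
    (fun _ _ => zero_le_one) (by simpa using Nat.pos_of_ne_zero (by omega)) fun i _ => hM.eigenvalues_nonneg i
  have h4 : 0 ≤ ∏ i, hM.1.eigenvalues i := Finset.prod_nonneg fun i _ => hM.eigenvalues_nonneg i
  simp only [Real.rpow_one, one_mul, Finset.sum_const, Finset.card_univ, Fintype.card_fin,
    nsmul_eq_mul, mul_one] at h3
  rw [h1, h2, ← Real.rpow_inv_natCast_pow h4 (by omega : m ≠ 0)]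
  exact pow_le_pow_left₀ (Real.rpow_nonneg h4 _) h3 m

theorem varn_pow (m : ℕ) {X : ℝ} (hX : 0 ≤ X) :
    ∃ C : ℝ, 0 ≤ C ∧ ∀ x : ℝ, 0 ≤ 1 + x → x ≤ X → (1 + x) ^ m ≤ 1 + m * x + C * x ^ 2 := by
  induction m with
  | zero => exact ⟨0, le_rfl, fun x _ _ => by simp⟩
  | succ m ih =>
    obtain ⟨C, hC, h⟩ := ih
    refine ⟨m + C + C * X, by positivity, fun x h1 h2 => ?_⟩
    have h3 := mul_le_mul_of_nonneg_right (h x h1 h2) h1
    have h4 := mul_le_mul_of_nonneg_left h2 (mul_nonneg hC (sq_nonneg x))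
    rw [pow_succ]
    push_cast
    nlinarith

theorem varn_num (hm : 1 ≤ m) {c : ℝ} (hc : 0 ≤ c) : ∃ C : ℝ, 0 ≤ C ∧ ∀ s t τ : ℝ, 0 ≤ s →
    s ≤ m * (1 + c * τ ^ 2) - τ * (2 * t) → |2 * t| ≤ m * c → 0 < τ → τ ≤ 1 →
      √((s / m) ^ m) ≤ 1 + C * τ ^ 2 - τ * t := by
  obtain ⟨C, hC, h⟩ := varn_pow m (show 0 ≤ 2 * c by positivity)
  refine ⟨m * c / 2 + 2 * C * c ^ 2, by positivity, fun s t τ h0 h1 h2 h3 h4 => ?_⟩
  have hm0 : (0 : ℝ) < m := by exact_mod_cast hm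
  obtain ⟨u, hu⟩ : ∃ u, 2 * t = m * u := ⟨2 * t / m, by field_simp⟩
  rw [hu, abs_mul, abs_of_pos hm0] at h2
  obtain ⟨u1, u2⟩ := abs_le.1 (le_of_mul_le_mul_left h2 hm0)
  have hcτ : c * τ ≤ c := mul_le_of_le_one_right hc h4
  have hcτ0 : 0 ≤ c * τ := by positivity
  have s0 : 0 ≤ s / m := by positivity
  have s1 : s / m ≤ 1 + τ * (c * τ - u) := by
    rw [div_le_iff₀ hm0]
    rw [hu] at h1
    linarith
  have hw : (c * τ - u) ^ 2 ≤ (2 * c) ^ 2 := sq_le_sq' (by linarith) (by linarith)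
  have h5 := (pow_le_pow_left₀ s0 s1 m).trans (h _ (s0.trans s1) (by nlinarith))
  have h6 := mul_le_mul_of_nonneg_left hw (mul_nonneg hC (sq_nonneg τ))
  have h7 := Real.sq_sqrt (pow_nonneg s0 m)
  have h8 : τ * (2 * t) = τ * (m * u) := by rw [hu]
  nlinarith [sq_nonneg (√((s / m) ^ m) - 1)]

omit [MeasurableSpace E] [BorelSpace E] in
theorem ad_le_frame (hE : Module.finrank ℝ E = m + 1) (hm : 1 ≤ m) {B B' : Bil E} (hB : PosB B)
    (hB' : PosB B') {e : Fin (m + 1) → E} (he : ∀ i j, B (e i) (e j) = if i = j then 1 else 0) :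
    ad B' ((wt B)⁻¹ • B (e 0)) ≤ √(((∑ i : Fin m, B' (e i.succ) (e i.succ)) / m) ^ m) := by
  obtain ⟨P, hP, hw⟩ := exists_sqrt hB
  have ho : Orthonormal ℝ fun i => P (e i) := orthonormal_iff_ite.2 fun i j => by rw [← hP, he]
  obtain ⟨v, hv⟩ := Orthonormal.exists_orthonormalBasis_extension_of_card_eq (s := univ)
    (v := fun i => P (e i)) (hE.trans (Fintype.card_fin _).symm) (ho.comp Subtype.val Subtype.val_injective)
  have hQ : (P.symm : E →L[ℝ] E).det ≠ 0 := det_ne_of_injective P.symm.injective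
  have h3 := ad_cof hB' hQ (innerSL ℝ (v 0))
  rw [ad_basis v (hB'.comp hQ) (fun _ => rfl)] at h3
  have h4 : (wt B)⁻¹ • B (e 0) = cof (P.symm : E →L[ℝ] E) (innerSL ℝ (v 0)) := by
    ext u
    have h5 := cof_apply hQ (innerSL ℝ (v 0)) (P u)
    rw [ContinuousLinearEquiv.coe_coe, P.symm_apply_apply, P.det_coe_symm, abs_inv, ← hw,
      innerSL_apply_apply, hv 0 (mem_univ _), ← hP] at h5
    rw [smul_apply, hv 0 (mem_univ _), h5, smul_eq_mul]
  rw [h4, h3]
  obtain ⟨P', hP', -⟩ := exists_sqrt hB'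
  simp only [ContinuousLinearMap.bilinearComp_apply, ContinuousLinearEquiv.coe_coe, hP',
    hv _ (mem_univ _), P.symm_apply_apply]
  exact Real.sqrt_le_sqrt
    (varn_amgm hm (Matrix.posSemidef_gram ℝ fun i : Fin m => P' (e i.succ)))

theorem varn_vol (hG : LocMetric G univ) (hK : IsCompact K) {Z : E → E} (hZ : ContDiff ℝ 2 Z)
    {C : ℝ} (hb : ∀ y, ‖Z y‖ ≤ C ∧ ‖fderiv ℝ Z y‖ ≤ C) :
    ∃ C' : ℝ, 0 ≤ C' ∧ ∀ D : NDom G K, ∀ τ ∈ Icc (0 : ℝ) 1, (Diffeo fun y => y - τ • Z y) →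
      vol G D.Ω - τ * ∫ z, G z.1 z.2 (Z z.1) ∂D.μ - C' * τ ^ 2 ≤
        vol G ((fun y => y - τ • Z y) '' D.Ω) := by
  obtain ⟨C1, hC1, h1⟩ := taylor_vol hG hK C
  refine ⟨C1 * volume.real K, by positivity, fun D τ hτ hΦ => ?_⟩
  have hw : ContDiff ℝ 1 fun y => wt (G y) := (contDiff_wt hG).of_le (by simp)
  have hZ1 : ContDiff ℝ 1 Z := hZ.of_le (by simp)
  have hW : ContDiff ℝ 1 fun y => wt (G y) • Z y := hw.smul hZ1
  have hdiv := D.div_wt hG hZ1
  simp only [← dvg_wt hG (hZ1.differentiable (by simp) _)] at hdiv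
  have hi1 := integrableOn_wt hG (hK.isBounded.subset D.sub)
  have hi2 : IntegrableOn (dvg fun y => wt (G y) • Z y) D.Ω :=
    ((continuous_dvg hW).continuousOn.integrableOn_compact hK).mono_set D.sub
  have hfin : volume D.Ω ≠ ⊤ := ((measure_mono D.sub).trans_lt hK.measure_lt_top).ne
  have hi3 : IntegrableOn (fun _ : E => C1 * τ ^ 2) D.Ω := integrableOn_const hfin
  have hb' : Bornology.IsBounded ((fun y => y - τ • Z y) '' D.Ω) :=
    (hK.image hΦ.smooth.continuous).isBounded.subset (image_mono D.sub)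
  have hi4 := (hΦ.integrableOn_image D.meas _).1 (integrableOn_wt hG hb')
  have hle : ∫ y in D.Ω, (wt (G y) - τ * dvg (fun y => wt (G y) • Z y) y - C1 * τ ^ 2) ≤
      ∫ y in D.Ω, |(fderiv ℝ (fun y => y - τ • Z y) y).det| * wt (G (y - τ • Z y)) := by
    refine setIntegral_mono_on ((hi1.sub (hi2.const_mul τ)).sub hi3) hi4 D.meas fun y hy => ?_
    rw [dvg_smul (hw.differentiable (by simp) y) (hZ1.differentiable (by simp) y),
      var_fderiv hZ]
    exact (h1 y (D.sub hy) _ _ (hb y).1 (hb y).2 τ hτ).trans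
      (mul_le_mul_of_nonneg_right (le_abs_self _) (Real.sqrt_nonneg _))
  have hi5 : IntegrableOn (fun y => wt (G y) - τ * dvg (fun y => wt (G y) • Z y) y) D.Ω :=
    hi1.sub (hi2.const_mul τ)
  rw [integral_sub hi5 hi3, integral_sub hi1 (hi2.const_mul τ),
    integral_const_mul, hdiv, setIntegral_const, smul_eq_mul] at hle
  have hv : volume.real D.Ω * (C1 * τ ^ 2) ≤ volume.real K * (C1 * τ ^ 2) :=
    mul_le_mul_of_nonneg_right (measureReal_mono D.sub hK.measure_lt_top.ne) (by positivity)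
  rw [vol, vol, hΦ.integral_image D.meas]
  linarith

theorem exists_varN (hE : Module.finrank ℝ E = m + 1) (hm : 1 ≤ m) (hG : LocMetric G univ)
    (hK : IsCompact K) {Z : E → E} (hZ : ContDiff ℝ 2 Z) (hc : HasCompactSupport Z) :
    ∃ C τ₀ : ℝ, 0 < C ∧ 0 < τ₀ ∧ ∀ τ : ℝ, 0 < τ → τ ≤ τ₀ → MapsTo (fun y => y - τ • Z y) K K →
      ∀ D : NDom G K, ∃ D' : NDom G K,
        D.V - τ * ∫ z, G z.1 z.2 (Z z.1) ∂D.μ - C * τ ^ 2 ≤ D'.V ∧
        D'.A ≤ D.A - τ * ∫ z, tdv (G z.1) (covD G Z z.1) z.2 ∂D.μ + C * τ ^ 2 * D.A := by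
  obtain ⟨B1, hB1⟩ := hc.exists_bound_of_continuous hZ.continuous
  obtain ⟨B2, hB2⟩ := (hc.fderiv ℝ).exists_bound_of_continuous (hZ.continuous_fderiv (by simp))
  have hb : ∀ y, ‖Z y‖ ≤ max B1 B2 ∧ ‖fderiv ℝ Z y‖ ≤ max B1 B2 := fun y =>
    ⟨(hB1 y).trans (le_max_left _ _), (hB2 y).trans (le_max_right _ _)⟩
  generalize max B1 B2 = C at hb
  obtain ⟨C1, hC1, h1⟩ := varn_vol hG hK hZ hb
  obtain ⟨C2, hC2, h2⟩ := taylor_metric hG hK C
  obtain ⟨C3, hC3, h3⟩ := varn_num hm hC2.le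
  have hZ1 : ContDiff ℝ 1 Z := hZ.of_le (by simp)
  refine ⟨C1 + C3 + 1, 1 / (|C| + 1), by positivity, by positivity, fun τ h0 hτ hmap D => ?_⟩
  have hτ' : τ * (|C| + 1) ≤ 1 := (le_div_iff₀ (by positivity)).1 hτ
  have hτa : 0 ≤ τ * |C| := by positivity
  have hτ1 : τ ≤ 1 := by linarith
  have hτC : τ * C < 1 := by linarith [mul_le_mul_of_nonneg_left (le_abs_self C) h0.le]
  have hΦ := diffeo_sub hZ (fun y => (hb y).2) h0.le hτC
  obtain ⟨D', hΩ, hA⟩ := D.exists_push hG hK hΦ hmap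
  refine ⟨D', ?_, ?_⟩
  · have h := h1 D τ ⟨h0.le, hτ1⟩ hΦ
    have : 0 ≤ (C3 + 1) * τ ^ 2 := by positivity
    rw [NDom.V, NDom.V, hΩ]
    linarith
  have hGc : Continuous G := (contDiffOn_univ.1 hG.smooth).continuous
  have hD := continuous_covD hG hZ1
  have hi : Integrable (fun z : E × E => tdv (G z.1) (covD G Z z.1) z.2) D.μ :=
    D.integrable hG hK ((continuous_trc.comp (hD.comp continuous_fst)).sub (by fun_prop))
  have hle : D'.A ≤ ∫ z, (1 + C3 * τ ^ 2 - τ * tdv (G z.1) (covD G Z z.1) z.2) ∂D.μ := by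
    rw [hA]
    refine integral_mono_of_nonneg (Eventually.of_forall fun z => ad_nonneg _ _)
      ((integrable_const _).sub (hi.const_mul τ)) ?_
    filter_upwards [D.supp] with z hz
    obtain ⟨e, he0, he1, -, he2⟩ := exists_onb hE (posB_of_loc hG z.1) hz.2
    have hB' := (posB_of_loc hG (z.1 - τ • Z z.1)).comp (hΦ.det_ne z.1)
    have hT := h2 _ hz.1 _ _ (hb z.1).1 (hb z.1).2
    have he3 : ∀ i, G z.1 (e i) (e i) = 1 := fun i => by simp [he1]
    have hl : ∑ i : Fin m, lie G z.1 (Z z.1) (fderiv ℝ Z z.1) (e i.succ) =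
        2 * tdv (G z.1) (covD G Z z.1) z.2 := by
      rw [tdv, he2, Fin.sum_univ_succ, he0, add_sub_cancel_left, Finset.mul_sum]
      refine Finset.sum_congr rfl fun i _ => ?_
      have := lie_covD hG Z z.1 (e i.succ) (e i.succ)
      rw [hG.symm _ (mem_univ _) (e i.succ) (fderiv ℝ Z z.1 _),
        hG.symm _ (mem_univ _) (e i.succ) (covD G Z z.1 _)] at this
      rw [lie]
      linarith
    have h4 := ad_le_frame hE hm (posB_of_loc hG z.1) hB' he1
    rw [he0] at h4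
    refine h4.trans (h3 _ _ τ (Finset.sum_nonneg fun i _ => hB'.nonneg _) ?_ ?_ h0 hτ1)
    · rw [← hl]
      refine (Finset.sum_le_sum fun i _ => ?_ : _ ≤ ∑ i : Fin m, (1 + C2 * τ ^ 2 -
        τ * lie G z.1 (Z z.1) (fderiv ℝ Z z.1) (e i.succ))).trans_eq ?_
      · have h := (hT (e i.succ)).2 τ ⟨h0.le, hτ1⟩
        simp only [he3] at h
        simp only [var_fderiv hZ, ContinuousLinearMap.bilinearComp_apply, sub_apply, smul_apply,
          ContinuousLinearMap.id_apply]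
        linarith
      · simp [Finset.mul_sum, mul_add]
    · rw [← hl]
      refine (Finset.abs_sum_le_sum_abs _ _).trans ((Finset.sum_le_sum fun i _ =>
        (hT (e i.succ)).1).trans (le_of_eq ?_))
      simp [he3]
  rw [integral_sub (integrable_const _) (hi.const_mul τ), integral_const_mul, integral_const,
    smul_eq_mul] at hle
  have h5 : 0 ≤ (C1 + 1) * τ ^ 2 * D.A := mul_nonneg (by positivity) D.A_nonneg
  simp only [NDom.A] at h5 hle ⊢
  linarith

end Vale.Agent.P219
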